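import Vale.Agent.P032X.H892.LtH
import Vale.Agent.P032X.H286.W73
import Vale.Agent.P032X.Cert.XP.B1.R0T
import Vale.Agent.P032X.Cert.XP.B1.R0Q000
import Vale.Agent.P032X.Cert.XP.B1.R0Q001
import Vale.Agent.P032X.Cert.XP.B1.R0Q002
import Vale.Agent.P032X.Cert.XP.B1.R0Q003
import Vale.Agent.P032X.Cert.XP.B1.R0Q004
import Vale.Agent.P032X.Cert.XP.B1.R0Q005
import Vale.Agent.P032X.Cert.XP.B1.R0Q006
import Vale.Agent.P032X.Cert.XP.B1.R0Q007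

set_option maxRecDepth 1000000

namespace Vale.Agent.P032X.Cert.XP.B1.R0H000

open Vale.Agent.P032.H820.K Vale.Agent.P032.H357.MK Vale.Agent.P032.H286.E Vale.Agent.P032.H61 Vale.Agent.P032X.Cert.XP.B1

noncomputable abbrev Fm : ℕ → List ℕ := Vale.Agent.P032.Fam.fam2 (Vale.Agent.P032.Fam.im0)

def CB : List ℕ := [0, 4, 8, 12, 16, 20, 24]

theorem eB : Vale.Agent.P032.Lt.eqLL (CB.map Fm) R0Q000.E = true := by decide +kernel

theorem p0 : Pat 73 73 TBm TCm (CB.map Fm) R0Q000.P0 R0Q000.I0 := Vale.Agent.P032.Lt.pat_eq (E' := R0Q000.E) eB (pat_step (by decide +kernel) (q_cons (Vale.Agent.P032.Lt.q R0Q000.q0_0) q_nil))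

theorem p1 : Pat 73 73 TBm TCm (CB.map Fm) R0Q000.P1 R0Q000.I1 := Vale.Agent.P032.Lt.pat_eq (E' := R0Q000.E) eB (pat_step (by decide +kernel) (q_cons (Vale.Agent.P032.Lt.q R0Q000.q1_0) q_nil))

theorem p2 : Pat 73 73 TBm TCm (CB.map Fm) R0Q000.P2 R0Q000.I2 := Vale.Agent.P032.Lt.pat_eq (E' := R0Q000.E) eB (pat_step (by decide +kernel) (q_cons (Vale.Agent.P032.Lt.q R0Q000.q2_0) q_nil))

theorem p3 : Pat 73 73 TBm TCm (CB.map Fm) R0Q000.P3 R0Q000.I3 := Vale.Agent.P032.Lt.pat_eq (E' := R0Q000.E) eB (pat_step (by decide +kernel) (q_cons (Vale.Agent.P032.Lt.q R0Q000.q3_0) q_nil))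

theorem p4 : Pat 73 73 TBm TCm (CB.map Fm) R0Q000.P4 R0Q000.I4 := Vale.Agent.P032.Lt.pat_eq (E' := R0Q000.E) eB (pat_step (by decide +kernel) (q_cons (Vale.Agent.P032.Lt.q R0Q000.q4_0) q_nil))

theorem p5 : Pat 73 73 TBm TCm (CB.map Fm) R0Q000.P5 R0Q000.I5 := Vale.Agent.P032.Lt.pat_eq (E' := R0Q000.E) eB (pat_step (by decide +kernel) (q_cons (Vale.Agent.P032.Lt.q R0Q000.q5_0) q_nil))

theorem p6 : Pat 73 73 TBm TCm (CB.map Fm) R0Q000.P6 R0Q000.I6 := Vale.Agent.P032.Lt.pat_eq (E' := R0Q000.E) eB (pat_step (by decide +kernel) (q_cons (Vale.Agent.P032.Lt.q R0Q000.q6_0) q_nil))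

theorem p7 : Pat 73 73 TBm TCm (CB.map Fm) R0Q000.P7 R0Q000.I7 := Vale.Agent.P032.Lt.pat_eq (E' := R0Q000.E) eB (pat_step (by decide +kernel) (q_cons (Vale.Agent.P032.Lt.q R0Q000.q7_0) q_nil))

theorem p8 : Pat 73 73 TBm TCm (CB.map Fm) R0Q000.P8 R0Q000.I8 := Vale.Agent.P032.Lt.pat_eq (E' := R0Q000.E) eB (pat_step (by decide +kernel) (q_cons (Vale.Agent.P032.Lt.q R0Q000.q8_0) (q_cons (Vale.Agent.P032.Lt.q R0Q000.q8_1) (q_cons (Vale.Agent.P032.Lt.q R0Q000.q8_2) q_nil))))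

theorem p9 : Pat 73 73 TBm TCm (CB.map Fm) R0Q000.P9 R0Q000.I9 := Vale.Agent.P032.Lt.pat_eq (E' := R0Q000.E) eB (pat_step (by decide +kernel) (q_cons (Vale.Agent.P032.Lt.q R0Q000.q9_0) q_nil))

theorem p10 : Pat 73 73 TBm TCm (CB.map Fm) R0Q000.P10 R0Q000.I10 := Vale.Agent.P032.Lt.pat_eq (E' := R0Q000.E) eB (pat_step (by decide +kernel) (q_cons (Vale.Agent.P032.Lt.q R0Q000.q10_0) (q_cons (Vale.Agent.P032.Lt.q R0Q000.q10_1) (q_cons (Vale.Agent.P032.Lt.q R0Q000.q10_2) (q_cons (Vale.Agent.P032.Lt.q R0Q000.q10_3) q_nil)))))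

theorem p11 : Pat 73 73 TBm TCm (CB.map Fm) R0Q000.P11 [] := Vale.Agent.P032.Lt.pat_eq (E' := R0Q000.E) eB (pat_end (by decide +kernel) (Vale.Agent.P032.Lt.q R0Q000.q11))

theorem p12 : Pat 73 73 TBm TCm (CB.map Fm) R0Q000.P12 R0Q000.I12 := Vale.Agent.P032.Lt.pat_eq (E' := R0Q000.E) eB (pat_step (by decide +kernel) (q_cons (Vale.Agent.P032.Lt.q R0Q000.q12_0) (q_cons (Vale.Agent.P032.Lt.q R0Q000.q12_1) q_nil)))

theorem p13 : Pat 73 73 TBm TCm (CB.map Fm) R0Q000.P13 R0Q000.I13 := Vale.Agent.P032.Lt.pat_eq (E' := R0Q000.E) eB (pat_step (by decide +kernel) (q_cons (Vale.Agent.P032.Lt.q R0Q000.q13_0) q_nil))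

theorem p14 : Pat 73 73 TBm TCm (CB.map Fm) R0Q000.P14 R0Q000.I14 := Vale.Agent.P032.Lt.pat_eq (E' := R0Q000.E) eB (pat_step (by decide +kernel) (q_cons (Vale.Agent.P032.Lt.q R0Q000.q14_0) (q_cons (Vale.Agent.P032.Lt.q R0Q000.q14_1) q_nil)))

theorem p15 : Pat 73 73 TBm TCm (CB.map Fm) R0Q000.P15 R0Q000.I15 := Vale.Agent.P032.Lt.pat_eq (E' := R0Q000.E) eB (pat_step (by decide +kernel) (q_cons (Vale.Agent.P032.Lt.q R0Q000.q15_0) (q_cons (Vale.Agent.P032.Lt.q R0Q000.q15_1) q_nil)))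

theorem p16 : Pat 73 73 TBm TCm (CB.map Fm) R0Q000.P16 R0Q000.I16 := Vale.Agent.P032.Lt.pat_eq (E' := R0Q000.E) eB (pat_step (by decide +kernel) (q_cons (Vale.Agent.P032.Lt.q R0Q000.q16_0) q_nil))

theorem p17 : Pat 73 73 TBm TCm (CB.map Fm) R0Q000.P17 R0Q000.I17 := Vale.Agent.P032.Lt.pat_eq (E' := R0Q000.E) eB (pat_step (by decide +kernel) (q_cons (Vale.Agent.P032.Lt.q R0Q000.q17_0) q_nil))

theorem p18 : Pat 73 73 TBm TCm (CB.map Fm) R0Q000.P18 R0Q000.I18 := Vale.Agent.P032.Lt.pat_eq (E' := R0Q000.E) eB (pat_step (by decide +kernel) (q_cons (Vale.Agent.P032.Lt.q R0Q000.q18_0) q_nil))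

theorem p19 : Pat 73 73 TBm TCm (CB.map Fm) R0Q000.P19 R0Q000.I19 := Vale.Agent.P032.Lt.pat_eq (E' := R0Q000.E) eB (pat_step (by decide +kernel) (q_cons (Vale.Agent.P032.Lt.q R0Q000.q19_0) q_nil))

theorem p20 : Pat 73 73 TBm TCm (CB.map Fm) R0Q000.P20 R0Q000.I20 := Vale.Agent.P032.Lt.pat_eq (E' := R0Q000.E) eB (pat_step (by decide +kernel) (q_cons (Vale.Agent.P032.Lt.q R0Q000.q20_0) q_nil))

theorem p21 : Pat 73 73 TBm TCm (CB.map Fm) R0Q000.P21 [] := Vale.Agent.P032.Lt.pat_eq (E' := R0Q000.E) eB (pat_end (by decide +kernel) (Vale.Agent.P032.Lt.q R0Q000.q21))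

theorem p22 : Pat 73 73 TBm TCm (CB.map Fm) R0Q001.P22 R0Q001.I22 := Vale.Agent.P032.Lt.pat_eq (E' := R0Q001.E) eB (pat_step (by decide +kernel) (q_cons (Vale.Agent.P032.Lt.q R0Q001.q22_0) q_nil))

theorem p23 : Pat 73 73 TBm TCm (CB.map Fm) R0Q001.P23 R0Q001.I23 := Vale.Agent.P032.Lt.pat_eq (E' := R0Q001.E) eB (pat_step (by decide +kernel) (q_cons (Vale.Agent.P032.Lt.q R0Q001.q23_0) q_nil))

theorem p24 : Pat 73 73 TBm TCm (CB.map Fm) R0Q001.P24 R0Q001.I24 := Vale.Agent.P032.Lt.pat_eq (E' := R0Q001.E) eB (pat_step (by decide +kernel) (q_cons (Vale.Agent.P032.Lt.q R0Q001.q24_0) q_nil))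

theorem p25 : Pat 73 73 TBm TCm (CB.map Fm) R0Q001.P25 R0Q001.I25 := Vale.Agent.P032.Lt.pat_eq (E' := R0Q001.E) eB (pat_step (by decide +kernel) (q_cons (Vale.Agent.P032.Lt.q R0Q001.q25_0) q_nil))

theorem p26 : Pat 73 73 TBm TCm (CB.map Fm) R0Q001.P26 R0Q001.I26 := Vale.Agent.P032.Lt.pat_eq (E' := R0Q001.E) eB (pat_step (by decide +kernel) (q_cons (Vale.Agent.P032.Lt.q R0Q001.q26_0) (q_cons (Vale.Agent.P032.Lt.q R0Q001.q26_1) (q_cons (Vale.Agent.P032.Lt.q R0Q001.q26_2) (q_cons (Vale.Agent.P032.Lt.q R0Q001.q26_3) (q_cons (Vale.Agent.P032.Lt.q R0Q001.q26_4) (q_cons (Vale.Agent.P032.Lt.q R0Q001.q26_5) (q_cons (Vale.Agent.P032.Lt.q R0Q001.q26_6) q_nil))))))))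

theorem p27 : Pat 73 73 TBm TCm (CB.map Fm) R0Q002.P27 R0Q002.I27 := Vale.Agent.P032.Lt.pat_eq (E' := R0Q002.E) eB (pat_step (by decide +kernel) (q_cons (Vale.Agent.P032.Lt.q R0Q002.q27_0) q_nil))

def C28 : List ℕ := [0, 4, 8, 12, 16, 20, 24, 81921, 214017, 220161, 344065, 355329, 606209, 737281]
theorem p28 : Pat 73 73 TBm TCm (C28.map Fm) R0Q002.P28 R0Q002.I28 := Vale.Agent.P032.Lt.pat_eq (E' := R0Q002.E28) (by decide +kernel) (pat_step (by decide +kernel) (q_cons (Vale.Agent.P032.Lt.q R0Q002.q28_0) (q_cons (Vale.Agent.P032.Lt.q R0Q002.q28_1) (q_cons (Vale.Agent.P032.Lt.q R0Q002.q28_2) (q_cons (Vale.Agent.P032.Lt.q R0Q002.q28_3) (q_cons (Vale.Agent.P032.Lt.q R0Q002.q28_4) (q_cons (Vale.Agent.P032.Lt.q R0Q002.q28_5) (q_cons (Vale.Agent.P032.Lt.q R0Q002.q28_6) (q_cons (Vale.Agent.P032.Lt.q R0Q002.q28_7) q_nil)))))))))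

theorem p29 : Pat 73 73 TBm TCm (CB.map Fm) R0Q002.P29 R0Q002.I29 := Vale.Agent.P032.Lt.pat_eq (E' := R0Q002.E) eB (pat_step (by decide +kernel) (q_cons (Vale.Agent.P032.Lt.q R0Q002.q29_0) q_nil))

theorem p30 : Pat 73 73 TBm TCm (CB.map Fm) R0Q002.P30 R0Q002.I30 := Vale.Agent.P032.Lt.pat_eq (E' := R0Q002.E) eB (pat_step (by decide +kernel) (q_cons (Vale.Agent.P032.Lt.q R0Q002.q30_0) (q_cons (Vale.Agent.P032.Lt.q R0Q002.q30_1) (q_cons (Vale.Agent.P032.Lt.q R0Q002.q30_2) (q_cons (Vale.Agent.P032.Lt.q R0Q002.q30_3) (q_cons (Vale.Agent.P032.Lt.q R0Q002.q30_4) (q_cons (Vale.Agent.P032.Lt.q R0Q002.q30_5) (q_cons (Vale.Agent.P032.Lt.q R0Q002.q30_6) q_nil))))))))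

theorem p31 : Pat 73 73 TBm TCm (CB.map Fm) R0Q002.P31 R0Q002.I31 := Vale.Agent.P032.Lt.pat_eq (E' := R0Q002.E) eB (pat_step (by decide +kernel) (q_cons (Vale.Agent.P032.Lt.q R0Q002.q31_0) q_nil))

theorem p32 : Pat 73 73 TBm TCm (CB.map Fm) R0Q002.P32 R0Q002.I32 := Vale.Agent.P032.Lt.pat_eq (E' := R0Q002.E) eB (pat_step (by decide +kernel) (q_cons (Vale.Agent.P032.Lt.q R0Q002.q32_0) q_nil))

theorem p33 : Pat 73 73 TBm TCm (CB.map Fm) R0Q002.P33 R0Q002.I33 := Vale.Agent.P032.Lt.pat_eq (E' := R0Q002.E) eB (pat_step (by decide +kernel) (q_cons (Vale.Agent.P032.Lt.q R0Q002.q33_0) q_nil))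

theorem p34 : Pat 73 73 TBm TCm (CB.map Fm) R0Q003.P34 R0Q003.I34 := Vale.Agent.P032.Lt.pat_eq (E' := R0Q003.E) eB (pat_step (by decide +kernel) (q_cons (Vale.Agent.P032.Lt.q R0Q003.q34_0) q_nil))

theorem p35 : Pat 73 73 TBm TCm (CB.map Fm) R0Q003.P35 R0Q003.I35 := Vale.Agent.P032.Lt.pat_eq (E' := R0Q003.E) eB (pat_step (by decide +kernel) (q_cons (Vale.Agent.P032.Lt.q R0Q003.q35_0) q_nil))

theorem p36 : Pat 73 73 TBm TCm (CB.map Fm) R0Q003.P36 R0Q003.I36 := Vale.Agent.P032.Lt.pat_eq (E' := R0Q003.E) eB (pat_step (by decide +kernel) (q_cons (Vale.Agent.P032.Lt.q R0Q003.q36_0) (q_cons (Vale.Agent.P032.Lt.q R0Q003.q36_1) q_nil)))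

theorem p37 : Pat 73 73 TBm TCm (CB.map Fm) R0Q003.P37 R0Q003.I37 := Vale.Agent.P032.Lt.pat_eq (E' := R0Q003.E) eB (pat_step (by decide +kernel) (q_cons (Vale.Agent.P032.Lt.q R0Q003.q37_0) (q_cons (Vale.Agent.P032.Lt.q R0Q003.q37_1) q_nil)))

theorem p38 : Pat 73 73 TBm TCm (CB.map Fm) R0Q003.P38 R0Q003.I38 := Vale.Agent.P032.Lt.pat_eq (E' := R0Q003.E) eB (pat_step (by decide +kernel) (q_cons (Vale.Agent.P032.Lt.q R0Q003.q38_0) (q_cons (Vale.Agent.P032.Lt.q R0Q003.q38_1) q_nil)))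

theorem p39 : Pat 73 73 TBm TCm (CB.map Fm) R0Q003.P39 R0Q003.I39 := Vale.Agent.P032.Lt.pat_eq (E' := R0Q003.E) eB (pat_step (by decide +kernel) (q_cons (Vale.Agent.P032.Lt.q R0Q003.q39_0) (q_cons (Vale.Agent.P032.Lt.q R0Q003.q39_1) (q_cons (Vale.Agent.P032.Lt.q R0Q003.q39_2) q_nil))))

theorem p40 : Pat 73 73 TBm TCm (CB.map Fm) R0Q003.P40 R0Q003.I40 := Vale.Agent.P032.Lt.pat_eq (E' := R0Q003.E) eB (pat_step (by decide +kernel) (q_cons (Vale.Agent.P032.Lt.q R0Q003.q40_0) q_nil))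

theorem p41 : Pat 73 73 TBm TCm (CB.map Fm) R0Q003.P41 R0Q003.I41 := Vale.Agent.P032.Lt.pat_eq (E' := R0Q003.E) eB (pat_step (by decide +kernel) (q_cons (Vale.Agent.P032.Lt.q R0Q003.q41_0) q_nil))

theorem p42 : Pat 73 73 TBm TCm (CB.map Fm) R0Q003.P42 R0Q003.I42 := Vale.Agent.P032.Lt.pat_eq (E' := R0Q003.E) eB (pat_step (by decide +kernel) (q_cons (Vale.Agent.P032.Lt.q R0Q003.q42_0) (q_cons (Vale.Agent.P032.Lt.q R0Q003.q42_1) (q_cons (Vale.Agent.P032.Lt.q R0Q003.q42_2) q_nil))))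

theorem p43 : Pat 73 73 TBm TCm (CB.map Fm) R0Q003.P43 R0Q003.I43 := Vale.Agent.P032.Lt.pat_eq (E' := R0Q003.E) eB (pat_step (by decide +kernel) (q_cons (Vale.Agent.P032.Lt.q R0Q003.q43_0) q_nil))

theorem p44 : Pat 73 73 TBm TCm (CB.map Fm) R0Q003.P44 R0Q003.I44 := Vale.Agent.P032.Lt.pat_eq (E' := R0Q003.E) eB (pat_step (by decide +kernel) (q_cons (Vale.Agent.P032.Lt.q R0Q003.q44_0) (q_cons (Vale.Agent.P032.Lt.q R0Q003.q44_1) (q_cons (Vale.Agent.P032.Lt.q R0Q003.q44_2) (q_cons (Vale.Agent.P032.Lt.q R0Q003.q44_3) (q_cons (Vale.Agent.P032.Lt.q R0Q003.q44_4) (q_cons (Vale.Agent.P032.Lt.q R0Q003.q44_5) (q_cons (Vale.Agent.P032.Lt.q R0Q003.q44_6) (q_cons (Vale.Agent.P032.Lt.q R0Q003.q44_7) (q_cons (Vale.Agent.P032.Lt.q R0Q003.q44_8) (q_cons (Vale.Agent.P032.Lt.q R0Q003.q44_9) (q_cons (Vale.Agent.P032.Lt.q R0Q003.q44_10) q_nil))))))))))))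

theorem p45 : Pat 73 73 TBm TCm (CB.map Fm) R0Q003.P45 R0Q003.I45 := Vale.Agent.P032.Lt.pat_eq (E' := R0Q003.E) eB (pat_step (by decide +kernel) (q_cons (Vale.Agent.P032.Lt.q R0Q003.q45_0) (q_cons (Vale.Agent.P032.Lt.q R0Q003.q45_1) (q_cons (Vale.Agent.P032.Lt.q R0Q003.q45_2) q_nil))))

theorem p46 : Pat 73 73 TBm TCm (CB.map Fm) R0Q003.P46 R0Q003.I46 := Vale.Agent.P032.Lt.pat_eq (E' := R0Q003.E) eB (pat_step (by decide +kernel) (q_cons (Vale.Agent.P032.Lt.q R0Q003.q46_0) q_nil))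

theorem p47 : Pat 73 73 TBm TCm (CB.map Fm) R0Q003.P47 R0Q003.I47 := Vale.Agent.P032.Lt.pat_eq (E' := R0Q003.E) eB (pat_step (by decide +kernel) (q_cons (Vale.Agent.P032.Lt.q R0Q003.q47_0) q_nil))

theorem p48 : Pat 73 73 TBm TCm (CB.map Fm) R0Q003.P48 R0Q003.I48 := Vale.Agent.P032.Lt.pat_eq (E' := R0Q003.E) eB (pat_step (by decide +kernel) (q_cons (Vale.Agent.P032.Lt.q R0Q003.q48_0) q_nil))

theorem p49 : Pat 73 73 TBm TCm (CB.map Fm) R0Q003.P49 R0Q003.I49 := Vale.Agent.P032.Lt.pat_eq (E' := R0Q003.E) eB (pat_step (by decide +kernel) (q_cons (Vale.Agent.P032.Lt.q R0Q003.q49_0) q_nil))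

def C50 : List ℕ := [0, 4, 8, 12, 16, 20, 24, 347137, 606209, 737281]
theorem p50 : Pat 73 73 TBm TCm (C50.map Fm) R0Q003.P50 R0Q003.I50 := Vale.Agent.P032.Lt.pat_eq (E' := R0Q003.E50) (by decide +kernel) (pat_step (by decide +kernel) (q_cons (Vale.Agent.P032.Lt.q R0Q003.q50_0) (q_cons (Vale.Agent.P032.Lt.q R0Q003.q50_1) (q_cons (Vale.Agent.P032.Lt.q R0Q003.q50_2) (q_cons (Vale.Agent.P032.Lt.q R0Q003.q50_3) q_nil)))))

theorem p51 : Pat 73 73 TBm TCm (CB.map Fm) R0Q003.P51 R0Q003.I51 := Vale.Agent.P032.Lt.pat_eq (E' := R0Q003.E) eB (pat_step (by decide +kernel) (q_cons (Vale.Agent.P032.Lt.q R0Q003.q51_0) (q_cons (Vale.Agent.P032.Lt.q R0Q003.q51_1) (q_cons (Vale.Agent.P032.Lt.q R0Q003.q51_2) (q_cons (Vale.Agent.P032.Lt.q R0Q003.q51_3) (q_cons (Vale.Agent.P032.Lt.q R0Q003.q51_4) (q_cons (Vale.Agent.P032.Lt.q R0Q003.q51_5) (q_cons (Vale.Agent.P032.Lt.q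 R0Q003.q51_6) (q_cons (Vale.Agent.P032.Lt.q R0Q003.q51_7) (q_cons (Vale.Agent.P032.Lt.q R0Q003.q51_8) (q_cons (Vale.Agent.P032.Lt.q R0Q003.q51_9) (q_cons (Vale.Agent.P032.Lt.q R0Q003.q51_10) (q_cons (Vale.Agent.P032.Lt.q R0Q003.q51_11) q_nil)))))))))))))

theorem p52 : Pat 73 73 TBm TCm (CB.map Fm) R0Q003.P52 R0Q003.I52 := Vale.Agent.P032.Lt.pat_eq (E' := R0Q003.E) eB (pat_step (by decide +kernel) (q_cons (Vale.Agent.P032.Lt.q R0Q003.q52_0) q_nil))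

theorem p53 : Pat 73 73 TBm TCm (CB.map Fm) R0Q003.P53 R0Q003.I53 := Vale.Agent.P032.Lt.pat_eq (E' := R0Q003.E) eB (pat_step (by decide +kernel) (q_cons (Vale.Agent.P032.Lt.q R0Q003.q53_0) (q_cons (Vale.Agent.P032.Lt.q R0Q003.q53_1) (q_cons (Vale.Agent.P032.Lt.q R0Q003.q53_2) (q_cons (Vale.Agent.P032.Lt.q R0Q003.q53_3) q_nil)))))

theorem p54 : Pat 73 73 TBm TCm (CB.map Fm) R0Q003.P54 R0Q003.I54 := Vale.Agent.P032.Lt.pat_eq (E' := R0Q003.E) eB (pat_step (by decide +kernel) (q_cons (Vale.Agent.P032.Lt.q R0Q003.q54_0) (q_cons (Vale.Agent.P032.Lt.q R0Q003.q54_1) q_nil)))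

theorem p55 : Pat 73 73 TBm TCm (CB.map Fm) R0Q003.P55 R0Q003.I55 := Vale.Agent.P032.Lt.pat_eq (E' := R0Q003.E) eB (pat_step (by decide +kernel) (q_cons (Vale.Agent.P032.Lt.q R0Q003.q55_0) q_nil))

theorem p56 : Pat 73 73 TBm TCm (CB.map Fm) R0Q003.P56 R0Q003.I56 := Vale.Agent.P032.Lt.pat_eq (E' := R0Q003.E) eB (pat_step (by decide +kernel) (q_cons (Vale.Agent.P032.Lt.q R0Q003.q56_0) (q_cons (Vale.Agent.P032.Lt.q R0Q003.q56_1) q_nil)))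

theorem p57 : Pat 73 73 TBm TCm (CB.map Fm) R0Q003.P57 R0Q003.I57 := Vale.Agent.P032.Lt.pat_eq (E' := R0Q003.E) eB (pat_step (by decide +kernel) (q_cons (Vale.Agent.P032.Lt.q R0Q003.q57_0) q_nil))

theorem p58 : Pat 73 73 TBm TCm (CB.map Fm) R0Q003.P58 R0Q003.I58 := Vale.Agent.P032.Lt.pat_eq (E' := R0Q003.E) eB (pat_step (by decide +kernel) (q_cons (Vale.Agent.P032.Lt.q R0Q003.q58_0) (q_cons (Vale.Agent.P032.Lt.q R0Q003.q58_1) (q_cons (Vale.Agent.P032.Lt.q R0Q003.q58_2) (q_cons (Vale.Agent.P032.Lt.q R0Q003.q58_3) (q_cons (Vale.Agent.P032.Lt.q R0Q003.q58_4) (q_cons (Vale.Agent.P032.Lt.q R0Q003.q58_5) (q_cons (Vale.Agent.P032.Lt.q R0Q003.q58_6) q_nil))))))))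

theorem p59 : Pat 73 73 TBm TCm (CB.map Fm) R0Q003.P59 R0Q003.I59 := Vale.Agent.P032.Lt.pat_eq (E' := R0Q003.E) eB (pat_step (by decide +kernel) (q_cons (Vale.Agent.P032.Lt.q R0Q003.q59_0) (q_cons (Vale.Agent.P032.Lt.q R0Q003.q59_1) (q_cons (Vale.Agent.P032.Lt.q R0Q003.q59_2) q_nil))))

theorem p60 : Pat 73 73 TBm TCm (CB.map Fm) R0Q003.P60 R0Q003.I60 := Vale.Agent.P032.Lt.pat_eq (E' := R0Q003.E) eB (pat_step (by decide +kernel) (q_cons (Vale.Agent.P032.Lt.q R0Q003.q60_0) q_nil))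

theorem p61 : Pat 73 73 TBm TCm (CB.map Fm) R0Q003.P61 R0Q003.I61 := Vale.Agent.P032.Lt.pat_eq (E' := R0Q003.E) eB (pat_step (by decide +kernel) (q_cons (Vale.Agent.P032.Lt.q R0Q003.q61_0) q_nil))

theorem p62 : Pat 73 73 TBm TCm (CB.map Fm) R0Q003.P62 R0Q003.I62 := Vale.Agent.P032.Lt.pat_eq (E' := R0Q003.E) eB (pat_step (by decide +kernel) (q_cons (Vale.Agent.P032.Lt.q R0Q003.q62_0) (q_cons (Vale.Agent.P032.Lt.q R0Q003.q62_1) (q_cons (Vale.Agent.P032.Lt.q R0Q003.q62_2) (q_cons (Vale.Agent.P032.Lt.q R0Q003.q62_3) (q_cons (Vale.Agent.P032.Lt.q R0Q003.q62_4) (q_cons (Vale.Agent.P032.Lt.q R0Q003.q62_5) (q_cons (Vale.Agent.P032.Lt.q R0Q003.q62_6) (q_cons (Vale.Agent.P032.Lt.q R0Q003.q62_7) (q_cons (Vale.Agent.P032.Lt.q R0Q003.q62_8) q_nil))))))))))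

def C63 : List ℕ := [0, 4, 8, 12, 16, 20, 24, 215041, 216065, 609281]
theorem p63 : Pat 73 73 TBm TCm (C63.map Fm) R0Q004.P63 R0Q004.I63 := Vale.Agent.P032.Lt.pat_eq (E' := R0Q004.E63) (by decide +kernel) (pat_step (by decide +kernel) (q_cons (Vale.Agent.P032.Lt.q R0Q004.q63_0) (q_cons (Vale.Agent.P032.Lt.q R0Q004.q63_1) (q_cons (Vale.Agent.P032.Lt.q R0Q004.q63_2) (q_cons (Vale.Agent.P032.Lt.q R0Q004.q63_3) (q_cons (Vale.Agent.P032.Lt.q R0Q004.q63_4) (q_cons (Vale.Agent.P032.Lt.q R0Q004.q63_5) (q_cons (Vale.Agent.P032.Lt.q R0Q004.q63_6) (q_cons (Vale.Agent.P032.Lt.q R0Q004.q63_7) (q_cons (Vale.Agent.P032.Lt.q R0Q004.q63_8) (q_cons (Vale.Agent.P032.Lt.q R0Q004.q63_9) (q_cons (Vale.Agent.P032.Lt.q R0Q004.q63_10) (q_cons (Vale.Agent.P032.Lt.q R0Q004.q63_11) (q_cons (Vale.Agent.P032.Lt.q R0Q004.q63_12) (q_cons (Vale.Agent.P032.Lt.q R0Q004.q63_13) (q_cons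 (Vale.Agent.P032.Lt.q R0Q004.q63_14) (q_cons (Vale.Agent.P032.Lt.q R0Q004.q63_15) (q_cons (Vale.Agent.P032.Lt.q R0Q004.q63_16) q_nil))))))))))))))))))

def C64 : List ℕ := [0, 4, 8, 12, 16, 20, 24, 606209, 737281]
theorem p64 : Pat 73 73 TBm TCm (C64.map Fm) R0Q004.P64 R0Q004.I64 := Vale.Agent.P032.Lt.pat_eq (E' := R0Q004.E64) (by decide +kernel) (pat_step (by decide +kernel) (q_cons (Vale.Agent.P032.Lt.q R0Q004.q64_0) (q_cons (Vale.Agent.P032.Lt.q R0Q004.q64_1) (q_cons (Vale.Agent.P032.Lt.q R0Q004.q64_2) (q_cons (Vale.Agent.P032.Lt.q R0Q004.q64_3) (q_cons (Vale.Agent.P032.Lt.q R0Q004.q64_4) (q_cons (Vale.Agent.P032.Lt.q R0Q004.q64_5) (q_cons (Vale.Agent.P032.Lt.q R0Q004.q64_6) (q_cons (Vale.Agent.P032.Lt.q R0Q004.q64_7) (q_cons (Vale.Agent.P032.Lt.q R0Q004.q64_8) (q_cons (Vale.Agent.P032.Lt.q R0Q004.q64_9) (q_cons (Vale.Agent.P032.Lt.q R0Q004.q64_10)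 (q_cons (Vale.Agent.P032.Lt.q R0Q004.q64_11) (q_cons (Vale.Agent.P032.Lt.q R0Q004.q64_12) (q_cons (Vale.Agent.P032.Lt.q R0Q004.q64_13) (q_cons (Vale.Agent.P032.Lt.q R0Q004.q64_14) (q_cons (Vale.Agent.P032.Lt.q R0Q004.q64_15) (q_cons (Vale.Agent.P032.Lt.q R0Q004.q64_16) (q_cons (Vale.Agent.P032.Lt.q R0Q004.q64_17) (q_cons (Vale.Agent.P032.Lt.q R0Q004.q64_18) (q_cons (Vale.Agent.P032.Lt.q R0Q004.q64_19) q_nil)))))))))))))))))))))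

theorem p65 : Pat 73 73 TBm TCm (CB.map Fm) R0Q004.P65 R0Q004.I65 := Vale.Agent.P032.Lt.pat_eq (E' := R0Q004.E) eB (pat_step (by decide +kernel) (q_cons (Vale.Agent.P032.Lt.q R0Q004.q65_0) (q_cons (Vale.Agent.P032.Lt.q R0Q004.q65_1) (q_cons (Vale.Agent.P032.Lt.q R0Q004.q65_2) (q_cons (Vale.Agent.P032.Lt.q R0Q004.q65_3) (q_cons (Vale.Agent.P032.Lt.q R0Q004.q65_4) (q_cons (Vale.Agent.P032.Lt.q R0Q004.q65_5) (q_cons (Vale.Agent.P032.Lt.q R0Q004.q65_6) (q_cons (Vale.Agent.P032.Lt.q R0Q004.q65_7) (q_cons (Vale.Agent.P032.Lt.q R0Q004.q65_8) (q_cons (Vale.Agent.P032.Lt.q R0Q004.q65_9) (q_cons (Vale.Agent.P032.Lt.q R0Q004.q65_10) (q_cons (Vale.Agent.P032.Lt.q R0Q004.q65_11) q_nil)))))))))))))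

theorem p66 : Pat 73 73 TBm TCm (CB.map Fm) R0Q004.P66 R0Q004.I66 := Vale.Agent.P032.Lt.pat_eq (E' := R0Q004.E) eB (pat_step (by decide +kernel) (q_cons (Vale.Agent.P032.Lt.q R0Q004.q66_0) q_nil))

theorem p67 : Pat 73 73 TBm TCm (CB.map Fm) R0Q004.P67 R0Q004.I67 := Vale.Agent.P032.Lt.pat_eq (E' := R0Q004.E) eB (pat_step (by decide +kernel) (q_cons (Vale.Agent.P032.Lt.q R0Q004.q67_0) (q_cons (Vale.Agent.P032.Lt.q R0Q004.q67_1) q_nil)))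

theorem p68 : Pat 73 73 TBm TCm (CB.map Fm) R0Q004.P68 R0Q004.I68 := Vale.Agent.P032.Lt.pat_eq (E' := R0Q004.E) eB (pat_step (by decide +kernel) (q_cons (Vale.Agent.P032.Lt.q R0Q004.q68_0) (q_cons (Vale.Agent.P032.Lt.q R0Q004.q68_1) (q_cons (Vale.Agent.P032.Lt.q R0Q004.q68_2) (q_cons (Vale.Agent.P032.Lt.q R0Q004.q68_3) (q_cons (Vale.Agent.P032.Lt.q R0Q004.q68_4) (q_cons (Vale.Agent.P032.Lt.q R0Q004.q68_5) (q_cons (Vale.Agent.P032.Lt.q R0Q004.q68_6) q_nil))))))))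

theorem p69 : Pat 73 73 TBm TCm (CB.map Fm) R0Q004.P69 R0Q004.I69 := Vale.Agent.P032.Lt.pat_eq (E' := R0Q004.E) eB (pat_step (by decide +kernel) (q_cons (Vale.Agent.P032.Lt.q R0Q004.q69_0) (q_cons (Vale.Agent.P032.Lt.q R0Q004.q69_1) (q_cons (Vale.Agent.P032.Lt.q R0Q004.q69_2) (q_cons (Vale.Agent.P032.Lt.q R0Q004.q69_3) (q_cons (Vale.Agent.P032.Lt.q R0Q004.q69_4) (q_cons (Vale.Agent.P032.Lt.q R0Q004.q69_5) (q_cons (Vale.Agent.P032.Lt.q R0Q004.q69_6) (q_cons (Vale.Agent.P032.Lt.q R0Q004.q69_7) (q_cons (Vale.Agent.P032.Lt.q R0Q004.q69_8) (q_cons (Vale.Agent.P032.Lt.q R0Q004.q69_9) q_nil)))))))))))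

theorem p70 : Pat 73 73 TBm TCm (CB.map Fm) R0Q004.P70 R0Q004.I70 := Vale.Agent.P032.Lt.pat_eq (E' := R0Q004.E) eB (pat_step (by decide +kernel) (q_cons (Vale.Agent.P032.Lt.q R0Q004.q70_0) (q_cons (Vale.Agent.P032.Lt.q R0Q004.q70_1) (q_cons (Vale.Agent.P032.Lt.q R0Q004.q70_2) (q_cons (Vale.Agent.P032.Lt.q R0Q004.q70_3) (q_cons (Vale.Agent.P032.Lt.q R0Q004.q70_4) (q_cons (Vale.Agent.P032.Lt.q R0Q004.q70_5) q_nil)))))))

theorem p71 : Pat 73 73 TBm TCm (CB.map Fm) R0Q004.P71 R0Q004.I71 := Vale.Agent.P032.Lt.pat_eq (E' := R0Q004.E) eB (pat_step (by decide +kernel) (q_cons (Vale.Agent.P032.Lt.q R0Q004.q71_0) q_nil))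

theorem p72 : Pat 73 73 TBm TCm (CB.map Fm) R0Q004.P72 R0Q004.I72 := Vale.Agent.P032.Lt.pat_eq (E' := R0Q004.E) eB (pat_step (by decide +kernel) (q_cons (Vale.Agent.P032.Lt.q R0Q004.q72_0) (q_cons (Vale.Agent.P032.Lt.q R0Q004.q72_1) (q_cons (Vale.Agent.P032.Lt.q R0Q004.q72_2) (q_cons (Vale.Agent.P032.Lt.q R0Q004.q72_3) (q_cons (Vale.Agent.P032.Lt.q R0Q004.q72_4) (q_cons (Vale.Agent.P032.Lt.q R0Q004.q72_5) (q_cons (Vale.Agent.P032.Lt.q R0Q004.q72_6) (q_cons (Vale.Agent.P032.Lt.q R0Q004.q72_7) q_nil)))))))))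

theorem p73 : Pat 73 73 TBm TCm (CB.map Fm) R0Q004.P73 R0Q004.I73 := Vale.Agent.P032.Lt.pat_eq (E' := R0Q004.E) eB (pat_step (by decide +kernel) (q_cons (Vale.Agent.P032.Lt.q R0Q004.q73_0) (q_cons (Vale.Agent.P032.Lt.q R0Q004.q73_1) (q_cons (Vale.Agent.P032.Lt.q R0Q004.q73_2) (q_cons (Vale.Agent.P032.Lt.q R0Q004.q73_3) (q_cons (Vale.Agent.P032.Lt.q R0Q004.q73_4) (q_cons (Vale.Agent.P032.Lt.q R0Q004.q73_5) (q_cons (Vale.Agent.P032.Lt.q R0Q004.q73_6) (q_cons (Vale.Agent.P032.Lt.q R0Q004.q73_7) (q_cons (Vale.Agent.P032.Lt.q R0Q004.q73_8) (q_cons (Vale.Agent.P032.Lt.q R0Q004.q73_9) (q_cons (Vale.Agent.P032.Lt.q R0Q004.q73_10) q_nil))))))))))))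

theorem p74 : Pat 73 73 TBm TCm (CB.map Fm) R0Q005.P74 R0Q005.I74 := Vale.Agent.P032.Lt.pat_eq (E' := R0Q005.E) eB (pat_step (by decide +kernel) (q_cons (Vale.Agent.P032.Lt.q R0Q005.q74_0) q_nil))

theorem p75 : Pat 73 73 TBm TCm (CB.map Fm) R0Q005.P75 R0Q005.I75 := Vale.Agent.P032.Lt.pat_eq (E' := R0Q005.E) eB (pat_step (by decide +kernel) (q_cons (Vale.Agent.P032.Lt.q R0Q005.q75_0) q_nil))

def C76 : List ℕ := [0, 4, 8, 12, 16, 20, 24, 475137, 737281]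
theorem p76 : Pat 73 73 TBm TCm (C76.map Fm) R0Q005.P76 R0Q005.I76 := Vale.Agent.P032.Lt.pat_eq (E' := R0Q005.E76) (by decide +kernel) (pat_step (by decide +kernel) (q_cons (Vale.Agent.P032.Lt.q R0Q005.q76_0) (q_cons (Vale.Agent.P032.Lt.q R0Q005.q76_1) (q_cons (Vale.Agent.P032.Lt.q R0Q005.q76_2) (q_cons (Vale.Agent.P032.Lt.q R0Q005.q76_3) (q_cons (Vale.Agent.P032.Lt.q R0Q005.q76_4) (q_cons (Vale.Agent.P032.Lt.q R0Q005.q76_5) (q_cons (Vale.Agent.P032.Lt.q R0Q005.q76_6) q_nil))))))))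

theorem p77 : Pat 73 73 TBm TCm (CB.map Fm) R0Q005.P77 R0Q005.I77 := Vale.Agent.P032.Lt.pat_eq (E' := R0Q005.E) eB (pat_step (by decide +kernel) (q_cons (Vale.Agent.P032.Lt.q R0Q005.q77_0) (q_cons (Vale.Agent.P032.Lt.q R0Q005.q77_1) q_nil)))

theorem p78 : Pat 73 73 TBm TCm (CB.map Fm) R0Q005.P78 R0Q005.I78 := Vale.Agent.P032.Lt.pat_eq (E' := R0Q005.E) eB (pat_step (by decide +kernel) (q_cons (Vale.Agent.P032.Lt.q R0Q005.q78_0) q_nil))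

theorem p79 : Pat 73 73 TBm TCm (CB.map Fm) R0Q005.P79 R0Q005.I79 := Vale.Agent.P032.Lt.pat_eq (E' := R0Q005.E) eB (pat_step (by decide +kernel) (q_cons (Vale.Agent.P032.Lt.q R0Q005.q79_0) q_nil))

theorem p80 : Pat 73 73 TBm TCm (CB.map Fm) R0Q005.P80 R0Q005.I80 := Vale.Agent.P032.Lt.pat_eq (E' := R0Q005.E) eB (pat_step (by decide +kernel) (q_cons (Vale.Agent.P032.Lt.q R0Q005.q80_0) q_nil))

theorem p81 : Pat 73 73 TBm TCm (CB.map Fm) R0Q005.P81 R0Q005.I81 := Vale.Agent.P032.Lt.pat_eq (E' := R0Q005.E) eB (pat_step (by decide +kernel) (q_cons (Vale.Agent.P032.Lt.q R0Q005.q81_0) q_nil))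

theorem p82 : Pat 73 73 TBm TCm (CB.map Fm) R0Q005.P82 R0Q005.I82 := Vale.Agent.P032.Lt.pat_eq (E' := R0Q005.E) eB (pat_step (by decide +kernel) (q_cons (Vale.Agent.P032.Lt.q R0Q005.q82_0) q_nil))

theorem p83 : Pat 73 73 TBm TCm (CB.map Fm) R0Q005.P83 R0Q005.I83 := Vale.Agent.P032.Lt.pat_eq (E' := R0Q005.E) eB (pat_step (by decide +kernel) (q_cons (Vale.Agent.P032.Lt.q R0Q005.q83_0) q_nil))

theorem p84 : Pat 73 73 TBm TCm (CB.map Fm) R0Q005.P84 R0Q005.I84 := Vale.Agent.P032.Lt.pat_eq (E' := R0Q005.E) eB (pat_step (by decide +kernel) (q_cons (Vale.Agent.P032.Lt.q R0Q005.q84_0) (q_cons (Vale.Agent.P032.Lt.q R0Q005.q84_1) q_nil)))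

theorem p85 : Pat 73 73 TBm TCm (CB.map Fm) R0Q005.P85 R0Q005.I85 := Vale.Agent.P032.Lt.pat_eq (E' := R0Q005.E) eB (pat_step (by decide +kernel) (q_cons (Vale.Agent.P032.Lt.q R0Q005.q85_0) q_nil))

theorem p86 : Pat 73 73 TBm TCm (CB.map Fm) R0Q005.P86 R0Q005.I86 := Vale.Agent.P032.Lt.pat_eq (E' := R0Q005.E) eB (pat_step (by decide +kernel) (q_cons (Vale.Agent.P032.Lt.q R0Q005.q86_0) (q_cons (Vale.Agent.P032.Lt.q R0Q005.q86_1) (q_cons (Vale.Agent.P032.Lt.q R0Q005.q86_2) (q_cons (Vale.Agent.P032.Lt.q R0Q005.q86_3) q_nil)))))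

def C87 : List ℕ := [0, 4, 8, 12, 16, 20, 24, 84993, 87041, 216065, 344065, 347137, 476161, 478209, 607233, 609281]
theorem p87 : Pat 73 73 TBm TCm (C87.map Fm) R0Q005.P87 R0Q005.I87 := Vale.Agent.P032.Lt.pat_eq (E' := R0Q005.E87) (by decide +kernel) (pat_step (by decide +kernel) (q_cons (Vale.Agent.P032.Lt.q R0Q005.q87_0) q_nil))

theorem p88 : Pat 73 73 TBm TCm (CB.map Fm) R0Q005.P88 R0Q005.I88 := Vale.Agent.P032.Lt.pat_eq (E' := R0Q005.E) eB (pat_step (by decide +kernel) (q_cons (Vale.Agent.P032.Lt.q R0Q005.q88_0) (q_cons (Vale.Agent.P032.Lt.q R0Q005.q88_1) (q_cons (Vale.Agent.P032.Lt.q R0Q005.q88_2) q_nil))))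

theorem p89 : Pat 73 73 TBm TCm (CB.map Fm) R0Q005.P89 R0Q005.I89 := Vale.Agent.P032.Lt.pat_eq (E' := R0Q005.E) eB (pat_step (by decide +kernel) (q_cons (Vale.Agent.P032.Lt.q R0Q005.q89_0) q_nil))

theorem p90 : Pat 73 73 TBm TCm (CB.map Fm) R0Q005.P90 R0Q005.I90 := Vale.Agent.P032.Lt.pat_eq (E' := R0Q005.E) eB (pat_step (by decide +kernel) (q_cons (Vale.Agent.P032.Lt.q R0Q005.q90_0) (q_cons (Vale.Agent.P032.Lt.q R0Q005.q90_1) q_nil)))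

theorem p91 : Pat 73 73 TBm TCm (CB.map Fm) R0Q005.P91 R0Q005.I91 := Vale.Agent.P032.Lt.pat_eq (E' := R0Q005.E) eB (pat_step (by decide +kernel) (q_cons (Vale.Agent.P032.Lt.q R0Q005.q91_0) (q_cons (Vale.Agent.P032.Lt.q R0Q005.q91_1) (q_cons (Vale.Agent.P032.Lt.q R0Q005.q91_2) q_nil))))

theorem p92 : Pat 73 73 TBm TCm (CB.map Fm) R0Q005.P92 R0Q005.I92 := Vale.Agent.P032.Lt.pat_eq (E' := R0Q005.E) eB (pat_step (by decide +kernel) (q_cons (Vale.Agent.P032.Lt.q R0Q005.q92_0) q_nil))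

theorem p93 : Pat 73 73 TBm TCm (CB.map Fm) R0Q005.P93 R0Q005.I93 := Vale.Agent.P032.Lt.pat_eq (E' := R0Q005.E) eB (pat_step (by decide +kernel) (q_cons (Vale.Agent.P032.Lt.q R0Q005.q93_0) q_nil))

theorem p94 : Pat 73 73 TBm TCm (CB.map Fm) R0Q005.P94 R0Q005.I94 := Vale.Agent.P032.Lt.pat_eq (E' := R0Q005.E) eB (pat_step (by decide +kernel) (q_cons (Vale.Agent.P032.Lt.q R0Q005.q94_0) q_nil))

theorem p95 : Pat 73 73 TBm TCm (CB.map Fm) R0Q005.P95 R0Q005.I95 := Vale.Agent.P032.Lt.pat_eq (E' := R0Q005.E) eB (pat_step (by decide +kernel) (q_cons (Vale.Agent.P032.Lt.q R0Q005.q95_0) (q_cons (Vale.Agent.P032.Lt.q R0Q005.q95_1) (q_cons (Vale.Agent.P032.Lt.q R0Q005.q95_2) q_nil))))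

theorem p96 : Pat 73 73 TBm TCm (CB.map Fm) R0Q006.P96 R0Q006.I96 := Vale.Agent.P032.Lt.pat_eq (E' := R0Q006.E) eB (pat_step (by decide +kernel) (q_cons (Vale.Agent.P032.Lt.q R0Q006.q96_0) q_nil))

theorem p97 : Pat 73 73 TBm TCm (CB.map Fm) R0Q006.P97 R0Q006.I97 := Vale.Agent.P032.Lt.pat_eq (E' := R0Q006.E) eB (pat_step (by decide +kernel) (q_cons (Vale.Agent.P032.Lt.q R0Q006.q97_0) q_nil))

def C98 : List ℕ := [0, 4, 8, 12, 16, 20, 24, 214017, 347137, 475137, 478209, 607233, 609281]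
theorem p98 : Pat 73 73 TBm TCm (C98.map Fm) R0Q006.P98 R0Q006.I98 := Vale.Agent.P032.Lt.pat_eq (E' := R0Q006.E98) (by decide +kernel) (pat_step (by decide +kernel) (q_cons (Vale.Agent.P032.Lt.q R0Q006.q98_0) q_nil))

def C99 : List ℕ := [0, 4, 8, 12, 16, 20, 24, 475137, 737281]
theorem p99 : Pat 73 73 TBm TCm (C99.map Fm) R0Q006.P99 [[]] := Vale.Agent.P032.Lt.pat_eq (E' := R0Q006.E99) (by decide +kernel) (pat_start (by decide +kernel) (Vale.Agent.P032.Lt.q R0Q006.q99))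

theorem p100 : Pat 73 73 TBm TCm (CB.map Fm) R0Q006.P100 R0Q006.I100 := Vale.Agent.P032.Lt.pat_eq (E' := R0Q006.E) eB (pat_step (by decide +kernel) (q_cons (Vale.Agent.P032.Lt.q R0Q006.q100_0) q_nil))

def C101 : List ℕ := [0, 4, 8, 12, 16, 20, 24, 216065, 741377]
theorem p101 : Pat 73 73 TBm TCm (C101.map Fm) R0Q006.P101 R0Q006.I101 := Vale.Agent.P032.Lt.pat_eq (E' := R0Q006.E101) (by decide +kernel) (pat_step (by decide +kernel) (q_cons (Vale.Agent.P032.Lt.q R0Q006.q101_0) (q_cons (Vale.Agent.P032.Lt.q R0Q006.q101_1) (q_cons (Vale.Agent.P032.Lt.q R0Q006.q101_2) (q_cons (Vale.Agent.P032.Lt.q R0Q006.q101_3) (q_cons (Vale.Agent.P032.Lt.q R0Q006.q101_4) (q_cons (Vale.Agent.P032.Lt.q R0Q006.q101_5) q_nil)))))))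

theorem p102 : Pat 73 73 TBm TCm (CB.map Fm) R0Q006.P102 R0Q006.I102 := Vale.Agent.P032.Lt.pat_eq (E' := R0Q006.E) eB (pat_step (by decide +kernel) (q_cons (Vale.Agent.P032.Lt.q R0Q006.q102_0) (q_cons (Vale.Agent.P032.Lt.q R0Q006.q102_1) q_nil)))

theorem p103 : Pat 73 73 TBm TCm (CB.map Fm) R0Q006.P103 R0Q006.I103 := Vale.Agent.P032.Lt.pat_eq (E' := R0Q006.E) eB (pat_step (by decide +kernel) (q_cons (Vale.Agent.P032.Lt.q R0Q006.q103_0) (q_cons (Vale.Agent.P032.Lt.q R0Q006.q103_1) q_nil)))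

theorem p104 : Pat 73 73 TBm TCm (CB.map Fm) R0Q006.P104 R0Q006.I104 := Vale.Agent.P032.Lt.pat_eq (E' := R0Q006.E) eB (pat_step (by decide +kernel) (q_cons (Vale.Agent.P032.Lt.q R0Q006.q104_0) (q_cons (Vale.Agent.P032.Lt.q R0Q006.q104_1) q_nil)))

theorem p105 : Pat 73 73 TBm TCm (CB.map Fm) R0Q006.P105 R0Q006.I105 := Vale.Agent.P032.Lt.pat_eq (E' := R0Q006.E) eB (pat_step (by decide +kernel) (q_cons (Vale.Agent.P032.Lt.q R0Q006.q105_0) (q_cons (Vale.Agent.P032.Lt.q R0Q006.q105_1) (q_cons (Vale.Agent.P032.Lt.q R0Q006.q105_2) q_nil))))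

theorem p106 : Pat 73 73 TBm TCm (CB.map Fm) R0Q006.P106 R0Q006.I106 := Vale.Agent.P032.Lt.pat_eq (E' := R0Q006.E) eB (pat_step (by decide +kernel) (q_cons (Vale.Agent.P032.Lt.q R0Q006.q106_0) q_nil))

theorem p107 : Pat 73 73 TBm TCm (CB.map Fm) R0Q006.P107 R0Q006.I107 := Vale.Agent.P032.Lt.pat_eq (E' := R0Q006.E) eB (pat_step (by decide +kernel) (q_cons (Vale.Agent.P032.Lt.q R0Q006.q107_0) q_nil))

theorem p108 : Pat 73 73 TBm TCm (CB.map Fm) R0Q006.P108 R0Q006.I108 := Vale.Agent.P032.Lt.pat_eq (E' := R0Q006.E) eB (pat_step (by decide +kernel) (q_cons (Vale.Agent.P032.Lt.q R0Q006.q108_0) (q_cons (Vale.Agent.P032.Lt.q R0Q006.q108_1) q_nil)))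

theorem p109 : Pat 73 73 TBm TCm (CB.map Fm) R0Q006.P109 R0Q006.I109 := Vale.Agent.P032.Lt.pat_eq (E' := R0Q006.E) eB (pat_step (by decide +kernel) (q_cons (Vale.Agent.P032.Lt.q R0Q006.q109_0) (q_cons (Vale.Agent.P032.Lt.q R0Q006.q109_1) (q_cons (Vale.Agent.P032.Lt.q R0Q006.q109_2) (q_cons (Vale.Agent.P032.Lt.q R0Q006.q109_3) (q_cons (Vale.Agent.P032.Lt.q R0Q006.q109_4) q_nil))))))

theorem p110 : Pat 73 73 TBm TCm (CB.map Fm) R0Q006.P110 R0Q006.I110 := Vale.Agent.P032.Lt.pat_eq (E' := R0Q006.E) eB (pat_step (by decide +kernel) (q_cons (Vale.Agent.P032.Lt.q R0Q006.q110_0) q_nil))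

theorem p111 : Pat 73 73 TBm TCm (CB.map Fm) R0Q006.P111 R0Q006.I111 := Vale.Agent.P032.Lt.pat_eq (E' := R0Q006.E) eB (pat_step (by decide +kernel) (q_cons (Vale.Agent.P032.Lt.q R0Q006.q111_0) q_nil))

theorem p112 : Pat 73 73 TBm TCm (CB.map Fm) R0Q006.P112 [] := Vale.Agent.P032.Lt.pat_eq (E' := R0Q006.E) eB (pat_end (by decide +kernel) (Vale.Agent.P032.Lt.q R0Q006.q112))

theorem p113 : Pat 73 73 TBm TCm (CB.map Fm) R0Q006.P113 R0Q006.I113 := Vale.Agent.P032.Lt.pat_eq (E' := R0Q006.E) eB (pat_step (by decide +kernel) (q_cons (Vale.Agent.P032.Lt.q R0Q006.q113_0) (q_cons (Vale.Agent.P032.Lt.q R0Q006.q113_1) q_nil)))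

theorem p114 : Pat 73 73 TBm TCm (CB.map Fm) R0Q006.P114 R0Q006.I114 := Vale.Agent.P032.Lt.pat_eq (E' := R0Q006.E) eB (pat_step (by decide +kernel) (q_cons (Vale.Agent.P032.Lt.q R0Q006.q114_0) (q_cons (Vale.Agent.P032.Lt.q R0Q006.q114_1) (q_cons (Vale.Agent.P032.Lt.q R0Q006.q114_2) (q_cons (Vale.Agent.P032.Lt.q R0Q006.q114_3) (q_cons (Vale.Agent.P032.Lt.q R0Q006.q114_4) (q_cons (Vale.Agent.P032.Lt.q R0Q006.q114_5) (q_cons (Vale.Agent.P032.Lt.q R0Q006.q114_6) (q_cons (Vale.Agent.P032.Lt.q R0Q006.q114_7) (q_cons (Vale.Agent.P032.Lt.q R0Q006.q114_8) (q_cons (Vale.Agent.P032.Lt.q R0Q006.q114_9) (q_cons (Vale.Agent.P032.Lt.q R0Q006.q114_10) (q_cons (Vale.Agent.P032.Lt.q R0Q006.q114_11) (q_cons (Vale.Agent.P032.Lt.q R0Q006.q114_12) q_nil))))))))))))))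

theorem p115 : Pat 73 73 TBm TCm (CB.map Fm) R0Q006.P115 R0Q006.I115 := Vale.Agent.P032.Lt.pat_eq (E' := R0Q006.E) eB (pat_step (by decide +kernel) (q_cons (Vale.Agent.P032.Lt.q R0Q006.q115_0) (q_cons (Vale.Agent.P032.Lt.q R0Q006.q115_1) (q_cons (Vale.Agent.P032.Lt.q R0Q006.q115_2) (q_cons (Vale.Agent.P032.Lt.q R0Q006.q115_3) (q_cons (Vale.Agent.P032.Lt.q R0Q006.q115_4) (q_cons (Vale.Agent.P032.Lt.q R0Q006.q115_5) (q_cons (Vale.Agent.P032.Lt.q R0Q006.q115_6) (q_cons (Vale.Agent.P032.Lt.q R0Q006.q115_7) (q_cons (Vale.Agent.P032.Lt.q R0Q006.q115_8) (q_cons (Vale.Agent.P032.Lt.q R0Q006.q115_9) q_nil)))))))))))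

theorem p116 : Pat 73 73 TBm TCm (CB.map Fm) R0Q006.P116 R0Q006.I116 := Vale.Agent.P032.Lt.pat_eq (E' := R0Q006.E) eB (pat_step (by decide +kernel) (q_cons (Vale.Agent.P032.Lt.q R0Q006.q116_0) (q_cons (Vale.Agent.P032.Lt.q R0Q006.q116_1) q_nil)))

theorem p117 : Pat 73 73 TBm TCm (CB.map Fm) R0Q006.P117 R0Q006.I117 := Vale.Agent.P032.Lt.pat_eq (E' := R0Q006.E) eB (pat_step (by decide +kernel) (q_cons (Vale.Agent.P032.Lt.q R0Q006.q117_0) (q_cons (Vale.Agent.P032.Lt.q R0Q006.q117_1) (q_cons (Vale.Agent.P032.Lt.q R0Q006.q117_2) (q_cons (Vale.Agent.P032.Lt.q R0Q006.q117_3) q_nil)))))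

theorem p118 : Pat 73 73 TBm TCm (CB.map Fm) R0Q006.P118 R0Q006.I118 := Vale.Agent.P032.Lt.pat_eq (E' := R0Q006.E) eB (pat_step (by decide +kernel) (q_cons (Vale.Agent.P032.Lt.q R0Q006.q118_0) (q_cons (Vale.Agent.P032.Lt.q R0Q006.q118_1) (q_cons (Vale.Agent.P032.Lt.q R0Q006.q118_2) (q_cons (Vale.Agent.P032.Lt.q R0Q006.q118_3) (q_cons (Vale.Agent.P032.Lt.q R0Q006.q118_4) q_nil))))))

theorem p119 : Pat 73 73 TBm TCm (CB.map Fm) R0Q006.P119 R0Q006.I119 := Vale.Agent.P032.Lt.pat_eq (E' := R0Q006.E) eB (pat_step (by decide +kernel) (q_cons (Vale.Agent.P032.Lt.q R0Q006.q119_0) q_nil))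

theorem p120 : Pat 73 73 TBm TCm (CB.map Fm) R0Q006.P120 R0Q006.I120 := Vale.Agent.P032.Lt.pat_eq (E' := R0Q006.E) eB (pat_step (by decide +kernel) (q_cons (Vale.Agent.P032.Lt.q R0Q006.q120_0) q_nil))

theorem p121 : Pat 73 73 TBm TCm (CB.map Fm) R0Q006.P121 R0Q006.I121 := Vale.Agent.P032.Lt.pat_eq (E' := R0Q006.E) eB (pat_step (by decide +kernel) (q_cons (Vale.Agent.P032.Lt.q R0Q006.q121_0) (q_cons (Vale.Agent.P032.Lt.q R0Q006.q121_1) q_nil)))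

theorem p122 : Pat 73 73 TBm TCm (CB.map Fm) R0Q006.P122 R0Q006.I122 := Vale.Agent.P032.Lt.pat_eq (E' := R0Q006.E) eB (pat_step (by decide +kernel) (q_cons (Vale.Agent.P032.Lt.q R0Q006.q122_0) q_nil))

theorem p123 : Pat 73 73 TBm TCm (CB.map Fm) R0Q007.P123 R0Q007.I123 := Vale.Agent.P032.Lt.pat_eq (E' := R0Q007.E) eB (pat_step (by decide +kernel) (q_cons (Vale.Agent.P032.Lt.q R0Q007.q123_0) q_nil))

def C124 : List ℕ := [0, 4, 8, 12, 16, 20, 24, 214017, 216065, 737281]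
theorem p124 : Pat 73 73 TBm TCm (C124.map Fm) R0Q007.P124 R0Q007.I124 := Vale.Agent.P032.Lt.pat_eq (E' := R0Q007.E124) (by decide +kernel) (pat_step (by decide +kernel) (q_cons (Vale.Agent.P032.Lt.q R0Q007.q124_0) q_nil))

theorem p125 : Pat 73 73 TBm TCm (CB.map Fm) R0Q007.P125 R0Q007.I125 := Vale.Agent.P032.Lt.pat_eq (E' := R0Q007.E) eB (pat_step (by decide +kernel) (q_cons (Vale.Agent.P032.Lt.q R0Q007.q125_0) q_nil))

theorem p126 : Pat 73 73 TBm TCm (CB.map Fm) R0Q007.P126 R0Q007.I126 := Vale.Agent.P032.Lt.pat_eq (E' := R0Q007.E) eB (pat_step (by decide +kernel) (q_cons (Vale.Agent.P032.Lt.q R0Q007.q126_0) q_nil))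

theorem p127 : Pat 73 73 TBm TCm (CB.map Fm) R0Q007.P127 R0Q007.I127 := Vale.Agent.P032.Lt.pat_eq (E' := R0Q007.E) eB (pat_step (by decide +kernel) (q_cons (Vale.Agent.P032.Lt.q R0Q007.q127_0) q_nil))

def L : List (List ℕ) := [R0Q000.P0, R0Q000.P1, R0Q000.P2, R0Q000.P3, R0Q000.P4, R0Q000.P5, R0Q000.P6, R0Q000.P7, R0Q000.P8, R0Q000.P9, R0Q000.P10, R0Q000.P11, R0Q000.P12, R0Q000.P13, R0Q000.P14, R0Q000.P15, R0Q000.P16, R0Q000.P17, R0Q000.P18, R0Q000.P19, R0Q000.P20, R0Q000.P21, R0Q001.P22, R0Q001.P23, R0Q001.P24, R0Q001.P25, R0Q001.P26, R0Q002.P27, R0Q002.P28, R0Q002.P29, R0Q002.P30, R0Q002.P31, R0Q002.P32, R0Q002.P33, R0Q003.P34, R0Q003.P35, R0Q003.P36, R0Q003.P37, R0Q003.P38, R0Q003.P39, R0Q003.P40, R0Q003.P41, R0Q003.P42, R0Q003.P43, R0Q003.P44, R0Q003.P45, R0Q003.P46, R0Q003.P47, R0Q003.P48, R0Q003.P49, R0Q003.P50, R0Q003.P51, R0Q003.P52, R0Q003.P53,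 R0Q003.P54, R0Q003.P55, R0Q003.P56, R0Q003.P57, R0Q003.P58, R0Q003.P59, R0Q003.P60, R0Q003.P61, R0Q003.P62, R0Q004.P63, R0Q004.P64, R0Q004.P65, R0Q004.P66, R0Q004.P67, R0Q004.P68, R0Q004.P69, R0Q004.P70, R0Q004.P71, R0Q004.P72, R0Q004.P73, R0Q005.P74, R0Q005.P75, R0Q005.P76, R0Q005.P77, R0Q005.P78, R0Q005.P79, R0Q005.P80, R0Q005.P81, R0Q005.P82, R0Q005.P83, R0Q005.P84, R0Q005.P85, R0Q005.P86, R0Q005.P87, R0Q005.P88, R0Q005.P89, R0Q005.P90, R0Q005.P91, R0Q005.P92, R0Q005.P93, R0Q005.P94, R0Q005.P95, R0Q006.P96, R0Q006.P97, R0Q006.P98, R0Q006.P99, R0Q006.P100, R0Q006.P101, R0Q006.P102, R0Q006.P103, R0Q006.P104, R0Q006.P105, R0Q006.P106, R0Q006.P107, R0Q006.P108, R0Q006.P109, R0Q006.P110, R0Q006.P111, R0Q006.P112, R0Q006.P113, R0Q006.P114, R0Q006.P115, R0Q006.P116, R0Q006.P117, R0Q006.P118, R0Q006.P119, R0Q006.P120, R0Q006.P121, R0Q006.P122, R0Q007.P123,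 R0Q007.P124, R0Q007.P125, R0Q007.P126, R0Q007.P127]

theorem all : ∀ P ∈ L, CrtF 73 73 TBm TCm (Vale.Agent.P032.Fam.fam2 (Vale.Agent.P032.Fam.im0)) P := crtF_cons p0 (crtF_cons p1 (crtF_cons p2 (crtF_cons p3 (crtF_cons p4 (crtF_cons p5 (crtF_cons p6 (crtF_cons p7 (crtF_cons p8 (crtF_cons p9 (crtF_cons p10 (crtF_cons p11 (crtF_cons p12 (crtF_cons p13 (crtF_cons p14 (crtF_cons p15 (crtF_cons p16 (crtF_cons p17 (crtF_cons p18 (crtF_cons p19 (crtF_cons p20 (crtF_cons p21 (crtF_cons p22 (crtF_cons p23 (crtF_cons p24 (crtF_cons p25 (crtF_cons p26 (crtF_cons p27 (crtF_cons p28 (crtF_cons p29 (crtF_cons p30 (crtF_cons p31 (crtF_cons p32 (crtF_cons p33 (crtF_cons p34 (crtF_cons p35 (crtF_cons p36 (crtF_cons p37 (crtF_cons p38 (crtF_cons p39 (crtF_cons p40 (crtF_cons p41 (crtF_cons p42 (crtF_cons p43 (crtF_cons p44 (crtF_cons p45 (crtF_cons p46 (crtF_cons p47 (crtF_cons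 p48 (crtF_cons p49 (crtF_cons p50 (crtF_cons p51 (crtF_cons p52 (crtF_cons p53 (crtF_cons p54 (crtF_cons p55 (crtF_cons p56 (crtF_cons p57 (crtF_cons p58 (crtF_cons p59 (crtF_cons p60 (crtF_cons p61 (crtF_cons p62 (crtF_cons p63 (crtF_cons p64 (crtF_cons p65 (crtF_cons p66 (crtF_cons p67 (crtF_cons p68 (crtF_cons p69 (crtF_cons p70 (crtF_cons p71 (crtF_cons p72 (crtF_cons p73 (crtF_cons p74 (crtF_cons p75 (crtF_cons p76 (crtF_cons p77 (crtF_cons p78 (crtF_cons p79 (crtF_cons p80 (crtF_cons p81 (crtF_cons p82 (crtF_cons p83 (crtF_cons p84 (crtF_cons p85 (crtF_cons p86 (crtF_cons p87 (crtF_cons p88 (crtF_cons p89 (crtF_cons p90 (crtF_cons p91 (crtF_cons p92 (crtF_cons p93 (crtF_cons p94 (crtF_cons p95 (crtF_cons p96 (crtF_cons p97 (crtF_cons p98 (crtF_cons p99 (crtF_cons p100 (crtF_cons p101 (crtF_cons p102 (crtF_cons p103 (crtF_cons p104 (crtF_cons p105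 (crtF_cons p106 (crtF_cons p107 (crtF_cons p108 (crtF_cons p109 (crtF_cons p110 (crtF_cons p111 (crtF_cons p112 (crtF_cons p113 (crtF_cons p114 (crtF_cons p115 (crtF_cons p116 (crtF_cons p117 (crtF_cons p118 (crtF_cons p119 (crtF_cons p120 (crtF_cons p121 (crtF_cons p122 (crtF_cons p123 (crtF_cons p124 (crtF_cons p125 (crtF_cons p126 (crtF_cons p127 crtF_nil)))))))))))))))))))))))))))))))))))))))))))))))))))))))))))))))))))))))))))))))))))))))))))))))))))))))))))))))))))))))))))))))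

theorem ch : chT 73 73 TCm s0_000 L = true := by decide +kernel

end Vale.Agent.P032X.Cert.XP.B1.R0H000
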