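import Vale.Agent.P032X.H892.LtH
import Vale.Agent.P032X.H286.W73
import Vale.Agent.P032X.Cert.XP.B1.R0T
import Vale.Agent.P032X.Cert.XP.B1.R0Q008
import Vale.Agent.P032X.Cert.XP.B1.R0Q009
import Vale.Agent.P032X.Cert.XP.B1.R0Q010
import Vale.Agent.P032X.Cert.XP.B1.R0Q011
import Vale.Agent.P032X.Cert.XP.B1.R0Q012

set_option maxRecDepth 1000000

namespace Vale.Agent.P032X.Cert.XP.B1.R0H001

open Vale.Agent.P032.H820.K Vale.Agent.P032.H357.MK Vale.Agent.P032.H286.E Vale.Agent.P032.H61 Vale.Agent.P032X.Cert.XP.B1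

noncomputable abbrev Fm : ℕ → List ℕ := Vale.Agent.P032.Fam.fam2 (Vale.Agent.P032.Fam.im0)

def CB : List ℕ := [0, 4, 8, 12, 16, 20, 24]

theorem eB : Vale.Agent.P032.Lt.eqLL (CB.map Fm) R0Q008.E = true := by decide +kernel

theorem p128 : Pat 73 73 TBm TCm (CB.map Fm) R0Q008.P128 R0Q008.I128 := Vale.Agent.P032.Lt.pat_eq (E' := R0Q008.E) eB (pat_step (by decide +kernel) (q_cons (Vale.Agent.P032.Lt.q R0Q008.q128_0) (q_cons (Vale.Agent.P032.Lt.q R0Q008.q128_1) (q_cons (Vale.Agent.P032.Lt.q R0Q008.q128_2) (q_cons (Vale.Agent.P032.Lt.q R0Q008.q128_3) q_nil)))))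

theorem p129 : Pat 73 73 TBm TCm (CB.map Fm) R0Q008.P129 R0Q008.I129 := Vale.Agent.P032.Lt.pat_eq (E' := R0Q008.E) eB (pat_step (by decide +kernel) (q_cons (Vale.Agent.P032.Lt.q R0Q008.q129_0) q_nil))

def C130 : List ℕ := [0, 4, 8, 12, 16, 20, 24, 91137, 220161, 222209, 353281, 475137, 615425, 617473, 737281]
theorem p130 : Pat 73 73 TBm TCm (C130.map Fm) R0Q008.P130 R0Q008.I130 := Vale.Agent.P032.Lt.pat_eq (E' := R0Q008.E130) (by decide +kernel) (pat_step (by decide +kernel) (q_cons (Vale.Agent.P032.Lt.q R0Q008.q130_0) q_nil))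

theorem p131 : Pat 73 73 TBm TCm (CB.map Fm) R0Q008.P131 R0Q008.I131 := Vale.Agent.P032.Lt.pat_eq (E' := R0Q008.E) eB (pat_step (by decide +kernel) (q_cons (Vale.Agent.P032.Lt.q R0Q008.q131_0) (q_cons (Vale.Agent.P032.Lt.q R0Q008.q131_1) (q_cons (Vale.Agent.P032.Lt.q R0Q008.q131_2) q_nil))))

theorem p132 : Pat 73 73 TBm TCm (CB.map Fm) R0Q008.P132 R0Q008.I132 := Vale.Agent.P032.Lt.pat_eq (E' := R0Q008.E) eB (pat_step (by decide +kernel) (q_cons (Vale.Agent.P032.Lt.q R0Q008.q132_0) (q_cons (Vale.Agent.P032.Lt.q R0Q008.q132_1) q_nil)))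

theorem p133 : Pat 73 73 TBm TCm (CB.map Fm) R0Q008.P133 R0Q008.I133 := Vale.Agent.P032.Lt.pat_eq (E' := R0Q008.E) eB (pat_step (by decide +kernel) (q_cons (Vale.Agent.P032.Lt.q R0Q008.q133_0) (q_cons (Vale.Agent.P032.Lt.q R0Q008.q133_1) (q_cons (Vale.Agent.P032.Lt.q R0Q008.q133_2) q_nil))))

theorem p134 : Pat 73 73 TBm TCm (CB.map Fm) R0Q008.P134 R0Q008.I134 := Vale.Agent.P032.Lt.pat_eq (E' := R0Q008.E) eB (pat_step (by decide +kernel) (q_cons (Vale.Agent.P032.Lt.q R0Q008.q134_0) q_nil))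

theorem p135 : Pat 73 73 TBm TCm (CB.map Fm) R0Q008.P135 R0Q008.I135 := Vale.Agent.P032.Lt.pat_eq (E' := R0Q008.E) eB (pat_step (by decide +kernel) (q_cons (Vale.Agent.P032.Lt.q R0Q008.q135_0) (q_cons (Vale.Agent.P032.Lt.q R0Q008.q135_1) (q_cons (Vale.Agent.P032.Lt.q R0Q008.q135_2) (q_cons (Vale.Agent.P032.Lt.q R0Q008.q135_3) (q_cons (Vale.Agent.P032.Lt.q R0Q008.q135_4) (q_cons (Vale.Agent.P032.Lt.q R0Q008.q135_5) (q_cons (Vale.Agent.P032.Lt.q R0Q008.q135_6) q_nil))))))))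

theorem p136 : Pat 73 73 TBm TCm (CB.map Fm) R0Q008.P136 R0Q008.I136 := Vale.Agent.P032.Lt.pat_eq (E' := R0Q008.E) eB (pat_step (by decide +kernel) (q_cons (Vale.Agent.P032.Lt.q R0Q008.q136_0) q_nil))

theorem p137 : Pat 73 73 TBm TCm (CB.map Fm) R0Q008.P137 R0Q008.I137 := Vale.Agent.P032.Lt.pat_eq (E' := R0Q008.E) eB (pat_step (by decide +kernel) (q_cons (Vale.Agent.P032.Lt.q R0Q008.q137_0) q_nil))

theorem p138 : Pat 73 73 TBm TCm (CB.map Fm) R0Q008.P138 R0Q008.I138 := Vale.Agent.P032.Lt.pat_eq (E' := R0Q008.E) eB (pat_step (by decide +kernel) (q_cons (Vale.Agent.P032.Lt.q R0Q008.q138_0) (q_cons (Vale.Agent.P032.Lt.q R0Q008.q138_1) (q_cons (Vale.Agent.P032.Lt.q R0Q008.q138_2) q_nil))))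

theorem p139 : Pat 73 73 TBm TCm (CB.map Fm) R0Q008.P139 R0Q008.I139 := Vale.Agent.P032.Lt.pat_eq (E' := R0Q008.E) eB (pat_step (by decide +kernel) (q_cons (Vale.Agent.P032.Lt.q R0Q008.q139_0) (q_cons (Vale.Agent.P032.Lt.q R0Q008.q139_1) (q_cons (Vale.Agent.P032.Lt.q R0Q008.q139_2) q_nil))))

theorem p140 : Pat 73 73 TBm TCm (CB.map Fm) R0Q008.P140 R0Q008.I140 := Vale.Agent.P032.Lt.pat_eq (E' := R0Q008.E) eB (pat_step (by decide +kernel) (q_cons (Vale.Agent.P032.Lt.q R0Q008.q140_0) q_nil))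

theorem p141 : Pat 73 73 TBm TCm (CB.map Fm) R0Q008.P141 R0Q008.I141 := Vale.Agent.P032.Lt.pat_eq (E' := R0Q008.E) eB (pat_step (by decide +kernel) (q_cons (Vale.Agent.P032.Lt.q R0Q008.q141_0) q_nil))

def C142 : List ℕ := [0, 4, 8, 12, 16, 20, 24, 737281]
theorem p142 : Pat 73 73 TBm TCm (C142.map Fm) R0Q008.P142 R0Q008.I142 := Vale.Agent.P032.Lt.pat_eq (E' := R0Q008.E142) (by decide +kernel) (pat_step (by decide +kernel) (q_cons (Vale.Agent.P032.Lt.q R0Q008.q142_0) (q_cons (Vale.Agent.P032.Lt.q R0Q008.q142_1) q_nil)))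

theorem p143 : Pat 73 73 TBm TCm (CB.map Fm) R0Q008.P143 R0Q008.I143 := Vale.Agent.P032.Lt.pat_eq (E' := R0Q008.E) eB (pat_step (by decide +kernel) (q_cons (Vale.Agent.P032.Lt.q R0Q008.q143_0) (q_cons (Vale.Agent.P032.Lt.q R0Q008.q143_1) q_nil)))

theorem p144 : Pat 73 73 TBm TCm (CB.map Fm) R0Q008.P144 R0Q008.I144 := Vale.Agent.P032.Lt.pat_eq (E' := R0Q008.E) eB (pat_step (by decide +kernel) (q_cons (Vale.Agent.P032.Lt.q R0Q008.q144_0) (q_cons (Vale.Agent.P032.Lt.q R0Q008.q144_1) (q_cons (Vale.Agent.P032.Lt.q R0Q008.q144_2) (q_cons (Vale.Agent.P032.Lt.q R0Q008.q144_3) (q_cons (Vale.Agent.P032.Lt.q R0Q008.q144_4) (q_cons (Vale.Agent.P032.Lt.q R0Q008.q144_5) (q_cons (Vale.Agent.P032.Lt.q R0Q008.q144_6) (q_cons (Vale.Agent.P032.Lt.q R0Q008.q144_7) (q_cons (Vale.Agent.P032.Lt.q R0Q008.q144_8) q_nil))))))))))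

theorem p145 : Pat 73 73 TBm TCm (CB.map Fm) R0Q008.P145 R0Q008.I145 := Vale.Agent.P032.Lt.pat_eq (E' := R0Q008.E) eB (pat_step (by decide +kernel) (q_cons (Vale.Agent.P032.Lt.q R0Q008.q145_0) (q_cons (Vale.Agent.P032.Lt.q R0Q008.q145_1) (q_cons (Vale.Agent.P032.Lt.q R0Q008.q145_2) q_nil))))

theorem p146 : Pat 73 73 TBm TCm (CB.map Fm) R0Q008.P146 R0Q008.I146 := Vale.Agent.P032.Lt.pat_eq (E' := R0Q008.E) eB (pat_step (by decide +kernel) (q_cons (Vale.Agent.P032.Lt.q R0Q008.q146_0) (q_cons (Vale.Agent.P032.Lt.q R0Q008.q146_1) q_nil)))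

theorem p147 : Pat 73 73 TBm TCm (CB.map Fm) R0Q008.P147 R0Q008.I147 := Vale.Agent.P032.Lt.pat_eq (E' := R0Q008.E) eB (pat_step (by decide +kernel) (q_cons (Vale.Agent.P032.Lt.q R0Q008.q147_0) q_nil))

theorem p148 : Pat 73 73 TBm TCm (CB.map Fm) R0Q008.P148 R0Q008.I148 := Vale.Agent.P032.Lt.pat_eq (E' := R0Q008.E) eB (pat_step (by decide +kernel) (q_cons (Vale.Agent.P032.Lt.q R0Q008.q148_0) (q_cons (Vale.Agent.P032.Lt.q R0Q008.q148_1) (q_cons (Vale.Agent.P032.Lt.q R0Q008.q148_2) q_nil))))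

theorem p149 : Pat 73 73 TBm TCm (CB.map Fm) R0Q008.P149 R0Q008.I149 := Vale.Agent.P032.Lt.pat_eq (E' := R0Q008.E) eB (pat_step (by decide +kernel) (q_cons (Vale.Agent.P032.Lt.q R0Q008.q149_0) (q_cons (Vale.Agent.P032.Lt.q R0Q008.q149_1) q_nil)))

theorem p150 : Pat 73 73 TBm TCm (CB.map Fm) R0Q008.P150 R0Q008.I150 := Vale.Agent.P032.Lt.pat_eq (E' := R0Q008.E) eB (pat_step (by decide +kernel) (q_cons (Vale.Agent.P032.Lt.q R0Q008.q150_0) q_nil))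

def C151 : List ℕ := [0, 4, 8, 12, 16, 20, 24, 352257, 745473]
theorem p151 : Pat 73 73 TBm TCm (C151.map Fm) R0Q008.P151 R0Q008.I151 := Vale.Agent.P032.Lt.pat_eq (E' := R0Q008.E151) (by decide +kernel) (pat_step (by decide +kernel) (q_cons (Vale.Agent.P032.Lt.q R0Q008.q151_0) (q_cons (Vale.Agent.P032.Lt.q R0Q008.q151_1) (q_cons (Vale.Agent.P032.Lt.q R0Q008.q151_2) (q_cons (Vale.Agent.P032.Lt.q R0Q008.q151_3) (q_cons (Vale.Agent.P032.Lt.q R0Q008.q151_4) (q_cons (Vale.Agent.P032.Lt.q R0Q008.q151_5) q_nil)))))))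

theorem p152 : Pat 73 73 TBm TCm (CB.map Fm) R0Q008.P152 R0Q008.I152 := Vale.Agent.P032.Lt.pat_eq (E' := R0Q008.E) eB (pat_step (by decide +kernel) (q_cons (Vale.Agent.P032.Lt.q R0Q008.q152_0) (q_cons (Vale.Agent.P032.Lt.q R0Q008.q152_1) (q_cons (Vale.Agent.P032.Lt.q R0Q008.q152_2) (q_cons (Vale.Agent.P032.Lt.q R0Q008.q152_3) (q_cons (Vale.Agent.P032.Lt.q R0Q008.q152_4) (q_cons (Vale.Agent.P032.Lt.q R0Q008.q152_5) (q_cons (Vale.Agent.P032.Lt.q R0Q008.q152_6) (q_cons (Vale.Agent.P032.Lt.q R0Q008.q152_7) (q_cons (Vale.Agent.P032.Lt.q R0Q008.q152_8) q_nil))))))))))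

theorem p153 : Pat 73 73 TBm TCm (CB.map Fm) R0Q008.P153 R0Q008.I153 := Vale.Agent.P032.Lt.pat_eq (E' := R0Q008.E) eB (pat_step (by decide +kernel) (q_cons (Vale.Agent.P032.Lt.q R0Q008.q153_0) q_nil))

theorem p154 : Pat 73 73 TBm TCm (CB.map Fm) R0Q008.P154 R0Q008.I154 := Vale.Agent.P032.Lt.pat_eq (E' := R0Q008.E) eB (pat_step (by decide +kernel) (q_cons (Vale.Agent.P032.Lt.q R0Q008.q154_0) q_nil))

theorem p155 : Pat 73 73 TBm TCm (CB.map Fm) R0Q008.P155 R0Q008.I155 := Vale.Agent.P032.Lt.pat_eq (E' := R0Q008.E) eB (pat_step (by decide +kernel) (q_cons (Vale.Agent.P032.Lt.q R0Q008.q155_0) (q_cons (Vale.Agent.P032.Lt.q R0Q008.q155_1) (q_cons (Vale.Agent.P032.Lt.q R0Q008.q155_2) (q_cons (Vale.Agent.P032.Lt.q R0Q008.q155_3) q_nil)))))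

theorem p156 : Pat 73 73 TBm TCm (CB.map Fm) R0Q008.P156 R0Q008.I156 := Vale.Agent.P032.Lt.pat_eq (E' := R0Q008.E) eB (pat_step (by decide +kernel) (q_cons (Vale.Agent.P032.Lt.q R0Q008.q156_0) q_nil))

theorem p157 : Pat 73 73 TBm TCm (CB.map Fm) R0Q008.P157 R0Q008.I157 := Vale.Agent.P032.Lt.pat_eq (E' := R0Q008.E) eB (pat_step (by decide +kernel) (q_cons (Vale.Agent.P032.Lt.q R0Q008.q157_0) q_nil))

theorem p158 : Pat 73 73 TBm TCm (CB.map Fm) R0Q009.P158 R0Q009.I158 := Vale.Agent.P032.Lt.pat_eq (E' := R0Q009.E) eB (pat_step (by decide +kernel) (q_cons (Vale.Agent.P032.Lt.q R0Q009.q158_0) (q_cons (Vale.Agent.P032.Lt.q R0Q009.q158_1) (q_cons (Vale.Agent.P032.Lt.q R0Q009.q158_2) q_nil))))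

theorem p159 : Pat 73 73 TBm TCm (CB.map Fm) R0Q009.P159 R0Q009.I159 := Vale.Agent.P032.Lt.pat_eq (E' := R0Q009.E) eB (pat_step (by decide +kernel) (q_cons (Vale.Agent.P032.Lt.q R0Q009.q159_0) (q_cons (Vale.Agent.P032.Lt.q R0Q009.q159_1) (q_cons (Vale.Agent.P032.Lt.q R0Q009.q159_2) (q_cons (Vale.Agent.P032.Lt.q R0Q009.q159_3) (q_cons (Vale.Agent.P032.Lt.q R0Q009.q159_4) (q_cons (Vale.Agent.P032.Lt.q R0Q009.q159_5) (q_cons (Vale.Agent.P032.Lt.q R0Q009.q159_6) q_nil))))))))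

theorem p160 : Pat 73 73 TBm TCm (CB.map Fm) R0Q009.P160 R0Q009.I160 := Vale.Agent.P032.Lt.pat_eq (E' := R0Q009.E) eB (pat_step (by decide +kernel) (q_cons (Vale.Agent.P032.Lt.q R0Q009.q160_0) q_nil))

theorem p161 : Pat 73 73 TBm TCm (CB.map Fm) R0Q009.P161 R0Q009.I161 := Vale.Agent.P032.Lt.pat_eq (E' := R0Q009.E) eB (pat_step (by decide +kernel) (q_cons (Vale.Agent.P032.Lt.q R0Q009.q161_0) q_nil))

theorem p162 : Pat 73 73 TBm TCm (CB.map Fm) R0Q009.P162 R0Q009.I162 := Vale.Agent.P032.Lt.pat_eq (E' := R0Q009.E) eB (pat_step (by decide +kernel) (q_cons (Vale.Agent.P032.Lt.q R0Q009.q162_0) (q_cons (Vale.Agent.P032.Lt.q R0Q009.q162_1) q_nil)))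

theorem p163 : Pat 73 73 TBm TCm (CB.map Fm) R0Q009.P163 R0Q009.I163 := Vale.Agent.P032.Lt.pat_eq (E' := R0Q009.E) eB (pat_step (by decide +kernel) (q_cons (Vale.Agent.P032.Lt.q R0Q009.q163_0) (q_cons (Vale.Agent.P032.Lt.q R0Q009.q163_1) q_nil)))

theorem p164 : Pat 73 73 TBm TCm (CB.map Fm) R0Q009.P164 R0Q009.I164 := Vale.Agent.P032.Lt.pat_eq (E' := R0Q009.E) eB (pat_step (by decide +kernel) (q_cons (Vale.Agent.P032.Lt.q R0Q009.q164_0) (q_cons (Vale.Agent.P032.Lt.q R0Q009.q164_1) q_nil)))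

theorem p165 : Pat 73 73 TBm TCm (CB.map Fm) R0Q009.P165 R0Q009.I165 := Vale.Agent.P032.Lt.pat_eq (E' := R0Q009.E) eB (pat_step (by decide +kernel) (q_cons (Vale.Agent.P032.Lt.q R0Q009.q165_0) (q_cons (Vale.Agent.P032.Lt.q R0Q009.q165_1) (q_cons (Vale.Agent.P032.Lt.q R0Q009.q165_2) (q_cons (Vale.Agent.P032.Lt.q R0Q009.q165_3) (q_cons (Vale.Agent.P032.Lt.q R0Q009.q165_4) (q_cons (Vale.Agent.P032.Lt.q R0Q009.q165_5) (q_cons (Vale.Agent.P032.Lt.q R0Q009.q165_6) (q_cons (Vale.Agent.P032.Lt.q R0Q009.q165_7) (q_cons (Vale.Agent.P032.Lt.q R0Q009.q165_8) (q_cons (Vale.Agent.P032.Lt.q R0Q009.q165_9) q_nil)))))))))))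

theorem p166 : Pat 73 73 TBm TCm (CB.map Fm) R0Q009.P166 R0Q009.I166 := Vale.Agent.P032.Lt.pat_eq (E' := R0Q009.E) eB (pat_step (by decide +kernel) (q_cons (Vale.Agent.P032.Lt.q R0Q009.q166_0) (q_cons (Vale.Agent.P032.Lt.q R0Q009.q166_1) (q_cons (Vale.Agent.P032.Lt.q R0Q009.q166_2) (q_cons (Vale.Agent.P032.Lt.q R0Q009.q166_3) q_nil)))))

theorem p167 : Pat 73 73 TBm TCm (CB.map Fm) R0Q009.P167 R0Q009.I167 := Vale.Agent.P032.Lt.pat_eq (E' := R0Q009.E) eB (pat_step (by decide +kernel) (q_cons (Vale.Agent.P032.Lt.q R0Q009.q167_0) q_nil))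

theorem p168 : Pat 73 73 TBm TCm (CB.map Fm) R0Q009.P168 R0Q009.I168 := Vale.Agent.P032.Lt.pat_eq (E' := R0Q009.E) eB (pat_step (by decide +kernel) (q_cons (Vale.Agent.P032.Lt.q R0Q009.q168_0) q_nil))

theorem p169 : Pat 73 73 TBm TCm (CB.map Fm) R0Q009.P169 R0Q009.I169 := Vale.Agent.P032.Lt.pat_eq (E' := R0Q009.E) eB (pat_step (by decide +kernel) (q_cons (Vale.Agent.P032.Lt.q R0Q009.q169_0) q_nil))

theorem p170 : Pat 73 73 TBm TCm (CB.map Fm) R0Q009.P170 R0Q009.I170 := Vale.Agent.P032.Lt.pat_eq (E' := R0Q009.E) eB (pat_step (by decide +kernel) (q_cons (Vale.Agent.P032.Lt.q R0Q009.q170_0) (q_cons (Vale.Agent.P032.Lt.q R0Q009.q170_1) (q_cons (Vale.Agent.P032.Lt.q R0Q009.q170_2) q_nil))))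

theorem p171 : Pat 73 73 TBm TCm (CB.map Fm) R0Q009.P171 R0Q009.I171 := Vale.Agent.P032.Lt.pat_eq (E' := R0Q009.E) eB (pat_step (by decide +kernel) (q_cons (Vale.Agent.P032.Lt.q R0Q009.q171_0) (q_cons (Vale.Agent.P032.Lt.q R0Q009.q171_1) (q_cons (Vale.Agent.P032.Lt.q R0Q009.q171_2) q_nil))))

theorem p172 : Pat 73 73 TBm TCm (CB.map Fm) R0Q009.P172 R0Q009.I172 := Vale.Agent.P032.Lt.pat_eq (E' := R0Q009.E) eB (pat_step (by decide +kernel) (q_cons (Vale.Agent.P032.Lt.q R0Q009.q172_0) (q_cons (Vale.Agent.P032.Lt.q R0Q009.q172_1) q_nil)))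

theorem p173 : Pat 73 73 TBm TCm (CB.map Fm) R0Q009.P173 R0Q009.I173 := Vale.Agent.P032.Lt.pat_eq (E' := R0Q009.E) eB (pat_step (by decide +kernel) (q_cons (Vale.Agent.P032.Lt.q R0Q009.q173_0) (q_cons (Vale.Agent.P032.Lt.q R0Q009.q173_1) q_nil)))

theorem p174 : Pat 73 73 TBm TCm (CB.map Fm) R0Q009.P174 R0Q009.I174 := Vale.Agent.P032.Lt.pat_eq (E' := R0Q009.E) eB (pat_step (by decide +kernel) (q_cons (Vale.Agent.P032.Lt.q R0Q009.q174_0) (q_cons (Vale.Agent.P032.Lt.q R0Q009.q174_1) q_nil)))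

theorem p175 : Pat 73 73 TBm TCm (CB.map Fm) R0Q009.P175 R0Q009.I175 := Vale.Agent.P032.Lt.pat_eq (E' := R0Q009.E) eB (pat_step (by decide +kernel) (q_cons (Vale.Agent.P032.Lt.q R0Q009.q175_0) q_nil))

theorem p176 : Pat 73 73 TBm TCm (CB.map Fm) R0Q009.P176 R0Q009.I176 := Vale.Agent.P032.Lt.pat_eq (E' := R0Q009.E) eB (pat_step (by decide +kernel) (q_cons (Vale.Agent.P032.Lt.q R0Q009.q176_0) q_nil))

theorem p177 : Pat 73 73 TBm TCm (CB.map Fm) R0Q009.P177 R0Q009.I177 := Vale.Agent.P032.Lt.pat_eq (E' := R0Q009.E) eB (pat_step (by decide +kernel) (q_cons (Vale.Agent.P032.Lt.q R0Q009.q177_0) q_nil))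

theorem p178 : Pat 73 73 TBm TCm (CB.map Fm) R0Q009.P178 R0Q009.I178 := Vale.Agent.P032.Lt.pat_eq (E' := R0Q009.E) eB (pat_step (by decide +kernel) (q_cons (Vale.Agent.P032.Lt.q R0Q009.q178_0) (q_cons (Vale.Agent.P032.Lt.q R0Q009.q178_1) q_nil)))

theorem p179 : Pat 73 73 TBm TCm (CB.map Fm) R0Q009.P179 R0Q009.I179 := Vale.Agent.P032.Lt.pat_eq (E' := R0Q009.E) eB (pat_step (by decide +kernel) (q_cons (Vale.Agent.P032.Lt.q R0Q009.q179_0) (q_cons (Vale.Agent.P032.Lt.q R0Q009.q179_1) q_nil)))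

theorem p180 : Pat 73 73 TBm TCm (CB.map Fm) R0Q009.P180 R0Q009.I180 := Vale.Agent.P032.Lt.pat_eq (E' := R0Q009.E) eB (pat_step (by decide +kernel) (q_cons (Vale.Agent.P032.Lt.q R0Q009.q180_0) q_nil))

def C181 : List ℕ := [0, 4, 8, 12, 16, 20, 24, 475137, 606209, 737281]
theorem p181 : Pat 73 73 TBm TCm (C181.map Fm) R0Q009.P181 R0Q009.I181 := Vale.Agent.P032.Lt.pat_eq (E' := R0Q009.E181) (by decide +kernel) (pat_step (by decide +kernel) (q_cons (Vale.Agent.P032.Lt.q R0Q009.q181_0) (q_cons (Vale.Agent.P032.Lt.q R0Q009.q181_1) q_nil)))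

theorem p182 : Pat 73 73 TBm TCm (CB.map Fm) R0Q009.P182 R0Q009.I182 := Vale.Agent.P032.Lt.pat_eq (E' := R0Q009.E) eB (pat_step (by decide +kernel) (q_cons (Vale.Agent.P032.Lt.q R0Q009.q182_0) q_nil))

theorem p183 : Pat 73 73 TBm TCm (CB.map Fm) R0Q009.P183 R0Q009.I183 := Vale.Agent.P032.Lt.pat_eq (E' := R0Q009.E) eB (pat_step (by decide +kernel) (q_cons (Vale.Agent.P032.Lt.q R0Q009.q183_0) (q_cons (Vale.Agent.P032.Lt.q R0Q009.q183_1) (q_cons (Vale.Agent.P032.Lt.q R0Q009.q183_2) (q_cons (Vale.Agent.P032.Lt.q R0Q009.q183_3) (q_cons (Vale.Agent.P032.Lt.q R0Q009.q183_4) q_nil))))))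

theorem p184 : Pat 73 73 TBm TCm (CB.map Fm) R0Q009.P184 R0Q009.I184 := Vale.Agent.P032.Lt.pat_eq (E' := R0Q009.E) eB (pat_step (by decide +kernel) (q_cons (Vale.Agent.P032.Lt.q R0Q009.q184_0) q_nil))

def C185 : List ℕ := [0, 4, 8, 12, 16, 20, 24, 82945, 84993, 214017, 344065, 476161, 606209, 737281]
theorem p185 : Pat 73 73 TBm TCm (C185.map Fm) R0Q009.P185 R0Q009.I185 := Vale.Agent.P032.Lt.pat_eq (E' := R0Q009.E185) (by decide +kernel) (pat_step (by decide +kernel) (q_cons (Vale.Agent.P032.Lt.q R0Q009.q185_0) q_nil))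

def C186 : List ℕ := [0, 4, 8, 12, 16, 20, 24, 212993, 220161, 482305, 606209, 737281]
theorem p186 : Pat 73 73 TBm TCm (C186.map Fm) R0Q009.P186 R0Q009.I186 := Vale.Agent.P032.Lt.pat_eq (E' := R0Q009.E186) (by decide +kernel) (pat_step (by decide +kernel) (q_cons (Vale.Agent.P032.Lt.q R0Q009.q186_0) q_nil))

theorem p187 : Pat 73 73 TBm TCm (CB.map Fm) R0Q009.P187 R0Q009.I187 := Vale.Agent.P032.Lt.pat_eq (E' := R0Q009.E) eB (pat_step (by decide +kernel) (q_cons (Vale.Agent.P032.Lt.q R0Q009.q187_0) q_nil))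

theorem p188 : Pat 73 73 TBm TCm (CB.map Fm) R0Q009.P188 R0Q009.I188 := Vale.Agent.P032.Lt.pat_eq (E' := R0Q009.E) eB (pat_step (by decide +kernel) (q_cons (Vale.Agent.P032.Lt.q R0Q009.q188_0) q_nil))

theorem p189 : Pat 73 73 TBm TCm (CB.map Fm) R0Q009.P189 R0Q009.I189 := Vale.Agent.P032.Lt.pat_eq (E' := R0Q009.E) eB (pat_step (by decide +kernel) (q_cons (Vale.Agent.P032.Lt.q R0Q009.q189_0) (q_cons (Vale.Agent.P032.Lt.q R0Q009.q189_1) q_nil)))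

theorem p190 : Pat 73 73 TBm TCm (CB.map Fm) R0Q009.P190 R0Q009.I190 := Vale.Agent.P032.Lt.pat_eq (E' := R0Q009.E) eB (pat_step (by decide +kernel) (q_cons (Vale.Agent.P032.Lt.q R0Q009.q190_0) (q_cons (Vale.Agent.P032.Lt.q R0Q009.q190_1) (q_cons (Vale.Agent.P032.Lt.q R0Q009.q190_2) q_nil))))

theorem p191 : Pat 73 73 TBm TCm (CB.map Fm) R0Q009.P191 R0Q009.I191 := Vale.Agent.P032.Lt.pat_eq (E' := R0Q009.E) eB (pat_step (by decide +kernel) (q_cons (Vale.Agent.P032.Lt.q R0Q009.q191_0) (q_cons (Vale.Agent.P032.Lt.q R0Q009.q191_1) (q_cons (Vale.Agent.P032.Lt.q R0Q009.q191_2) q_nil))))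

theorem p192 : Pat 73 73 TBm TCm (CB.map Fm) R0Q009.P192 R0Q009.I192 := Vale.Agent.P032.Lt.pat_eq (E' := R0Q009.E) eB (pat_step (by decide +kernel) (q_cons (Vale.Agent.P032.Lt.q R0Q009.q192_0) (q_cons (Vale.Agent.P032.Lt.q R0Q009.q192_1) (q_cons (Vale.Agent.P032.Lt.q R0Q009.q192_2) (q_cons (Vale.Agent.P032.Lt.q R0Q009.q192_3) (q_cons (Vale.Agent.P032.Lt.q R0Q009.q192_4) (q_cons (Vale.Agent.P032.Lt.q R0Q009.q192_5) (q_cons (Vale.Agent.P032.Lt.q R0Q009.q192_6) (q_cons (Vale.Agent.P032.Lt.q R0Q009.q192_7) (q_cons (Vale.Agent.P032.Lt.q R0Q009.q192_8) (q_cons (Vale.Agent.P032.Lt.q R0Q009.q192_9) (q_cons (Vale.Agent.P032.Lt.q R0Q009.q192_10) q_nil))))))))))))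

theorem p193 : Pat 73 73 TBm TCm (CB.map Fm) R0Q009.P193 R0Q009.I193 := Vale.Agent.P032.Lt.pat_eq (E' := R0Q009.E) eB (pat_step (by decide +kernel) (q_cons (Vale.Agent.P032.Lt.q R0Q009.q193_0) q_nil))

theorem p194 : Pat 73 73 TBm TCm (CB.map Fm) R0Q009.P194 R0Q009.I194 := Vale.Agent.P032.Lt.pat_eq (E' := R0Q009.E) eB (pat_step (by decide +kernel) (q_cons (Vale.Agent.P032.Lt.q R0Q009.q194_0) (q_cons (Vale.Agent.P032.Lt.q R0Q009.q194_1) q_nil)))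

theorem p195 : Pat 73 73 TBm TCm (CB.map Fm) R0Q009.P195 R0Q009.I195 := Vale.Agent.P032.Lt.pat_eq (E' := R0Q009.E) eB (pat_step (by decide +kernel) (q_cons (Vale.Agent.P032.Lt.q R0Q009.q195_0) (q_cons (Vale.Agent.P032.Lt.q R0Q009.q195_1) (q_cons (Vale.Agent.P032.Lt.q R0Q009.q195_2) q_nil))))

theorem p196 : Pat 73 73 TBm TCm (CB.map Fm) R0Q009.P196 R0Q009.I196 := Vale.Agent.P032.Lt.pat_eq (E' := R0Q009.E) eB (pat_step (by decide +kernel) (q_cons (Vale.Agent.P032.Lt.q R0Q009.q196_0) (q_cons (Vale.Agent.P032.Lt.q R0Q009.q196_1) (q_cons (Vale.Agent.P032.Lt.q R0Q009.q196_2) (q_cons (Vale.Agent.P032.Lt.q R0Q009.q196_3) (q_cons (Vale.Agent.P032.Lt.q R0Q009.q196_4) (q_cons (Vale.Agent.P032.Lt.q R0Q009.q196_5) (q_cons (Vale.Agent.P032.Lt.q R0Q009.q196_6) (q_cons (Vale.Agent.P032.Lt.q R0Q009.q196_7) q_nil)))))))))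

theorem p197 : Pat 73 73 TBm TCm (CB.map Fm) R0Q009.P197 R0Q009.I197 := Vale.Agent.P032.Lt.pat_eq (E' := R0Q009.E) eB (pat_step (by decide +kernel) (q_cons (Vale.Agent.P032.Lt.q R0Q009.q197_0) (q_cons (Vale.Agent.P032.Lt.q R0Q009.q197_1) q_nil)))

theorem p198 : Pat 73 73 TBm TCm (CB.map Fm) R0Q009.P198 R0Q009.I198 := Vale.Agent.P032.Lt.pat_eq (E' := R0Q009.E) eB (pat_step (by decide +kernel) (q_cons (Vale.Agent.P032.Lt.q R0Q009.q198_0) q_nil))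

theorem p199 : Pat 73 73 TBm TCm (CB.map Fm) R0Q009.P199 R0Q009.I199 := Vale.Agent.P032.Lt.pat_eq (E' := R0Q009.E) eB (pat_step (by decide +kernel) (q_cons (Vale.Agent.P032.Lt.q R0Q009.q199_0) q_nil))

theorem p200 : Pat 73 73 TBm TCm (CB.map Fm) R0Q009.P200 R0Q009.I200 := Vale.Agent.P032.Lt.pat_eq (E' := R0Q009.E) eB (pat_step (by decide +kernel) (q_cons (Vale.Agent.P032.Lt.q R0Q009.q200_0) q_nil))

theorem p201 : Pat 73 73 TBm TCm (CB.map Fm) R0Q009.P201 R0Q009.I201 := Vale.Agent.P032.Lt.pat_eq (E' := R0Q009.E) eB (pat_step (by decide +kernel) (q_cons (Vale.Agent.P032.Lt.q R0Q009.q201_0) (q_cons (Vale.Agent.P032.Lt.q R0Q009.q201_1) (q_cons (Vale.Agent.P032.Lt.q R0Q009.q201_2) (q_cons (Vale.Agent.P032.Lt.q R0Q009.q201_3) q_nil)))))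

theorem p202 : Pat 73 73 TBm TCm (CB.map Fm) R0Q009.P202 R0Q009.I202 := Vale.Agent.P032.Lt.pat_eq (E' := R0Q009.E) eB (pat_step (by decide +kernel) (q_cons (Vale.Agent.P032.Lt.q R0Q009.q202_0) (q_cons (Vale.Agent.P032.Lt.q R0Q009.q202_1) q_nil)))

def C203 : List ℕ := [0, 4, 8, 12, 16, 20, 24, 83969, 215041, 346113, 477185, 608257, 610305]
theorem p203 : Pat 73 73 TBm TCm (C203.map Fm) R0Q009.P203 R0Q009.I203 := Vale.Agent.P032.Lt.pat_eq (E' := R0Q009.E203) (by decide +kernel) (pat_step (by decide +kernel) (q_cons (Vale.Agent.P032.Lt.q R0Q009.q203_0) (q_cons (Vale.Agent.P032.Lt.q R0Q009.q203_1) q_nil)))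

theorem p204 : Pat 73 73 TBm TCm (CB.map Fm) R0Q009.P204 R0Q009.I204 := Vale.Agent.P032.Lt.pat_eq (E' := R0Q009.E) eB (pat_step (by decide +kernel) (q_cons (Vale.Agent.P032.Lt.q R0Q009.q204_0) (q_cons (Vale.Agent.P032.Lt.q R0Q009.q204_1) q_nil)))

theorem p205 : Pat 73 73 TBm TCm (CB.map Fm) R0Q010.P205 R0Q010.I205 := Vale.Agent.P032.Lt.pat_eq (E' := R0Q010.E) eB (pat_step (by decide +kernel) (q_cons (Vale.Agent.P032.Lt.q R0Q010.q205_0) q_nil))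

theorem p206 : Pat 73 73 TBm TCm (CB.map Fm) R0Q010.P206 R0Q010.I206 := Vale.Agent.P032.Lt.pat_eq (E' := R0Q010.E) eB (pat_step (by decide +kernel) (q_cons (Vale.Agent.P032.Lt.q R0Q010.q206_0) (q_cons (Vale.Agent.P032.Lt.q R0Q010.q206_1) (q_cons (Vale.Agent.P032.Lt.q R0Q010.q206_2) q_nil))))

theorem p207 : Pat 73 73 TBm TCm (CB.map Fm) R0Q010.P207 R0Q010.I207 := Vale.Agent.P032.Lt.pat_eq (E' := R0Q010.E) eB (pat_step (by decide +kernel) (q_cons (Vale.Agent.P032.Lt.q R0Q010.q207_0) (q_cons (Vale.Agent.P032.Lt.q R0Q010.q207_1) q_nil)))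

theorem p208 : Pat 73 73 TBm TCm (CB.map Fm) R0Q010.P208 R0Q010.I208 := Vale.Agent.P032.Lt.pat_eq (E' := R0Q010.E) eB (pat_step (by decide +kernel) (q_cons (Vale.Agent.P032.Lt.q R0Q010.q208_0) (q_cons (Vale.Agent.P032.Lt.q R0Q010.q208_1) q_nil)))

theorem p209 : Pat 73 73 TBm TCm (CB.map Fm) R0Q010.P209 R0Q010.I209 := Vale.Agent.P032.Lt.pat_eq (E' := R0Q010.E) eB (pat_step (by decide +kernel) (q_cons (Vale.Agent.P032.Lt.q R0Q010.q209_0) (q_cons (Vale.Agent.P032.Lt.q R0Q010.q209_1) q_nil)))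

theorem p210 : Pat 73 73 TBm TCm (CB.map Fm) R0Q010.P210 R0Q010.I210 := Vale.Agent.P032.Lt.pat_eq (E' := R0Q010.E) eB (pat_step (by decide +kernel) (q_cons (Vale.Agent.P032.Lt.q R0Q010.q210_0) (q_cons (Vale.Agent.P032.Lt.q R0Q010.q210_1) (q_cons (Vale.Agent.P032.Lt.q R0Q010.q210_2) (q_cons (Vale.Agent.P032.Lt.q R0Q010.q210_3) (q_cons (Vale.Agent.P032.Lt.q R0Q010.q210_4) q_nil))))))

theorem p211 : Pat 73 73 TBm TCm (CB.map Fm) R0Q010.P211 R0Q010.I211 := Vale.Agent.P032.Lt.pat_eq (E' := R0Q010.E) eB (pat_step (by decide +kernel) (q_cons (Vale.Agent.P032.Lt.q R0Q010.q211_0) (q_cons (Vale.Agent.P032.Lt.q R0Q010.q211_1) (q_cons (Vale.Agent.P032.Lt.q R0Q010.q211_2) q_nil))))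

theorem p212 : Pat 73 73 TBm TCm (CB.map Fm) R0Q010.P212 R0Q010.I212 := Vale.Agent.P032.Lt.pat_eq (E' := R0Q010.E) eB (pat_step (by decide +kernel) (q_cons (Vale.Agent.P032.Lt.q R0Q010.q212_0) (q_cons (Vale.Agent.P032.Lt.q R0Q010.q212_1) (q_cons (Vale.Agent.P032.Lt.q R0Q010.q212_2) (q_cons (Vale.Agent.P032.Lt.q R0Q010.q212_3) (q_cons (Vale.Agent.P032.Lt.q R0Q010.q212_4) (q_cons (Vale.Agent.P032.Lt.q R0Q010.q212_5) (q_cons (Vale.Agent.P032.Lt.q R0Q010.q212_6) q_nil))))))))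

theorem p213 : Pat 73 73 TBm TCm (CB.map Fm) R0Q010.P213 R0Q010.I213 := Vale.Agent.P032.Lt.pat_eq (E' := R0Q010.E) eB (pat_step (by decide +kernel) (q_cons (Vale.Agent.P032.Lt.q R0Q010.q213_0) (q_cons (Vale.Agent.P032.Lt.q R0Q010.q213_1) (q_cons (Vale.Agent.P032.Lt.q R0Q010.q213_2) (q_cons (Vale.Agent.P032.Lt.q R0Q010.q213_3) (q_cons (Vale.Agent.P032.Lt.q R0Q010.q213_4) q_nil))))))

theorem p214 : Pat 73 73 TBm TCm (CB.map Fm) R0Q010.P214 R0Q010.I214 := Vale.Agent.P032.Lt.pat_eq (E' := R0Q010.E) eB (pat_step (by decide +kernel) (q_cons (Vale.Agent.P032.Lt.q R0Q010.q214_0) (q_cons (Vale.Agent.P032.Lt.q R0Q010.q214_1) q_nil)))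

theorem p215 : Pat 73 73 TBm TCm (CB.map Fm) R0Q010.P215 R0Q010.I215 := Vale.Agent.P032.Lt.pat_eq (E' := R0Q010.E) eB (pat_step (by decide +kernel) (q_cons (Vale.Agent.P032.Lt.q R0Q010.q215_0) (q_cons (Vale.Agent.P032.Lt.q R0Q010.q215_1) (q_cons (Vale.Agent.P032.Lt.q R0Q010.q215_2) (q_cons (Vale.Agent.P032.Lt.q R0Q010.q215_3) (q_cons (Vale.Agent.P032.Lt.q R0Q010.q215_4) (q_cons (Vale.Agent.P032.Lt.q R0Q010.q215_5) q_nil)))))))

theorem p216 : Pat 73 73 TBm TCm (CB.map Fm) R0Q010.P216 R0Q010.I216 := Vale.Agent.P032.Lt.pat_eq (E' := R0Q010.E) eB (pat_step (by decide +kernel) (q_cons (Vale.Agent.P032.Lt.q R0Q010.q216_0) (q_cons (Vale.Agent.P032.Lt.q R0Q010.q216_1) (q_cons (Vale.Agent.P032.Lt.q R0Q010.q216_2) (q_cons (Vale.Agent.P032.Lt.q R0Q010.q216_3) (q_cons (Vale.Agent.P032.Lt.q R0Q010.q216_4) (q_cons (Vale.Agent.P032.Lt.q R0Q010.q216_5) q_nil)))))))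

theorem p217 : Pat 73 73 TBm TCm (CB.map Fm) R0Q010.P217 R0Q010.I217 := Vale.Agent.P032.Lt.pat_eq (E' := R0Q010.E) eB (pat_step (by decide +kernel) (q_cons (Vale.Agent.P032.Lt.q R0Q010.q217_0) (q_cons (Vale.Agent.P032.Lt.q R0Q010.q217_1) (q_cons (Vale.Agent.P032.Lt.q R0Q010.q217_2) (q_cons (Vale.Agent.P032.Lt.q R0Q010.q217_3) (q_cons (Vale.Agent.P032.Lt.q R0Q010.q217_4) (q_cons (Vale.Agent.P032.Lt.q R0Q010.q217_5) q_nil)))))))

theorem p218 : Pat 73 73 TBm TCm (CB.map Fm) R0Q010.P218 R0Q010.I218 := Vale.Agent.P032.Lt.pat_eq (E' := R0Q010.E) eB (pat_step (by decide +kernel) (q_cons (Vale.Agent.P032.Lt.q R0Q010.q218_0) (q_cons (Vale.Agent.P032.Lt.q R0Q010.q218_1) (q_cons (Vale.Agent.P032.Lt.q R0Q010.q218_2) q_nil))))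

theorem p219 : Pat 73 73 TBm TCm (CB.map Fm) R0Q010.P219 R0Q010.I219 := Vale.Agent.P032.Lt.pat_eq (E' := R0Q010.E) eB (pat_step (by decide +kernel) (q_cons (Vale.Agent.P032.Lt.q R0Q010.q219_0) (q_cons (Vale.Agent.P032.Lt.q R0Q010.q219_1) (q_cons (Vale.Agent.P032.Lt.q R0Q010.q219_2) (q_cons (Vale.Agent.P032.Lt.q R0Q010.q219_3) q_nil)))))

theorem p220 : Pat 73 73 TBm TCm (CB.map Fm) R0Q010.P220 R0Q010.I220 := Vale.Agent.P032.Lt.pat_eq (E' := R0Q010.E) eB (pat_step (by decide +kernel) (q_cons (Vale.Agent.P032.Lt.q R0Q010.q220_0) (q_cons (Vale.Agent.P032.Lt.q R0Q010.q220_1) (q_cons (Vale.Agent.P032.Lt.q R0Q010.q220_2) (q_cons (Vale.Agent.P032.Lt.q R0Q010.q220_3) (q_cons (Vale.Agent.P032.Lt.q R0Q010.q220_4) (q_cons (Vale.Agent.P032.Lt.q R0Q010.q220_5) (q_cons (Vale.Agent.P032.Lt.q R0Q010.q220_6) (q_cons (Vale.Agent.P032.Lt.q R0Q010.q220_7) (q_cons (Vale.Agent.P032.Lt.q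 R0Q010.q220_8) (q_cons (Vale.Agent.P032.Lt.q R0Q010.q220_9) (q_cons (Vale.Agent.P032.Lt.q R0Q010.q220_10) (q_cons (Vale.Agent.P032.Lt.q R0Q010.q220_11) (q_cons (Vale.Agent.P032.Lt.q R0Q010.q220_12) (q_cons (Vale.Agent.P032.Lt.q R0Q010.q220_13) (q_cons (Vale.Agent.P032.Lt.q R0Q010.q220_14) (q_cons (Vale.Agent.P032.Lt.q R0Q010.q220_15) (q_cons (Vale.Agent.P032.Lt.q R0Q010.q220_16) (q_cons (Vale.Agent.P032.Lt.q R0Q010.q220_17) (q_cons (Vale.Agent.P032.Lt.q R0Q010.q220_18) (q_cons (Vale.Agent.P032.Lt.q R0Q010.q220_19) (q_cons (Vale.Agent.P032.Lt.q R0Q010.q220_20) (q_cons (Vale.Agent.P032.Lt.q R0Q010.q220_21) (q_cons (Vale.Agent.P032.Lt.q R0Q010.q220_22) q_nil))))))))))))))))))))))))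

theorem p221 : Pat 73 73 TBm TCm (CB.map Fm) R0Q011.P221 R0Q011.I221 := Vale.Agent.P032.Lt.pat_eq (E' := R0Q011.E) eB (pat_step (by decide +kernel) (q_cons (Vale.Agent.P032.Lt.q R0Q011.q221_0) (q_cons (Vale.Agent.P032.Lt.q R0Q011.q221_1) (q_cons (Vale.Agent.P032.Lt.q R0Q011.q221_2) (q_cons (Vale.Agent.P032.Lt.q R0Q011.q221_3) (q_cons (Vale.Agent.P032.Lt.q R0Q011.q221_4) (q_cons (Vale.Agent.P032.Lt.q R0Q011.q221_5) (q_cons (Vale.Agent.P032.Lt.q R0Q011.q221_6) (q_cons (Vale.Agent.P032.Lt.q R0Q011.q221_7) (q_cons (Vale.Agent.P032.Lt.q R0Q011.q221_8) (q_cons (Vale.Agent.P032.Lt.q R0Q011.q221_9) (q_cons (Vale.Agent.P032.Lt.q R0Q011.q221_10) (q_cons (Vale.Agent.P032.Lt.q R0Q011.q221_11) (q_cons (Vale.Agent.P032.Lt.q R0Q011.q221_12) (q_cons (Vale.Agent.P032.Lt.q R0Q011.q221_13) (q_cons (Vale.Agent.P032.Lt.q R0Q011.q221_14) (q_cons (Vale.Agent.P032.Lt.q R0Q011.q221_15) (q_cons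 (Vale.Agent.P032.Lt.q R0Q011.q221_16) (q_cons (Vale.Agent.P032.Lt.q R0Q011.q221_17) (q_cons (Vale.Agent.P032.Lt.q R0Q011.q221_18) (q_cons (Vale.Agent.P032.Lt.q R0Q011.q221_19) (q_cons (Vale.Agent.P032.Lt.q R0Q011.q221_20) (q_cons (Vale.Agent.P032.Lt.q R0Q011.q221_21) (q_cons (Vale.Agent.P032.Lt.q R0Q011.q221_22) (q_cons (Vale.Agent.P032.Lt.q R0Q011.q221_23) (q_cons (Vale.Agent.P032.Lt.q R0Q011.q221_24) (q_cons (Vale.Agent.P032.Lt.q R0Q011.q221_25) (q_cons (Vale.Agent.P032.Lt.q R0Q011.q221_26) (q_cons (Vale.Agent.P032.Lt.q R0Q011.q221_27) (q_cons (Vale.Agent.P032.Lt.q R0Q011.q221_28) (q_cons (Vale.Agent.P032.Lt.q R0Q011.q221_29) (q_cons (Vale.Agent.P032.Lt.q R0Q011.q221_30) q_nil))))))))))))))))))))))))))))))))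

theorem p222 : Pat 73 73 TBm TCm (CB.map Fm) R0Q011.P222 R0Q011.I222 := Vale.Agent.P032.Lt.pat_eq (E' := R0Q011.E) eB (pat_step (by decide +kernel) (q_cons (Vale.Agent.P032.Lt.q R0Q011.q222_0) (q_cons (Vale.Agent.P032.Lt.q R0Q011.q222_1) (q_cons (Vale.Agent.P032.Lt.q R0Q011.q222_2) (q_cons (Vale.Agent.P032.Lt.q R0Q011.q222_3) (q_cons (Vale.Agent.P032.Lt.q R0Q011.q222_4) (q_cons (Vale.Agent.P032.Lt.q R0Q011.q222_5) (q_cons (Vale.Agent.P032.Lt.q R0Q011.q222_6) (q_cons (Vale.Agent.P032.Lt.q R0Q011.q222_7) (q_cons (Vale.Agent.P032.Lt.q R0Q011.q222_8) (q_cons (Vale.Agent.P032.Lt.q R0Q011.q222_9) q_nil)))))))))))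

theorem p223 : Pat 73 73 TBm TCm (CB.map Fm) R0Q011.P223 R0Q011.I223 := Vale.Agent.P032.Lt.pat_eq (E' := R0Q011.E) eB (pat_step (by decide +kernel) (q_cons (Vale.Agent.P032.Lt.q R0Q011.q223_0) (q_cons (Vale.Agent.P032.Lt.q R0Q011.q223_1) (q_cons (Vale.Agent.P032.Lt.q R0Q011.q223_2) (q_cons (Vale.Agent.P032.Lt.q R0Q011.q223_3) q_nil)))))

theorem p224 : Pat 73 73 TBm TCm (CB.map Fm) R0Q011.P224 R0Q011.I224 := Vale.Agent.P032.Lt.pat_eq (E' := R0Q011.E) eB (pat_step (by decide +kernel) (q_cons (Vale.Agent.P032.Lt.q R0Q011.q224_0) (q_cons (Vale.Agent.P032.Lt.q R0Q011.q224_1) (q_cons (Vale.Agent.P032.Lt.q R0Q011.q224_2) (q_cons (Vale.Agent.P032.Lt.q R0Q011.q224_3) q_nil)))))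

theorem p225 : Pat 73 73 TBm TCm (CB.map Fm) R0Q011.P225 R0Q011.I225 := Vale.Agent.P032.Lt.pat_eq (E' := R0Q011.E) eB (pat_step (by decide +kernel) (q_cons (Vale.Agent.P032.Lt.q R0Q011.q225_0) q_nil))

theorem p226 : Pat 73 73 TBm TCm (CB.map Fm) R0Q011.P226 R0Q011.I226 := Vale.Agent.P032.Lt.pat_eq (E' := R0Q011.E) eB (pat_step (by decide +kernel) (q_cons (Vale.Agent.P032.Lt.q R0Q011.q226_0) q_nil))

theorem p227 : Pat 73 73 TBm TCm (CB.map Fm) R0Q011.P227 R0Q011.I227 := Vale.Agent.P032.Lt.pat_eq (E' := R0Q011.E) eB (pat_step (by decide +kernel) (q_cons (Vale.Agent.P032.Lt.q R0Q011.q227_0) (q_cons (Vale.Agent.P032.Lt.q R0Q011.q227_1) (q_cons (Vale.Agent.P032.Lt.q R0Q011.q227_2) q_nil))))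

theorem p228 : Pat 73 73 TBm TCm (CB.map Fm) R0Q011.P228 R0Q011.I228 := Vale.Agent.P032.Lt.pat_eq (E' := R0Q011.E) eB (pat_step (by decide +kernel) (q_cons (Vale.Agent.P032.Lt.q R0Q011.q228_0) (q_cons (Vale.Agent.P032.Lt.q R0Q011.q228_1) (q_cons (Vale.Agent.P032.Lt.q R0Q011.q228_2) q_nil))))

theorem p229 : Pat 73 73 TBm TCm (CB.map Fm) R0Q011.P229 R0Q011.I229 := Vale.Agent.P032.Lt.pat_eq (E' := R0Q011.E) eB (pat_step (by decide +kernel) (q_cons (Vale.Agent.P032.Lt.q R0Q011.q229_0) (q_cons (Vale.Agent.P032.Lt.q R0Q011.q229_1) (q_cons (Vale.Agent.P032.Lt.q R0Q011.q229_2) (q_cons (Vale.Agent.P032.Lt.q R0Q011.q229_3) q_nil)))))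

theorem p230 : Pat 73 73 TBm TCm (CB.map Fm) R0Q011.P230 R0Q011.I230 := Vale.Agent.P032.Lt.pat_eq (E' := R0Q011.E) eB (pat_step (by decide +kernel) (q_cons (Vale.Agent.P032.Lt.q R0Q011.q230_0) (q_cons (Vale.Agent.P032.Lt.q R0Q011.q230_1) (q_cons (Vale.Agent.P032.Lt.q R0Q011.q230_2) q_nil))))

theorem p231 : Pat 73 73 TBm TCm (CB.map Fm) R0Q011.P231 R0Q011.I231 := Vale.Agent.P032.Lt.pat_eq (E' := R0Q011.E) eB (pat_step (by decide +kernel) (q_cons (Vale.Agent.P032.Lt.q R0Q011.q231_0) q_nil))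

theorem p232 : Pat 73 73 TBm TCm (CB.map Fm) R0Q012.P232 R0Q012.I232 := Vale.Agent.P032.Lt.pat_eq (E' := R0Q012.E) eB (pat_step (by decide +kernel) (q_cons (Vale.Agent.P032.Lt.q R0Q012.q232_0) q_nil))

theorem p233 : Pat 73 73 TBm TCm (CB.map Fm) R0Q012.P233 R0Q012.I233 := Vale.Agent.P032.Lt.pat_eq (E' := R0Q012.E) eB (pat_step (by decide +kernel) (q_cons (Vale.Agent.P032.Lt.q R0Q012.q233_0) (q_cons (Vale.Agent.P032.Lt.q R0Q012.q233_1) q_nil)))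

theorem p234 : Pat 73 73 TBm TCm (CB.map Fm) R0Q012.P234 R0Q012.I234 := Vale.Agent.P032.Lt.pat_eq (E' := R0Q012.E) eB (pat_step (by decide +kernel) (q_cons (Vale.Agent.P032.Lt.q R0Q012.q234_0) (q_cons (Vale.Agent.P032.Lt.q R0Q012.q234_1) (q_cons (Vale.Agent.P032.Lt.q R0Q012.q234_2) q_nil))))

theorem p235 : Pat 73 73 TBm TCm (CB.map Fm) R0Q012.P235 R0Q012.I235 := Vale.Agent.P032.Lt.pat_eq (E' := R0Q012.E) eB (pat_step (by decide +kernel) (q_cons (Vale.Agent.P032.Lt.q R0Q012.q235_0) q_nil))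

theorem p236 : Pat 73 73 TBm TCm (CB.map Fm) R0Q012.P236 R0Q012.I236 := Vale.Agent.P032.Lt.pat_eq (E' := R0Q012.E) eB (pat_step (by decide +kernel) (q_cons (Vale.Agent.P032.Lt.q R0Q012.q236_0) q_nil))

theorem p237 : Pat 73 73 TBm TCm (CB.map Fm) R0Q012.P237 R0Q012.I237 := Vale.Agent.P032.Lt.pat_eq (E' := R0Q012.E) eB (pat_step (by decide +kernel) (q_cons (Vale.Agent.P032.Lt.q R0Q012.q237_0) q_nil))

theorem p238 : Pat 73 73 TBm TCm (CB.map Fm) R0Q012.P238 R0Q012.I238 := Vale.Agent.P032.Lt.pat_eq (E' := R0Q012.E) eB (pat_step (by decide +kernel) (q_cons (Vale.Agent.P032.Lt.q R0Q012.q238_0) q_nil))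

theorem p239 : Pat 73 73 TBm TCm (CB.map Fm) R0Q012.P239 R0Q012.I239 := Vale.Agent.P032.Lt.pat_eq (E' := R0Q012.E) eB (pat_step (by decide +kernel) (q_cons (Vale.Agent.P032.Lt.q R0Q012.q239_0) (q_cons (Vale.Agent.P032.Lt.q R0Q012.q239_1) q_nil)))

def C240 : List ℕ := [0, 4, 8, 12, 16, 20, 24, 84993]
theorem p240 : Pat 73 73 TBm TCm (C240.map Fm) R0Q012.P240 R0Q012.I240 := Vale.Agent.P032.Lt.pat_eq (E' := R0Q012.E240) (by decide +kernel) (pat_step (by decide +kernel) (q_cons (Vale.Agent.P032.Lt.q R0Q012.q240_0) q_nil))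

theorem p241 : Pat 73 73 TBm TCm (CB.map Fm) R0Q012.P241 [] := Vale.Agent.P032.Lt.pat_eq (E' := R0Q012.E) eB (pat_end (by decide +kernel) (Vale.Agent.P032.Lt.q R0Q012.q241))

theorem p242 : Pat 73 73 TBm TCm (CB.map Fm) R0Q012.P242 R0Q012.I242 := Vale.Agent.P032.Lt.pat_eq (E' := R0Q012.E) eB (pat_step (by decide +kernel) (q_cons (Vale.Agent.P032.Lt.q R0Q012.q242_0) q_nil))

theorem p243 : Pat 73 73 TBm TCm (CB.map Fm) R0Q012.P243 R0Q012.I243 := Vale.Agent.P032.Lt.pat_eq (E' := R0Q012.E) eB (pat_step (by decide +kernel) (q_cons (Vale.Agent.P032.Lt.q R0Q012.q243_0) q_nil))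

theorem p244 : Pat 73 73 TBm TCm (CB.map Fm) R0Q012.P244 R0Q012.I244 := Vale.Agent.P032.Lt.pat_eq (E' := R0Q012.E) eB (pat_step (by decide +kernel) (q_cons (Vale.Agent.P032.Lt.q R0Q012.q244_0) (q_cons (Vale.Agent.P032.Lt.q R0Q012.q244_1) q_nil)))

theorem p245 : Pat 73 73 TBm TCm (CB.map Fm) R0Q012.P245 R0Q012.I245 := Vale.Agent.P032.Lt.pat_eq (E' := R0Q012.E) eB (pat_step (by decide +kernel) (q_cons (Vale.Agent.P032.Lt.q R0Q012.q245_0) (q_cons (Vale.Agent.P032.Lt.q R0Q012.q245_1) (q_cons (Vale.Agent.P032.Lt.q R0Q012.q245_2) q_nil))))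

theorem p246 : Pat 73 73 TBm TCm (CB.map Fm) R0Q012.P246 R0Q012.I246 := Vale.Agent.P032.Lt.pat_eq (E' := R0Q012.E) eB (pat_step (by decide +kernel) (q_cons (Vale.Agent.P032.Lt.q R0Q012.q246_0) (q_cons (Vale.Agent.P032.Lt.q R0Q012.q246_1) (q_cons (Vale.Agent.P032.Lt.q R0Q012.q246_2) (q_cons (Vale.Agent.P032.Lt.q R0Q012.q246_3) q_nil)))))

theorem p247 : Pat 73 73 TBm TCm (CB.map Fm) R0Q012.P247 R0Q012.I247 := Vale.Agent.P032.Lt.pat_eq (E' := R0Q012.E) eB (pat_step (by decide +kernel) (q_cons (Vale.Agent.P032.Lt.q R0Q012.q247_0) (q_cons (Vale.Agent.P032.Lt.q R0Q012.q247_1) q_nil)))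

theorem p248 : Pat 73 73 TBm TCm (CB.map Fm) R0Q012.P248 R0Q012.I248 := Vale.Agent.P032.Lt.pat_eq (E' := R0Q012.E) eB (pat_step (by decide +kernel) (q_cons (Vale.Agent.P032.Lt.q R0Q012.q248_0) (q_cons (Vale.Agent.P032.Lt.q R0Q012.q248_1) q_nil)))

theorem p249 : Pat 73 73 TBm TCm (CB.map Fm) R0Q012.P249 R0Q012.I249 := Vale.Agent.P032.Lt.pat_eq (E' := R0Q012.E) eB (pat_step (by decide +kernel) (q_cons (Vale.Agent.P032.Lt.q R0Q012.q249_0) (q_cons (Vale.Agent.P032.Lt.q R0Q012.q249_1) q_nil)))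

theorem p250 : Pat 73 73 TBm TCm (CB.map Fm) R0Q012.P250 R0Q012.I250 := Vale.Agent.P032.Lt.pat_eq (E' := R0Q012.E) eB (pat_step (by decide +kernel) (q_cons (Vale.Agent.P032.Lt.q R0Q012.q250_0) (q_cons (Vale.Agent.P032.Lt.q R0Q012.q250_1) (q_cons (Vale.Agent.P032.Lt.q R0Q012.q250_2) (q_cons (Vale.Agent.P032.Lt.q R0Q012.q250_3) (q_cons (Vale.Agent.P032.Lt.q R0Q012.q250_4) q_nil))))))

def C251 : List ℕ := [0, 4, 8, 12, 16, 20, 24, 214017, 740353]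
theorem p251 : Pat 73 73 TBm TCm (C251.map Fm) R0Q012.P251 R0Q012.I251 := Vale.Agent.P032.Lt.pat_eq (E' := R0Q012.E251) (by decide +kernel) (pat_step (by decide +kernel) (q_cons (Vale.Agent.P032.Lt.q R0Q012.q251_0) (q_cons (Vale.Agent.P032.Lt.q R0Q012.q251_1) (q_cons (Vale.Agent.P032.Lt.q R0Q012.q251_2) (q_cons (Vale.Agent.P032.Lt.q R0Q012.q251_3) (q_cons (Vale.Agent.P032.Lt.q R0Q012.q251_4) (q_cons (Vale.Agent.P032.Lt.q R0Q012.q251_5) (q_cons (Vale.Agent.P032.Lt.q R0Q012.q251_6) (q_cons (Vale.Agent.P032.Lt.q R0Q012.q251_7) (q_cons (Vale.Agent.P032.Lt.q R0Q012.q251_8) (q_cons (Vale.Agent.P032.Lt.q R0Q012.q251_9) q_nil)))))))))))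

theorem p252 : Pat 73 73 TBm TCm (CB.map Fm) R0Q012.P252 R0Q012.I252 := Vale.Agent.P032.Lt.pat_eq (E' := R0Q012.E) eB (pat_step (by decide +kernel) (q_cons (Vale.Agent.P032.Lt.q R0Q012.q252_0) (q_cons (Vale.Agent.P032.Lt.q R0Q012.q252_1) (q_cons (Vale.Agent.P032.Lt.q R0Q012.q252_2) q_nil))))

theorem p253 : Pat 73 73 TBm TCm (CB.map Fm) R0Q012.P253 R0Q012.I253 := Vale.Agent.P032.Lt.pat_eq (E' := R0Q012.E) eB (pat_step (by decide +kernel) (q_cons (Vale.Agent.P032.Lt.q R0Q012.q253_0) (q_cons (Vale.Agent.P032.Lt.q R0Q012.q253_1) (q_cons (Vale.Agent.P032.Lt.q R0Q012.q253_2) q_nil))))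

theorem p254 : Pat 73 73 TBm TCm (CB.map Fm) R0Q012.P254 R0Q012.I254 := Vale.Agent.P032.Lt.pat_eq (E' := R0Q012.E) eB (pat_step (by decide +kernel) (q_cons (Vale.Agent.P032.Lt.q R0Q012.q254_0) q_nil))

theorem p255 : Pat 73 73 TBm TCm (CB.map Fm) R0Q012.P255 R0Q012.I255 := Vale.Agent.P032.Lt.pat_eq (E' := R0Q012.E) eB (pat_step (by decide +kernel) (q_cons (Vale.Agent.P032.Lt.q R0Q012.q255_0) (q_cons (Vale.Agent.P032.Lt.q R0Q012.q255_1) q_nil)))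

def L : List (List ℕ) := [R0Q008.P128, R0Q008.P129, R0Q008.P130, R0Q008.P131, R0Q008.P132, R0Q008.P133, R0Q008.P134, R0Q008.P135, R0Q008.P136, R0Q008.P137, R0Q008.P138, R0Q008.P139, R0Q008.P140, R0Q008.P141, R0Q008.P142, R0Q008.P143, R0Q008.P144, R0Q008.P145, R0Q008.P146, R0Q008.P147, R0Q008.P148, R0Q008.P149, R0Q008.P150, R0Q008.P151, R0Q008.P152, R0Q008.P153, R0Q008.P154, R0Q008.P155, R0Q008.P156, R0Q008.P157, R0Q009.P158, R0Q009.P159, R0Q009.P160, R0Q009.P161, R0Q009.P162, R0Q009.P163, R0Q009.P164, R0Q009.P165, R0Q009.P166, R0Q009.P167, R0Q009.P168, R0Q009.P169, R0Q009.P170, R0Q009.P171, R0Q009.P172, R0Q009.P173, R0Q009.P174, R0Q009.P175, R0Q009.P176, R0Q009.P177, R0Q009.P178, R0Q009.P179, R0Q009.P180, R0Q009.P181, R0Q009.P182, R0Q009.P183, R0Q009.P184, R0Q009.P185, R0Q009.P186, R0Q009.P187, R0Q009.P188, R0Q009.P189, R0Q009.P190, R0Q009.P191, R0Q009.P192, R0Q009.P193,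 R0Q009.P194, R0Q009.P195, R0Q009.P196, R0Q009.P197, R0Q009.P198, R0Q009.P199, R0Q009.P200, R0Q009.P201, R0Q009.P202, R0Q009.P203, R0Q009.P204, R0Q010.P205, R0Q010.P206, R0Q010.P207, R0Q010.P208, R0Q010.P209, R0Q010.P210, R0Q010.P211, R0Q010.P212, R0Q010.P213, R0Q010.P214, R0Q010.P215, R0Q010.P216, R0Q010.P217, R0Q010.P218, R0Q010.P219, R0Q010.P220, R0Q011.P221, R0Q011.P222, R0Q011.P223, R0Q011.P224, R0Q011.P225, R0Q011.P226, R0Q011.P227, R0Q011.P228, R0Q011.P229, R0Q011.P230, R0Q011.P231, R0Q012.P232, R0Q012.P233, R0Q012.P234, R0Q012.P235, R0Q012.P236, R0Q012.P237, R0Q012.P238, R0Q012.P239, R0Q012.P240, R0Q012.P241, R0Q012.P242, R0Q012.P243, R0Q012.P244, R0Q012.P245, R0Q012.P246, R0Q012.P247, R0Q012.P248, R0Q012.P249, R0Q012.P250, R0Q012.P251, R0Q012.P252, R0Q012.P253, R0Q012.P254, R0Q012.P255]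

theorem all : ∀ P ∈ L, CrtF 73 73 TBm TCm (Vale.Agent.P032.Fam.fam2 (Vale.Agent.P032.Fam.im0)) P := crtF_cons p128 (crtF_cons p129 (crtF_cons p130 (crtF_cons p131 (crtF_cons p132 (crtF_cons p133 (crtF_cons p134 (crtF_cons p135 (crtF_cons p136 (crtF_cons p137 (crtF_cons p138 (crtF_cons p139 (crtF_cons p140 (crtF_cons p141 (crtF_cons p142 (crtF_cons p143 (crtF_cons p144 (crtF_cons p145 (crtF_cons p146 (crtF_cons p147 (crtF_cons p148 (crtF_cons p149 (crtF_cons p150 (crtF_cons p151 (crtF_cons p152 (crtF_cons p153 (crtF_cons p154 (crtF_cons p155 (crtF_cons p156 (crtF_cons p157 (crtF_cons p158 (crtF_cons p159 (crtF_cons p160 (crtF_cons p161 (crtF_cons p162 (crtF_cons p163 (crtF_cons p164 (crtF_cons p165 (crtF_cons p166 (crtF_cons p167 (crtF_cons p168 (crtF_cons p169 (crtF_cons p170 (crtF_cons p171 (crtF_cons p172 (crtF_cons p173 (crtF_cons p174 (crtF_cons p175 (crtF_cons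 p176 (crtF_cons p177 (crtF_cons p178 (crtF_cons p179 (crtF_cons p180 (crtF_cons p181 (crtF_cons p182 (crtF_cons p183 (crtF_cons p184 (crtF_cons p185 (crtF_cons p186 (crtF_cons p187 (crtF_cons p188 (crtF_cons p189 (crtF_cons p190 (crtF_cons p191 (crtF_cons p192 (crtF_cons p193 (crtF_cons p194 (crtF_cons p195 (crtF_cons p196 (crtF_cons p197 (crtF_cons p198 (crtF_cons p199 (crtF_cons p200 (crtF_cons p201 (crtF_cons p202 (crtF_cons p203 (crtF_cons p204 (crtF_cons p205 (crtF_cons p206 (crtF_cons p207 (crtF_cons p208 (crtF_cons p209 (crtF_cons p210 (crtF_cons p211 (crtF_cons p212 (crtF_cons p213 (crtF_cons p214 (crtF_cons p215 (crtF_cons p216 (crtF_cons p217 (crtF_cons p218 (crtF_cons p219 (crtF_cons p220 (crtF_cons p221 (crtF_cons p222 (crtF_cons p223 (crtF_cons p224 (crtF_cons p225 (crtF_cons p226 (crtF_cons p227 (crtF_cons p228 (crtF_cons p229 (crtF_cons p230 (crtF_cons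 p231 (crtF_cons p232 (crtF_cons p233 (crtF_cons p234 (crtF_cons p235 (crtF_cons p236 (crtF_cons p237 (crtF_cons p238 (crtF_cons p239 (crtF_cons p240 (crtF_cons p241 (crtF_cons p242 (crtF_cons p243 (crtF_cons p244 (crtF_cons p245 (crtF_cons p246 (crtF_cons p247 (crtF_cons p248 (crtF_cons p249 (crtF_cons p250 (crtF_cons p251 (crtF_cons p252 (crtF_cons p253 (crtF_cons p254 (crtF_cons p255 crtF_nil)))))))))))))))))))))))))))))))))))))))))))))))))))))))))))))))))))))))))))))))))))))))))))))))))))))))))))))))))))))))))))))))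

theorem ch : chT 73 73 TCm s0_001 L = true := by decide +kernel

end Vale.Agent.P032X.Cert.XP.B1.R0H001
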