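import Vale.Agent.P032X.H892.LtH
import Vale.Agent.P032X.H286.W73
import Vale.Agent.P032X.Cert.XP.B1.R0T
import Vale.Agent.P032X.Cert.XP.B1.R0Q019
import Vale.Agent.P032X.Cert.XP.B1.R0Q020
import Vale.Agent.P032X.Cert.XP.B1.R0Q021
import Vale.Agent.P032X.Cert.XP.B1.R0Q022
import Vale.Agent.P032X.Cert.XP.B1.R0Q023
import Vale.Agent.P032X.Cert.XP.B1.R0Q024

set_option maxRecDepth 1000000

namespace Vale.Agent.P032X.Cert.XP.B1.R0H003

open Vale.Agent.P032.H820.K Vale.Agent.P032.H357.MK Vale.Agent.P032.H286.E Vale.Agent.P032.H61 Vale.Agent.P032X.Cert.XP.B1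

noncomputable abbrev Fm : ℕ → List ℕ := Vale.Agent.P032.Fam.fam2 (Vale.Agent.P032.Fam.im0)

def CB : List ℕ := [0, 4, 8, 12, 16, 20, 24]

theorem eB : Vale.Agent.P032.Lt.eqLL (CB.map Fm) R0Q019.E = true := by decide +kernel

theorem p384 : Pat 73 73 TBm TCm (CB.map Fm) R0Q019.P384 R0Q019.I384 := Vale.Agent.P032.Lt.pat_eq (E' := R0Q019.E) eB (pat_step (by decide +kernel) (q_cons (Vale.Agent.P032.Lt.q R0Q019.q384_0) (q_cons (Vale.Agent.P032.Lt.q R0Q019.q384_1) (q_cons (Vale.Agent.P032.Lt.q R0Q019.q384_2) (q_cons (Vale.Agent.P032.Lt.q R0Q019.q384_3) (q_cons (Vale.Agent.P032.Lt.q R0Q019.q384_4) (q_cons (Vale.Agent.P032.Lt.q R0Q019.q384_5) (q_cons (Vale.Agent.P032.Lt.q R0Q019.q384_6) (q_cons (Vale.Agent.P032.Lt.q R0Q019.q384_7) (q_cons (Vale.Agent.P032.Lt.q R0Q019.q384_8) (q_cons (Vale.Agent.P032.Lt.q R0Q019.q384_9) q_nil)))))))))))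

theorem p385 : Pat 73 73 TBm TCm (CB.map Fm) R0Q019.P385 R0Q019.I385 := Vale.Agent.P032.Lt.pat_eq (E' := R0Q019.E) eB (pat_step (by decide +kernel) (q_cons (Vale.Agent.P032.Lt.q R0Q019.q385_0) (q_cons (Vale.Agent.P032.Lt.q R0Q019.q385_1) (q_cons (Vale.Agent.P032.Lt.q R0Q019.q385_2) (q_cons (Vale.Agent.P032.Lt.q R0Q019.q385_3) (q_cons (Vale.Agent.P032.Lt.q R0Q019.q385_4) (q_cons (Vale.Agent.P032.Lt.q R0Q019.q385_5) (q_cons (Vale.Agent.P032.Lt.q R0Q019.q385_6) (q_cons (Vale.Agent.P032.Lt.q R0Q019.q385_7) q_nil)))))))))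

theorem p386 : Pat 73 73 TBm TCm (CB.map Fm) R0Q019.P386 R0Q019.I386 := Vale.Agent.P032.Lt.pat_eq (E' := R0Q019.E) eB (pat_step (by decide +kernel) (q_cons (Vale.Agent.P032.Lt.q R0Q019.q386_0) (q_cons (Vale.Agent.P032.Lt.q R0Q019.q386_1) (q_cons (Vale.Agent.P032.Lt.q R0Q019.q386_2) (q_cons (Vale.Agent.P032.Lt.q R0Q019.q386_3) (q_cons (Vale.Agent.P032.Lt.q R0Q019.q386_4) (q_cons (Vale.Agent.P032.Lt.q R0Q019.q386_5) (q_cons (Vale.Agent.P032.Lt.q R0Q019.q386_6) q_nil))))))))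

theorem p387 : Pat 73 73 TBm TCm (CB.map Fm) R0Q019.P387 R0Q019.I387 := Vale.Agent.P032.Lt.pat_eq (E' := R0Q019.E) eB (pat_step (by decide +kernel) (q_cons (Vale.Agent.P032.Lt.q R0Q019.q387_0) (q_cons (Vale.Agent.P032.Lt.q R0Q019.q387_1) q_nil)))

theorem p388 : Pat 73 73 TBm TCm (CB.map Fm) R0Q019.P388 R0Q019.I388 := Vale.Agent.P032.Lt.pat_eq (E' := R0Q019.E) eB (pat_step (by decide +kernel) (q_cons (Vale.Agent.P032.Lt.q R0Q019.q388_0) (q_cons (Vale.Agent.P032.Lt.q R0Q019.q388_1) (q_cons (Vale.Agent.P032.Lt.q R0Q019.q388_2) (q_cons (Vale.Agent.P032.Lt.q R0Q019.q388_3) (q_cons (Vale.Agent.P032.Lt.q R0Q019.q388_4) (q_cons (Vale.Agent.P032.Lt.q R0Q019.q388_5) (q_cons (Vale.Agent.P032.Lt.q R0Q019.q388_6) (q_cons (Vale.Agent.P032.Lt.q R0Q019.q388_7) (q_cons (Vale.Agent.P032.Lt.q R0Q019.q388_8) (q_cons (Vale.Agent.P032.Lt.q R0Q019.q388_9) (q_cons (Vale.Agent.P032.Lt.q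 R0Q019.q388_10) (q_cons (Vale.Agent.P032.Lt.q R0Q019.q388_11) (q_cons (Vale.Agent.P032.Lt.q R0Q019.q388_12) (q_cons (Vale.Agent.P032.Lt.q R0Q019.q388_13) (q_cons (Vale.Agent.P032.Lt.q R0Q019.q388_14) (q_cons (Vale.Agent.P032.Lt.q R0Q019.q388_15) (q_cons (Vale.Agent.P032.Lt.q R0Q019.q388_16) (q_cons (Vale.Agent.P032.Lt.q R0Q019.q388_17) (q_cons (Vale.Agent.P032.Lt.q R0Q019.q388_18) (q_cons (Vale.Agent.P032.Lt.q R0Q019.q388_19) (q_cons (Vale.Agent.P032.Lt.q R0Q019.q388_20) (q_cons (Vale.Agent.P032.Lt.q R0Q019.q388_21) (q_cons (Vale.Agent.P032.Lt.q R0Q019.q388_22) q_nil))))))))))))))))))))))))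

theorem p389 : Pat 73 73 TBm TCm (CB.map Fm) R0Q019.P389 R0Q019.I389 := Vale.Agent.P032.Lt.pat_eq (E' := R0Q019.E) eB (pat_step (by decide +kernel) (q_cons (Vale.Agent.P032.Lt.q R0Q019.q389_0) (q_cons (Vale.Agent.P032.Lt.q R0Q019.q389_1) (q_cons (Vale.Agent.P032.Lt.q R0Q019.q389_2) (q_cons (Vale.Agent.P032.Lt.q R0Q019.q389_3) q_nil)))))

theorem p390 : Pat 73 73 TBm TCm (CB.map Fm) R0Q019.P390 R0Q019.I390 := Vale.Agent.P032.Lt.pat_eq (E' := R0Q019.E) eB (pat_step (by decide +kernel) (q_cons (Vale.Agent.P032.Lt.q R0Q019.q390_0) q_nil))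

theorem p391 : Pat 73 73 TBm TCm (CB.map Fm) R0Q019.P391 R0Q019.I391 := Vale.Agent.P032.Lt.pat_eq (E' := R0Q019.E) eB (pat_step (by decide +kernel) (q_cons (Vale.Agent.P032.Lt.q R0Q019.q391_0) (q_cons (Vale.Agent.P032.Lt.q R0Q019.q391_1) (q_cons (Vale.Agent.P032.Lt.q R0Q019.q391_2) (q_cons (Vale.Agent.P032.Lt.q R0Q019.q391_3) q_nil)))))

theorem p392 : Pat 73 73 TBm TCm (CB.map Fm) R0Q019.P392 R0Q019.I392 := Vale.Agent.P032.Lt.pat_eq (E' := R0Q019.E) eB (pat_step (by decide +kernel) (q_cons (Vale.Agent.P032.Lt.q R0Q019.q392_0) (q_cons (Vale.Agent.P032.Lt.q R0Q019.q392_1) q_nil)))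

theorem p393 : Pat 73 73 TBm TCm (CB.map Fm) R0Q019.P393 R0Q019.I393 := Vale.Agent.P032.Lt.pat_eq (E' := R0Q019.E) eB (pat_step (by decide +kernel) (q_cons (Vale.Agent.P032.Lt.q R0Q019.q393_0) q_nil))

theorem p394 : Pat 73 73 TBm TCm (CB.map Fm) R0Q019.P394 R0Q019.I394 := Vale.Agent.P032.Lt.pat_eq (E' := R0Q019.E) eB (pat_step (by decide +kernel) (q_cons (Vale.Agent.P032.Lt.q R0Q019.q394_0) q_nil))

theorem p395 : Pat 73 73 TBm TCm (CB.map Fm) R0Q019.P395 [] := Vale.Agent.P032.Lt.pat_eq (E' := R0Q019.E) eB (pat_end (by decide +kernel) (Vale.Agent.P032.Lt.q R0Q019.q395))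

theorem p396 : Pat 73 73 TBm TCm (CB.map Fm) R0Q019.P396 R0Q019.I396 := Vale.Agent.P032.Lt.pat_eq (E' := R0Q019.E) eB (pat_step (by decide +kernel) (q_cons (Vale.Agent.P032.Lt.q R0Q019.q396_0) (q_cons (Vale.Agent.P032.Lt.q R0Q019.q396_1) (q_cons (Vale.Agent.P032.Lt.q R0Q019.q396_2) (q_cons (Vale.Agent.P032.Lt.q R0Q019.q396_3) (q_cons (Vale.Agent.P032.Lt.q R0Q019.q396_4) (q_cons (Vale.Agent.P032.Lt.q R0Q019.q396_5) (q_cons (Vale.Agent.P032.Lt.q R0Q019.q396_6) (q_cons (Vale.Agent.P032.Lt.q R0Q019.q396_7) q_nil)))))))))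

def C397 : List ℕ := [0, 4, 8, 12, 16, 20, 24, 84993, 212993, 606209, 737281]
theorem p397 : Pat 73 73 TBm TCm (C397.map Fm) R0Q019.P397 R0Q019.I397 := Vale.Agent.P032.Lt.pat_eq (E' := R0Q019.E397) (by decide +kernel) (pat_step (by decide +kernel) (q_cons (Vale.Agent.P032.Lt.q R0Q019.q397_0) (q_cons (Vale.Agent.P032.Lt.q R0Q019.q397_1) (q_cons (Vale.Agent.P032.Lt.q R0Q019.q397_2) (q_cons (Vale.Agent.P032.Lt.q R0Q019.q397_3) (q_cons (Vale.Agent.P032.Lt.q R0Q019.q397_4) (q_cons (Vale.Agent.P032.Lt.q R0Q019.q397_5) (q_cons (Vale.Agent.P032.Lt.q R0Q019.q397_6) q_nil))))))))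

def C398 : List ℕ := [0, 4, 8, 12, 16, 20, 24, 84993, 212993, 606209, 737281]
theorem p398 : Pat 73 73 TBm TCm (C398.map Fm) R0Q019.P398 R0Q019.I398 := Vale.Agent.P032.Lt.pat_eq (E' := R0Q019.E398) (by decide +kernel) (pat_step (by decide +kernel) (q_cons (Vale.Agent.P032.Lt.q R0Q019.q398_0) (q_cons (Vale.Agent.P032.Lt.q R0Q019.q398_1) (q_cons (Vale.Agent.P032.Lt.q R0Q019.q398_2) (q_cons (Vale.Agent.P032.Lt.q R0Q019.q398_3) (q_cons (Vale.Agent.P032.Lt.q R0Q019.q398_4) (q_cons (Vale.Agent.P032.Lt.q R0Q019.q398_5) (q_cons (Vale.Agent.P032.Lt.q R0Q019.q398_6) q_nil))))))))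

theorem p399 : Pat 73 73 TBm TCm (CB.map Fm) R0Q019.P399 R0Q019.I399 := Vale.Agent.P032.Lt.pat_eq (E' := R0Q019.E) eB (pat_step (by decide +kernel) (q_cons (Vale.Agent.P032.Lt.q R0Q019.q399_0) (q_cons (Vale.Agent.P032.Lt.q R0Q019.q399_1) (q_cons (Vale.Agent.P032.Lt.q R0Q019.q399_2) (q_cons (Vale.Agent.P032.Lt.q R0Q019.q399_3) (q_cons (Vale.Agent.P032.Lt.q R0Q019.q399_4) (q_cons (Vale.Agent.P032.Lt.q R0Q019.q399_5) q_nil)))))))

def C400 : List ℕ := [0, 4, 8, 12, 16, 20, 24, 212993, 606209, 737281]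
theorem p400 : Pat 73 73 TBm TCm (C400.map Fm) R0Q019.P400 R0Q019.I400 := Vale.Agent.P032.Lt.pat_eq (E' := R0Q019.E400) (by decide +kernel) (pat_step (by decide +kernel) (q_cons (Vale.Agent.P032.Lt.q R0Q019.q400_0) (q_cons (Vale.Agent.P032.Lt.q R0Q019.q400_1) (q_cons (Vale.Agent.P032.Lt.q R0Q019.q400_2) (q_cons (Vale.Agent.P032.Lt.q R0Q019.q400_3) (q_cons (Vale.Agent.P032.Lt.q R0Q019.q400_4) (q_cons (Vale.Agent.P032.Lt.q R0Q019.q400_5) q_nil)))))))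

def C401 : List ℕ := [0, 4, 8, 12, 16, 20, 24, 212993, 606209, 737281]
theorem p401 : Pat 73 73 TBm TCm (C401.map Fm) R0Q019.P401 R0Q019.I401 := Vale.Agent.P032.Lt.pat_eq (E' := R0Q019.E401) (by decide +kernel) (pat_step (by decide +kernel) (q_cons (Vale.Agent.P032.Lt.q R0Q019.q401_0) (q_cons (Vale.Agent.P032.Lt.q R0Q019.q401_1) q_nil)))

theorem p402 : Pat 73 73 TBm TCm (CB.map Fm) R0Q019.P402 R0Q019.I402 := Vale.Agent.P032.Lt.pat_eq (E' := R0Q019.E) eB (pat_step (by decide +kernel) (q_cons (Vale.Agent.P032.Lt.q R0Q019.q402_0) (q_cons (Vale.Agent.P032.Lt.q R0Q019.q402_1) (q_cons (Vale.Agent.P032.Lt.q R0Q019.q402_2) q_nil))))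

def C403 : List ℕ := [0, 4, 8, 12, 16, 20, 24, 606209, 737281]
theorem p403 : Pat 73 73 TBm TCm (C403.map Fm) R0Q019.P403 R0Q019.I403 := Vale.Agent.P032.Lt.pat_eq (E' := R0Q019.E403) (by decide +kernel) (pat_step (by decide +kernel) (q_cons (Vale.Agent.P032.Lt.q R0Q019.q403_0) (q_cons (Vale.Agent.P032.Lt.q R0Q019.q403_1) q_nil)))

theorem p404 : Pat 73 73 TBm TCm (CB.map Fm) R0Q019.P404 R0Q019.I404 := Vale.Agent.P032.Lt.pat_eq (E' := R0Q019.E) eB (pat_step (by decide +kernel) (q_cons (Vale.Agent.P032.Lt.q R0Q019.q404_0) (q_cons (Vale.Agent.P032.Lt.q R0Q019.q404_1) q_nil)))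

theorem p405 : Pat 73 73 TBm TCm (CB.map Fm) R0Q019.P405 R0Q019.I405 := Vale.Agent.P032.Lt.pat_eq (E' := R0Q019.E) eB (pat_step (by decide +kernel) (q_cons (Vale.Agent.P032.Lt.q R0Q019.q405_0) q_nil))

theorem p406 : Pat 73 73 TBm TCm (CB.map Fm) R0Q019.P406 R0Q019.I406 := Vale.Agent.P032.Lt.pat_eq (E' := R0Q019.E) eB (pat_step (by decide +kernel) (q_cons (Vale.Agent.P032.Lt.q R0Q019.q406_0) (q_cons (Vale.Agent.P032.Lt.q R0Q019.q406_1) q_nil)))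

theorem p407 : Pat 73 73 TBm TCm (CB.map Fm) R0Q020.P407 R0Q020.I407 := Vale.Agent.P032.Lt.pat_eq (E' := R0Q020.E) eB (pat_step (by decide +kernel) (q_cons (Vale.Agent.P032.Lt.q R0Q020.q407_0) (q_cons (Vale.Agent.P032.Lt.q R0Q020.q407_1) (q_cons (Vale.Agent.P032.Lt.q R0Q020.q407_2) (q_cons (Vale.Agent.P032.Lt.q R0Q020.q407_3) (q_cons (Vale.Agent.P032.Lt.q R0Q020.q407_4) (q_cons (Vale.Agent.P032.Lt.q R0Q020.q407_5) (q_cons (Vale.Agent.P032.Lt.q R0Q020.q407_6) (q_cons (Vale.Agent.P032.Lt.q R0Q020.q407_7) (q_cons (Vale.Agent.P032.Lt.q R0Q020.q407_8) (q_cons (Vale.Agent.P032.Lt.q R0Q020.q407_9) (q_cons (Vale.Agent.P032.Lt.q R0Q020.q407_10) q_nil))))))))))))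

theorem p408 : Pat 73 73 TBm TCm (CB.map Fm) R0Q020.P408 R0Q020.I408 := Vale.Agent.P032.Lt.pat_eq (E' := R0Q020.E) eB (pat_step (by decide +kernel) (q_cons (Vale.Agent.P032.Lt.q R0Q020.q408_0) q_nil))

theorem p409 : Pat 73 73 TBm TCm (CB.map Fm) R0Q020.P409 R0Q020.I409 := Vale.Agent.P032.Lt.pat_eq (E' := R0Q020.E) eB (pat_step (by decide +kernel) (q_cons (Vale.Agent.P032.Lt.q R0Q020.q409_0) q_nil))

theorem p410 : Pat 73 73 TBm TCm (CB.map Fm) R0Q020.P410 R0Q020.I410 := Vale.Agent.P032.Lt.pat_eq (E' := R0Q020.E) eB (pat_step (by decide +kernel) (q_cons (Vale.Agent.P032.Lt.q R0Q020.q410_0) (q_cons (Vale.Agent.P032.Lt.q R0Q020.q410_1) (q_cons (Vale.Agent.P032.Lt.q R0Q020.q410_2) (q_cons (Vale.Agent.P032.Lt.q R0Q020.q410_3) (q_cons (Vale.Agent.P032.Lt.q R0Q020.q410_4) (q_cons (Vale.Agent.P032.Lt.q R0Q020.q410_5) (q_cons (Vale.Agent.P032.Lt.q R0Q020.q410_6) (q_cons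 (Vale.Agent.P032.Lt.q R0Q020.q410_7) (q_cons (Vale.Agent.P032.Lt.q R0Q020.q410_8) q_nil))))))))))

theorem p411 : Pat 73 73 TBm TCm (CB.map Fm) R0Q020.P411 R0Q020.I411 := Vale.Agent.P032.Lt.pat_eq (E' := R0Q020.E) eB (pat_step (by decide +kernel) (q_cons (Vale.Agent.P032.Lt.q R0Q020.q411_0) (q_cons (Vale.Agent.P032.Lt.q R0Q020.q411_1) (q_cons (Vale.Agent.P032.Lt.q R0Q020.q411_2) (q_cons (Vale.Agent.P032.Lt.q R0Q020.q411_3) q_nil)))))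

theorem p412 : Pat 73 73 TBm TCm (CB.map Fm) R0Q020.P412 R0Q020.I412 := Vale.Agent.P032.Lt.pat_eq (E' := R0Q020.E) eB (pat_step (by decide +kernel) (q_cons (Vale.Agent.P032.Lt.q R0Q020.q412_0) q_nil))

theorem p413 : Pat 73 73 TBm TCm (CB.map Fm) R0Q020.P413 R0Q020.I413 := Vale.Agent.P032.Lt.pat_eq (E' := R0Q020.E) eB (pat_step (by decide +kernel) (q_cons (Vale.Agent.P032.Lt.q R0Q020.q413_0) (q_cons (Vale.Agent.P032.Lt.q R0Q020.q413_1) q_nil)))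

theorem p414 : Pat 73 73 TBm TCm (CB.map Fm) R0Q020.P414 R0Q020.I414 := Vale.Agent.P032.Lt.pat_eq (E' := R0Q020.E) eB (pat_step (by decide +kernel) (q_cons (Vale.Agent.P032.Lt.q R0Q020.q414_0) q_nil))

theorem p415 : Pat 73 73 TBm TCm (CB.map Fm) R0Q020.P415 R0Q020.I415 := Vale.Agent.P032.Lt.pat_eq (E' := R0Q020.E) eB (pat_step (by decide +kernel) (q_cons (Vale.Agent.P032.Lt.q R0Q020.q415_0) (q_cons (Vale.Agent.P032.Lt.q R0Q020.q415_1) (q_cons (Vale.Agent.P032.Lt.q R0Q020.q415_2) q_nil))))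

theorem p416 : Pat 73 73 TBm TCm (CB.map Fm) R0Q020.P416 R0Q020.I416 := Vale.Agent.P032.Lt.pat_eq (E' := R0Q020.E) eB (pat_step (by decide +kernel) (q_cons (Vale.Agent.P032.Lt.q R0Q020.q416_0) q_nil))

theorem p417 : Pat 73 73 TBm TCm (CB.map Fm) R0Q020.P417 R0Q020.I417 := Vale.Agent.P032.Lt.pat_eq (E' := R0Q020.E) eB (pat_step (by decide +kernel) (q_cons (Vale.Agent.P032.Lt.q R0Q020.q417_0) q_nil))

theorem p418 : Pat 73 73 TBm TCm (CB.map Fm) R0Q020.P418 R0Q020.I418 := Vale.Agent.P032.Lt.pat_eq (E' := R0Q020.E) eB (pat_step (by decide +kernel) (q_cons (Vale.Agent.P032.Lt.q R0Q020.q418_0) (q_cons (Vale.Agent.P032.Lt.q R0Q020.q418_1) q_nil)))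

theorem p419 : Pat 73 73 TBm TCm (CB.map Fm) R0Q020.P419 R0Q020.I419 := Vale.Agent.P032.Lt.pat_eq (E' := R0Q020.E) eB (pat_step (by decide +kernel) (q_cons (Vale.Agent.P032.Lt.q R0Q020.q419_0) (q_cons (Vale.Agent.P032.Lt.q R0Q020.q419_1) (q_cons (Vale.Agent.P032.Lt.q R0Q020.q419_2) q_nil))))

theorem p420 : Pat 73 73 TBm TCm (CB.map Fm) R0Q020.P420 R0Q020.I420 := Vale.Agent.P032.Lt.pat_eq (E' := R0Q020.E) eB (pat_step (by decide +kernel) (q_cons (Vale.Agent.P032.Lt.q R0Q020.q420_0) q_nil))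

theorem p421 : Pat 73 73 TBm TCm (CB.map Fm) R0Q020.P421 R0Q020.I421 := Vale.Agent.P032.Lt.pat_eq (E' := R0Q020.E) eB (pat_step (by decide +kernel) (q_cons (Vale.Agent.P032.Lt.q R0Q020.q421_0) q_nil))

theorem p422 : Pat 73 73 TBm TCm (CB.map Fm) R0Q020.P422 R0Q020.I422 := Vale.Agent.P032.Lt.pat_eq (E' := R0Q020.E) eB (pat_step (by decide +kernel) (q_cons (Vale.Agent.P032.Lt.q R0Q020.q422_0) (q_cons (Vale.Agent.P032.Lt.q R0Q020.q422_1) q_nil)))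

theorem p423 : Pat 73 73 TBm TCm (CB.map Fm) R0Q020.P423 R0Q020.I423 := Vale.Agent.P032.Lt.pat_eq (E' := R0Q020.E) eB (pat_step (by decide +kernel) (q_cons (Vale.Agent.P032.Lt.q R0Q020.q423_0) (q_cons (Vale.Agent.P032.Lt.q R0Q020.q423_1) q_nil)))

def C424 : List ℕ := [0, 4, 8, 12, 16, 20, 24, 480257, 737281]
theorem p424 : Pat 73 73 TBm TCm (C424.map Fm) R0Q020.P424 R0Q020.I424 := Vale.Agent.P032.Lt.pat_eq (E' := R0Q020.E424) (by decide +kernel) (pat_step (by decide +kernel) (q_cons (Vale.Agent.P032.Lt.q R0Q020.q424_0) (q_cons (Vale.Agent.P032.Lt.q R0Q020.q424_1) q_nil)))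

theorem p425 : Pat 73 73 TBm TCm (CB.map Fm) R0Q020.P425 R0Q020.I425 := Vale.Agent.P032.Lt.pat_eq (E' := R0Q020.E) eB (pat_step (by decide +kernel) (q_cons (Vale.Agent.P032.Lt.q R0Q020.q425_0) (q_cons (Vale.Agent.P032.Lt.q R0Q020.q425_1) (q_cons (Vale.Agent.P032.Lt.q R0Q020.q425_2) q_nil))))

theorem p426 : Pat 73 73 TBm TCm (CB.map Fm) R0Q020.P426 R0Q020.I426 := Vale.Agent.P032.Lt.pat_eq (E' := R0Q020.E) eB (pat_step (by decide +kernel) (q_cons (Vale.Agent.P032.Lt.q R0Q020.q426_0) (q_cons (Vale.Agent.P032.Lt.q R0Q020.q426_1) (q_cons (Vale.Agent.P032.Lt.q R0Q020.q426_2) q_nil))))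

theorem p427 : Pat 73 73 TBm TCm (CB.map Fm) R0Q020.P427 R0Q020.I427 := Vale.Agent.P032.Lt.pat_eq (E' := R0Q020.E) eB (pat_step (by decide +kernel) (q_cons (Vale.Agent.P032.Lt.q R0Q020.q427_0) (q_cons (Vale.Agent.P032.Lt.q R0Q020.q427_1) (q_cons (Vale.Agent.P032.Lt.q R0Q020.q427_2) (q_cons (Vale.Agent.P032.Lt.q R0Q020.q427_3) q_nil)))))

theorem p428 : Pat 73 73 TBm TCm (CB.map Fm) R0Q020.P428 R0Q020.I428 := Vale.Agent.P032.Lt.pat_eq (E' := R0Q020.E) eB (pat_step (by decide +kernel) (q_cons (Vale.Agent.P032.Lt.q R0Q020.q428_0) (q_cons (Vale.Agent.P032.Lt.q R0Q020.q428_1) (q_cons (Vale.Agent.P032.Lt.q R0Q020.q428_2) (q_cons (Vale.Agent.P032.Lt.q R0Q020.q428_3) q_nil)))))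

theorem p429 : Pat 73 73 TBm TCm (CB.map Fm) R0Q020.P429 R0Q020.I429 := Vale.Agent.P032.Lt.pat_eq (E' := R0Q020.E) eB (pat_step (by decide +kernel) (q_cons (Vale.Agent.P032.Lt.q R0Q020.q429_0) (q_cons (Vale.Agent.P032.Lt.q R0Q020.q429_1) (q_cons (Vale.Agent.P032.Lt.q R0Q020.q429_2) (q_cons (Vale.Agent.P032.Lt.q R0Q020.q429_3) (q_cons (Vale.Agent.P032.Lt.q R0Q020.q429_4) (q_cons (Vale.Agent.P032.Lt.q R0Q020.q429_5) q_nil)))))))

theorem p430 : Pat 73 73 TBm TCm (CB.map Fm) R0Q020.P430 R0Q020.I430 := Vale.Agent.P032.Lt.pat_eq (E' := R0Q020.E) eB (pat_step (by decide +kernel) (q_cons (Vale.Agent.P032.Lt.q R0Q020.q430_0) (q_cons (Vale.Agent.P032.Lt.q R0Q020.q430_1) (q_cons (Vale.Agent.P032.Lt.q R0Q020.q430_2) (q_cons (Vale.Agent.P032.Lt.q R0Q020.q430_3) (q_cons (Vale.Agent.P032.Lt.q R0Q020.q430_4) (q_cons (Vale.Agent.P032.Lt.q R0Q020.q430_5) (q_cons (Vale.Agent.P032.Lt.q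 R0Q020.q430_6) (q_cons (Vale.Agent.P032.Lt.q R0Q020.q430_7) (q_cons (Vale.Agent.P032.Lt.q R0Q020.q430_8) q_nil))))))))))

theorem p431 : Pat 73 73 TBm TCm (CB.map Fm) R0Q020.P431 R0Q020.I431 := Vale.Agent.P032.Lt.pat_eq (E' := R0Q020.E) eB (pat_step (by decide +kernel) (q_cons (Vale.Agent.P032.Lt.q R0Q020.q431_0) (q_cons (Vale.Agent.P032.Lt.q R0Q020.q431_1) (q_cons (Vale.Agent.P032.Lt.q R0Q020.q431_2) (q_cons (Vale.Agent.P032.Lt.q R0Q020.q431_3) (q_cons (Vale.Agent.P032.Lt.q R0Q020.q431_4) (q_cons (Vale.Agent.P032.Lt.q R0Q020.q431_5) (q_cons (Vale.Agent.P032.Lt.q R0Q020.q431_6) (q_cons (Vale.Agent.P032.Lt.q R0Q020.q431_7) (q_cons (Vale.Agent.P032.Lt.q R0Q020.q431_8) (q_cons (Vale.Agent.P032.Lt.q R0Q020.q431_9) (q_cons (Vale.Agent.P032.Lt.q R0Q020.q431_10) (q_cons (Vale.Agent.P032.Lt.q R0Q020.q431_11) (q_cons (Vale.Agent.P032.Lt.q R0Q020.q431_12) (q_cons (Vale.Agent.P032.Lt.q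 R0Q020.q431_13) (q_cons (Vale.Agent.P032.Lt.q R0Q020.q431_14) (q_cons (Vale.Agent.P032.Lt.q R0Q020.q431_15) (q_cons (Vale.Agent.P032.Lt.q R0Q020.q431_16) (q_cons (Vale.Agent.P032.Lt.q R0Q020.q431_17) (q_cons (Vale.Agent.P032.Lt.q R0Q020.q431_18) (q_cons (Vale.Agent.P032.Lt.q R0Q020.q431_19) (q_cons (Vale.Agent.P032.Lt.q R0Q020.q431_20) (q_cons (Vale.Agent.P032.Lt.q R0Q020.q431_21) (q_cons (Vale.Agent.P032.Lt.q R0Q020.q431_22) (q_cons (Vale.Agent.P032.Lt.q R0Q020.q431_23) (q_cons (Vale.Agent.P032.Lt.q R0Q020.q431_24) q_nil))))))))))))))))))))))))))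

theorem p432 : Pat 73 73 TBm TCm (CB.map Fm) R0Q020.P432 R0Q020.I432 := Vale.Agent.P032.Lt.pat_eq (E' := R0Q020.E) eB (pat_step (by decide +kernel) (q_cons (Vale.Agent.P032.Lt.q R0Q020.q432_0) (q_cons (Vale.Agent.P032.Lt.q R0Q020.q432_1) (q_cons (Vale.Agent.P032.Lt.q R0Q020.q432_2) (q_cons (Vale.Agent.P032.Lt.q R0Q020.q432_3) (q_cons (Vale.Agent.P032.Lt.q R0Q020.q432_4) (q_cons (Vale.Agent.P032.Lt.q R0Q020.q432_5) q_nil)))))))

theorem p433 : Pat 73 73 TBm TCm (CB.map Fm) R0Q021.P433 R0Q021.I433 := Vale.Agent.P032.Lt.pat_eq (E' := R0Q021.E) eB (pat_step (by decide +kernel) (q_cons (Vale.Agent.P032.Lt.q R0Q021.q433_0) (q_cons (Vale.Agent.P032.Lt.q R0Q021.q433_1) (q_cons (Vale.Agent.P032.Lt.q R0Q021.q433_2) (q_cons (Vale.Agent.P032.Lt.q R0Q021.q433_3) (q_cons (Vale.Agent.P032.Lt.q R0Q021.q433_4) (q_cons (Vale.Agent.P032.Lt.q R0Q021.q433_5) q_nil)))))))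

theorem p434 : Pat 73 73 TBm TCm (CB.map Fm) R0Q021.P434 R0Q021.I434 := Vale.Agent.P032.Lt.pat_eq (E' := R0Q021.E) eB (pat_step (by decide +kernel) (q_cons (Vale.Agent.P032.Lt.q R0Q021.q434_0) q_nil))

theorem p435 : Pat 73 73 TBm TCm (CB.map Fm) R0Q021.P435 R0Q021.I435 := Vale.Agent.P032.Lt.pat_eq (E' := R0Q021.E) eB (pat_step (by decide +kernel) (q_cons (Vale.Agent.P032.Lt.q R0Q021.q435_0) q_nil))

def C436 : List ℕ := [0, 4, 8, 12, 16, 20, 24, 81921, 212993, 349185, 475137, 613377, 737281]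
theorem p436 : Pat 73 73 TBm TCm (C436.map Fm) R0Q021.P436 R0Q021.I436 := Vale.Agent.P032.Lt.pat_eq (E' := R0Q021.E436) (by decide +kernel) (pat_step (by decide +kernel) (q_cons (Vale.Agent.P032.Lt.q R0Q021.q436_0) (q_cons (Vale.Agent.P032.Lt.q R0Q021.q436_1) q_nil)))

theorem p437 : Pat 73 73 TBm TCm (CB.map Fm) R0Q021.P437 R0Q021.I437 := Vale.Agent.P032.Lt.pat_eq (E' := R0Q021.E) eB (pat_step (by decide +kernel) (q_cons (Vale.Agent.P032.Lt.q R0Q021.q437_0) (q_cons (Vale.Agent.P032.Lt.q R0Q021.q437_1) (q_cons (Vale.Agent.P032.Lt.q R0Q021.q437_2) q_nil))))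

theorem p438 : Pat 73 73 TBm TCm (CB.map Fm) R0Q021.P438 R0Q021.I438 := Vale.Agent.P032.Lt.pat_eq (E' := R0Q021.E) eB (pat_step (by decide +kernel) (q_cons (Vale.Agent.P032.Lt.q R0Q021.q438_0) (q_cons (Vale.Agent.P032.Lt.q R0Q021.q438_1) (q_cons (Vale.Agent.P032.Lt.q R0Q021.q438_2) (q_cons (Vale.Agent.P032.Lt.q R0Q021.q438_3) q_nil)))))

theorem p439 : Pat 73 73 TBm TCm (CB.map Fm) R0Q021.P439 R0Q021.I439 := Vale.Agent.P032.Lt.pat_eq (E' := R0Q021.E) eB (pat_step (by decide +kernel) (q_cons (Vale.Agent.P032.Lt.q R0Q021.q439_0) (q_cons (Vale.Agent.P032.Lt.q R0Q021.q439_1) q_nil)))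

theorem p440 : Pat 73 73 TBm TCm (CB.map Fm) R0Q021.P440 R0Q021.I440 := Vale.Agent.P032.Lt.pat_eq (E' := R0Q021.E) eB (pat_step (by decide +kernel) (q_cons (Vale.Agent.P032.Lt.q R0Q021.q440_0) (q_cons (Vale.Agent.P032.Lt.q R0Q021.q440_1) (q_cons (Vale.Agent.P032.Lt.q R0Q021.q440_2) (q_cons (Vale.Agent.P032.Lt.q R0Q021.q440_3) (q_cons (Vale.Agent.P032.Lt.q R0Q021.q440_4) (q_cons (Vale.Agent.P032.Lt.q R0Q021.q440_5) (q_cons (Vale.Agent.P032.Lt.q R0Q021.q440_6) q_nil))))))))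

theorem p441 : Pat 73 73 TBm TCm (CB.map Fm) R0Q021.P441 R0Q021.I441 := Vale.Agent.P032.Lt.pat_eq (E' := R0Q021.E) eB (pat_step (by decide +kernel) (q_cons (Vale.Agent.P032.Lt.q R0Q021.q441_0) (q_cons (Vale.Agent.P032.Lt.q R0Q021.q441_1) (q_cons (Vale.Agent.P032.Lt.q R0Q021.q441_2) (q_cons (Vale.Agent.P032.Lt.q R0Q021.q441_3) q_nil)))))

theorem p442 : Pat 73 73 TBm TCm (CB.map Fm) R0Q021.P442 R0Q021.I442 := Vale.Agent.P032.Lt.pat_eq (E' := R0Q021.E) eB (pat_step (by decide +kernel) (q_cons (Vale.Agent.P032.Lt.q R0Q021.q442_0) q_nil))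

theorem p443 : Pat 73 73 TBm TCm (CB.map Fm) R0Q021.P443 R0Q021.I443 := Vale.Agent.P032.Lt.pat_eq (E' := R0Q021.E) eB (pat_step (by decide +kernel) (q_cons (Vale.Agent.P032.Lt.q R0Q021.q443_0) (q_cons (Vale.Agent.P032.Lt.q R0Q021.q443_1) (q_cons (Vale.Agent.P032.Lt.q R0Q021.q443_2) q_nil))))

theorem p444 : Pat 73 73 TBm TCm (CB.map Fm) R0Q021.P444 R0Q021.I444 := Vale.Agent.P032.Lt.pat_eq (E' := R0Q021.E) eB (pat_step (by decide +kernel) (q_cons (Vale.Agent.P032.Lt.q R0Q021.q444_0) q_nil))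

def C445 : List ℕ := [0, 4, 8, 12, 16, 20, 24, 216065, 348161, 476161, 478209, 607233, 610305, 737281, 741377]
theorem p445 : Pat 73 73 TBm TCm (C445.map Fm) R0Q021.P445 R0Q021.I445 := Vale.Agent.P032.Lt.pat_eq (E' := R0Q021.E445) (by decide +kernel) (pat_step (by decide +kernel) (q_cons (Vale.Agent.P032.Lt.q R0Q021.q445_0) q_nil))

theorem p446 : Pat 73 73 TBm TCm (CB.map Fm) R0Q021.P446 R0Q021.I446 := Vale.Agent.P032.Lt.pat_eq (E' := R0Q021.E) eB (pat_step (by decide +kernel) (q_cons (Vale.Agent.P032.Lt.q R0Q021.q446_0) (q_cons (Vale.Agent.P032.Lt.q R0Q021.q446_1) (q_cons (Vale.Agent.P032.Lt.q R0Q021.q446_2) (q_cons (Vale.Agent.P032.Lt.q R0Q021.q446_3) q_nil)))))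

theorem p447 : Pat 73 73 TBm TCm (CB.map Fm) R0Q021.P447 R0Q021.I447 := Vale.Agent.P032.Lt.pat_eq (E' := R0Q021.E) eB (pat_step (by decide +kernel) (q_cons (Vale.Agent.P032.Lt.q R0Q021.q447_0) (q_cons (Vale.Agent.P032.Lt.q R0Q021.q447_1) (q_cons (Vale.Agent.P032.Lt.q R0Q021.q447_2) (q_cons (Vale.Agent.P032.Lt.q R0Q021.q447_3) q_nil)))))

theorem p448 : Pat 73 73 TBm TCm (CB.map Fm) R0Q021.P448 R0Q021.I448 := Vale.Agent.P032.Lt.pat_eq (E' := R0Q021.E) eB (pat_step (by decide +kernel) (q_cons (Vale.Agent.P032.Lt.q R0Q021.q448_0) (q_cons (Vale.Agent.P032.Lt.q R0Q021.q448_1) (q_cons (Vale.Agent.P032.Lt.q R0Q021.q448_2) (q_cons (Vale.Agent.P032.Lt.q R0Q021.q448_3) (q_cons (Vale.Agent.P032.Lt.q R0Q021.q448_4) (q_cons (Vale.Agent.P032.Lt.q R0Q021.q448_5) (q_cons (Vale.Agent.P032.Lt.q R0Q021.q448_6) (q_cons (Vale.Agent.P032.Lt.q R0Q021.q448_7) (q_cons (Vale.Agent.P032.Lt.q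 R0Q021.q448_8) (q_cons (Vale.Agent.P032.Lt.q R0Q021.q448_9) (q_cons (Vale.Agent.P032.Lt.q R0Q021.q448_10) (q_cons (Vale.Agent.P032.Lt.q R0Q021.q448_11) (q_cons (Vale.Agent.P032.Lt.q R0Q021.q448_12) (q_cons (Vale.Agent.P032.Lt.q R0Q021.q448_13) (q_cons (Vale.Agent.P032.Lt.q R0Q021.q448_14) (q_cons (Vale.Agent.P032.Lt.q R0Q021.q448_15) (q_cons (Vale.Agent.P032.Lt.q R0Q021.q448_16) (q_cons (Vale.Agent.P032.Lt.q R0Q021.q448_17) (q_cons (Vale.Agent.P032.Lt.q R0Q021.q448_18) (q_cons (Vale.Agent.P032.Lt.q R0Q021.q448_19) (q_cons (Vale.Agent.P032.Lt.q R0Q021.q448_20) (q_cons (Vale.Agent.P032.Lt.q R0Q021.q448_21) (q_cons (Vale.Agent.P032.Lt.q R0Q021.q448_22) (q_cons (Vale.Agent.P032.Lt.q R0Q021.q448_23) (q_cons (Vale.Agent.P032.Lt.q R0Q021.q448_24) (q_cons (Vale.Agent.P032.Lt.q R0Q021.q448_25) (q_cons (Vale.Agent.P032.Lt.q R0Q021.q448_26) (q_cons (Vale.Agent.P032.Lt.q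 R0Q021.q448_27) (q_cons (Vale.Agent.P032.Lt.q R0Q021.q448_28) (q_cons (Vale.Agent.P032.Lt.q R0Q021.q448_29) (q_cons (Vale.Agent.P032.Lt.q R0Q021.q448_30) (q_cons (Vale.Agent.P032.Lt.q R0Q021.q448_31) (q_cons (Vale.Agent.P032.Lt.q R0Q021.q448_32) (q_cons (Vale.Agent.P032.Lt.q R0Q021.q448_33) (q_cons (Vale.Agent.P032.Lt.q R0Q021.q448_34) (q_cons (Vale.Agent.P032.Lt.q R0Q021.q448_35) (q_cons (Vale.Agent.P032.Lt.q R0Q021.q448_36) (q_cons (Vale.Agent.P032.Lt.q R0Q021.q448_37) (q_cons (Vale.Agent.P032.Lt.q R0Q021.q448_38) (q_cons (Vale.Agent.P032.Lt.q R0Q021.q448_39) (q_cons (Vale.Agent.P032.Lt.q R0Q021.q448_40) (q_cons (Vale.Agent.P032.Lt.q R0Q021.q448_41) (q_cons (Vale.Agent.P032.Lt.q R0Q021.q448_42) (q_cons (Vale.Agent.P032.Lt.q R0Q021.q448_43) (q_cons (Vale.Agent.P032.Lt.q R0Q021.q448_44) (q_cons (Vale.Agent.P032.Lt.q R0Q021.q448_45) (q_cons (Vale.Agent.P032.Lt.q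 R0Q021.q448_46) (q_cons (Vale.Agent.P032.Lt.q R0Q021.q448_47) (q_cons (Vale.Agent.P032.Lt.q R0Q021.q448_48) (q_cons (Vale.Agent.P032.Lt.q R0Q021.q448_49) (q_cons (Vale.Agent.P032.Lt.q R0Q021.q448_50) (q_cons (Vale.Agent.P032.Lt.q R0Q021.q448_51) (q_cons (Vale.Agent.P032.Lt.q R0Q021.q448_52) (q_cons (Vale.Agent.P032.Lt.q R0Q021.q448_53) (q_cons (Vale.Agent.P032.Lt.q R0Q021.q448_54) (q_cons (Vale.Agent.P032.Lt.q R0Q021.q448_55) (q_cons (Vale.Agent.P032.Lt.q R0Q021.q448_56) (q_cons (Vale.Agent.P032.Lt.q R0Q021.q448_57) (q_cons (Vale.Agent.P032.Lt.q R0Q021.q448_58) (q_cons (Vale.Agent.P032.Lt.q R0Q021.q448_59) (q_cons (Vale.Agent.P032.Lt.q R0Q021.q448_60) (q_cons (Vale.Agent.P032.Lt.q R0Q021.q448_61) (q_cons (Vale.Agent.P032.Lt.q R0Q021.q448_62) (q_cons (Vale.Agent.P032.Lt.q R0Q021.q448_63) (q_cons (Vale.Agent.P032.Lt.q R0Q021.q448_64) q_nil))))))))))))))))))))))))))))))))))))))))))))))))))))))))))))))))))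

theorem p449 : Pat 73 73 TBm TCm (CB.map Fm) R0Q021.P449 R0Q021.I449 := Vale.Agent.P032.Lt.pat_eq (E' := R0Q021.E) eB (pat_step (by decide +kernel) (q_cons (Vale.Agent.P032.Lt.q R0Q021.q449_0) (q_cons (Vale.Agent.P032.Lt.q R0Q021.q449_1) (q_cons (Vale.Agent.P032.Lt.q R0Q021.q449_2) q_nil))))

theorem p450 : Pat 73 73 TBm TCm (CB.map Fm) R0Q021.P450 R0Q021.I450 := Vale.Agent.P032.Lt.pat_eq (E' := R0Q021.E) eB (pat_step (by decide +kernel) (q_cons (Vale.Agent.P032.Lt.q R0Q021.q450_0) (q_cons (Vale.Agent.P032.Lt.q R0Q021.q450_1) (q_cons (Vale.Agent.P032.Lt.q R0Q021.q450_2) (q_cons (Vale.Agent.P032.Lt.q R0Q021.q450_3) (q_cons (Vale.Agent.P032.Lt.q R0Q021.q450_4) (q_cons (Vale.Agent.P032.Lt.q R0Q021.q450_5) (q_cons (Vale.Agent.P032.Lt.q R0Q021.q450_6) (q_cons (Vale.Agent.P032.Lt.q R0Q021.q450_7) (q_cons (Vale.Agent.P032.Lt.q R0Q021.q450_8) q_nil))))))))))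

theorem p451 : Pat 73 73 TBm TCm (CB.map Fm) R0Q021.P451 R0Q021.I451 := Vale.Agent.P032.Lt.pat_eq (E' := R0Q021.E) eB (pat_step (by decide +kernel) (q_cons (Vale.Agent.P032.Lt.q R0Q021.q451_0) (q_cons (Vale.Agent.P032.Lt.q R0Q021.q451_1) q_nil)))

theorem p452 : Pat 73 73 TBm TCm (CB.map Fm) R0Q021.P452 R0Q021.I452 := Vale.Agent.P032.Lt.pat_eq (E' := R0Q021.E) eB (pat_step (by decide +kernel) (q_cons (Vale.Agent.P032.Lt.q R0Q021.q452_0) (q_cons (Vale.Agent.P032.Lt.q R0Q021.q452_1) q_nil)))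

theorem p453 : Pat 73 73 TBm TCm (CB.map Fm) R0Q021.P453 R0Q021.I453 := Vale.Agent.P032.Lt.pat_eq (E' := R0Q021.E) eB (pat_step (by decide +kernel) (q_cons (Vale.Agent.P032.Lt.q R0Q021.q453_0) (q_cons (Vale.Agent.P032.Lt.q R0Q021.q453_1) (q_cons (Vale.Agent.P032.Lt.q R0Q021.q453_2) q_nil))))

theorem p454 : Pat 73 73 TBm TCm (CB.map Fm) R0Q021.P454 R0Q021.I454 := Vale.Agent.P032.Lt.pat_eq (E' := R0Q021.E) eB (pat_step (by decide +kernel) (q_cons (Vale.Agent.P032.Lt.q R0Q021.q454_0) (q_cons (Vale.Agent.P032.Lt.q R0Q021.q454_1) (q_cons (Vale.Agent.P032.Lt.q R0Q021.q454_2) (q_cons (Vale.Agent.P032.Lt.q R0Q021.q454_3) q_nil)))))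

theorem p455 : Pat 73 73 TBm TCm (CB.map Fm) R0Q021.P455 R0Q021.I455 := Vale.Agent.P032.Lt.pat_eq (E' := R0Q021.E) eB (pat_step (by decide +kernel) (q_cons (Vale.Agent.P032.Lt.q R0Q021.q455_0) (q_cons (Vale.Agent.P032.Lt.q R0Q021.q455_1) (q_cons (Vale.Agent.P032.Lt.q R0Q021.q455_2) (q_cons (Vale.Agent.P032.Lt.q R0Q021.q455_3) q_nil)))))

theorem p456 : Pat 73 73 TBm TCm (CB.map Fm) R0Q021.P456 R0Q021.I456 := Vale.Agent.P032.Lt.pat_eq (E' := R0Q021.E) eB (pat_step (by decide +kernel) (q_cons (Vale.Agent.P032.Lt.q R0Q021.q456_0) q_nil))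

theorem p457 : Pat 73 73 TBm TCm (CB.map Fm) R0Q022.P457 R0Q022.I457 := Vale.Agent.P032.Lt.pat_eq (E' := R0Q022.E) eB (pat_step (by decide +kernel) (q_cons (Vale.Agent.P032.Lt.q R0Q022.q457_0) (q_cons (Vale.Agent.P032.Lt.q R0Q022.q457_1) (q_cons (Vale.Agent.P032.Lt.q R0Q022.q457_2) (q_cons (Vale.Agent.P032.Lt.q R0Q022.q457_3) (q_cons (Vale.Agent.P032.Lt.q R0Q022.q457_4) (q_cons (Vale.Agent.P032.Lt.q R0Q022.q457_5) (q_cons (Vale.Agent.P032.Lt.q R0Q022.q457_6) (q_cons (Vale.Agent.P032.Lt.q R0Q022.q457_7) (q_cons (Vale.Agent.P032.Lt.q R0Q022.q457_8) (q_cons (Vale.Agent.P032.Lt.q R0Q022.q457_9) (q_cons (Vale.Agent.P032.Lt.q R0Q022.q457_10) (q_cons (Vale.Agent.P032.Lt.q R0Q022.q457_11) (q_cons (Vale.Agent.P032.Lt.q R0Q022.q457_12) (q_cons (Vale.Agent.P032.Lt.q R0Q022.q457_13) (q_cons (Vale.Agent.P032.Lt.q R0Q022.q457_14) (q_cons (Vale.Agent.P032.Lt.q R0Q022.q457_15)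 (q_cons (Vale.Agent.P032.Lt.q R0Q022.q457_16) (q_cons (Vale.Agent.P032.Lt.q R0Q022.q457_17) (q_cons (Vale.Agent.P032.Lt.q R0Q022.q457_18) (q_cons (Vale.Agent.P032.Lt.q R0Q022.q457_19) (q_cons (Vale.Agent.P032.Lt.q R0Q022.q457_20) q_nil))))))))))))))))))))))

theorem p458 : Pat 73 73 TBm TCm (CB.map Fm) R0Q022.P458 R0Q022.I458 := Vale.Agent.P032.Lt.pat_eq (E' := R0Q022.E) eB (pat_step (by decide +kernel) (q_cons (Vale.Agent.P032.Lt.q R0Q022.q458_0) (q_cons (Vale.Agent.P032.Lt.q R0Q022.q458_1) (q_cons (Vale.Agent.P032.Lt.q R0Q022.q458_2) (q_cons (Vale.Agent.P032.Lt.q R0Q022.q458_3) (q_cons (Vale.Agent.P032.Lt.q R0Q022.q458_4) (q_cons (Vale.Agent.P032.Lt.q R0Q022.q458_5) (q_cons (Vale.Agent.P032.Lt.q R0Q022.q458_6) (q_cons (Vale.Agent.P032.Lt.q R0Q022.q458_7) (q_cons (Vale.Agent.P032.Lt.q R0Q022.q458_8) (q_cons (Vale.Agent.P032.Lt.q R0Q022.q458_9) (q_cons (Vale.Agent.P032.Lt.q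 R0Q022.q458_10) (q_cons (Vale.Agent.P032.Lt.q R0Q022.q458_11) (q_cons (Vale.Agent.P032.Lt.q R0Q022.q458_12) (q_cons (Vale.Agent.P032.Lt.q R0Q022.q458_13) (q_cons (Vale.Agent.P032.Lt.q R0Q022.q458_14) (q_cons (Vale.Agent.P032.Lt.q R0Q022.q458_15) (q_cons (Vale.Agent.P032.Lt.q R0Q022.q458_16) (q_cons (Vale.Agent.P032.Lt.q R0Q022.q458_17) q_nil)))))))))))))))))))

def C459 : List ℕ := [0, 4, 8, 12, 16, 20, 24, 89089, 212993, 347137, 475137, 737281]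
theorem p459 : Pat 73 73 TBm TCm (C459.map Fm) R0Q022.P459 R0Q022.I459 := Vale.Agent.P032.Lt.pat_eq (E' := R0Q022.E459) (by decide +kernel) (pat_step (by decide +kernel) (q_cons (Vale.Agent.P032.Lt.q R0Q022.q459_0) (q_cons (Vale.Agent.P032.Lt.q R0Q022.q459_1) (q_cons (Vale.Agent.P032.Lt.q R0Q022.q459_2) (q_cons (Vale.Agent.P032.Lt.q R0Q022.q459_3) (q_cons (Vale.Agent.P032.Lt.q R0Q022.q459_4) (q_cons (Vale.Agent.P032.Lt.q R0Q022.q459_5) q_nil)))))))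

theorem p460 : Pat 73 73 TBm TCm (CB.map Fm) R0Q022.P460 R0Q022.I460 := Vale.Agent.P032.Lt.pat_eq (E' := R0Q022.E) eB (pat_step (by decide +kernel) (q_cons (Vale.Agent.P032.Lt.q R0Q022.q460_0) (q_cons (Vale.Agent.P032.Lt.q R0Q022.q460_1) (q_cons (Vale.Agent.P032.Lt.q R0Q022.q460_2) (q_cons (Vale.Agent.P032.Lt.q R0Q022.q460_3) (q_cons (Vale.Agent.P032.Lt.q R0Q022.q460_4) (q_cons (Vale.Agent.P032.Lt.q R0Q022.q460_5) q_nil)))))))

theorem p461 : Pat 73 73 TBm TCm (CB.map Fm) R0Q022.P461 R0Q022.I461 := Vale.Agent.P032.Lt.pat_eq (E' := R0Q022.E) eB (pat_step (by decide +kernel) (q_cons (Vale.Agent.P032.Lt.q R0Q022.q461_0) (q_cons (Vale.Agent.P032.Lt.q R0Q022.q461_1) (q_cons (Vale.Agent.P032.Lt.q R0Q022.q461_2) (q_cons (Vale.Agent.P032.Lt.q R0Q022.q461_3) q_nil)))))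

def C462 : List ℕ := [0, 4, 8, 12, 16, 20, 24, 737281]
theorem p462 : Pat 73 73 TBm TCm (C462.map Fm) R0Q022.P462 R0Q022.I462 := Vale.Agent.P032.Lt.pat_eq (E' := R0Q022.E462) (by decide +kernel) (pat_step (by decide +kernel) (q_cons (Vale.Agent.P032.Lt.q R0Q022.q462_0) (q_cons (Vale.Agent.P032.Lt.q R0Q022.q462_1) (q_cons (Vale.Agent.P032.Lt.q R0Q022.q462_2) (q_cons (Vale.Agent.P032.Lt.q R0Q022.q462_3) (q_cons (Vale.Agent.P032.Lt.q R0Q022.q462_4) (q_cons (Vale.Agent.P032.Lt.q R0Q022.q462_5) (q_cons (Vale.Agent.P032.Lt.q R0Q022.q462_6) (q_cons (Vale.Agent.P032.Lt.q R0Q022.q462_7) q_nil)))))))))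

theorem p463 : Pat 73 73 TBm TCm (CB.map Fm) R0Q022.P463 [] := Vale.Agent.P032.Lt.pat_eq (E' := R0Q022.E) eB (pat_end (by decide +kernel) (Vale.Agent.P032.Lt.q R0Q022.q463))

theorem p464 : Pat 73 73 TBm TCm (CB.map Fm) R0Q022.P464 R0Q022.I464 := Vale.Agent.P032.Lt.pat_eq (E' := R0Q022.E) eB (pat_step (by decide +kernel) (q_cons (Vale.Agent.P032.Lt.q R0Q022.q464_0) (q_cons (Vale.Agent.P032.Lt.q R0Q022.q464_1) (q_cons (Vale.Agent.P032.Lt.q R0Q022.q464_2) (q_cons (Vale.Agent.P032.Lt.q R0Q022.q464_3) (q_cons (Vale.Agent.P032.Lt.q R0Q022.q464_4) (q_cons (Vale.Agent.P032.Lt.q R0Q022.q464_5) (q_cons (Vale.Agent.P032.Lt.q R0Q022.q464_6) (q_cons (Vale.Agent.P032.Lt.q R0Q022.q464_7) (q_cons (Vale.Agent.P032.Lt.q R0Q022.q464_8) (q_cons (Vale.Agent.P032.Lt.q R0Q022.q464_9) (q_cons (Vale.Agent.P032.Lt.q R0Q022.q464_10) (q_cons (Vale.Agent.P032.Lt.q R0Q022.q464_11) (q_cons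 (Vale.Agent.P032.Lt.q R0Q022.q464_12) q_nil))))))))))))))

theorem p465 : Pat 73 73 TBm TCm (CB.map Fm) R0Q022.P465 R0Q022.I465 := Vale.Agent.P032.Lt.pat_eq (E' := R0Q022.E) eB (pat_step (by decide +kernel) (q_cons (Vale.Agent.P032.Lt.q R0Q022.q465_0) (q_cons (Vale.Agent.P032.Lt.q R0Q022.q465_1) (q_cons (Vale.Agent.P032.Lt.q R0Q022.q465_2) (q_cons (Vale.Agent.P032.Lt.q R0Q022.q465_3) (q_cons (Vale.Agent.P032.Lt.q R0Q022.q465_4) (q_cons (Vale.Agent.P032.Lt.q R0Q022.q465_5) q_nil)))))))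

theorem p466 : Pat 73 73 TBm TCm (CB.map Fm) R0Q022.P466 R0Q022.I466 := Vale.Agent.P032.Lt.pat_eq (E' := R0Q022.E) eB (pat_step (by decide +kernel) (q_cons (Vale.Agent.P032.Lt.q R0Q022.q466_0) (q_cons (Vale.Agent.P032.Lt.q R0Q022.q466_1) (q_cons (Vale.Agent.P032.Lt.q R0Q022.q466_2) (q_cons (Vale.Agent.P032.Lt.q R0Q022.q466_3) (q_cons (Vale.Agent.P032.Lt.q R0Q022.q466_4) (q_cons (Vale.Agent.P032.Lt.q R0Q022.q466_5) (q_cons (Vale.Agent.P032.Lt.q R0Q022.q466_6) (q_cons (Vale.Agent.P032.Lt.q R0Q022.q466_7) q_nil)))))))))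

theorem p467 : Pat 73 73 TBm TCm (CB.map Fm) R0Q022.P467 R0Q022.I467 := Vale.Agent.P032.Lt.pat_eq (E' := R0Q022.E) eB (pat_step (by decide +kernel) (q_cons (Vale.Agent.P032.Lt.q R0Q022.q467_0) (q_cons (Vale.Agent.P032.Lt.q R0Q022.q467_1) (q_cons (Vale.Agent.P032.Lt.q R0Q022.q467_2) (q_cons (Vale.Agent.P032.Lt.q R0Q022.q467_3) (q_cons (Vale.Agent.P032.Lt.q R0Q022.q467_4) (q_cons (Vale.Agent.P032.Lt.q R0Q022.q467_5) q_nil)))))))

theorem p468 : Pat 73 73 TBm TCm (CB.map Fm) R0Q022.P468 R0Q022.I468 := Vale.Agent.P032.Lt.pat_eq (E' := R0Q022.E) eB (pat_step (by decide +kernel) (q_cons (Vale.Agent.P032.Lt.q R0Q022.q468_0) (q_cons (Vale.Agent.P032.Lt.q R0Q022.q468_1) (q_cons (Vale.Agent.P032.Lt.q R0Q022.q468_2) (q_cons (Vale.Agent.P032.Lt.q R0Q022.q468_3) (q_cons (Vale.Agent.P032.Lt.q R0Q022.q468_4) (q_cons (Vale.Agent.P032.Lt.q R0Q022.q468_5) q_nil)))))))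

theorem p469 : Pat 73 73 TBm TCm (CB.map Fm) R0Q022.P469 R0Q022.I469 := Vale.Agent.P032.Lt.pat_eq (E' := R0Q022.E) eB (pat_step (by decide +kernel) (q_cons (Vale.Agent.P032.Lt.q R0Q022.q469_0) (q_cons (Vale.Agent.P032.Lt.q R0Q022.q469_1) q_nil)))

theorem p470 : Pat 73 73 TBm TCm (CB.map Fm) R0Q022.P470 R0Q022.I470 := Vale.Agent.P032.Lt.pat_eq (E' := R0Q022.E) eB (pat_step (by decide +kernel) (q_cons (Vale.Agent.P032.Lt.q R0Q022.q470_0) (q_cons (Vale.Agent.P032.Lt.q R0Q022.q470_1) q_nil)))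

theorem p471 : Pat 73 73 TBm TCm (CB.map Fm) R0Q022.P471 R0Q022.I471 := Vale.Agent.P032.Lt.pat_eq (E' := R0Q022.E) eB (pat_step (by decide +kernel) (q_cons (Vale.Agent.P032.Lt.q R0Q022.q471_0) (q_cons (Vale.Agent.P032.Lt.q R0Q022.q471_1) (q_cons (Vale.Agent.P032.Lt.q R0Q022.q471_2) (q_cons (Vale.Agent.P032.Lt.q R0Q022.q471_3) (q_cons (Vale.Agent.P032.Lt.q R0Q022.q471_4) (q_cons (Vale.Agent.P032.Lt.q R0Q022.q471_5) (q_cons (Vale.Agent.P032.Lt.q R0Q022.q471_6) (q_cons (Vale.Agent.P032.Lt.q R0Q022.q471_7) (q_cons (Vale.Agent.P032.Lt.q R0Q022.q471_8) (q_cons (Vale.Agent.P032.Lt.q R0Q022.q471_9) (q_cons (Vale.Agent.P032.Lt.q R0Q022.q471_10) q_nil))))))))))))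

theorem p472 : Pat 73 73 TBm TCm (CB.map Fm) R0Q022.P472 R0Q022.I472 := Vale.Agent.P032.Lt.pat_eq (E' := R0Q022.E) eB (pat_step (by decide +kernel) (q_cons (Vale.Agent.P032.Lt.q R0Q022.q472_0) (q_cons (Vale.Agent.P032.Lt.q R0Q022.q472_1) q_nil)))

theorem p473 : Pat 73 73 TBm TCm (CB.map Fm) R0Q022.P473 R0Q022.I473 := Vale.Agent.P032.Lt.pat_eq (E' := R0Q022.E) eB (pat_step (by decide +kernel) (q_cons (Vale.Agent.P032.Lt.q R0Q022.q473_0) (q_cons (Vale.Agent.P032.Lt.q R0Q022.q473_1) (q_cons (Vale.Agent.P032.Lt.q R0Q022.q473_2) (q_cons (Vale.Agent.P032.Lt.q R0Q022.q473_3) q_nil)))))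

theorem p474 : Pat 73 73 TBm TCm (CB.map Fm) R0Q022.P474 R0Q022.I474 := Vale.Agent.P032.Lt.pat_eq (E' := R0Q022.E) eB (pat_step (by decide +kernel) (q_cons (Vale.Agent.P032.Lt.q R0Q022.q474_0) (q_cons (Vale.Agent.P032.Lt.q R0Q022.q474_1) (q_cons (Vale.Agent.P032.Lt.q R0Q022.q474_2) (q_cons (Vale.Agent.P032.Lt.q R0Q022.q474_3) (q_cons (Vale.Agent.P032.Lt.q R0Q022.q474_4) q_nil))))))

theorem p475 : Pat 73 73 TBm TCm (CB.map Fm) R0Q022.P475 R0Q022.I475 := Vale.Agent.P032.Lt.pat_eq (E' := R0Q022.E) eB (pat_step (by decide +kernel) (q_cons (Vale.Agent.P032.Lt.q R0Q022.q475_0) q_nil))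

theorem p476 : Pat 73 73 TBm TCm (CB.map Fm) R0Q022.P476 R0Q022.I476 := Vale.Agent.P032.Lt.pat_eq (E' := R0Q022.E) eB (pat_step (by decide +kernel) (q_cons (Vale.Agent.P032.Lt.q R0Q022.q476_0) (q_cons (Vale.Agent.P032.Lt.q R0Q022.q476_1) q_nil)))

theorem p477 : Pat 73 73 TBm TCm (CB.map Fm) R0Q022.P477 R0Q022.I477 := Vale.Agent.P032.Lt.pat_eq (E' := R0Q022.E) eB (pat_step (by decide +kernel) (q_cons (Vale.Agent.P032.Lt.q R0Q022.q477_0) (q_cons (Vale.Agent.P032.Lt.q R0Q022.q477_1) (q_cons (Vale.Agent.P032.Lt.q R0Q022.q477_2) (q_cons (Vale.Agent.P032.Lt.q R0Q022.q477_3) (q_cons (Vale.Agent.P032.Lt.q R0Q022.q477_4) q_nil))))))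

theorem p478 : Pat 73 73 TBm TCm (CB.map Fm) R0Q022.P478 R0Q022.I478 := Vale.Agent.P032.Lt.pat_eq (E' := R0Q022.E) eB (pat_step (by decide +kernel) (q_cons (Vale.Agent.P032.Lt.q R0Q022.q478_0) q_nil))

theorem p479 : Pat 73 73 TBm TCm (CB.map Fm) R0Q022.P479 R0Q022.I479 := Vale.Agent.P032.Lt.pat_eq (E' := R0Q022.E) eB (pat_step (by decide +kernel) (q_cons (Vale.Agent.P032.Lt.q R0Q022.q479_0) q_nil))

theorem p480 : Pat 73 73 TBm TCm (CB.map Fm) R0Q022.P480 R0Q022.I480 := Vale.Agent.P032.Lt.pat_eq (E' := R0Q022.E) eB (pat_step (by decide +kernel) (q_cons (Vale.Agent.P032.Lt.q R0Q022.q480_0) (q_cons (Vale.Agent.P032.Lt.q R0Q022.q480_1) (q_cons (Vale.Agent.P032.Lt.q R0Q022.q480_2) (q_cons (Vale.Agent.P032.Lt.q R0Q022.q480_3) (q_cons (Vale.Agent.P032.Lt.q R0Q022.q480_4) (q_cons (Vale.Agent.P032.Lt.q R0Q022.q480_5) (q_cons (Vale.Agent.P032.Lt.q R0Q022.q480_6) q_nil))))))))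

theorem p481 : Pat 73 73 TBm TCm (CB.map Fm) R0Q022.P481 R0Q022.I481 := Vale.Agent.P032.Lt.pat_eq (E' := R0Q022.E) eB (pat_step (by decide +kernel) (q_cons (Vale.Agent.P032.Lt.q R0Q022.q481_0) (q_cons (Vale.Agent.P032.Lt.q R0Q022.q481_1) (q_cons (Vale.Agent.P032.Lt.q R0Q022.q481_2) q_nil))))

theorem p482 : Pat 73 73 TBm TCm (CB.map Fm) R0Q022.P482 R0Q022.I482 := Vale.Agent.P032.Lt.pat_eq (E' := R0Q022.E) eB (pat_step (by decide +kernel) (q_cons (Vale.Agent.P032.Lt.q R0Q022.q482_0) (q_cons (Vale.Agent.P032.Lt.q R0Q022.q482_1) (q_cons (Vale.Agent.P032.Lt.q R0Q022.q482_2) (q_cons (Vale.Agent.P032.Lt.q R0Q022.q482_3) (q_cons (Vale.Agent.P032.Lt.q R0Q022.q482_4) q_nil))))))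

def C483 : List ℕ := [0, 4, 8, 12, 16, 20, 24, 84993, 741377]
theorem p483 : Pat 73 73 TBm TCm (C483.map Fm) R0Q022.P483 R0Q022.I483 := Vale.Agent.P032.Lt.pat_eq (E' := R0Q022.E483) (by decide +kernel) (pat_step (by decide +kernel) (q_cons (Vale.Agent.P032.Lt.q R0Q022.q483_0) (q_cons (Vale.Agent.P032.Lt.q R0Q022.q483_1) (q_cons (Vale.Agent.P032.Lt.q R0Q022.q483_2) (q_cons (Vale.Agent.P032.Lt.q R0Q022.q483_3) (q_cons (Vale.Agent.P032.Lt.q R0Q022.q483_4) (q_cons (Vale.Agent.P032.Lt.q R0Q022.q483_5) q_nil)))))))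

theorem p484 : Pat 73 73 TBm TCm (CB.map Fm) R0Q022.P484 R0Q022.I484 := Vale.Agent.P032.Lt.pat_eq (E' := R0Q022.E) eB (pat_step (by decide +kernel) (q_cons (Vale.Agent.P032.Lt.q R0Q022.q484_0) (q_cons (Vale.Agent.P032.Lt.q R0Q022.q484_1) (q_cons (Vale.Agent.P032.Lt.q R0Q022.q484_2) (q_cons (Vale.Agent.P032.Lt.q R0Q022.q484_3) (q_cons (Vale.Agent.P032.Lt.q R0Q022.q484_4) (q_cons (Vale.Agent.P032.Lt.q R0Q022.q484_5) (q_cons (Vale.Agent.P032.Lt.q R0Q022.q484_6) (q_cons (Vale.Agent.P032.Lt.q R0Q022.q484_7) (q_cons (Vale.Agent.P032.Lt.q R0Q022.q484_8) (q_cons (Vale.Agent.P032.Lt.q R0Q022.q484_9) (q_cons (Vale.Agent.P032.Lt.q R0Q022.q484_10) (q_cons (Vale.Agent.P032.Lt.q R0Q022.q484_11) (q_cons (Vale.Agent.P032.Lt.q R0Q022.q484_12) (q_cons (Vale.Agent.P032.Lt.q R0Q022.q484_13) (q_cons (Vale.Agent.P032.Lt.q R0Q022.q484_14) (q_cons (Vale.Agent.P032.Lt.q R0Q022.q484_15)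 (q_cons (Vale.Agent.P032.Lt.q R0Q022.q484_16) (q_cons (Vale.Agent.P032.Lt.q R0Q022.q484_17) (q_cons (Vale.Agent.P032.Lt.q R0Q022.q484_18) (q_cons (Vale.Agent.P032.Lt.q R0Q022.q484_19) (q_cons (Vale.Agent.P032.Lt.q R0Q022.q484_20) (q_cons (Vale.Agent.P032.Lt.q R0Q022.q484_21) q_nil)))))))))))))))))))))))

theorem p485 : Pat 73 73 TBm TCm (CB.map Fm) R0Q022.P485 R0Q022.I485 := Vale.Agent.P032.Lt.pat_eq (E' := R0Q022.E) eB (pat_step (by decide +kernel) (q_cons (Vale.Agent.P032.Lt.q R0Q022.q485_0) (q_cons (Vale.Agent.P032.Lt.q R0Q022.q485_1) q_nil)))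

def C486 : List ℕ := [0, 4, 8, 12, 16, 20, 24, 344065, 486401, 737281]
theorem p486 : Pat 73 73 TBm TCm (C486.map Fm) R0Q022.P486 R0Q022.I486 := Vale.Agent.P032.Lt.pat_eq (E' := R0Q022.E486) (by decide +kernel) (pat_step (by decide +kernel) (q_cons (Vale.Agent.P032.Lt.q R0Q022.q486_0) (q_cons (Vale.Agent.P032.Lt.q R0Q022.q486_1) (q_cons (Vale.Agent.P032.Lt.q R0Q022.q486_2) (q_cons (Vale.Agent.P032.Lt.q R0Q022.q486_3) q_nil)))))

theorem p487 : Pat 73 73 TBm TCm (CB.map Fm) R0Q023.P487 R0Q023.I487 := Vale.Agent.P032.Lt.pat_eq (E' := R0Q023.E) eB (pat_step (by decide +kernel) (q_cons (Vale.Agent.P032.Lt.q R0Q023.q487_0) (q_cons (Vale.Agent.P032.Lt.q R0Q023.q487_1) (q_cons (Vale.Agent.P032.Lt.q R0Q023.q487_2) q_nil))))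

theorem p488 : Pat 73 73 TBm TCm (CB.map Fm) R0Q023.P488 R0Q023.I488 := Vale.Agent.P032.Lt.pat_eq (E' := R0Q023.E) eB (pat_step (by decide +kernel) (q_cons (Vale.Agent.P032.Lt.q R0Q023.q488_0) (q_cons (Vale.Agent.P032.Lt.q R0Q023.q488_1) (q_cons (Vale.Agent.P032.Lt.q R0Q023.q488_2) (q_cons (Vale.Agent.P032.Lt.q R0Q023.q488_3) (q_cons (Vale.Agent.P032.Lt.q R0Q023.q488_4) (q_cons (Vale.Agent.P032.Lt.q R0Q023.q488_5) q_nil)))))))

theorem p489 : Pat 73 73 TBm TCm (CB.map Fm) R0Q023.P489 R0Q023.I489 := Vale.Agent.P032.Lt.pat_eq (E' := R0Q023.E) eB (pat_step (by decide +kernel) (q_cons (Vale.Agent.P032.Lt.q R0Q023.q489_0) (q_cons (Vale.Agent.P032.Lt.q R0Q023.q489_1) (q_cons (Vale.Agent.P032.Lt.q R0Q023.q489_2) (q_cons (Vale.Agent.P032.Lt.q R0Q023.q489_3) (q_cons (Vale.Agent.P032.Lt.q R0Q023.q489_4) (q_cons (Vale.Agent.P032.Lt.q R0Q023.q489_5) q_nil)))))))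

theorem p490 : Pat 73 73 TBm TCm (CB.map Fm) R0Q023.P490 R0Q023.I490 := Vale.Agent.P032.Lt.pat_eq (E' := R0Q023.E) eB (pat_step (by decide +kernel) (q_cons (Vale.Agent.P032.Lt.q R0Q023.q490_0) (q_cons (Vale.Agent.P032.Lt.q R0Q023.q490_1) (q_cons (Vale.Agent.P032.Lt.q R0Q023.q490_2) (q_cons (Vale.Agent.P032.Lt.q R0Q023.q490_3) (q_cons (Vale.Agent.P032.Lt.q R0Q023.q490_4) (q_cons (Vale.Agent.P032.Lt.q R0Q023.q490_5) (q_cons (Vale.Agent.P032.Lt.q R0Q023.q490_6) q_nil))))))))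

theorem p491 : Pat 73 73 TBm TCm (CB.map Fm) R0Q023.P491 R0Q023.I491 := Vale.Agent.P032.Lt.pat_eq (E' := R0Q023.E) eB (pat_step (by decide +kernel) (q_cons (Vale.Agent.P032.Lt.q R0Q023.q491_0) (q_cons (Vale.Agent.P032.Lt.q R0Q023.q491_1) (q_cons (Vale.Agent.P032.Lt.q R0Q023.q491_2) (q_cons (Vale.Agent.P032.Lt.q R0Q023.q491_3) (q_cons (Vale.Agent.P032.Lt.q R0Q023.q491_4) (q_cons (Vale.Agent.P032.Lt.q R0Q023.q491_5) (q_cons (Vale.Agent.P032.Lt.q R0Q023.q491_6) (q_cons (Vale.Agent.P032.Lt.q R0Q023.q491_7) (q_cons (Vale.Agent.P032.Lt.q R0Q023.q491_8) (q_cons (Vale.Agent.P032.Lt.q R0Q023.q491_9) (q_cons (Vale.Agent.P032.Lt.q R0Q023.q491_10) (q_cons (Vale.Agent.P032.Lt.q R0Q023.q491_11) (q_cons (Vale.Agent.P032.Lt.q R0Q023.q491_12) (q_cons (Vale.Agent.P032.Lt.q R0Q023.q491_13) (q_cons (Vale.Agent.P032.Lt.q R0Q023.q491_14) (q_cons (Vale.Agent.P032.Lt.q R0Q023.q491_15)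 (q_cons (Vale.Agent.P032.Lt.q R0Q023.q491_16) q_nil))))))))))))))))))

theorem p492 : Pat 73 73 TBm TCm (CB.map Fm) R0Q023.P492 R0Q023.I492 := Vale.Agent.P032.Lt.pat_eq (E' := R0Q023.E) eB (pat_step (by decide +kernel) (q_cons (Vale.Agent.P032.Lt.q R0Q023.q492_0) (q_cons (Vale.Agent.P032.Lt.q R0Q023.q492_1) (q_cons (Vale.Agent.P032.Lt.q R0Q023.q492_2) (q_cons (Vale.Agent.P032.Lt.q R0Q023.q492_3) (q_cons (Vale.Agent.P032.Lt.q R0Q023.q492_4) (q_cons (Vale.Agent.P032.Lt.q R0Q023.q492_5) (q_cons (Vale.Agent.P032.Lt.q R0Q023.q492_6) (q_cons (Vale.Agent.P032.Lt.q R0Q023.q492_7) q_nil)))))))))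

theorem p493 : Pat 73 73 TBm TCm (CB.map Fm) R0Q023.P493 R0Q023.I493 := Vale.Agent.P032.Lt.pat_eq (E' := R0Q023.E) eB (pat_step (by decide +kernel) (q_cons (Vale.Agent.P032.Lt.q R0Q023.q493_0) (q_cons (Vale.Agent.P032.Lt.q R0Q023.q493_1) q_nil)))

theorem p494 : Pat 73 73 TBm TCm (CB.map Fm) R0Q023.P494 R0Q023.I494 := Vale.Agent.P032.Lt.pat_eq (E' := R0Q023.E) eB (pat_step (by decide +kernel) (q_cons (Vale.Agent.P032.Lt.q R0Q023.q494_0) (q_cons (Vale.Agent.P032.Lt.q R0Q023.q494_1) (q_cons (Vale.Agent.P032.Lt.q R0Q023.q494_2) q_nil))))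

theorem p495 : Pat 73 73 TBm TCm (CB.map Fm) R0Q023.P495 R0Q023.I495 := Vale.Agent.P032.Lt.pat_eq (E' := R0Q023.E) eB (pat_step (by decide +kernel) (q_cons (Vale.Agent.P032.Lt.q R0Q023.q495_0) (q_cons (Vale.Agent.P032.Lt.q R0Q023.q495_1) (q_cons (Vale.Agent.P032.Lt.q R0Q023.q495_2) q_nil))))

theorem p496 : Pat 73 73 TBm TCm (CB.map Fm) R0Q023.P496 R0Q023.I496 := Vale.Agent.P032.Lt.pat_eq (E' := R0Q023.E) eB (pat_step (by decide +kernel) (q_cons (Vale.Agent.P032.Lt.q R0Q023.q496_0) q_nil))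

theorem p497 : Pat 73 73 TBm TCm (CB.map Fm) R0Q023.P497 R0Q023.I497 := Vale.Agent.P032.Lt.pat_eq (E' := R0Q023.E) eB (pat_step (by decide +kernel) (q_cons (Vale.Agent.P032.Lt.q R0Q023.q497_0) (q_cons (Vale.Agent.P032.Lt.q R0Q023.q497_1) q_nil)))

theorem p498 : Pat 73 73 TBm TCm (CB.map Fm) R0Q023.P498 R0Q023.I498 := Vale.Agent.P032.Lt.pat_eq (E' := R0Q023.E) eB (pat_step (by decide +kernel) (q_cons (Vale.Agent.P032.Lt.q R0Q023.q498_0) q_nil))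

def C499 : List ℕ := [0, 4, 8, 12, 16, 20, 24, 91137, 93185, 353281, 355329, 482305, 484353, 615425]
theorem p499 : Pat 73 73 TBm TCm (C499.map Fm) R0Q023.P499 R0Q023.I499 := Vale.Agent.P032.Lt.pat_eq (E' := R0Q023.E499) (by decide +kernel) (pat_step (by decide +kernel) (q_cons (Vale.Agent.P032.Lt.q R0Q023.q499_0) q_nil))

def C500 : List ℕ := [0, 4, 8, 12, 16, 20, 24, 355329, 476161, 606209, 737281]
theorem p500 : Pat 73 73 TBm TCm (C500.map Fm) R0Q023.P500 R0Q023.I500 := Vale.Agent.P032.Lt.pat_eq (E' := R0Q023.E500) (by decide +kernel) (pat_step (by decide +kernel) (q_cons (Vale.Agent.P032.Lt.q R0Q023.q500_0) (q_cons (Vale.Agent.P032.Lt.q R0Q023.q500_1) (q_cons (Vale.Agent.P032.Lt.q R0Q023.q500_2) (q_cons (Vale.Agent.P032.Lt.q R0Q023.q500_3) (q_cons (Vale.Agent.P032.Lt.q R0Q023.q500_4) (q_cons (Vale.Agent.P032.Lt.q R0Q023.q500_5) (q_cons (Vale.Agent.P032.Lt.q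 R0Q023.q500_6) q_nil))))))))

theorem p501 : Pat 73 73 TBm TCm (CB.map Fm) R0Q023.P501 R0Q023.I501 := Vale.Agent.P032.Lt.pat_eq (E' := R0Q023.E) eB (pat_step (by decide +kernel) (q_cons (Vale.Agent.P032.Lt.q R0Q023.q501_0) (q_cons (Vale.Agent.P032.Lt.q R0Q023.q501_1) (q_cons (Vale.Agent.P032.Lt.q R0Q023.q501_2) (q_cons (Vale.Agent.P032.Lt.q R0Q023.q501_3) q_nil)))))

def C502 : List ℕ := [0, 4, 8, 12, 16, 20, 24, 91137, 355329, 615425]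
theorem p502 : Pat 73 73 TBm TCm (C502.map Fm) R0Q023.P502 R0Q023.I502 := Vale.Agent.P032.Lt.pat_eq (E' := R0Q023.E502) (by decide +kernel) (pat_step (by decide +kernel) (q_cons (Vale.Agent.P032.Lt.q R0Q023.q502_0) q_nil))

theorem p503 : Pat 73 73 TBm TCm (CB.map Fm) R0Q023.P503 R0Q023.I503 := Vale.Agent.P032.Lt.pat_eq (E' := R0Q023.E) eB (pat_step (by decide +kernel) (q_cons (Vale.Agent.P032.Lt.q R0Q023.q503_0) (q_cons (Vale.Agent.P032.Lt.q R0Q023.q503_1) (q_cons (Vale.Agent.P032.Lt.q R0Q023.q503_2) (q_cons (Vale.Agent.P032.Lt.q R0Q023.q503_3) (q_cons (Vale.Agent.P032.Lt.q R0Q023.q503_4) (q_cons (Vale.Agent.P032.Lt.q R0Q023.q503_5) (q_cons (Vale.Agent.P032.Lt.q R0Q023.q503_6) (q_cons (Vale.Agent.P032.Lt.q R0Q023.q503_7) (q_cons (Vale.Agent.P032.Lt.q R0Q023.q503_8) (q_cons (Vale.Agent.P032.Lt.q R0Q023.q503_9) (q_cons (Vale.Agent.P032.Lt.q R0Q023.q503_10) (q_cons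 (Vale.Agent.P032.Lt.q R0Q023.q503_11) (q_cons (Vale.Agent.P032.Lt.q R0Q023.q503_12) (q_cons (Vale.Agent.P032.Lt.q R0Q023.q503_13) q_nil)))))))))))))))

theorem p504 : Pat 73 73 TBm TCm (CB.map Fm) R0Q023.P504 R0Q023.I504 := Vale.Agent.P032.Lt.pat_eq (E' := R0Q023.E) eB (pat_step (by decide +kernel) (q_cons (Vale.Agent.P032.Lt.q R0Q023.q504_0) (q_cons (Vale.Agent.P032.Lt.q R0Q023.q504_1) (q_cons (Vale.Agent.P032.Lt.q R0Q023.q504_2) (q_cons (Vale.Agent.P032.Lt.q R0Q023.q504_3) (q_cons (Vale.Agent.P032.Lt.q R0Q023.q504_4) (q_cons (Vale.Agent.P032.Lt.q R0Q023.q504_5) (q_cons (Vale.Agent.P032.Lt.q R0Q023.q504_6) (q_cons (Vale.Agent.P032.Lt.q R0Q023.q504_7) (q_cons (Vale.Agent.P032.Lt.q R0Q023.q504_8) (q_cons (Vale.Agent.P032.Lt.q R0Q023.q504_9) q_nil)))))))))))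

def C505 : List ℕ := [0, 4, 8, 12, 16, 20, 24, 215041, 216065, 355329, 476161, 606209, 737281]
theorem p505 : Pat 73 73 TBm TCm (C505.map Fm) R0Q024.P505 R0Q024.I505 := Vale.Agent.P032.Lt.pat_eq (E' := R0Q024.E505) (by decide +kernel) (pat_step (by decide +kernel) (q_cons (Vale.Agent.P032.Lt.q R0Q024.q505_0) (q_cons (Vale.Agent.P032.Lt.q R0Q024.q505_1) (q_cons (Vale.Agent.P032.Lt.q R0Q024.q505_2) (q_cons (Vale.Agent.P032.Lt.q R0Q024.q505_3) (q_cons (Vale.Agent.P032.Lt.q R0Q024.q505_4) (q_cons (Vale.Agent.P032.Lt.q R0Q024.q505_5) (q_cons (Vale.Agent.P032.Lt.q R0Q024.q505_6) q_nil))))))))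

theorem p506 : Pat 73 73 TBm TCm (CB.map Fm) R0Q024.P506 R0Q024.I506 := Vale.Agent.P032.Lt.pat_eq (E' := R0Q024.E) eB (pat_step (by decide +kernel) (q_cons (Vale.Agent.P032.Lt.q R0Q024.q506_0) q_nil))

theorem p507 : Pat 73 73 TBm TCm (CB.map Fm) R0Q024.P507 R0Q024.I507 := Vale.Agent.P032.Lt.pat_eq (E' := R0Q024.E) eB (pat_step (by decide +kernel) (q_cons (Vale.Agent.P032.Lt.q R0Q024.q507_0) (q_cons (Vale.Agent.P032.Lt.q R0Q024.q507_1) q_nil)))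

theorem p508 : Pat 73 73 TBm TCm (CB.map Fm) R0Q024.P508 R0Q024.I508 := Vale.Agent.P032.Lt.pat_eq (E' := R0Q024.E) eB (pat_step (by decide +kernel) (q_cons (Vale.Agent.P032.Lt.q R0Q024.q508_0) q_nil))

theorem p509 : Pat 73 73 TBm TCm (CB.map Fm) R0Q024.P509 R0Q024.I509 := Vale.Agent.P032.Lt.pat_eq (E' := R0Q024.E) eB (pat_step (by decide +kernel) (q_cons (Vale.Agent.P032.Lt.q R0Q024.q509_0) (q_cons (Vale.Agent.P032.Lt.q R0Q024.q509_1) q_nil)))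

theorem p510 : Pat 73 73 TBm TCm (CB.map Fm) R0Q024.P510 R0Q024.I510 := Vale.Agent.P032.Lt.pat_eq (E' := R0Q024.E) eB (pat_step (by decide +kernel) (q_cons (Vale.Agent.P032.Lt.q R0Q024.q510_0) (q_cons (Vale.Agent.P032.Lt.q R0Q024.q510_1) (q_cons (Vale.Agent.P032.Lt.q R0Q024.q510_2) q_nil))))

theorem p511 : Pat 73 73 TBm TCm (CB.map Fm) R0Q024.P511 R0Q024.I511 := Vale.Agent.P032.Lt.pat_eq (E' := R0Q024.E) eB (pat_step (by decide +kernel) (q_cons (Vale.Agent.P032.Lt.q R0Q024.q511_0) (q_cons (Vale.Agent.P032.Lt.q R0Q024.q511_1) q_nil)))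

def L : List (List ℕ) := [R0Q019.P384, R0Q019.P385, R0Q019.P386, R0Q019.P387, R0Q019.P388, R0Q019.P389, R0Q019.P390, R0Q019.P391, R0Q019.P392, R0Q019.P393, R0Q019.P394, R0Q019.P395, R0Q019.P396, R0Q019.P397, R0Q019.P398, R0Q019.P399, R0Q019.P400, R0Q019.P401, R0Q019.P402, R0Q019.P403, R0Q019.P404, R0Q019.P405, R0Q019.P406, R0Q020.P407, R0Q020.P408, R0Q020.P409, R0Q020.P410, R0Q020.P411, R0Q020.P412, R0Q020.P413, R0Q020.P414, R0Q020.P415, R0Q020.P416, R0Q020.P417, R0Q020.P418, R0Q020.P419, R0Q020.P420, R0Q020.P421, R0Q020.P422, R0Q020.P423, R0Q020.P424, R0Q020.P425, R0Q020.P426, R0Q020.P427, R0Q020.P428, R0Q020.P429, R0Q020.P430, R0Q020.P431, R0Q020.P432, R0Q021.P433, R0Q021.P434, R0Q021.P435, R0Q021.P436, R0Q021.P437, R0Q021.P438, R0Q021.P439, R0Q021.P440, R0Q021.P441, R0Q021.P442, R0Q021.P443, R0Q021.P444, R0Q021.P445, R0Q021.P446, R0Q021.P447, R0Q021.P448,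 R0Q021.P449, R0Q021.P450, R0Q021.P451, R0Q021.P452, R0Q021.P453, R0Q021.P454, R0Q021.P455, R0Q021.P456, R0Q022.P457, R0Q022.P458, R0Q022.P459, R0Q022.P460, R0Q022.P461, R0Q022.P462, R0Q022.P463, R0Q022.P464, R0Q022.P465, R0Q022.P466, R0Q022.P467, R0Q022.P468, R0Q022.P469, R0Q022.P470, R0Q022.P471, R0Q022.P472, R0Q022.P473, R0Q022.P474, R0Q022.P475, R0Q022.P476, R0Q022.P477, R0Q022.P478, R0Q022.P479, R0Q022.P480, R0Q022.P481, R0Q022.P482, R0Q022.P483, R0Q022.P484, R0Q022.P485, R0Q022.P486, R0Q023.P487, R0Q023.P488, R0Q023.P489, R0Q023.P490, R0Q023.P491, R0Q023.P492, R0Q023.P493, R0Q023.P494, R0Q023.P495, R0Q023.P496, R0Q023.P497, R0Q023.P498, R0Q023.P499, R0Q023.P500, R0Q023.P501, R0Q023.P502, R0Q023.P503, R0Q023.P504, R0Q024.P505, R0Q024.P506, R0Q024.P507, R0Q024.P508, R0Q024.P509, R0Q024.P510, R0Q024.P511]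

theorem all : ∀ P ∈ L, CrtF 73 73 TBm TCm (Vale.Agent.P032.Fam.fam2 (Vale.Agent.P032.Fam.im0)) P := crtF_cons p384 (crtF_cons p385 (crtF_cons p386 (crtF_cons p387 (crtF_cons p388 (crtF_cons p389 (crtF_cons p390 (crtF_cons p391 (crtF_cons p392 (crtF_cons p393 (crtF_cons p394 (crtF_cons p395 (crtF_cons p396 (crtF_cons p397 (crtF_cons p398 (crtF_cons p399 (crtF_cons p400 (crtF_cons p401 (crtF_cons p402 (crtF_cons p403 (crtF_cons p404 (crtF_cons p405 (crtF_cons p406 (crtF_cons p407 (crtF_cons p408 (crtF_cons p409 (crtF_cons p410 (crtF_cons p411 (crtF_cons p412 (crtF_cons p413 (crtF_cons p414 (crtF_cons p415 (crtF_cons p416 (crtF_cons p417 (crtF_cons p418 (crtF_cons p419 (crtF_cons p420 (crtF_cons p421 (crtF_cons p422 (crtF_cons p423 (crtF_cons p424 (crtF_cons p425 (crtF_cons p426 (crtF_cons p427 (crtF_cons p428 (crtF_cons p429 (crtF_cons p430 (crtF_cons p431 (crtF_cons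 p432 (crtF_cons p433 (crtF_cons p434 (crtF_cons p435 (crtF_cons p436 (crtF_cons p437 (crtF_cons p438 (crtF_cons p439 (crtF_cons p440 (crtF_cons p441 (crtF_cons p442 (crtF_cons p443 (crtF_cons p444 (crtF_cons p445 (crtF_cons p446 (crtF_cons p447 (crtF_cons p448 (crtF_cons p449 (crtF_cons p450 (crtF_cons p451 (crtF_cons p452 (crtF_cons p453 (crtF_cons p454 (crtF_cons p455 (crtF_cons p456 (crtF_cons p457 (crtF_cons p458 (crtF_cons p459 (crtF_cons p460 (crtF_cons p461 (crtF_cons p462 (crtF_cons p463 (crtF_cons p464 (crtF_cons p465 (crtF_cons p466 (crtF_cons p467 (crtF_cons p468 (crtF_cons p469 (crtF_cons p470 (crtF_cons p471 (crtF_cons p472 (crtF_cons p473 (crtF_cons p474 (crtF_cons p475 (crtF_cons p476 (crtF_cons p477 (crtF_cons p478 (crtF_cons p479 (crtF_cons p480 (crtF_cons p481 (crtF_cons p482 (crtF_cons p483 (crtF_cons p484 (crtF_cons p485 (crtF_cons p486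 (crtF_cons p487 (crtF_cons p488 (crtF_cons p489 (crtF_cons p490 (crtF_cons p491 (crtF_cons p492 (crtF_cons p493 (crtF_cons p494 (crtF_cons p495 (crtF_cons p496 (crtF_cons p497 (crtF_cons p498 (crtF_cons p499 (crtF_cons p500 (crtF_cons p501 (crtF_cons p502 (crtF_cons p503 (crtF_cons p504 (crtF_cons p505 (crtF_cons p506 (crtF_cons p507 (crtF_cons p508 (crtF_cons p509 (crtF_cons p510 (crtF_cons p511 crtF_nil)))))))))))))))))))))))))))))))))))))))))))))))))))))))))))))))))))))))))))))))))))))))))))))))))))))))))))))))))))))))))))))))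

theorem ch : chT 73 73 TCm s0_003 L = true := by decide +kernel

end Vale.Agent.P032X.Cert.XP.B1.R0H003
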