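import Vale.Agent.P032X.H892.LtH
import Vale.Agent.P032X.H286.W73
import Vale.Agent.P032X.Cert.XP.B1.R0T
import Vale.Agent.P032X.Cert.XP.B1.R0Q025
import Vale.Agent.P032X.Cert.XP.B1.R0Q026
import Vale.Agent.P032X.Cert.XP.B1.R0Q027
import Vale.Agent.P032X.Cert.XP.B1.R0Q028

set_option maxRecDepth 1000000

namespace Vale.Agent.P032X.Cert.XP.B1.R0H004

open Vale.Agent.P032.H820.K Vale.Agent.P032.H357.MK Vale.Agent.P032.H286.E Vale.Agent.P032.H61 Vale.Agent.P032X.Cert.XP.B1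

noncomputable abbrev Fm : ℕ → List ℕ := Vale.Agent.P032.Fam.fam2 (Vale.Agent.P032.Fam.im0)

def CB : List ℕ := [0, 4, 8, 12, 16, 20, 24]

theorem eB : Vale.Agent.P032.Lt.eqLL (CB.map Fm) R0Q025.E = true := by decide +kernel

theorem p512 : Pat 73 73 TBm TCm (CB.map Fm) R0Q025.P512 R0Q025.I512 := Vale.Agent.P032.Lt.pat_eq (E' := R0Q025.E) eB (pat_step (by decide +kernel) (q_cons (Vale.Agent.P032.Lt.q R0Q025.q512_0) (q_cons (Vale.Agent.P032.Lt.q R0Q025.q512_1) (q_cons (Vale.Agent.P032.Lt.q R0Q025.q512_2) q_nil))))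

theorem p513 : Pat 73 73 TBm TCm (CB.map Fm) R0Q025.P513 R0Q025.I513 := Vale.Agent.P032.Lt.pat_eq (E' := R0Q025.E) eB (pat_step (by decide +kernel) (q_cons (Vale.Agent.P032.Lt.q R0Q025.q513_0) (q_cons (Vale.Agent.P032.Lt.q R0Q025.q513_1) (q_cons (Vale.Agent.P032.Lt.q R0Q025.q513_2) q_nil))))

def C514 : List ℕ := [0, 4, 8, 12, 16, 20, 24, 81921, 737281]
theorem p514 : Pat 73 73 TBm TCm (C514.map Fm) R0Q025.P514 R0Q025.I514 := Vale.Agent.P032.Lt.pat_eq (E' := R0Q025.E514) (by decide +kernel) (pat_step (by decide +kernel) (q_cons (Vale.Agent.P032.Lt.q R0Q025.q514_0) (q_cons (Vale.Agent.P032.Lt.q R0Q025.q514_1) q_nil)))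

theorem p515 : Pat 73 73 TBm TCm (CB.map Fm) R0Q025.P515 R0Q025.I515 := Vale.Agent.P032.Lt.pat_eq (E' := R0Q025.E) eB (pat_step (by decide +kernel) (q_cons (Vale.Agent.P032.Lt.q R0Q025.q515_0) (q_cons (Vale.Agent.P032.Lt.q R0Q025.q515_1) q_nil)))

theorem p516 : Pat 73 73 TBm TCm (CB.map Fm) R0Q025.P516 R0Q025.I516 := Vale.Agent.P032.Lt.pat_eq (E' := R0Q025.E) eB (pat_step (by decide +kernel) (q_cons (Vale.Agent.P032.Lt.q R0Q025.q516_0) (q_cons (Vale.Agent.P032.Lt.q R0Q025.q516_1) (q_cons (Vale.Agent.P032.Lt.q R0Q025.q516_2) (q_cons (Vale.Agent.P032.Lt.q R0Q025.q516_3) (q_cons (Vale.Agent.P032.Lt.q R0Q025.q516_4) (q_cons (Vale.Agent.P032.Lt.q R0Q025.q516_5) (q_cons (Vale.Agent.P032.Lt.q R0Q025.q516_6) (q_cons (Vale.Agent.P032.Lt.q R0Q025.q516_7) (q_cons (Vale.Agent.P032.Lt.q R0Q025.q516_8) (q_cons (Vale.Agent.P032.Lt.q R0Q025.q516_9) (q_cons (Vale.Agent.P032.Lt.q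 R0Q025.q516_10) (q_cons (Vale.Agent.P032.Lt.q R0Q025.q516_11) (q_cons (Vale.Agent.P032.Lt.q R0Q025.q516_12) (q_cons (Vale.Agent.P032.Lt.q R0Q025.q516_13) (q_cons (Vale.Agent.P032.Lt.q R0Q025.q516_14) (q_cons (Vale.Agent.P032.Lt.q R0Q025.q516_15) (q_cons (Vale.Agent.P032.Lt.q R0Q025.q516_16) (q_cons (Vale.Agent.P032.Lt.q R0Q025.q516_17) (q_cons (Vale.Agent.P032.Lt.q R0Q025.q516_18) (q_cons (Vale.Agent.P032.Lt.q R0Q025.q516_19) (q_cons (Vale.Agent.P032.Lt.q R0Q025.q516_20) (q_cons (Vale.Agent.P032.Lt.q R0Q025.q516_21) (q_cons (Vale.Agent.P032.Lt.q R0Q025.q516_22) (q_cons (Vale.Agent.P032.Lt.q R0Q025.q516_23) (q_cons (Vale.Agent.P032.Lt.q R0Q025.q516_24) (q_cons (Vale.Agent.P032.Lt.q R0Q025.q516_25) (q_cons (Vale.Agent.P032.Lt.q R0Q025.q516_26) (q_cons (Vale.Agent.P032.Lt.q R0Q025.q516_27) (q_cons (Vale.Agent.P032.Lt.q R0Q025.q516_28) (q_cons (Vale.Agent.P032.Lt.q R0Q025.q516_29)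 (q_cons (Vale.Agent.P032.Lt.q R0Q025.q516_30) (q_cons (Vale.Agent.P032.Lt.q R0Q025.q516_31) (q_cons (Vale.Agent.P032.Lt.q R0Q025.q516_32) (q_cons (Vale.Agent.P032.Lt.q R0Q025.q516_33) (q_cons (Vale.Agent.P032.Lt.q R0Q025.q516_34) (q_cons (Vale.Agent.P032.Lt.q R0Q025.q516_35) (q_cons (Vale.Agent.P032.Lt.q R0Q025.q516_36) (q_cons (Vale.Agent.P032.Lt.q R0Q025.q516_37) (q_cons (Vale.Agent.P032.Lt.q R0Q025.q516_38) (q_cons (Vale.Agent.P032.Lt.q R0Q025.q516_39) (q_cons (Vale.Agent.P032.Lt.q R0Q025.q516_40) (q_cons (Vale.Agent.P032.Lt.q R0Q025.q516_41) q_nil)))))))))))))))))))))))))))))))))))))))))))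

def C517 : List ℕ := [0, 4, 8, 12, 16, 20, 24, 82945, 347137, 480257, 606209, 609281, 737281]
theorem p517 : Pat 73 73 TBm TCm (C517.map Fm) R0Q025.P517 R0Q025.I517 := Vale.Agent.P032.Lt.pat_eq (E' := R0Q025.E517) (by decide +kernel) (pat_step (by decide +kernel) (q_cons (Vale.Agent.P032.Lt.q R0Q025.q517_0) q_nil))

theorem p518 : Pat 73 73 TBm TCm (CB.map Fm) R0Q025.P518 R0Q025.I518 := Vale.Agent.P032.Lt.pat_eq (E' := R0Q025.E) eB (pat_step (by decide +kernel) (q_cons (Vale.Agent.P032.Lt.q R0Q025.q518_0) q_nil))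

theorem p519 : Pat 73 73 TBm TCm (CB.map Fm) R0Q025.P519 R0Q025.I519 := Vale.Agent.P032.Lt.pat_eq (E' := R0Q025.E) eB (pat_step (by decide +kernel) (q_cons (Vale.Agent.P032.Lt.q R0Q025.q519_0) (q_cons (Vale.Agent.P032.Lt.q R0Q025.q519_1) q_nil)))

theorem p520 : Pat 73 73 TBm TCm (CB.map Fm) R0Q025.P520 R0Q025.I520 := Vale.Agent.P032.Lt.pat_eq (E' := R0Q025.E) eB (pat_step (by decide +kernel) (q_cons (Vale.Agent.P032.Lt.q R0Q025.q520_0) (q_cons (Vale.Agent.P032.Lt.q R0Q025.q520_1) (q_cons (Vale.Agent.P032.Lt.q R0Q025.q520_2) (q_cons (Vale.Agent.P032.Lt.q R0Q025.q520_3) (q_cons (Vale.Agent.P032.Lt.q R0Q025.q520_4) (q_cons (Vale.Agent.P032.Lt.q R0Q025.q520_5) (q_cons (Vale.Agent.P032.Lt.q R0Q025.q520_6) (q_cons (Vale.Agent.P032.Lt.q R0Q025.q520_7) (q_cons (Vale.Agent.P032.Lt.q R0Q025.q520_8) (q_cons (Vale.Agent.P032.Lt.q R0Q025.q520_9) q_nil)))))))))))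

theorem p521 : Pat 73 73 TBm TCm (CB.map Fm) R0Q025.P521 R0Q025.I521 := Vale.Agent.P032.Lt.pat_eq (E' := R0Q025.E) eB (pat_step (by decide +kernel) (q_cons (Vale.Agent.P032.Lt.q R0Q025.q521_0) q_nil))

theorem p522 : Pat 73 73 TBm TCm (CB.map Fm) R0Q025.P522 R0Q025.I522 := Vale.Agent.P032.Lt.pat_eq (E' := R0Q025.E) eB (pat_step (by decide +kernel) (q_cons (Vale.Agent.P032.Lt.q R0Q025.q522_0) q_nil))

theorem p523 : Pat 73 73 TBm TCm (CB.map Fm) R0Q025.P523 R0Q025.I523 := Vale.Agent.P032.Lt.pat_eq (E' := R0Q025.E) eB (pat_step (by decide +kernel) (q_cons (Vale.Agent.P032.Lt.q R0Q025.q523_0) (q_cons (Vale.Agent.P032.Lt.q R0Q025.q523_1) q_nil)))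

def C524 : List ℕ := [0, 4, 8, 12, 16, 20, 24, 475137]
theorem p524 : Pat 73 73 TBm TCm (C524.map Fm) R0Q025.P524 R0Q025.I524 := Vale.Agent.P032.Lt.pat_eq (E' := R0Q025.E524) (by decide +kernel) (pat_step (by decide +kernel) (q_cons (Vale.Agent.P032.Lt.q R0Q025.q524_0) (q_cons (Vale.Agent.P032.Lt.q R0Q025.q524_1) (q_cons (Vale.Agent.P032.Lt.q R0Q025.q524_2) (q_cons (Vale.Agent.P032.Lt.q R0Q025.q524_3) (q_cons (Vale.Agent.P032.Lt.q R0Q025.q524_4) (q_cons (Vale.Agent.P032.Lt.q R0Q025.q524_5) q_nil)))))))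

def C525 : List ℕ := [0, 4, 8, 12, 16, 20, 24, 220161, 606209, 737281]
theorem p525 : Pat 73 73 TBm TCm (C525.map Fm) R0Q025.P525 R0Q025.I525 := Vale.Agent.P032.Lt.pat_eq (E' := R0Q025.E525) (by decide +kernel) (pat_step (by decide +kernel) (q_cons (Vale.Agent.P032.Lt.q R0Q025.q525_0) q_nil))

theorem p526 : Pat 73 73 TBm TCm (CB.map Fm) R0Q025.P526 R0Q025.I526 := Vale.Agent.P032.Lt.pat_eq (E' := R0Q025.E) eB (pat_step (by decide +kernel) (q_cons (Vale.Agent.P032.Lt.q R0Q025.q526_0) (q_cons (Vale.Agent.P032.Lt.q R0Q025.q526_1) (q_cons (Vale.Agent.P032.Lt.q R0Q025.q526_2) q_nil))))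

def C527 : List ℕ := [0, 4, 8, 12, 16, 20, 24, 353281, 475137, 617473, 737281]
theorem p527 : Pat 73 73 TBm TCm (C527.map Fm) R0Q025.P527 R0Q025.I527 := Vale.Agent.P032.Lt.pat_eq (E' := R0Q025.E527) (by decide +kernel) (pat_step (by decide +kernel) (q_cons (Vale.Agent.P032.Lt.q R0Q025.q527_0) q_nil))

theorem p528 : Pat 73 73 TBm TCm (CB.map Fm) R0Q025.P528 R0Q025.I528 := Vale.Agent.P032.Lt.pat_eq (E' := R0Q025.E) eB (pat_step (by decide +kernel) (q_cons (Vale.Agent.P032.Lt.q R0Q025.q528_0) (q_cons (Vale.Agent.P032.Lt.q R0Q025.q528_1) q_nil)))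

theorem p529 : Pat 73 73 TBm TCm (CB.map Fm) R0Q025.P529 R0Q025.I529 := Vale.Agent.P032.Lt.pat_eq (E' := R0Q025.E) eB (pat_step (by decide +kernel) (q_cons (Vale.Agent.P032.Lt.q R0Q025.q529_0) q_nil))

def C530 : List ℕ := [0, 4, 8, 12, 16, 20, 24, 88065, 609281]
theorem p530 : Pat 73 73 TBm TCm (C530.map Fm) R0Q025.P530 R0Q025.I530 := Vale.Agent.P032.Lt.pat_eq (E' := R0Q025.E530) (by decide +kernel) (pat_step (by decide +kernel) (q_cons (Vale.Agent.P032.Lt.q R0Q025.q530_0) (q_cons (Vale.Agent.P032.Lt.q R0Q025.q530_1) (q_cons (Vale.Agent.P032.Lt.q R0Q025.q530_2) q_nil))))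

theorem p531 : Pat 73 73 TBm TCm (CB.map Fm) R0Q025.P531 R0Q025.I531 := Vale.Agent.P032.Lt.pat_eq (E' := R0Q025.E) eB (pat_step (by decide +kernel) (q_cons (Vale.Agent.P032.Lt.q R0Q025.q531_0) (q_cons (Vale.Agent.P032.Lt.q R0Q025.q531_1) q_nil)))

theorem p532 : Pat 73 73 TBm TCm (CB.map Fm) R0Q025.P532 R0Q025.I532 := Vale.Agent.P032.Lt.pat_eq (E' := R0Q025.E) eB (pat_step (by decide +kernel) (q_cons (Vale.Agent.P032.Lt.q R0Q025.q532_0) q_nil))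

theorem p533 : Pat 73 73 TBm TCm (CB.map Fm) R0Q025.P533 R0Q025.I533 := Vale.Agent.P032.Lt.pat_eq (E' := R0Q025.E) eB (pat_step (by decide +kernel) (q_cons (Vale.Agent.P032.Lt.q R0Q025.q533_0) q_nil))

theorem p534 : Pat 73 73 TBm TCm (CB.map Fm) R0Q025.P534 R0Q025.I534 := Vale.Agent.P032.Lt.pat_eq (E' := R0Q025.E) eB (pat_step (by decide +kernel) (q_cons (Vale.Agent.P032.Lt.q R0Q025.q534_0) q_nil))

theorem p535 : Pat 73 73 TBm TCm (CB.map Fm) R0Q025.P535 R0Q025.I535 := Vale.Agent.P032.Lt.pat_eq (E' := R0Q025.E) eB (pat_step (by decide +kernel) (q_cons (Vale.Agent.P032.Lt.q R0Q025.q535_0) (q_cons (Vale.Agent.P032.Lt.q R0Q025.q535_1) (q_cons (Vale.Agent.P032.Lt.q R0Q025.q535_2) (q_cons (Vale.Agent.P032.Lt.q R0Q025.q535_3) (q_cons (Vale.Agent.P032.Lt.q R0Q025.q535_4) (q_cons (Vale.Agent.P032.Lt.q R0Q025.q535_5) (q_cons (Vale.Agent.P032.Lt.q R0Q025.q535_6) (q_cons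 (Vale.Agent.P032.Lt.q R0Q025.q535_7) (q_cons (Vale.Agent.P032.Lt.q R0Q025.q535_8) (q_cons (Vale.Agent.P032.Lt.q R0Q025.q535_9) (q_cons (Vale.Agent.P032.Lt.q R0Q025.q535_10) (q_cons (Vale.Agent.P032.Lt.q R0Q025.q535_11) (q_cons (Vale.Agent.P032.Lt.q R0Q025.q535_12) q_nil))))))))))))))

theorem p536 : Pat 73 73 TBm TCm (CB.map Fm) R0Q025.P536 R0Q025.I536 := Vale.Agent.P032.Lt.pat_eq (E' := R0Q025.E) eB (pat_step (by decide +kernel) (q_cons (Vale.Agent.P032.Lt.q R0Q025.q536_0) (q_cons (Vale.Agent.P032.Lt.q R0Q025.q536_1) (q_cons (Vale.Agent.P032.Lt.q R0Q025.q536_2) (q_cons (Vale.Agent.P032.Lt.q R0Q025.q536_3) (q_cons (Vale.Agent.P032.Lt.q R0Q025.q536_4) (q_cons (Vale.Agent.P032.Lt.q R0Q025.q536_5) (q_cons (Vale.Agent.P032.Lt.q R0Q025.q536_6) q_nil))))))))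

theorem p537 : Pat 73 73 TBm TCm (CB.map Fm) R0Q025.P537 R0Q025.I537 := Vale.Agent.P032.Lt.pat_eq (E' := R0Q025.E) eB (pat_step (by decide +kernel) (q_cons (Vale.Agent.P032.Lt.q R0Q025.q537_0) (q_cons (Vale.Agent.P032.Lt.q R0Q025.q537_1) q_nil)))

theorem p538 : Pat 73 73 TBm TCm (CB.map Fm) R0Q025.P538 R0Q025.I538 := Vale.Agent.P032.Lt.pat_eq (E' := R0Q025.E) eB (pat_step (by decide +kernel) (q_cons (Vale.Agent.P032.Lt.q R0Q025.q538_0) q_nil))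

theorem p539 : Pat 73 73 TBm TCm (CB.map Fm) R0Q025.P539 R0Q025.I539 := Vale.Agent.P032.Lt.pat_eq (E' := R0Q025.E) eB (pat_step (by decide +kernel) (q_cons (Vale.Agent.P032.Lt.q R0Q025.q539_0) q_nil))

theorem p540 : Pat 73 73 TBm TCm (CB.map Fm) R0Q025.P540 R0Q025.I540 := Vale.Agent.P032.Lt.pat_eq (E' := R0Q025.E) eB (pat_step (by decide +kernel) (q_cons (Vale.Agent.P032.Lt.q R0Q025.q540_0) q_nil))

theorem p541 : Pat 73 73 TBm TCm (CB.map Fm) R0Q025.P541 R0Q025.I541 := Vale.Agent.P032.Lt.pat_eq (E' := R0Q025.E) eB (pat_step (by decide +kernel) (q_cons (Vale.Agent.P032.Lt.q R0Q025.q541_0) q_nil))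

theorem p542 : Pat 73 73 TBm TCm (CB.map Fm) R0Q026.P542 R0Q026.I542 := Vale.Agent.P032.Lt.pat_eq (E' := R0Q026.E) eB (pat_step (by decide +kernel) (q_cons (Vale.Agent.P032.Lt.q R0Q026.q542_0) (q_cons (Vale.Agent.P032.Lt.q R0Q026.q542_1) q_nil)))

theorem p543 : Pat 73 73 TBm TCm (CB.map Fm) R0Q026.P543 R0Q026.I543 := Vale.Agent.P032.Lt.pat_eq (E' := R0Q026.E) eB (pat_step (by decide +kernel) (q_cons (Vale.Agent.P032.Lt.q R0Q026.q543_0) (q_cons (Vale.Agent.P032.Lt.q R0Q026.q543_1) (q_cons (Vale.Agent.P032.Lt.q R0Q026.q543_2) (q_cons (Vale.Agent.P032.Lt.q R0Q026.q543_3) (q_cons (Vale.Agent.P032.Lt.q R0Q026.q543_4) (q_cons (Vale.Agent.P032.Lt.q R0Q026.q543_5) (q_cons (Vale.Agent.P032.Lt.q R0Q026.q543_6) (q_cons (Vale.Agent.P032.Lt.q R0Q026.q543_7) q_nil)))))))))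

theorem p544 : Pat 73 73 TBm TCm (CB.map Fm) R0Q026.P544 R0Q026.I544 := Vale.Agent.P032.Lt.pat_eq (E' := R0Q026.E) eB (pat_step (by decide +kernel) (q_cons (Vale.Agent.P032.Lt.q R0Q026.q544_0) (q_cons (Vale.Agent.P032.Lt.q R0Q026.q544_1) (q_cons (Vale.Agent.P032.Lt.q R0Q026.q544_2) (q_cons (Vale.Agent.P032.Lt.q R0Q026.q544_3) (q_cons (Vale.Agent.P032.Lt.q R0Q026.q544_4) (q_cons (Vale.Agent.P032.Lt.q R0Q026.q544_5) (q_cons (Vale.Agent.P032.Lt.q R0Q026.q544_6) (q_cons (Vale.Agent.P032.Lt.q R0Q026.q544_7) (q_cons (Vale.Agent.P032.Lt.q R0Q026.q544_8) q_nil))))))))))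

theorem p545 : Pat 73 73 TBm TCm (CB.map Fm) R0Q026.P545 R0Q026.I545 := Vale.Agent.P032.Lt.pat_eq (E' := R0Q026.E) eB (pat_step (by decide +kernel) (q_cons (Vale.Agent.P032.Lt.q R0Q026.q545_0) q_nil))

theorem p546 : Pat 73 73 TBm TCm (CB.map Fm) R0Q026.P546 R0Q026.I546 := Vale.Agent.P032.Lt.pat_eq (E' := R0Q026.E) eB (pat_step (by decide +kernel) (q_cons (Vale.Agent.P032.Lt.q R0Q026.q546_0) (q_cons (Vale.Agent.P032.Lt.q R0Q026.q546_1) q_nil)))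

theorem p547 : Pat 73 73 TBm TCm (CB.map Fm) R0Q026.P547 R0Q026.I547 := Vale.Agent.P032.Lt.pat_eq (E' := R0Q026.E) eB (pat_step (by decide +kernel) (q_cons (Vale.Agent.P032.Lt.q R0Q026.q547_0) (q_cons (Vale.Agent.P032.Lt.q R0Q026.q547_1) (q_cons (Vale.Agent.P032.Lt.q R0Q026.q547_2) (q_cons (Vale.Agent.P032.Lt.q R0Q026.q547_3) (q_cons (Vale.Agent.P032.Lt.q R0Q026.q547_4) (q_cons (Vale.Agent.P032.Lt.q R0Q026.q547_5) q_nil)))))))

def C548 : List ℕ := [0, 4, 8, 12, 16, 20, 24, 212993, 344065, 475137]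
theorem p548 : Pat 73 73 TBm TCm (C548.map Fm) R0Q026.P548 R0Q026.I548 := Vale.Agent.P032.Lt.pat_eq (E' := R0Q026.E548) (by decide +kernel) (pat_step (by decide +kernel) (q_cons (Vale.Agent.P032.Lt.q R0Q026.q548_0) (q_cons (Vale.Agent.P032.Lt.q R0Q026.q548_1) (q_cons (Vale.Agent.P032.Lt.q R0Q026.q548_2) q_nil))))

theorem p549 : Pat 73 73 TBm TCm (CB.map Fm) R0Q026.P549 R0Q026.I549 := Vale.Agent.P032.Lt.pat_eq (E' := R0Q026.E) eB (pat_step (by decide +kernel) (q_cons (Vale.Agent.P032.Lt.q R0Q026.q549_0) (q_cons (Vale.Agent.P032.Lt.q R0Q026.q549_1) (q_cons (Vale.Agent.P032.Lt.q R0Q026.q549_2) (q_cons (Vale.Agent.P032.Lt.q R0Q026.q549_3) (q_cons (Vale.Agent.P032.Lt.q R0Q026.q549_4) (q_cons (Vale.Agent.P032.Lt.q R0Q026.q549_5) (q_cons (Vale.Agent.P032.Lt.q R0Q026.q549_6) (q_cons (Vale.Agent.P032.Lt.q R0Q026.q549_7) (q_cons (Vale.Agent.P032.Lt.q R0Q026.q549_8) (q_cons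 (Vale.Agent.P032.Lt.q R0Q026.q549_9) (q_cons (Vale.Agent.P032.Lt.q R0Q026.q549_10) (q_cons (Vale.Agent.P032.Lt.q R0Q026.q549_11) (q_cons (Vale.Agent.P032.Lt.q R0Q026.q549_12) (q_cons (Vale.Agent.P032.Lt.q R0Q026.q549_13) (q_cons (Vale.Agent.P032.Lt.q R0Q026.q549_14) (q_cons (Vale.Agent.P032.Lt.q R0Q026.q549_15) (q_cons (Vale.Agent.P032.Lt.q R0Q026.q549_16) (q_cons (Vale.Agent.P032.Lt.q R0Q026.q549_17) (q_cons (Vale.Agent.P032.Lt.q R0Q026.q549_18) (q_cons (Vale.Agent.P032.Lt.q R0Q026.q549_19) (q_cons (Vale.Agent.P032.Lt.q R0Q026.q549_20) (q_cons (Vale.Agent.P032.Lt.q R0Q026.q549_21) (q_cons (Vale.Agent.P032.Lt.q R0Q026.q549_22) (q_cons (Vale.Agent.P032.Lt.q R0Q026.q549_23) (q_cons (Vale.Agent.P032.Lt.q R0Q026.q549_24) (q_cons (Vale.Agent.P032.Lt.q R0Q026.q549_25) q_nil)))))))))))))))))))))))))))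

def C550 : List ℕ := [0, 4, 8, 12, 16, 20, 24, 83969, 215041, 346113, 477185, 608257, 737281]
theorem p550 : Pat 73 73 TBm TCm (C550.map Fm) R0Q026.P550 R0Q026.I550 := Vale.Agent.P032.Lt.pat_eq (E' := R0Q026.E550) (by decide +kernel) (pat_step (by decide +kernel) (q_cons (Vale.Agent.P032.Lt.q R0Q026.q550_0) (q_cons (Vale.Agent.P032.Lt.q R0Q026.q550_1) q_nil)))

theorem p551 : Pat 73 73 TBm TCm (CB.map Fm) R0Q026.P551 R0Q026.I551 := Vale.Agent.P032.Lt.pat_eq (E' := R0Q026.E) eB (pat_step (by decide +kernel) (q_cons (Vale.Agent.P032.Lt.q R0Q026.q551_0) q_nil))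

def C552 : List ℕ := [0, 4, 8, 12, 16, 20, 24, 93185, 224257, 355329, 486401, 617473, 737281]
theorem p552 : Pat 73 73 TBm TCm (C552.map Fm) R0Q026.P552 R0Q026.I552 := Vale.Agent.P032.Lt.pat_eq (E' := R0Q026.E552) (by decide +kernel) (pat_step (by decide +kernel) (q_cons (Vale.Agent.P032.Lt.q R0Q026.q552_0) q_nil))

theorem p553 : Pat 73 73 TBm TCm (CB.map Fm) R0Q026.P553 R0Q026.I553 := Vale.Agent.P032.Lt.pat_eq (E' := R0Q026.E) eB (pat_step (by decide +kernel) (q_cons (Vale.Agent.P032.Lt.q R0Q026.q553_0) (q_cons (Vale.Agent.P032.Lt.q R0Q026.q553_1) (q_cons (Vale.Agent.P032.Lt.q R0Q026.q553_2) q_nil))))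

theorem p554 : Pat 73 73 TBm TCm (CB.map Fm) R0Q026.P554 R0Q026.I554 := Vale.Agent.P032.Lt.pat_eq (E' := R0Q026.E) eB (pat_step (by decide +kernel) (q_cons (Vale.Agent.P032.Lt.q R0Q026.q554_0) (q_cons (Vale.Agent.P032.Lt.q R0Q026.q554_1) (q_cons (Vale.Agent.P032.Lt.q R0Q026.q554_2) (q_cons (Vale.Agent.P032.Lt.q R0Q026.q554_3) q_nil)))))

theorem p555 : Pat 73 73 TBm TCm (CB.map Fm) R0Q026.P555 R0Q026.I555 := Vale.Agent.P032.Lt.pat_eq (E' := R0Q026.E) eB (pat_step (by decide +kernel) (q_cons (Vale.Agent.P032.Lt.q R0Q026.q555_0) (q_cons (Vale.Agent.P032.Lt.q R0Q026.q555_1) (q_cons (Vale.Agent.P032.Lt.q R0Q026.q555_2) (q_cons (Vale.Agent.P032.Lt.q R0Q026.q555_3) q_nil)))))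

theorem p556 : Pat 73 73 TBm TCm (CB.map Fm) R0Q026.P556 R0Q026.I556 := Vale.Agent.P032.Lt.pat_eq (E' := R0Q026.E) eB (pat_step (by decide +kernel) (q_cons (Vale.Agent.P032.Lt.q R0Q026.q556_0) q_nil))

theorem p557 : Pat 73 73 TBm TCm (CB.map Fm) R0Q026.P557 R0Q026.I557 := Vale.Agent.P032.Lt.pat_eq (E' := R0Q026.E) eB (pat_step (by decide +kernel) (q_cons (Vale.Agent.P032.Lt.q R0Q026.q557_0) q_nil))

theorem p558 : Pat 73 73 TBm TCm (CB.map Fm) R0Q026.P558 R0Q026.I558 := Vale.Agent.P032.Lt.pat_eq (E' := R0Q026.E) eB (pat_step (by decide +kernel) (q_cons (Vale.Agent.P032.Lt.q R0Q026.q558_0) q_nil))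

theorem p559 : Pat 73 73 TBm TCm (CB.map Fm) R0Q026.P559 R0Q026.I559 := Vale.Agent.P032.Lt.pat_eq (E' := R0Q026.E) eB (pat_step (by decide +kernel) (q_cons (Vale.Agent.P032.Lt.q R0Q026.q559_0) (q_cons (Vale.Agent.P032.Lt.q R0Q026.q559_1) q_nil)))

theorem p560 : Pat 73 73 TBm TCm (CB.map Fm) R0Q026.P560 R0Q026.I560 := Vale.Agent.P032.Lt.pat_eq (E' := R0Q026.E) eB (pat_step (by decide +kernel) (q_cons (Vale.Agent.P032.Lt.q R0Q026.q560_0) q_nil))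

theorem p561 : Pat 73 73 TBm TCm (CB.map Fm) R0Q026.P561 R0Q026.I561 := Vale.Agent.P032.Lt.pat_eq (E' := R0Q026.E) eB (pat_step (by decide +kernel) (q_cons (Vale.Agent.P032.Lt.q R0Q026.q561_0) (q_cons (Vale.Agent.P032.Lt.q R0Q026.q561_1) (q_cons (Vale.Agent.P032.Lt.q R0Q026.q561_2) (q_cons (Vale.Agent.P032.Lt.q R0Q026.q561_3) (q_cons (Vale.Agent.P032.Lt.q R0Q026.q561_4) (q_cons (Vale.Agent.P032.Lt.q R0Q026.q561_5) (q_cons (Vale.Agent.P032.Lt.q R0Q026.q561_6) (q_cons (Vale.Agent.P032.Lt.q R0Q026.q561_7) q_nil)))))))))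

theorem p562 : Pat 73 73 TBm TCm (CB.map Fm) R0Q026.P562 R0Q026.I562 := Vale.Agent.P032.Lt.pat_eq (E' := R0Q026.E) eB (pat_step (by decide +kernel) (q_cons (Vale.Agent.P032.Lt.q R0Q026.q562_0) (q_cons (Vale.Agent.P032.Lt.q R0Q026.q562_1) q_nil)))

theorem p563 : Pat 73 73 TBm TCm (CB.map Fm) R0Q026.P563 R0Q026.I563 := Vale.Agent.P032.Lt.pat_eq (E' := R0Q026.E) eB (pat_step (by decide +kernel) (q_cons (Vale.Agent.P032.Lt.q R0Q026.q563_0) (q_cons (Vale.Agent.P032.Lt.q R0Q026.q563_1) q_nil)))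

theorem p564 : Pat 73 73 TBm TCm (CB.map Fm) R0Q026.P564 R0Q026.I564 := Vale.Agent.P032.Lt.pat_eq (E' := R0Q026.E) eB (pat_step (by decide +kernel) (q_cons (Vale.Agent.P032.Lt.q R0Q026.q564_0) (q_cons (Vale.Agent.P032.Lt.q R0Q026.q564_1) (q_cons (Vale.Agent.P032.Lt.q R0Q026.q564_2) (q_cons (Vale.Agent.P032.Lt.q R0Q026.q564_3) (q_cons (Vale.Agent.P032.Lt.q R0Q026.q564_4) (q_cons (Vale.Agent.P032.Lt.q R0Q026.q564_5) q_nil)))))))

theorem p565 : Pat 73 73 TBm TCm (CB.map Fm) R0Q026.P565 R0Q026.I565 := Vale.Agent.P032.Lt.pat_eq (E' := R0Q026.E) eB (pat_step (by decide +kernel) (q_cons (Vale.Agent.P032.Lt.q R0Q026.q565_0) q_nil))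

theorem p566 : Pat 73 73 TBm TCm (CB.map Fm) R0Q026.P566 R0Q026.I566 := Vale.Agent.P032.Lt.pat_eq (E' := R0Q026.E) eB (pat_step (by decide +kernel) (q_cons (Vale.Agent.P032.Lt.q R0Q026.q566_0) q_nil))

theorem p567 : Pat 73 73 TBm TCm (CB.map Fm) R0Q026.P567 R0Q026.I567 := Vale.Agent.P032.Lt.pat_eq (E' := R0Q026.E) eB (pat_step (by decide +kernel) (q_cons (Vale.Agent.P032.Lt.q R0Q026.q567_0) q_nil))

theorem p568 : Pat 73 73 TBm TCm (CB.map Fm) R0Q026.P568 R0Q026.I568 := Vale.Agent.P032.Lt.pat_eq (E' := R0Q026.E) eB (pat_step (by decide +kernel) (q_cons (Vale.Agent.P032.Lt.q R0Q026.q568_0) q_nil))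

theorem p569 : Pat 73 73 TBm TCm (CB.map Fm) R0Q026.P569 R0Q026.I569 := Vale.Agent.P032.Lt.pat_eq (E' := R0Q026.E) eB (pat_step (by decide +kernel) (q_cons (Vale.Agent.P032.Lt.q R0Q026.q569_0) (q_cons (Vale.Agent.P032.Lt.q R0Q026.q569_1) q_nil)))

theorem p570 : Pat 73 73 TBm TCm (CB.map Fm) R0Q026.P570 R0Q026.I570 := Vale.Agent.P032.Lt.pat_eq (E' := R0Q026.E) eB (pat_step (by decide +kernel) (q_cons (Vale.Agent.P032.Lt.q R0Q026.q570_0) q_nil))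

theorem p571 : Pat 73 73 TBm TCm (CB.map Fm) R0Q026.P571 R0Q026.I571 := Vale.Agent.P032.Lt.pat_eq (E' := R0Q026.E) eB (pat_step (by decide +kernel) (q_cons (Vale.Agent.P032.Lt.q R0Q026.q571_0) (q_cons (Vale.Agent.P032.Lt.q R0Q026.q571_1) q_nil)))

theorem p572 : Pat 73 73 TBm TCm (CB.map Fm) R0Q026.P572 R0Q026.I572 := Vale.Agent.P032.Lt.pat_eq (E' := R0Q026.E) eB (pat_step (by decide +kernel) (q_cons (Vale.Agent.P032.Lt.q R0Q026.q572_0) (q_cons (Vale.Agent.P032.Lt.q R0Q026.q572_1) q_nil)))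

theorem p573 : Pat 73 73 TBm TCm (CB.map Fm) R0Q026.P573 R0Q026.I573 := Vale.Agent.P032.Lt.pat_eq (E' := R0Q026.E) eB (pat_step (by decide +kernel) (q_cons (Vale.Agent.P032.Lt.q R0Q026.q573_0) (q_cons (Vale.Agent.P032.Lt.q R0Q026.q573_1) q_nil)))

theorem p574 : Pat 73 73 TBm TCm (CB.map Fm) R0Q027.P574 R0Q027.I574 := Vale.Agent.P032.Lt.pat_eq (E' := R0Q027.E) eB (pat_step (by decide +kernel) (q_cons (Vale.Agent.P032.Lt.q R0Q027.q574_0) (q_cons (Vale.Agent.P032.Lt.q R0Q027.q574_1) (q_cons (Vale.Agent.P032.Lt.q R0Q027.q574_2) (q_cons (Vale.Agent.P032.Lt.q R0Q027.q574_3) q_nil)))))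

theorem p575 : Pat 73 73 TBm TCm (CB.map Fm) R0Q027.P575 R0Q027.I575 := Vale.Agent.P032.Lt.pat_eq (E' := R0Q027.E) eB (pat_step (by decide +kernel) (q_cons (Vale.Agent.P032.Lt.q R0Q027.q575_0) q_nil))

theorem p576 : Pat 73 73 TBm TCm (CB.map Fm) R0Q027.P576 R0Q027.I576 := Vale.Agent.P032.Lt.pat_eq (E' := R0Q027.E) eB (pat_step (by decide +kernel) (q_cons (Vale.Agent.P032.Lt.q R0Q027.q576_0) q_nil))

theorem p577 : Pat 73 73 TBm TCm (CB.map Fm) R0Q027.P577 R0Q027.I577 := Vale.Agent.P032.Lt.pat_eq (E' := R0Q027.E) eB (pat_step (by decide +kernel) (q_cons (Vale.Agent.P032.Lt.q R0Q027.q577_0) q_nil))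

theorem p578 : Pat 73 73 TBm TCm (CB.map Fm) R0Q027.P578 R0Q027.I578 := Vale.Agent.P032.Lt.pat_eq (E' := R0Q027.E) eB (pat_step (by decide +kernel) (q_cons (Vale.Agent.P032.Lt.q R0Q027.q578_0) (q_cons (Vale.Agent.P032.Lt.q R0Q027.q578_1) q_nil)))

theorem p579 : Pat 73 73 TBm TCm (CB.map Fm) R0Q027.P579 R0Q027.I579 := Vale.Agent.P032.Lt.pat_eq (E' := R0Q027.E) eB (pat_step (by decide +kernel) (q_cons (Vale.Agent.P032.Lt.q R0Q027.q579_0) (q_cons (Vale.Agent.P032.Lt.q R0Q027.q579_1) q_nil)))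

theorem p580 : Pat 73 73 TBm TCm (CB.map Fm) R0Q027.P580 R0Q027.I580 := Vale.Agent.P032.Lt.pat_eq (E' := R0Q027.E) eB (pat_step (by decide +kernel) (q_cons (Vale.Agent.P032.Lt.q R0Q027.q580_0) (q_cons (Vale.Agent.P032.Lt.q R0Q027.q580_1) q_nil)))

theorem p581 : Pat 73 73 TBm TCm (CB.map Fm) R0Q027.P581 R0Q027.I581 := Vale.Agent.P032.Lt.pat_eq (E' := R0Q027.E) eB (pat_step (by decide +kernel) (q_cons (Vale.Agent.P032.Lt.q R0Q027.q581_0) (q_cons (Vale.Agent.P032.Lt.q R0Q027.q581_1) (q_cons (Vale.Agent.P032.Lt.q R0Q027.q581_2) (q_cons (Vale.Agent.P032.Lt.q R0Q027.q581_3) q_nil)))))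

theorem p582 : Pat 73 73 TBm TCm (CB.map Fm) R0Q027.P582 R0Q027.I582 := Vale.Agent.P032.Lt.pat_eq (E' := R0Q027.E) eB (pat_step (by decide +kernel) (q_cons (Vale.Agent.P032.Lt.q R0Q027.q582_0) q_nil))

theorem p583 : Pat 73 73 TBm TCm (CB.map Fm) R0Q027.P583 R0Q027.I583 := Vale.Agent.P032.Lt.pat_eq (E' := R0Q027.E) eB (pat_step (by decide +kernel) (q_cons (Vale.Agent.P032.Lt.q R0Q027.q583_0) q_nil))

theorem p584 : Pat 73 73 TBm TCm (CB.map Fm) R0Q027.P584 R0Q027.I584 := Vale.Agent.P032.Lt.pat_eq (E' := R0Q027.E) eB (pat_step (by decide +kernel) (q_cons (Vale.Agent.P032.Lt.q R0Q027.q584_0) (q_cons (Vale.Agent.P032.Lt.q R0Q027.q584_1) q_nil)))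

theorem p585 : Pat 73 73 TBm TCm (CB.map Fm) R0Q027.P585 R0Q027.I585 := Vale.Agent.P032.Lt.pat_eq (E' := R0Q027.E) eB (pat_step (by decide +kernel) (q_cons (Vale.Agent.P032.Lt.q R0Q027.q585_0) (q_cons (Vale.Agent.P032.Lt.q R0Q027.q585_1) (q_cons (Vale.Agent.P032.Lt.q R0Q027.q585_2) (q_cons (Vale.Agent.P032.Lt.q R0Q027.q585_3) (q_cons (Vale.Agent.P032.Lt.q R0Q027.q585_4) q_nil))))))

theorem p586 : Pat 73 73 TBm TCm (CB.map Fm) R0Q027.P586 R0Q027.I586 := Vale.Agent.P032.Lt.pat_eq (E' := R0Q027.E) eB (pat_step (by decide +kernel) (q_cons (Vale.Agent.P032.Lt.q R0Q027.q586_0) (q_cons (Vale.Agent.P032.Lt.q R0Q027.q586_1) (q_cons (Vale.Agent.P032.Lt.q R0Q027.q586_2) q_nil))))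

theorem p587 : Pat 73 73 TBm TCm (CB.map Fm) R0Q027.P587 R0Q027.I587 := Vale.Agent.P032.Lt.pat_eq (E' := R0Q027.E) eB (pat_step (by decide +kernel) (q_cons (Vale.Agent.P032.Lt.q R0Q027.q587_0) (q_cons (Vale.Agent.P032.Lt.q R0Q027.q587_1) (q_cons (Vale.Agent.P032.Lt.q R0Q027.q587_2) q_nil))))

theorem p588 : Pat 73 73 TBm TCm (CB.map Fm) R0Q027.P588 R0Q027.I588 := Vale.Agent.P032.Lt.pat_eq (E' := R0Q027.E) eB (pat_step (by decide +kernel) (q_cons (Vale.Agent.P032.Lt.q R0Q027.q588_0) q_nil))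

theorem p589 : Pat 73 73 TBm TCm (CB.map Fm) R0Q027.P589 R0Q027.I589 := Vale.Agent.P032.Lt.pat_eq (E' := R0Q027.E) eB (pat_step (by decide +kernel) (q_cons (Vale.Agent.P032.Lt.q R0Q027.q589_0) (q_cons (Vale.Agent.P032.Lt.q R0Q027.q589_1) q_nil)))

theorem p590 : Pat 73 73 TBm TCm (CB.map Fm) R0Q027.P590 R0Q027.I590 := Vale.Agent.P032.Lt.pat_eq (E' := R0Q027.E) eB (pat_step (by decide +kernel) (q_cons (Vale.Agent.P032.Lt.q R0Q027.q590_0) (q_cons (Vale.Agent.P032.Lt.q R0Q027.q590_1) (q_cons (Vale.Agent.P032.Lt.q R0Q027.q590_2) q_nil))))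

def C591 : List ℕ := [0, 4, 8, 12, 16, 20, 24, 355329, 475137, 737281]
theorem p591 : Pat 73 73 TBm TCm (C591.map Fm) R0Q027.P591 R0Q027.I591 := Vale.Agent.P032.Lt.pat_eq (E' := R0Q027.E591) (by decide +kernel) (pat_step (by decide +kernel) (q_cons (Vale.Agent.P032.Lt.q R0Q027.q591_0) q_nil))

theorem p592 : Pat 73 73 TBm TCm (CB.map Fm) R0Q027.P592 R0Q027.I592 := Vale.Agent.P032.Lt.pat_eq (E' := R0Q027.E) eB (pat_step (by decide +kernel) (q_cons (Vale.Agent.P032.Lt.q R0Q027.q592_0) (q_cons (Vale.Agent.P032.Lt.q R0Q027.q592_1) (q_cons (Vale.Agent.P032.Lt.q R0Q027.q592_2) (q_cons (Vale.Agent.P032.Lt.q R0Q027.q592_3) (q_cons (Vale.Agent.P032.Lt.q R0Q027.q592_4) q_nil))))))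

theorem p593 : Pat 73 73 TBm TCm (CB.map Fm) R0Q027.P593 R0Q027.I593 := Vale.Agent.P032.Lt.pat_eq (E' := R0Q027.E) eB (pat_step (by decide +kernel) (q_cons (Vale.Agent.P032.Lt.q R0Q027.q593_0) (q_cons (Vale.Agent.P032.Lt.q R0Q027.q593_1) (q_cons (Vale.Agent.P032.Lt.q R0Q027.q593_2) (q_cons (Vale.Agent.P032.Lt.q R0Q027.q593_3) (q_cons (Vale.Agent.P032.Lt.q R0Q027.q593_4) (q_cons (Vale.Agent.P032.Lt.q R0Q027.q593_5) q_nil)))))))

def C594 : List ℕ := [0, 4, 8, 12, 16, 20, 24, 745473]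
theorem p594 : Pat 73 73 TBm TCm (C594.map Fm) R0Q027.P594 R0Q027.I594 := Vale.Agent.P032.Lt.pat_eq (E' := R0Q027.E594) (by decide +kernel) (pat_step (by decide +kernel) (q_cons (Vale.Agent.P032.Lt.q R0Q027.q594_0) (q_cons (Vale.Agent.P032.Lt.q R0Q027.q594_1) (q_cons (Vale.Agent.P032.Lt.q R0Q027.q594_2) (q_cons (Vale.Agent.P032.Lt.q R0Q027.q594_3) (q_cons (Vale.Agent.P032.Lt.q R0Q027.q594_4) (q_cons (Vale.Agent.P032.Lt.q R0Q027.q594_5) (q_cons (Vale.Agent.P032.Lt.q R0Q027.q594_6) q_nil))))))))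

theorem p595 : Pat 73 73 TBm TCm (CB.map Fm) R0Q027.P595 R0Q027.I595 := Vale.Agent.P032.Lt.pat_eq (E' := R0Q027.E) eB (pat_step (by decide +kernel) (q_cons (Vale.Agent.P032.Lt.q R0Q027.q595_0) (q_cons (Vale.Agent.P032.Lt.q R0Q027.q595_1) (q_cons (Vale.Agent.P032.Lt.q R0Q027.q595_2) (q_cons (Vale.Agent.P032.Lt.q R0Q027.q595_3) (q_cons (Vale.Agent.P032.Lt.q R0Q027.q595_4) q_nil))))))

theorem p596 : Pat 73 73 TBm TCm (CB.map Fm) R0Q027.P596 R0Q027.I596 := Vale.Agent.P032.Lt.pat_eq (E' := R0Q027.E) eB (pat_step (by decide +kernel) (q_cons (Vale.Agent.P032.Lt.q R0Q027.q596_0) (q_cons (Vale.Agent.P032.Lt.q R0Q027.q596_1) (q_cons (Vale.Agent.P032.Lt.q R0Q027.q596_2) q_nil))))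

theorem p597 : Pat 73 73 TBm TCm (CB.map Fm) R0Q027.P597 R0Q027.I597 := Vale.Agent.P032.Lt.pat_eq (E' := R0Q027.E) eB (pat_step (by decide +kernel) (q_cons (Vale.Agent.P032.Lt.q R0Q027.q597_0) (q_cons (Vale.Agent.P032.Lt.q R0Q027.q597_1) (q_cons (Vale.Agent.P032.Lt.q R0Q027.q597_2) q_nil))))

theorem p598 : Pat 73 73 TBm TCm (CB.map Fm) R0Q027.P598 R0Q027.I598 := Vale.Agent.P032.Lt.pat_eq (E' := R0Q027.E) eB (pat_step (by decide +kernel) (q_cons (Vale.Agent.P032.Lt.q R0Q027.q598_0) q_nil))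

theorem p599 : Pat 73 73 TBm TCm (CB.map Fm) R0Q027.P599 R0Q027.I599 := Vale.Agent.P032.Lt.pat_eq (E' := R0Q027.E) eB (pat_step (by decide +kernel) (q_cons (Vale.Agent.P032.Lt.q R0Q027.q599_0) q_nil))

theorem p600 : Pat 73 73 TBm TCm (CB.map Fm) R0Q027.P600 R0Q027.I600 := Vale.Agent.P032.Lt.pat_eq (E' := R0Q027.E) eB (pat_step (by decide +kernel) (q_cons (Vale.Agent.P032.Lt.q R0Q027.q600_0) q_nil))

theorem p601 : Pat 73 73 TBm TCm (CB.map Fm) R0Q027.P601 R0Q027.I601 := Vale.Agent.P032.Lt.pat_eq (E' := R0Q027.E) eB (pat_step (by decide +kernel) (q_cons (Vale.Agent.P032.Lt.q R0Q027.q601_0) (q_cons (Vale.Agent.P032.Lt.q R0Q027.q601_1) q_nil)))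

theorem p602 : Pat 73 73 TBm TCm (CB.map Fm) R0Q027.P602 R0Q027.I602 := Vale.Agent.P032.Lt.pat_eq (E' := R0Q027.E) eB (pat_step (by decide +kernel) (q_cons (Vale.Agent.P032.Lt.q R0Q027.q602_0) (q_cons (Vale.Agent.P032.Lt.q R0Q027.q602_1) (q_cons (Vale.Agent.P032.Lt.q R0Q027.q602_2) (q_cons (Vale.Agent.P032.Lt.q R0Q027.q602_3) q_nil)))))

theorem p603 : Pat 73 73 TBm TCm (CB.map Fm) R0Q027.P603 R0Q027.I603 := Vale.Agent.P032.Lt.pat_eq (E' := R0Q027.E) eB (pat_step (by decide +kernel) (q_cons (Vale.Agent.P032.Lt.q R0Q027.q603_0) q_nil))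

theorem p604 : Pat 73 73 TBm TCm (CB.map Fm) R0Q027.P604 R0Q027.I604 := Vale.Agent.P032.Lt.pat_eq (E' := R0Q027.E) eB (pat_step (by decide +kernel) (q_cons (Vale.Agent.P032.Lt.q R0Q027.q604_0) (q_cons (Vale.Agent.P032.Lt.q R0Q027.q604_1) (q_cons (Vale.Agent.P032.Lt.q R0Q027.q604_2) (q_cons (Vale.Agent.P032.Lt.q R0Q027.q604_3) (q_cons (Vale.Agent.P032.Lt.q R0Q027.q604_4) (q_cons (Vale.Agent.P032.Lt.q R0Q027.q604_5) (q_cons (Vale.Agent.P032.Lt.q R0Q027.q604_6) (q_cons (Vale.Agent.P032.Lt.q R0Q027.q604_7) (q_cons (Vale.Agent.P032.Lt.q R0Q027.q604_8) (q_cons (Vale.Agent.P032.Lt.q R0Q027.q604_9) (q_cons (Vale.Agent.P032.Lt.q R0Q027.q604_10) (q_cons (Vale.Agent.P032.Lt.q R0Q027.q604_11) (q_cons (Vale.Agent.P032.Lt.q R0Q027.q604_12) q_nil))))))))))))))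

theorem p605 : Pat 73 73 TBm TCm (CB.map Fm) R0Q027.P605 R0Q027.I605 := Vale.Agent.P032.Lt.pat_eq (E' := R0Q027.E) eB (pat_step (by decide +kernel) (q_cons (Vale.Agent.P032.Lt.q R0Q027.q605_0) q_nil))

theorem p606 : Pat 73 73 TBm TCm (CB.map Fm) R0Q027.P606 R0Q027.I606 := Vale.Agent.P032.Lt.pat_eq (E' := R0Q027.E) eB (pat_step (by decide +kernel) (q_cons (Vale.Agent.P032.Lt.q R0Q027.q606_0) (q_cons (Vale.Agent.P032.Lt.q R0Q027.q606_1) (q_cons (Vale.Agent.P032.Lt.q R0Q027.q606_2) q_nil))))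

theorem p607 : Pat 73 73 TBm TCm (CB.map Fm) R0Q027.P607 R0Q027.I607 := Vale.Agent.P032.Lt.pat_eq (E' := R0Q027.E) eB (pat_step (by decide +kernel) (q_cons (Vale.Agent.P032.Lt.q R0Q027.q607_0) (q_cons (Vale.Agent.P032.Lt.q R0Q027.q607_1) (q_cons (Vale.Agent.P032.Lt.q R0Q027.q607_2) (q_cons (Vale.Agent.P032.Lt.q R0Q027.q607_3) (q_cons (Vale.Agent.P032.Lt.q R0Q027.q607_4) (q_cons (Vale.Agent.P032.Lt.q R0Q027.q607_5) (q_cons (Vale.Agent.P032.Lt.q R0Q027.q607_6) q_nil))))))))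

theorem p608 : Pat 73 73 TBm TCm (CB.map Fm) R0Q027.P608 R0Q027.I608 := Vale.Agent.P032.Lt.pat_eq (E' := R0Q027.E) eB (pat_step (by decide +kernel) (q_cons (Vale.Agent.P032.Lt.q R0Q027.q608_0) (q_cons (Vale.Agent.P032.Lt.q R0Q027.q608_1) (q_cons (Vale.Agent.P032.Lt.q R0Q027.q608_2) (q_cons (Vale.Agent.P032.Lt.q R0Q027.q608_3) (q_cons (Vale.Agent.P032.Lt.q R0Q027.q608_4) (q_cons (Vale.Agent.P032.Lt.q R0Q027.q608_5) (q_cons (Vale.Agent.P032.Lt.q R0Q027.q608_6) (q_cons (Vale.Agent.P032.Lt.q R0Q027.q608_7) (q_cons (Vale.Agent.P032.Lt.q R0Q027.q608_8) (q_cons (Vale.Agent.P032.Lt.q R0Q027.q608_9) (q_cons (Vale.Agent.P032.Lt.q R0Q027.q608_10) (q_cons (Vale.Agent.P032.Lt.q R0Q027.q608_11) (q_cons (Vale.Agent.P032.Lt.q R0Q027.q608_12) (q_cons (Vale.Agent.P032.Lt.q R0Q027.q608_13) (q_cons (Vale.Agent.P032.Lt.q R0Q027.q608_14) (q_cons (Vale.Agent.P032.Lt.q R0Q027.q608_15) (q_cons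 (Vale.Agent.P032.Lt.q R0Q027.q608_16) (q_cons (Vale.Agent.P032.Lt.q R0Q027.q608_17) (q_cons (Vale.Agent.P032.Lt.q R0Q027.q608_18) (q_cons (Vale.Agent.P032.Lt.q R0Q027.q608_19) q_nil)))))))))))))))))))))

theorem p609 : Pat 73 73 TBm TCm (CB.map Fm) R0Q027.P609 R0Q027.I609 := Vale.Agent.P032.Lt.pat_eq (E' := R0Q027.E) eB (pat_step (by decide +kernel) (q_cons (Vale.Agent.P032.Lt.q R0Q027.q609_0) q_nil))

theorem p610 : Pat 73 73 TBm TCm (CB.map Fm) R0Q027.P610 R0Q027.I610 := Vale.Agent.P032.Lt.pat_eq (E' := R0Q027.E) eB (pat_step (by decide +kernel) (q_cons (Vale.Agent.P032.Lt.q R0Q027.q610_0) q_nil))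

theorem p611 : Pat 73 73 TBm TCm (CB.map Fm) R0Q027.P611 R0Q027.I611 := Vale.Agent.P032.Lt.pat_eq (E' := R0Q027.E) eB (pat_step (by decide +kernel) (q_cons (Vale.Agent.P032.Lt.q R0Q027.q611_0) (q_cons (Vale.Agent.P032.Lt.q R0Q027.q611_1) (q_cons (Vale.Agent.P032.Lt.q R0Q027.q611_2) (q_cons (Vale.Agent.P032.Lt.q R0Q027.q611_3) (q_cons (Vale.Agent.P032.Lt.q R0Q027.q611_4) (q_cons (Vale.Agent.P032.Lt.q R0Q027.q611_5) q_nil)))))))

theorem p612 : Pat 73 73 TBm TCm (CB.map Fm) R0Q027.P612 R0Q027.I612 := Vale.Agent.P032.Lt.pat_eq (E' := R0Q027.E) eB (pat_step (by decide +kernel) (q_cons (Vale.Agent.P032.Lt.q R0Q027.q612_0) (q_cons (Vale.Agent.P032.Lt.q R0Q027.q612_1) q_nil)))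

theorem p613 : Pat 73 73 TBm TCm (CB.map Fm) R0Q028.P613 R0Q028.I613 := Vale.Agent.P032.Lt.pat_eq (E' := R0Q028.E) eB (pat_step (by decide +kernel) (q_cons (Vale.Agent.P032.Lt.q R0Q028.q613_0) (q_cons (Vale.Agent.P032.Lt.q R0Q028.q613_1) (q_cons (Vale.Agent.P032.Lt.q R0Q028.q613_2) q_nil))))

theorem p614 : Pat 73 73 TBm TCm (CB.map Fm) R0Q028.P614 R0Q028.I614 := Vale.Agent.P032.Lt.pat_eq (E' := R0Q028.E) eB (pat_step (by decide +kernel) (q_cons (Vale.Agent.P032.Lt.q R0Q028.q614_0) (q_cons (Vale.Agent.P032.Lt.q R0Q028.q614_1) (q_cons (Vale.Agent.P032.Lt.q R0Q028.q614_2) q_nil))))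

theorem p615 : Pat 73 73 TBm TCm (CB.map Fm) R0Q028.P615 R0Q028.I615 := Vale.Agent.P032.Lt.pat_eq (E' := R0Q028.E) eB (pat_step (by decide +kernel) (q_cons (Vale.Agent.P032.Lt.q R0Q028.q615_0) q_nil))

theorem p616 : Pat 73 73 TBm TCm (CB.map Fm) R0Q028.P616 R0Q028.I616 := Vale.Agent.P032.Lt.pat_eq (E' := R0Q028.E) eB (pat_step (by decide +kernel) (q_cons (Vale.Agent.P032.Lt.q R0Q028.q616_0) (q_cons (Vale.Agent.P032.Lt.q R0Q028.q616_1) (q_cons (Vale.Agent.P032.Lt.q R0Q028.q616_2) (q_cons (Vale.Agent.P032.Lt.q R0Q028.q616_3) (q_cons (Vale.Agent.P032.Lt.q R0Q028.q616_4) (q_cons (Vale.Agent.P032.Lt.q R0Q028.q616_5) (q_cons (Vale.Agent.P032.Lt.q R0Q028.q616_6) q_nil))))))))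

theorem p617 : Pat 73 73 TBm TCm (CB.map Fm) R0Q028.P617 R0Q028.I617 := Vale.Agent.P032.Lt.pat_eq (E' := R0Q028.E) eB (pat_step (by decide +kernel) (q_cons (Vale.Agent.P032.Lt.q R0Q028.q617_0) (q_cons (Vale.Agent.P032.Lt.q R0Q028.q617_1) (q_cons (Vale.Agent.P032.Lt.q R0Q028.q617_2) (q_cons (Vale.Agent.P032.Lt.q R0Q028.q617_3) (q_cons (Vale.Agent.P032.Lt.q R0Q028.q617_4) (q_cons (Vale.Agent.P032.Lt.q R0Q028.q617_5) (q_cons (Vale.Agent.P032.Lt.q R0Q028.q617_6) q_nil))))))))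

theorem p618 : Pat 73 73 TBm TCm (CB.map Fm) R0Q028.P618 R0Q028.I618 := Vale.Agent.P032.Lt.pat_eq (E' := R0Q028.E) eB (pat_step (by decide +kernel) (q_cons (Vale.Agent.P032.Lt.q R0Q028.q618_0) (q_cons (Vale.Agent.P032.Lt.q R0Q028.q618_1) q_nil)))

theorem p619 : Pat 73 73 TBm TCm (CB.map Fm) R0Q028.P619 R0Q028.I619 := Vale.Agent.P032.Lt.pat_eq (E' := R0Q028.E) eB (pat_step (by decide +kernel) (q_cons (Vale.Agent.P032.Lt.q R0Q028.q619_0) (q_cons (Vale.Agent.P032.Lt.q R0Q028.q619_1) (q_cons (Vale.Agent.P032.Lt.q R0Q028.q619_2) q_nil))))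

theorem p620 : Pat 73 73 TBm TCm (CB.map Fm) R0Q028.P620 R0Q028.I620 := Vale.Agent.P032.Lt.pat_eq (E' := R0Q028.E) eB (pat_step (by decide +kernel) (q_cons (Vale.Agent.P032.Lt.q R0Q028.q620_0) q_nil))

def C621 : List ℕ := [0, 4, 8, 12, 16, 20, 24, 81921, 354305, 742401]
theorem p621 : Pat 73 73 TBm TCm (C621.map Fm) R0Q028.P621 R0Q028.I621 := Vale.Agent.P032.Lt.pat_eq (E' := R0Q028.E621) (by decide +kernel) (pat_step (by decide +kernel) (q_cons (Vale.Agent.P032.Lt.q R0Q028.q621_0) (q_cons (Vale.Agent.P032.Lt.q R0Q028.q621_1) (q_cons (Vale.Agent.P032.Lt.q R0Q028.q621_2) (q_cons (Vale.Agent.P032.Lt.q R0Q028.q621_3) (q_cons (Vale.Agent.P032.Lt.q R0Q028.q621_4) (q_cons (Vale.Agent.P032.Lt.q R0Q028.q621_5) q_nil)))))))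

theorem p622 : Pat 73 73 TBm TCm (CB.map Fm) R0Q028.P622 R0Q028.I622 := Vale.Agent.P032.Lt.pat_eq (E' := R0Q028.E) eB (pat_step (by decide +kernel) (q_cons (Vale.Agent.P032.Lt.q R0Q028.q622_0) (q_cons (Vale.Agent.P032.Lt.q R0Q028.q622_1) (q_cons (Vale.Agent.P032.Lt.q R0Q028.q622_2) (q_cons (Vale.Agent.P032.Lt.q R0Q028.q622_3) (q_cons (Vale.Agent.P032.Lt.q R0Q028.q622_4) q_nil))))))

theorem p623 : Pat 73 73 TBm TCm (CB.map Fm) R0Q028.P623 R0Q028.I623 := Vale.Agent.P032.Lt.pat_eq (E' := R0Q028.E) eB (pat_step (by decide +kernel) (q_cons (Vale.Agent.P032.Lt.q R0Q028.q623_0) (q_cons (Vale.Agent.P032.Lt.q R0Q028.q623_1) (q_cons (Vale.Agent.P032.Lt.q R0Q028.q623_2) (q_cons (Vale.Agent.P032.Lt.q R0Q028.q623_3) (q_cons (Vale.Agent.P032.Lt.q R0Q028.q623_4) (q_cons (Vale.Agent.P032.Lt.q R0Q028.q623_5) (q_cons (Vale.Agent.P032.Lt.q R0Q028.q623_6) q_nil))))))))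

theorem p624 : Pat 73 73 TBm TCm (CB.map Fm) R0Q028.P624 R0Q028.I624 := Vale.Agent.P032.Lt.pat_eq (E' := R0Q028.E) eB (pat_step (by decide +kernel) (q_cons (Vale.Agent.P032.Lt.q R0Q028.q624_0) (q_cons (Vale.Agent.P032.Lt.q R0Q028.q624_1) (q_cons (Vale.Agent.P032.Lt.q R0Q028.q624_2) q_nil))))

theorem p625 : Pat 73 73 TBm TCm (CB.map Fm) R0Q028.P625 R0Q028.I625 := Vale.Agent.P032.Lt.pat_eq (E' := R0Q028.E) eB (pat_step (by decide +kernel) (q_cons (Vale.Agent.P032.Lt.q R0Q028.q625_0) q_nil))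

theorem p626 : Pat 73 73 TBm TCm (CB.map Fm) R0Q028.P626 R0Q028.I626 := Vale.Agent.P032.Lt.pat_eq (E' := R0Q028.E) eB (pat_step (by decide +kernel) (q_cons (Vale.Agent.P032.Lt.q R0Q028.q626_0) q_nil))

theorem p627 : Pat 73 73 TBm TCm (CB.map Fm) R0Q028.P627 R0Q028.I627 := Vale.Agent.P032.Lt.pat_eq (E' := R0Q028.E) eB (pat_step (by decide +kernel) (q_cons (Vale.Agent.P032.Lt.q R0Q028.q627_0) (q_cons (Vale.Agent.P032.Lt.q R0Q028.q627_1) (q_cons (Vale.Agent.P032.Lt.q R0Q028.q627_2) (q_cons (Vale.Agent.P032.Lt.q R0Q028.q627_3) (q_cons (Vale.Agent.P032.Lt.q R0Q028.q627_4) (q_cons (Vale.Agent.P032.Lt.q R0Q028.q627_5) (q_cons (Vale.Agent.P032.Lt.q R0Q028.q627_6) (q_cons (Vale.Agent.P032.Lt.q R0Q028.q627_7) (q_cons (Vale.Agent.P032.Lt.q R0Q028.q627_8) (q_cons (Vale.Agent.P032.Lt.q R0Q028.q627_9) (q_cons (Vale.Agent.P032.Lt.q R0Q028.q627_10) (q_cons (Vale.Agent.P032.Lt.q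 R0Q028.q627_11) (q_cons (Vale.Agent.P032.Lt.q R0Q028.q627_12) (q_cons (Vale.Agent.P032.Lt.q R0Q028.q627_13) (q_cons (Vale.Agent.P032.Lt.q R0Q028.q627_14) (q_cons (Vale.Agent.P032.Lt.q R0Q028.q627_15) (q_cons (Vale.Agent.P032.Lt.q R0Q028.q627_16) (q_cons (Vale.Agent.P032.Lt.q R0Q028.q627_17) (q_cons (Vale.Agent.P032.Lt.q R0Q028.q627_18) (q_cons (Vale.Agent.P032.Lt.q R0Q028.q627_19) q_nil)))))))))))))))))))))

def C628 : List ℕ := [0, 4, 8, 12, 16, 20, 24, 91137, 212993, 344065, 475137, 737281]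
theorem p628 : Pat 73 73 TBm TCm (C628.map Fm) R0Q028.P628 R0Q028.I628 := Vale.Agent.P032.Lt.pat_eq (E' := R0Q028.E628) (by decide +kernel) (pat_step (by decide +kernel) (q_cons (Vale.Agent.P032.Lt.q R0Q028.q628_0) (q_cons (Vale.Agent.P032.Lt.q R0Q028.q628_1) (q_cons (Vale.Agent.P032.Lt.q R0Q028.q628_2) (q_cons (Vale.Agent.P032.Lt.q R0Q028.q628_3) (q_cons (Vale.Agent.P032.Lt.q R0Q028.q628_4) q_nil))))))

def C629 : List ℕ := [0, 4, 8, 12, 16, 20, 24, 212993, 344065, 475137, 737281]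
theorem p629 : Pat 73 73 TBm TCm (C629.map Fm) R0Q028.P629 R0Q028.I629 := Vale.Agent.P032.Lt.pat_eq (E' := R0Q028.E629) (by decide +kernel) (pat_step (by decide +kernel) (q_cons (Vale.Agent.P032.Lt.q R0Q028.q629_0) (q_cons (Vale.Agent.P032.Lt.q R0Q028.q629_1) q_nil)))

def C630 : List ℕ := [0, 4, 8, 12, 16, 20, 24, 212993, 475137, 737281]
theorem p630 : Pat 73 73 TBm TCm (C630.map Fm) R0Q028.P630 R0Q028.I630 := Vale.Agent.P032.Lt.pat_eq (E' := R0Q028.E630) (by decide +kernel) (pat_step (by decide +kernel) (q_cons (Vale.Agent.P032.Lt.q R0Q028.q630_0) (q_cons (Vale.Agent.P032.Lt.q R0Q028.q630_1) (q_cons (Vale.Agent.P032.Lt.q R0Q028.q630_2) (q_cons (Vale.Agent.P032.Lt.q R0Q028.q630_3) (q_cons (Vale.Agent.P032.Lt.q R0Q028.q630_4) (q_cons (Vale.Agent.P032.Lt.q R0Q028.q630_5) (q_cons (Vale.Agent.P032.Lt.q R0Q028.q630_6) (q_cons (Vale.Agent.P032.Lt.q R0Q028.q630_7) (q_cons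 (Vale.Agent.P032.Lt.q R0Q028.q630_8) (q_cons (Vale.Agent.P032.Lt.q R0Q028.q630_9) (q_cons (Vale.Agent.P032.Lt.q R0Q028.q630_10) q_nil))))))))))))

theorem p631 : Pat 73 73 TBm TCm (CB.map Fm) R0Q028.P631 R0Q028.I631 := Vale.Agent.P032.Lt.pat_eq (E' := R0Q028.E) eB (pat_step (by decide +kernel) (q_cons (Vale.Agent.P032.Lt.q R0Q028.q631_0) (q_cons (Vale.Agent.P032.Lt.q R0Q028.q631_1) q_nil)))

theorem p632 : Pat 73 73 TBm TCm (CB.map Fm) R0Q028.P632 R0Q028.I632 := Vale.Agent.P032.Lt.pat_eq (E' := R0Q028.E) eB (pat_step (by decide +kernel) (q_cons (Vale.Agent.P032.Lt.q R0Q028.q632_0) (q_cons (Vale.Agent.P032.Lt.q R0Q028.q632_1) (q_cons (Vale.Agent.P032.Lt.q R0Q028.q632_2) (q_cons (Vale.Agent.P032.Lt.q R0Q028.q632_3) (q_cons (Vale.Agent.P032.Lt.q R0Q028.q632_4) q_nil))))))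

def C633 : List ℕ := [0, 4, 8, 12, 16, 20, 24, 212993, 475137, 737281]
theorem p633 : Pat 73 73 TBm TCm (C633.map Fm) R0Q028.P633 R0Q028.I633 := Vale.Agent.P032.Lt.pat_eq (E' := R0Q028.E633) (by decide +kernel) (pat_step (by decide +kernel) (q_cons (Vale.Agent.P032.Lt.q R0Q028.q633_0) (q_cons (Vale.Agent.P032.Lt.q R0Q028.q633_1) (q_cons (Vale.Agent.P032.Lt.q R0Q028.q633_2) (q_cons (Vale.Agent.P032.Lt.q R0Q028.q633_3) (q_cons (Vale.Agent.P032.Lt.q R0Q028.q633_4) (q_cons (Vale.Agent.P032.Lt.q R0Q028.q633_5) q_nil)))))))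

theorem p634 : Pat 73 73 TBm TCm (CB.map Fm) R0Q028.P634 R0Q028.I634 := Vale.Agent.P032.Lt.pat_eq (E' := R0Q028.E) eB (pat_step (by decide +kernel) (q_cons (Vale.Agent.P032.Lt.q R0Q028.q634_0) (q_cons (Vale.Agent.P032.Lt.q R0Q028.q634_1) (q_cons (Vale.Agent.P032.Lt.q R0Q028.q634_2) q_nil))))

theorem p635 : Pat 73 73 TBm TCm (CB.map Fm) R0Q028.P635 R0Q028.I635 := Vale.Agent.P032.Lt.pat_eq (E' := R0Q028.E) eB (pat_step (by decide +kernel) (q_cons (Vale.Agent.P032.Lt.q R0Q028.q635_0) (q_cons (Vale.Agent.P032.Lt.q R0Q028.q635_1) (q_cons (Vale.Agent.P032.Lt.q R0Q028.q635_2) q_nil))))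

theorem p636 : Pat 73 73 TBm TCm (CB.map Fm) R0Q028.P636 R0Q028.I636 := Vale.Agent.P032.Lt.pat_eq (E' := R0Q028.E) eB (pat_step (by decide +kernel) (q_cons (Vale.Agent.P032.Lt.q R0Q028.q636_0) q_nil))

theorem p637 : Pat 73 73 TBm TCm (CB.map Fm) R0Q028.P637 R0Q028.I637 := Vale.Agent.P032.Lt.pat_eq (E' := R0Q028.E) eB (pat_step (by decide +kernel) (q_cons (Vale.Agent.P032.Lt.q R0Q028.q637_0) (q_cons (Vale.Agent.P032.Lt.q R0Q028.q637_1) q_nil)))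

theorem p638 : Pat 73 73 TBm TCm (CB.map Fm) R0Q028.P638 R0Q028.I638 := Vale.Agent.P032.Lt.pat_eq (E' := R0Q028.E) eB (pat_step (by decide +kernel) (q_cons (Vale.Agent.P032.Lt.q R0Q028.q638_0) (q_cons (Vale.Agent.P032.Lt.q R0Q028.q638_1) (q_cons (Vale.Agent.P032.Lt.q R0Q028.q638_2) (q_cons (Vale.Agent.P032.Lt.q R0Q028.q638_3) (q_cons (Vale.Agent.P032.Lt.q R0Q028.q638_4) (q_cons (Vale.Agent.P032.Lt.q R0Q028.q638_5) (q_cons (Vale.Agent.P032.Lt.q R0Q028.q638_6) (q_cons (Vale.Agent.P032.Lt.q R0Q028.q638_7) (q_cons (Vale.Agent.P032.Lt.q R0Q028.q638_8) (q_cons (Vale.Agent.P032.Lt.q R0Q028.q638_9) q_nil)))))))))))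

theorem p639 : Pat 73 73 TBm TCm (CB.map Fm) R0Q028.P639 R0Q028.I639 := Vale.Agent.P032.Lt.pat_eq (E' := R0Q028.E) eB (pat_step (by decide +kernel) (q_cons (Vale.Agent.P032.Lt.q R0Q028.q639_0) (q_cons (Vale.Agent.P032.Lt.q R0Q028.q639_1) q_nil)))

def L : List (List ℕ) := [R0Q025.P512, R0Q025.P513, R0Q025.P514, R0Q025.P515, R0Q025.P516, R0Q025.P517, R0Q025.P518, R0Q025.P519, R0Q025.P520, R0Q025.P521, R0Q025.P522, R0Q025.P523, R0Q025.P524, R0Q025.P525, R0Q025.P526, R0Q025.P527, R0Q025.P528, R0Q025.P529, R0Q025.P530, R0Q025.P531, R0Q025.P532, R0Q025.P533, R0Q025.P534, R0Q025.P535, R0Q025.P536, R0Q025.P537, R0Q025.P538, R0Q025.P539, R0Q025.P540, R0Q025.P541, R0Q026.P542, R0Q026.P543, R0Q026.P544, R0Q026.P545, R0Q026.P546, R0Q026.P547, R0Q026.P548, R0Q026.P549, R0Q026.P550, R0Q026.P551, R0Q026.P552, R0Q026.P553, R0Q026.P554, R0Q026.P555, R0Q026.P556, R0Q026.P557, R0Q026.P558,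 R0Q026.P559, R0Q026.P560, R0Q026.P561, R0Q026.P562, R0Q026.P563, R0Q026.P564, R0Q026.P565, R0Q026.P566, R0Q026.P567, R0Q026.P568, R0Q026.P569, R0Q026.P570, R0Q026.P571, R0Q026.P572, R0Q026.P573, R0Q027.P574, R0Q027.P575, R0Q027.P576, R0Q027.P577, R0Q027.P578, R0Q027.P579, R0Q027.P580, R0Q027.P581, R0Q027.P582, R0Q027.P583, R0Q027.P584, R0Q027.P585, R0Q027.P586, R0Q027.P587, R0Q027.P588, R0Q027.P589, R0Q027.P590, R0Q027.P591, R0Q027.P592, R0Q027.P593, R0Q027.P594, R0Q027.P595, R0Q027.P596, R0Q027.P597, R0Q027.P598, R0Q027.P599, R0Q027.P600, R0Q027.P601, R0Q027.P602, R0Q027.P603, R0Q027.P604, R0Q027.P605, R0Q027.P606, R0Q027.P607, R0Q027.P608, R0Q027.P609, R0Q027.P610, R0Q027.P611, R0Q027.P612, R0Q028.P613, R0Q028.P614, R0Q028.P615, R0Q028.P616, R0Q028.P617, R0Q028.P618, R0Q028.P619, R0Q028.P620, R0Q028.P621, R0Q028.P622, R0Q028.P623, R0Q028.P624, R0Q028.P625, R0Q028.P626,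 R0Q028.P627, R0Q028.P628, R0Q028.P629, R0Q028.P630, R0Q028.P631, R0Q028.P632, R0Q028.P633, R0Q028.P634, R0Q028.P635, R0Q028.P636, R0Q028.P637, R0Q028.P638, R0Q028.P639]

theorem all : ∀ P ∈ L, CrtF 73 73 TBm TCm (Vale.Agent.P032.Fam.fam2 (Vale.Agent.P032.Fam.im0)) P := crtF_cons p512 (crtF_cons p513 (crtF_cons p514 (crtF_cons p515 (crtF_cons p516 (crtF_cons p517 (crtF_cons p518 (crtF_cons p519 (crtF_cons p520 (crtF_cons p521 (crtF_cons p522 (crtF_cons p523 (crtF_cons p524 (crtF_cons p525 (crtF_cons p526 (crtF_cons p527 (crtF_cons p528 (crtF_cons p529 (crtF_cons p530 (crtF_cons p531 (crtF_cons p532 (crtF_cons p533 (crtF_cons p534 (crtF_cons p535 (crtF_cons p536 (crtF_cons p537 (crtF_cons p538 (crtF_cons p539 (crtF_cons p540 (crtF_cons p541 (crtF_cons p542 (crtF_cons p543 (crtF_cons p544 (crtF_cons p545 (crtF_cons p546 (crtF_cons p547 (crtF_cons p548 (crtF_cons p549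 (crtF_cons p550 (crtF_cons p551 (crtF_cons p552 (crtF_cons p553 (crtF_cons p554 (crtF_cons p555 (crtF_cons p556 (crtF_cons p557 (crtF_cons p558 (crtF_cons p559 (crtF_cons p560 (crtF_cons p561 (crtF_cons p562 (crtF_cons p563 (crtF_cons p564 (crtF_cons p565 (crtF_cons p566 (crtF_cons p567 (crtF_cons p568 (crtF_cons p569 (crtF_cons p570 (crtF_cons p571 (crtF_cons p572 (crtF_cons p573 (crtF_cons p574 (crtF_cons p575 (crtF_cons p576 (crtF_cons p577 (crtF_cons p578 (crtF_cons p579 (crtF_cons p580 (crtF_cons p581 (crtF_cons p582 (crtF_cons p583 (crtF_cons p584 (crtF_cons p585 (crtF_cons p586 (crtF_cons p587 (crtF_cons p588 (crtF_cons p589 (crtF_cons p590 (crtF_cons p591 (crtF_cons p592 (crtF_cons p593 (crtF_cons p594 (crtF_cons p595 (crtF_cons p596 (crtF_cons p597 (crtF_cons p598 (crtF_cons p599 (crtF_cons p600 (crtF_cons p601 (crtF_cons p602 (crtF_cons p603 (crtF_cons p604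 (crtF_cons p605 (crtF_cons p606 (crtF_cons p607 (crtF_cons p608 (crtF_cons p609 (crtF_cons p610 (crtF_cons p611 (crtF_cons p612 (crtF_cons p613 (crtF_cons p614 (crtF_cons p615 (crtF_cons p616 (crtF_cons p617 (crtF_cons p618 (crtF_cons p619 (crtF_cons p620 (crtF_cons p621 (crtF_cons p622 (crtF_cons p623 (crtF_cons p624 (crtF_cons p625 (crtF_cons p626 (crtF_cons p627 (crtF_cons p628 (crtF_cons p629 (crtF_cons p630 (crtF_cons p631 (crtF_cons p632 (crtF_cons p633 (crtF_cons p634 (crtF_cons p635 (crtF_cons p636 (crtF_cons p637 (crtF_cons p638 (crtF_cons p639 crtF_nil)))))))))))))))))))))))))))))))))))))))))))))))))))))))))))))))))))))))))))))))))))))))))))))))))))))))))))))))))))))))))))))))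

theorem ch : chT 73 73 TCm s0_004 L = true := by decide +kernel

end Vale.Agent.P032X.Cert.XP.B1.R0H004
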