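import Vale.Agent.P032X.H892.LtH
import Vale.Agent.P032X.H286.W73
import Vale.Agent.P032X.Cert.XP.B1.R0T
import Vale.Agent.P032X.Cert.XP.B1.R0Q029
import Vale.Agent.P032X.Cert.XP.B1.R0Q030
import Vale.Agent.P032X.Cert.XP.B1.R0Q031
import Vale.Agent.P032X.Cert.XP.B1.R0Q032
import Vale.Agent.P032X.Cert.XP.B1.R0Q033
import Vale.Agent.P032X.Cert.XP.B1.R0Q034
import Vale.Agent.P032X.Cert.XP.B1.R0Q035
import Vale.Agent.P032X.Cert.XP.B1.R0Q036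
import Vale.Agent.P032X.Cert.XP.B1.R0Q037

set_option maxRecDepth 1000000

namespace Vale.Agent.P032X.Cert.XP.B1.R0H005

open Vale.Agent.P032.H820.K Vale.Agent.P032.H357.MK Vale.Agent.P032.H286.E Vale.Agent.P032.H61 Vale.Agent.P032X.Cert.XP.B1

noncomputable abbrev Fm : ℕ → List ℕ := Vale.Agent.P032.Fam.fam2 (Vale.Agent.P032.Fam.im0)

def CB : List ℕ := [0, 4, 8, 12, 16, 20, 24]

theorem eB : Vale.Agent.P032.Lt.eqLL (CB.map Fm) R0Q029.E = true := by decide +kernel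

theorem p640 : Pat 73 73 TBm TCm (CB.map Fm) R0Q029.P640 R0Q029.I640 := Vale.Agent.P032.Lt.pat_eq (E' := R0Q029.E) eB (pat_step (by decide +kernel) (q_cons (Vale.Agent.P032.Lt.q R0Q029.q640_0) (q_cons (Vale.Agent.P032.Lt.q R0Q029.q640_1) (q_cons (Vale.Agent.P032.Lt.q R0Q029.q640_2) (q_cons (Vale.Agent.P032.Lt.q R0Q029.q640_3) q_nil)))))

theorem p641 : Pat 73 73 TBm TCm (CB.map Fm) R0Q029.P641 R0Q029.I641 := Vale.Agent.P032.Lt.pat_eq (E' := R0Q029.E) eB (pat_step (by decide +kernel) (q_cons (Vale.Agent.P032.Lt.q R0Q029.q641_0) (q_cons (Vale.Agent.P032.Lt.q R0Q029.q641_1) (q_cons (Vale.Agent.P032.Lt.q R0Q029.q641_2) (q_cons (Vale.Agent.P032.Lt.q R0Q029.q641_3) q_nil)))))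

theorem p642 : Pat 73 73 TBm TCm (CB.map Fm) R0Q029.P642 R0Q029.I642 := Vale.Agent.P032.Lt.pat_eq (E' := R0Q029.E) eB (pat_step (by decide +kernel) (q_cons (Vale.Agent.P032.Lt.q R0Q029.q642_0) (q_cons (Vale.Agent.P032.Lt.q R0Q029.q642_1) (q_cons (Vale.Agent.P032.Lt.q R0Q029.q642_2) q_nil))))

theorem p643 : Pat 73 73 TBm TCm (CB.map Fm) R0Q029.P643 R0Q029.I643 := Vale.Agent.P032.Lt.pat_eq (E' := R0Q029.E) eB (pat_step (by decide +kernel) (q_cons (Vale.Agent.P032.Lt.q R0Q029.q643_0) (q_cons (Vale.Agent.P032.Lt.q R0Q029.q643_1) (q_cons (Vale.Agent.P032.Lt.q R0Q029.q643_2) (q_cons (Vale.Agent.P032.Lt.q R0Q029.q643_3) (q_cons (Vale.Agent.P032.Lt.q R0Q029.q643_4) (q_cons (Vale.Agent.P032.Lt.q R0Q029.q643_5) q_nil)))))))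

theorem p644 : Pat 73 73 TBm TCm (CB.map Fm) R0Q029.P644 R0Q029.I644 := Vale.Agent.P032.Lt.pat_eq (E' := R0Q029.E) eB (pat_step (by decide +kernel) (q_cons (Vale.Agent.P032.Lt.q R0Q029.q644_0) (q_cons (Vale.Agent.P032.Lt.q R0Q029.q644_1) (q_cons (Vale.Agent.P032.Lt.q R0Q029.q644_2) (q_cons (Vale.Agent.P032.Lt.q R0Q029.q644_3) (q_cons (Vale.Agent.P032.Lt.q R0Q029.q644_4) (q_cons (Vale.Agent.P032.Lt.q R0Q029.q644_5) q_nil)))))))

theorem p645 : Pat 73 73 TBm TCm (CB.map Fm) R0Q029.P645 R0Q029.I645 := Vale.Agent.P032.Lt.pat_eq (E' := R0Q029.E) eB (pat_step (by decide +kernel) (q_cons (Vale.Agent.P032.Lt.q R0Q029.q645_0) (q_cons (Vale.Agent.P032.Lt.q R0Q029.q645_1) (q_cons (Vale.Agent.P032.Lt.q R0Q029.q645_2) (q_cons (Vale.Agent.P032.Lt.q R0Q029.q645_3) (q_cons (Vale.Agent.P032.Lt.q R0Q029.q645_4) q_nil))))))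

def C646 : List ℕ := [0, 4, 8, 12, 16, 20, 24, 212993, 348161, 475137, 479233]
theorem p646 : Pat 73 73 TBm TCm (C646.map Fm) R0Q029.P646 R0Q029.I646 := Vale.Agent.P032.Lt.pat_eq (E' := R0Q029.E646) (by decide +kernel) (pat_step (by decide +kernel) (q_cons (Vale.Agent.P032.Lt.q R0Q029.q646_0) (q_cons (Vale.Agent.P032.Lt.q R0Q029.q646_1) (q_cons (Vale.Agent.P032.Lt.q R0Q029.q646_2) (q_cons (Vale.Agent.P032.Lt.q R0Q029.q646_3) (q_cons (Vale.Agent.P032.Lt.q R0Q029.q646_4) (q_cons (Vale.Agent.P032.Lt.q R0Q029.q646_5) (q_cons (Vale.Agent.P032.Lt.q R0Q029.q646_6) q_nil))))))))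

theorem p647 : Pat 73 73 TBm TCm (CB.map Fm) R0Q029.P647 R0Q029.I647 := Vale.Agent.P032.Lt.pat_eq (E' := R0Q029.E) eB (pat_step (by decide +kernel) (q_cons (Vale.Agent.P032.Lt.q R0Q029.q647_0) (q_cons (Vale.Agent.P032.Lt.q R0Q029.q647_1) (q_cons (Vale.Agent.P032.Lt.q R0Q029.q647_2) (q_cons (Vale.Agent.P032.Lt.q R0Q029.q647_3) (q_cons (Vale.Agent.P032.Lt.q R0Q029.q647_4) (q_cons (Vale.Agent.P032.Lt.q R0Q029.q647_5) q_nil)))))))

def C648 : List ℕ := [0, 4, 8, 12, 16, 20, 24, 212993, 348161, 475137, 479233, 606209]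
theorem p648 : Pat 73 73 TBm TCm (C648.map Fm) R0Q029.P648 R0Q029.I648 := Vale.Agent.P032.Lt.pat_eq (E' := R0Q029.E648) (by decide +kernel) (pat_step (by decide +kernel) (q_cons (Vale.Agent.P032.Lt.q R0Q029.q648_0) (q_cons (Vale.Agent.P032.Lt.q R0Q029.q648_1) (q_cons (Vale.Agent.P032.Lt.q R0Q029.q648_2) (q_cons (Vale.Agent.P032.Lt.q R0Q029.q648_3) (q_cons (Vale.Agent.P032.Lt.q R0Q029.q648_4) (q_cons (Vale.Agent.P032.Lt.q R0Q029.q648_5) q_nil)))))))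

theorem p649 : Pat 73 73 TBm TCm (CB.map Fm) R0Q030.P649 R0Q030.I649 := Vale.Agent.P032.Lt.pat_eq (E' := R0Q030.E) eB (pat_step (by decide +kernel) (q_cons (Vale.Agent.P032.Lt.q R0Q030.q649_0) q_nil))

theorem p650 : Pat 73 73 TBm TCm (CB.map Fm) R0Q030.P650 R0Q030.I650 := Vale.Agent.P032.Lt.pat_eq (E' := R0Q030.E) eB (pat_step (by decide +kernel) (q_cons (Vale.Agent.P032.Lt.q R0Q030.q650_0) q_nil))

theorem p651 : Pat 73 73 TBm TCm (CB.map Fm) R0Q030.P651 R0Q030.I651 := Vale.Agent.P032.Lt.pat_eq (E' := R0Q030.E) eB (pat_step (by decide +kernel) (q_cons (Vale.Agent.P032.Lt.q R0Q030.q651_0) (q_cons (Vale.Agent.P032.Lt.q R0Q030.q651_1) (q_cons (Vale.Agent.P032.Lt.q R0Q030.q651_2) (q_cons (Vale.Agent.P032.Lt.q R0Q030.q651_3) (q_cons (Vale.Agent.P032.Lt.q R0Q030.q651_4) (q_cons (Vale.Agent.P032.Lt.q R0Q030.q651_5) (q_cons (Vale.Agent.P032.Lt.q R0Q030.q651_6) q_nil))))))))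

theorem p652 : Pat 73 73 TBm TCm (CB.map Fm) R0Q030.P652 R0Q030.I652 := Vale.Agent.P032.Lt.pat_eq (E' := R0Q030.E) eB (pat_step (by decide +kernel) (q_cons (Vale.Agent.P032.Lt.q R0Q030.q652_0) q_nil))

theorem p653 : Pat 73 73 TBm TCm (CB.map Fm) R0Q030.P653 R0Q030.I653 := Vale.Agent.P032.Lt.pat_eq (E' := R0Q030.E) eB (pat_step (by decide +kernel) (q_cons (Vale.Agent.P032.Lt.q R0Q030.q653_0) (q_cons (Vale.Agent.P032.Lt.q R0Q030.q653_1) (q_cons (Vale.Agent.P032.Lt.q R0Q030.q653_2) (q_cons (Vale.Agent.P032.Lt.q R0Q030.q653_3) (q_cons (Vale.Agent.P032.Lt.q R0Q030.q653_4) (q_cons (Vale.Agent.P032.Lt.q R0Q030.q653_5) q_nil)))))))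

theorem p654 : Pat 73 73 TBm TCm (CB.map Fm) R0Q030.P654 R0Q030.I654 := Vale.Agent.P032.Lt.pat_eq (E' := R0Q030.E) eB (pat_step (by decide +kernel) (q_cons (Vale.Agent.P032.Lt.q R0Q030.q654_0) (q_cons (Vale.Agent.P032.Lt.q R0Q030.q654_1) (q_cons (Vale.Agent.P032.Lt.q R0Q030.q654_2) (q_cons (Vale.Agent.P032.Lt.q R0Q030.q654_3) q_nil)))))

def C655 : List ℕ := [0, 4, 8, 12, 16, 20, 24, 741377]
theorem p655 : Pat 73 73 TBm TCm (C655.map Fm) R0Q030.P655 R0Q030.I655 := Vale.Agent.P032.Lt.pat_eq (E' := R0Q030.E655) (by decide +kernel) (pat_step (by decide +kernel) (q_cons (Vale.Agent.P032.Lt.q R0Q030.q655_0) (q_cons (Vale.Agent.P032.Lt.q R0Q030.q655_1) (q_cons (Vale.Agent.P032.Lt.q R0Q030.q655_2) (q_cons (Vale.Agent.P032.Lt.q R0Q030.q655_3) (q_cons (Vale.Agent.P032.Lt.q R0Q030.q655_4) q_nil))))))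

theorem p656 : Pat 73 73 TBm TCm (CB.map Fm) R0Q030.P656 R0Q030.I656 := Vale.Agent.P032.Lt.pat_eq (E' := R0Q030.E) eB (pat_step (by decide +kernel) (q_cons (Vale.Agent.P032.Lt.q R0Q030.q656_0) (q_cons (Vale.Agent.P032.Lt.q R0Q030.q656_1) (q_cons (Vale.Agent.P032.Lt.q R0Q030.q656_2) q_nil))))

theorem p657 : Pat 73 73 TBm TCm (CB.map Fm) R0Q030.P657 R0Q030.I657 := Vale.Agent.P032.Lt.pat_eq (E' := R0Q030.E) eB (pat_step (by decide +kernel) (q_cons (Vale.Agent.P032.Lt.q R0Q030.q657_0) q_nil))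

theorem p658 : Pat 73 73 TBm TCm (CB.map Fm) R0Q030.P658 R0Q030.I658 := Vale.Agent.P032.Lt.pat_eq (E' := R0Q030.E) eB (pat_step (by decide +kernel) (q_cons (Vale.Agent.P032.Lt.q R0Q030.q658_0) (q_cons (Vale.Agent.P032.Lt.q R0Q030.q658_1) q_nil)))

theorem p659 : Pat 73 73 TBm TCm (CB.map Fm) R0Q030.P659 R0Q030.I659 := Vale.Agent.P032.Lt.pat_eq (E' := R0Q030.E) eB (pat_step (by decide +kernel) (q_cons (Vale.Agent.P032.Lt.q R0Q030.q659_0) (q_cons (Vale.Agent.P032.Lt.q R0Q030.q659_1) (q_cons (Vale.Agent.P032.Lt.q R0Q030.q659_2) (q_cons (Vale.Agent.P032.Lt.q R0Q030.q659_3) (q_cons (Vale.Agent.P032.Lt.q R0Q030.q659_4) (q_cons (Vale.Agent.P032.Lt.q R0Q030.q659_5) (q_cons (Vale.Agent.P032.Lt.q R0Q030.q659_6) (q_cons (Vale.Agent.P032.Lt.q R0Q030.q659_7) (q_cons (Vale.Agent.P032.Lt.q R0Q030.q659_8) (q_cons (Vale.Agent.P032.Lt.q R0Q030.q659_9) (q_cons (Vale.Agent.P032.Lt.q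 R0Q030.q659_10) (q_cons (Vale.Agent.P032.Lt.q R0Q030.q659_11) (q_cons (Vale.Agent.P032.Lt.q R0Q030.q659_12) (q_cons (Vale.Agent.P032.Lt.q R0Q030.q659_13) q_nil)))))))))))))))

theorem p660 : Pat 73 73 TBm TCm (CB.map Fm) R0Q030.P660 R0Q030.I660 := Vale.Agent.P032.Lt.pat_eq (E' := R0Q030.E) eB (pat_step (by decide +kernel) (q_cons (Vale.Agent.P032.Lt.q R0Q030.q660_0) q_nil))

theorem p661 : Pat 73 73 TBm TCm (CB.map Fm) R0Q030.P661 R0Q030.I661 := Vale.Agent.P032.Lt.pat_eq (E' := R0Q030.E) eB (pat_step (by decide +kernel) (q_cons (Vale.Agent.P032.Lt.q R0Q030.q661_0) (q_cons (Vale.Agent.P032.Lt.q R0Q030.q661_1) q_nil)))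

theorem p662 : Pat 73 73 TBm TCm (CB.map Fm) R0Q030.P662 R0Q030.I662 := Vale.Agent.P032.Lt.pat_eq (E' := R0Q030.E) eB (pat_step (by decide +kernel) (q_cons (Vale.Agent.P032.Lt.q R0Q030.q662_0) q_nil))

theorem p663 : Pat 73 73 TBm TCm (CB.map Fm) R0Q031.P663 R0Q031.I663 := Vale.Agent.P032.Lt.pat_eq (E' := R0Q031.E) eB (pat_step (by decide +kernel) (q_cons (Vale.Agent.P032.Lt.q R0Q031.q663_0) (q_cons (Vale.Agent.P032.Lt.q R0Q031.q663_1) (q_cons (Vale.Agent.P032.Lt.q R0Q031.q663_2) (q_cons (Vale.Agent.P032.Lt.q R0Q031.q663_3) (q_cons (Vale.Agent.P032.Lt.q R0Q031.q663_4) (q_cons (Vale.Agent.P032.Lt.q R0Q031.q663_5) (q_cons (Vale.Agent.P032.Lt.q R0Q031.q663_6) (q_cons (Vale.Agent.P032.Lt.q R0Q031.q663_7) (q_cons (Vale.Agent.P032.Lt.q R0Q031.q663_8) (q_cons (Vale.Agent.P032.Lt.q R0Q031.q663_9) (q_cons (Vale.Agent.P032.Lt.q R0Q031.q663_10) (q_cons (Vale.Agent.P032.Lt.q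 R0Q031.q663_11) (q_cons (Vale.Agent.P032.Lt.q R0Q031.q663_12) (q_cons (Vale.Agent.P032.Lt.q R0Q031.q663_13) (q_cons (Vale.Agent.P032.Lt.q R0Q031.q663_14) (q_cons (Vale.Agent.P032.Lt.q R0Q031.q663_15) (q_cons (Vale.Agent.P032.Lt.q R0Q031.q663_16) (q_cons (Vale.Agent.P032.Lt.q R0Q031.q663_17) (q_cons (Vale.Agent.P032.Lt.q R0Q031.q663_18) (q_cons (Vale.Agent.P032.Lt.q R0Q031.q663_19) (q_cons (Vale.Agent.P032.Lt.q R0Q031.q663_20) (q_cons (Vale.Agent.P032.Lt.q R0Q031.q663_21) (q_cons (Vale.Agent.P032.Lt.q R0Q031.q663_22) q_nil))))))))))))))))))))))))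

theorem p664 : Pat 73 73 TBm TCm (CB.map Fm) R0Q031.P664 R0Q031.I664 := Vale.Agent.P032.Lt.pat_eq (E' := R0Q031.E) eB (pat_step (by decide +kernel) (q_cons (Vale.Agent.P032.Lt.q R0Q031.q664_0) (q_cons (Vale.Agent.P032.Lt.q R0Q031.q664_1) (q_cons (Vale.Agent.P032.Lt.q R0Q031.q664_2) (q_cons (Vale.Agent.P032.Lt.q R0Q031.q664_3) (q_cons (Vale.Agent.P032.Lt.q R0Q031.q664_4) (q_cons (Vale.Agent.P032.Lt.q R0Q031.q664_5) (q_cons (Vale.Agent.P032.Lt.q R0Q031.q664_6) q_nil))))))))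

theorem p665 : Pat 73 73 TBm TCm (CB.map Fm) R0Q031.P665 R0Q031.I665 := Vale.Agent.P032.Lt.pat_eq (E' := R0Q031.E) eB (pat_step (by decide +kernel) (q_cons (Vale.Agent.P032.Lt.q R0Q031.q665_0) (q_cons (Vale.Agent.P032.Lt.q R0Q031.q665_1) (q_cons (Vale.Agent.P032.Lt.q R0Q031.q665_2) (q_cons (Vale.Agent.P032.Lt.q R0Q031.q665_3) (q_cons (Vale.Agent.P032.Lt.q R0Q031.q665_4) (q_cons (Vale.Agent.P032.Lt.q R0Q031.q665_5) (q_cons (Vale.Agent.P032.Lt.q R0Q031.q665_6) (q_cons (Vale.Agent.P032.Lt.q R0Q031.q665_7) (q_cons (Vale.Agent.P032.Lt.q R0Q031.q665_8) (q_cons (Vale.Agent.P032.Lt.q R0Q031.q665_9) (q_cons (Vale.Agent.P032.Lt.q R0Q031.q665_10) (q_cons (Vale.Agent.P032.Lt.q R0Q031.q665_11) (q_cons (Vale.Agent.P032.Lt.q R0Q031.q665_12) (q_cons (Vale.Agent.P032.Lt.q R0Q031.q665_13) (q_cons (Vale.Agent.P032.Lt.q R0Q031.q665_14) (q_cons (Vale.Agent.P032.Lt.q R0Q031.q665_15)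 (q_cons (Vale.Agent.P032.Lt.q R0Q031.q665_16) (q_cons (Vale.Agent.P032.Lt.q R0Q031.q665_17) (q_cons (Vale.Agent.P032.Lt.q R0Q031.q665_18) (q_cons (Vale.Agent.P032.Lt.q R0Q031.q665_19) (q_cons (Vale.Agent.P032.Lt.q R0Q031.q665_20) (q_cons (Vale.Agent.P032.Lt.q R0Q031.q665_21) (q_cons (Vale.Agent.P032.Lt.q R0Q031.q665_22) (q_cons (Vale.Agent.P032.Lt.q R0Q031.q665_23) (q_cons (Vale.Agent.P032.Lt.q R0Q031.q665_24) (q_cons (Vale.Agent.P032.Lt.q R0Q031.q665_25) (q_cons (Vale.Agent.P032.Lt.q R0Q031.q665_26) (q_cons (Vale.Agent.P032.Lt.q R0Q031.q665_27) (q_cons (Vale.Agent.P032.Lt.q R0Q031.q665_28) (q_cons (Vale.Agent.P032.Lt.q R0Q031.q665_29) (q_cons (Vale.Agent.P032.Lt.q R0Q031.q665_30) (q_cons (Vale.Agent.P032.Lt.q R0Q031.q665_31) (q_cons (Vale.Agent.P032.Lt.q R0Q031.q665_32) (q_cons (Vale.Agent.P032.Lt.q R0Q031.q665_33) (q_cons (Vale.Agent.P032.Lt.q R0Q031.q665_34)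 (q_cons (Vale.Agent.P032.Lt.q R0Q031.q665_35) (q_cons (Vale.Agent.P032.Lt.q R0Q031.q665_36) (q_cons (Vale.Agent.P032.Lt.q R0Q031.q665_37) (q_cons (Vale.Agent.P032.Lt.q R0Q031.q665_38) (q_cons (Vale.Agent.P032.Lt.q R0Q031.q665_39) (q_cons (Vale.Agent.P032.Lt.q R0Q031.q665_40) (q_cons (Vale.Agent.P032.Lt.q R0Q031.q665_41) (q_cons (Vale.Agent.P032.Lt.q R0Q031.q665_42) (q_cons (Vale.Agent.P032.Lt.q R0Q031.q665_43) q_nil)))))))))))))))))))))))))))))))))))))))))))))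

theorem p666 : Pat 73 73 TBm TCm (CB.map Fm) R0Q031.P666 R0Q031.I666 := Vale.Agent.P032.Lt.pat_eq (E' := R0Q031.E) eB (pat_step (by decide +kernel) (q_cons (Vale.Agent.P032.Lt.q R0Q031.q666_0) (q_cons (Vale.Agent.P032.Lt.q R0Q031.q666_1) (q_cons (Vale.Agent.P032.Lt.q R0Q031.q666_2) (q_cons (Vale.Agent.P032.Lt.q R0Q031.q666_3) (q_cons (Vale.Agent.P032.Lt.q R0Q031.q666_4) q_nil))))))

theorem p667 : Pat 73 73 TBm TCm (CB.map Fm) R0Q031.P667 R0Q031.I667 := Vale.Agent.P032.Lt.pat_eq (E' := R0Q031.E) eB (pat_step (by decide +kernel) (q_cons (Vale.Agent.P032.Lt.q R0Q031.q667_0) (q_cons (Vale.Agent.P032.Lt.q R0Q031.q667_1) (q_cons (Vale.Agent.P032.Lt.q R0Q031.q667_2) (q_cons (Vale.Agent.P032.Lt.q R0Q031.q667_3) (q_cons (Vale.Agent.P032.Lt.q R0Q031.q667_4) (q_cons (Vale.Agent.P032.Lt.q R0Q031.q667_5) (q_cons (Vale.Agent.P032.Lt.q R0Q031.q667_6) (q_cons (Vale.Agent.P032.Lt.q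 R0Q031.q667_7) (q_cons (Vale.Agent.P032.Lt.q R0Q031.q667_8) (q_cons (Vale.Agent.P032.Lt.q R0Q031.q667_9) (q_cons (Vale.Agent.P032.Lt.q R0Q031.q667_10) (q_cons (Vale.Agent.P032.Lt.q R0Q031.q667_11) (q_cons (Vale.Agent.P032.Lt.q R0Q031.q667_12) (q_cons (Vale.Agent.P032.Lt.q R0Q031.q667_13) (q_cons (Vale.Agent.P032.Lt.q R0Q031.q667_14) (q_cons (Vale.Agent.P032.Lt.q R0Q031.q667_15) (q_cons (Vale.Agent.P032.Lt.q R0Q031.q667_16) (q_cons (Vale.Agent.P032.Lt.q R0Q031.q667_17) (q_cons (Vale.Agent.P032.Lt.q R0Q031.q667_18) (q_cons (Vale.Agent.P032.Lt.q R0Q031.q667_19) (q_cons (Vale.Agent.P032.Lt.q R0Q031.q667_20) (q_cons (Vale.Agent.P032.Lt.q R0Q031.q667_21) (q_cons (Vale.Agent.P032.Lt.q R0Q031.q667_22) (q_cons (Vale.Agent.P032.Lt.q R0Q031.q667_23) (q_cons (Vale.Agent.P032.Lt.q R0Q031.q667_24) (q_cons (Vale.Agent.P032.Lt.q R0Q031.q667_25) (q_cons (Vale.Agent.P032.Lt.q R0Q031.q667_26)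 (q_cons (Vale.Agent.P032.Lt.q R0Q031.q667_27) (q_cons (Vale.Agent.P032.Lt.q R0Q031.q667_28) (q_cons (Vale.Agent.P032.Lt.q R0Q031.q667_29) (q_cons (Vale.Agent.P032.Lt.q R0Q031.q667_30) (q_cons (Vale.Agent.P032.Lt.q R0Q031.q667_31) (q_cons (Vale.Agent.P032.Lt.q R0Q031.q667_32) (q_cons (Vale.Agent.P032.Lt.q R0Q031.q667_33) (q_cons (Vale.Agent.P032.Lt.q R0Q031.q667_34) (q_cons (Vale.Agent.P032.Lt.q R0Q031.q667_35) q_nil)))))))))))))))))))))))))))))))))))))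

theorem p668 : Pat 73 73 TBm TCm (CB.map Fm) R0Q031.P668 R0Q031.I668 := Vale.Agent.P032.Lt.pat_eq (E' := R0Q031.E) eB (pat_step (by decide +kernel) (q_cons (Vale.Agent.P032.Lt.q R0Q031.q668_0) q_nil))

def C669 : List ℕ := [0, 4, 8, 12, 16, 20, 24, 347137, 476161, 606209, 737281]
theorem p669 : Pat 73 73 TBm TCm (C669.map Fm) R0Q031.P669 R0Q031.I669 := Vale.Agent.P032.Lt.pat_eq (E' := R0Q031.E669) (by decide +kernel) (pat_step (by decide +kernel) (q_cons (Vale.Agent.P032.Lt.q R0Q031.q669_0) (q_cons (Vale.Agent.P032.Lt.q R0Q031.q669_1) (q_cons (Vale.Agent.P032.Lt.q R0Q031.q669_2) q_nil))))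

theorem p670 : Pat 73 73 TBm TCm (CB.map Fm) R0Q031.P670 R0Q031.I670 := Vale.Agent.P032.Lt.pat_eq (E' := R0Q031.E) eB (pat_step (by decide +kernel) (q_cons (Vale.Agent.P032.Lt.q R0Q031.q670_0) q_nil))

theorem p671 : Pat 73 73 TBm TCm (CB.map Fm) R0Q031.P671 R0Q031.I671 := Vale.Agent.P032.Lt.pat_eq (E' := R0Q031.E) eB (pat_step (by decide +kernel) (q_cons (Vale.Agent.P032.Lt.q R0Q031.q671_0) (q_cons (Vale.Agent.P032.Lt.q R0Q031.q671_1) q_nil)))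

theorem p672 : Pat 73 73 TBm TCm (CB.map Fm) R0Q031.P672 R0Q031.I672 := Vale.Agent.P032.Lt.pat_eq (E' := R0Q031.E) eB (pat_step (by decide +kernel) (q_cons (Vale.Agent.P032.Lt.q R0Q031.q672_0) (q_cons (Vale.Agent.P032.Lt.q R0Q031.q672_1) q_nil)))

theorem p673 : Pat 73 73 TBm TCm (CB.map Fm) R0Q031.P673 R0Q031.I673 := Vale.Agent.P032.Lt.pat_eq (E' := R0Q031.E) eB (pat_step (by decide +kernel) (q_cons (Vale.Agent.P032.Lt.q R0Q031.q673_0) (q_cons (Vale.Agent.P032.Lt.q R0Q031.q673_1) (q_cons (Vale.Agent.P032.Lt.q R0Q031.q673_2) q_nil))))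

theorem p674 : Pat 73 73 TBm TCm (CB.map Fm) R0Q031.P674 R0Q031.I674 := Vale.Agent.P032.Lt.pat_eq (E' := R0Q031.E) eB (pat_step (by decide +kernel) (q_cons (Vale.Agent.P032.Lt.q R0Q031.q674_0) q_nil))

theorem p675 : Pat 73 73 TBm TCm (CB.map Fm) R0Q031.P675 R0Q031.I675 := Vale.Agent.P032.Lt.pat_eq (E' := R0Q031.E) eB (pat_step (by decide +kernel) (q_cons (Vale.Agent.P032.Lt.q R0Q031.q675_0) q_nil))

theorem p676 : Pat 73 73 TBm TCm (CB.map Fm) R0Q031.P676 R0Q031.I676 := Vale.Agent.P032.Lt.pat_eq (E' := R0Q031.E) eB (pat_step (by decide +kernel) (q_cons (Vale.Agent.P032.Lt.q R0Q031.q676_0) (q_cons (Vale.Agent.P032.Lt.q R0Q031.q676_1) q_nil)))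

theorem p677 : Pat 73 73 TBm TCm (CB.map Fm) R0Q031.P677 R0Q031.I677 := Vale.Agent.P032.Lt.pat_eq (E' := R0Q031.E) eB (pat_step (by decide +kernel) (q_cons (Vale.Agent.P032.Lt.q R0Q031.q677_0) (q_cons (Vale.Agent.P032.Lt.q R0Q031.q677_1) (q_cons (Vale.Agent.P032.Lt.q R0Q031.q677_2) (q_cons (Vale.Agent.P032.Lt.q R0Q031.q677_3) (q_cons (Vale.Agent.P032.Lt.q R0Q031.q677_4) (q_cons (Vale.Agent.P032.Lt.q R0Q031.q677_5) (q_cons (Vale.Agent.P032.Lt.q R0Q031.q677_6) (q_cons (Vale.Agent.P032.Lt.q R0Q031.q677_7) (q_cons (Vale.Agent.P032.Lt.q R0Q031.q677_8) q_nil))))))))))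

theorem p678 : Pat 73 73 TBm TCm (CB.map Fm) R0Q031.P678 R0Q031.I678 := Vale.Agent.P032.Lt.pat_eq (E' := R0Q031.E) eB (pat_step (by decide +kernel) (q_cons (Vale.Agent.P032.Lt.q R0Q031.q678_0) (q_cons (Vale.Agent.P032.Lt.q R0Q031.q678_1) (q_cons (Vale.Agent.P032.Lt.q R0Q031.q678_2) q_nil))))

theorem p679 : Pat 73 73 TBm TCm (CB.map Fm) R0Q032.P679 R0Q032.I679 := Vale.Agent.P032.Lt.pat_eq (E' := R0Q032.E) eB (pat_step (by decide +kernel) (q_cons (Vale.Agent.P032.Lt.q R0Q032.q679_0) (q_cons (Vale.Agent.P032.Lt.q R0Q032.q679_1) (q_cons (Vale.Agent.P032.Lt.q R0Q032.q679_2) (q_cons (Vale.Agent.P032.Lt.q R0Q032.q679_3) (q_cons (Vale.Agent.P032.Lt.q R0Q032.q679_4) (q_cons (Vale.Agent.P032.Lt.q R0Q032.q679_5) (q_cons (Vale.Agent.P032.Lt.q R0Q032.q679_6) (q_cons (Vale.Agent.P032.Lt.q R0Q032.q679_7) (q_cons (Vale.Agent.P032.Lt.q R0Q032.q679_8) (q_cons (Vale.Agent.P032.Lt.q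 R0Q032.q679_9) q_nil)))))))))))

theorem p680 : Pat 73 73 TBm TCm (CB.map Fm) R0Q032.P680 R0Q032.I680 := Vale.Agent.P032.Lt.pat_eq (E' := R0Q032.E) eB (pat_step (by decide +kernel) (q_cons (Vale.Agent.P032.Lt.q R0Q032.q680_0) (q_cons (Vale.Agent.P032.Lt.q R0Q032.q680_1) (q_cons (Vale.Agent.P032.Lt.q R0Q032.q680_2) (q_cons (Vale.Agent.P032.Lt.q R0Q032.q680_3) (q_cons (Vale.Agent.P032.Lt.q R0Q032.q680_4) (q_cons (Vale.Agent.P032.Lt.q R0Q032.q680_5) (q_cons (Vale.Agent.P032.Lt.q R0Q032.q680_6) (q_cons (Vale.Agent.P032.Lt.q R0Q032.q680_7) (q_cons (Vale.Agent.P032.Lt.q R0Q032.q680_8) (q_cons (Vale.Agent.P032.Lt.q R0Q032.q680_9) (q_cons (Vale.Agent.P032.Lt.q R0Q032.q680_10) (q_cons (Vale.Agent.P032.Lt.q R0Q032.q680_11) (q_cons (Vale.Agent.P032.Lt.q R0Q032.q680_12) (q_cons (Vale.Agent.P032.Lt.q R0Q032.q680_13) (q_cons (Vale.Agent.P032.Lt.q R0Q032.q680_14) (q_cons (Vale.Agent.P032.Lt.q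 R0Q032.q680_15) (q_cons (Vale.Agent.P032.Lt.q R0Q032.q680_16) q_nil))))))))))))))))))

theorem p681 : Pat 73 73 TBm TCm (CB.map Fm) R0Q032.P681 R0Q032.I681 := Vale.Agent.P032.Lt.pat_eq (E' := R0Q032.E) eB (pat_step (by decide +kernel) (q_cons (Vale.Agent.P032.Lt.q R0Q032.q681_0) (q_cons (Vale.Agent.P032.Lt.q R0Q032.q681_1) (q_cons (Vale.Agent.P032.Lt.q R0Q032.q681_2) (q_cons (Vale.Agent.P032.Lt.q R0Q032.q681_3) (q_cons (Vale.Agent.P032.Lt.q R0Q032.q681_4) (q_cons (Vale.Agent.P032.Lt.q R0Q032.q681_5) (q_cons (Vale.Agent.P032.Lt.q R0Q032.q681_6) q_nil))))))))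

def C682 : List ℕ := [0, 4, 8, 12, 16, 20, 24, 82945, 347137, 606209, 609281, 737281]
theorem p682 : Pat 73 73 TBm TCm (C682.map Fm) R0Q032.P682 R0Q032.I682 := Vale.Agent.P032.Lt.pat_eq (E' := R0Q032.E682) (by decide +kernel) (pat_step (by decide +kernel) (q_cons (Vale.Agent.P032.Lt.q R0Q032.q682_0) q_nil))

theorem p683 : Pat 73 73 TBm TCm (CB.map Fm) R0Q032.P683 R0Q032.I683 := Vale.Agent.P032.Lt.pat_eq (E' := R0Q032.E) eB (pat_step (by decide +kernel) (q_cons (Vale.Agent.P032.Lt.q R0Q032.q683_0) (q_cons (Vale.Agent.P032.Lt.q R0Q032.q683_1) (q_cons (Vale.Agent.P032.Lt.q R0Q032.q683_2) (q_cons (Vale.Agent.P032.Lt.q R0Q032.q683_3) (q_cons (Vale.Agent.P032.Lt.q R0Q032.q683_4) q_nil))))))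

def C684 : List ℕ := [0, 4, 8, 12, 16, 20, 24, 606209, 737281]
theorem p684 : Pat 73 73 TBm TCm (C684.map Fm) R0Q032.P684 R0Q032.I684 := Vale.Agent.P032.Lt.pat_eq (E' := R0Q032.E684) (by decide +kernel) (pat_step (by decide +kernel) (q_cons (Vale.Agent.P032.Lt.q R0Q032.q684_0) (q_cons (Vale.Agent.P032.Lt.q R0Q032.q684_1) (q_cons (Vale.Agent.P032.Lt.q R0Q032.q684_2) (q_cons (Vale.Agent.P032.Lt.q R0Q032.q684_3) (q_cons (Vale.Agent.P032.Lt.q R0Q032.q684_4) (q_cons (Vale.Agent.P032.Lt.q R0Q032.q684_5) (q_cons (Vale.Agent.P032.Lt.q R0Q032.q684_6) (q_cons (Vale.Agent.P032.Lt.q R0Q032.q684_7) q_nil)))))))))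

theorem p685 : Pat 73 73 TBm TCm (CB.map Fm) R0Q032.P685 R0Q032.I685 := Vale.Agent.P032.Lt.pat_eq (E' := R0Q032.E) eB (pat_step (by decide +kernel) (q_cons (Vale.Agent.P032.Lt.q R0Q032.q685_0) q_nil))

theorem p686 : Pat 73 73 TBm TCm (CB.map Fm) R0Q032.P686 R0Q032.I686 := Vale.Agent.P032.Lt.pat_eq (E' := R0Q032.E) eB (pat_step (by decide +kernel) (q_cons (Vale.Agent.P032.Lt.q R0Q032.q686_0) (q_cons (Vale.Agent.P032.Lt.q R0Q032.q686_1) (q_cons (Vale.Agent.P032.Lt.q R0Q032.q686_2) (q_cons (Vale.Agent.P032.Lt.q R0Q032.q686_3) (q_cons (Vale.Agent.P032.Lt.q R0Q032.q686_4) q_nil))))))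

theorem p687 : Pat 73 73 TBm TCm (CB.map Fm) R0Q032.P687 R0Q032.I687 := Vale.Agent.P032.Lt.pat_eq (E' := R0Q032.E) eB (pat_step (by decide +kernel) (q_cons (Vale.Agent.P032.Lt.q R0Q032.q687_0) (q_cons (Vale.Agent.P032.Lt.q R0Q032.q687_1) (q_cons (Vale.Agent.P032.Lt.q R0Q032.q687_2) (q_cons (Vale.Agent.P032.Lt.q R0Q032.q687_3) q_nil)))))

theorem p688 : Pat 73 73 TBm TCm (CB.map Fm) R0Q032.P688 R0Q032.I688 := Vale.Agent.P032.Lt.pat_eq (E' := R0Q032.E) eB (pat_step (by decide +kernel) (q_cons (Vale.Agent.P032.Lt.q R0Q032.q688_0) q_nil))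

theorem p689 : Pat 73 73 TBm TCm (CB.map Fm) R0Q032.P689 R0Q032.I689 := Vale.Agent.P032.Lt.pat_eq (E' := R0Q032.E) eB (pat_step (by decide +kernel) (q_cons (Vale.Agent.P032.Lt.q R0Q032.q689_0) q_nil))

theorem p690 : Pat 73 73 TBm TCm (CB.map Fm) R0Q032.P690 R0Q032.I690 := Vale.Agent.P032.Lt.pat_eq (E' := R0Q032.E) eB (pat_step (by decide +kernel) (q_cons (Vale.Agent.P032.Lt.q R0Q032.q690_0) (q_cons (Vale.Agent.P032.Lt.q R0Q032.q690_1) (q_cons (Vale.Agent.P032.Lt.q R0Q032.q690_2) q_nil))))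

theorem p691 : Pat 73 73 TBm TCm (CB.map Fm) R0Q032.P691 R0Q032.I691 := Vale.Agent.P032.Lt.pat_eq (E' := R0Q032.E) eB (pat_step (by decide +kernel) (q_cons (Vale.Agent.P032.Lt.q R0Q032.q691_0) (q_cons (Vale.Agent.P032.Lt.q R0Q032.q691_1) q_nil)))

theorem p692 : Pat 73 73 TBm TCm (CB.map Fm) R0Q032.P692 R0Q032.I692 := Vale.Agent.P032.Lt.pat_eq (E' := R0Q032.E) eB (pat_step (by decide +kernel) (q_cons (Vale.Agent.P032.Lt.q R0Q032.q692_0) (q_cons (Vale.Agent.P032.Lt.q R0Q032.q692_1) q_nil)))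

theorem p693 : Pat 73 73 TBm TCm (CB.map Fm) R0Q032.P693 R0Q032.I693 := Vale.Agent.P032.Lt.pat_eq (E' := R0Q032.E) eB (pat_step (by decide +kernel) (q_cons (Vale.Agent.P032.Lt.q R0Q032.q693_0) (q_cons (Vale.Agent.P032.Lt.q R0Q032.q693_1) q_nil)))

theorem p694 : Pat 73 73 TBm TCm (CB.map Fm) R0Q032.P694 R0Q032.I694 := Vale.Agent.P032.Lt.pat_eq (E' := R0Q032.E) eB (pat_step (by decide +kernel) (q_cons (Vale.Agent.P032.Lt.q R0Q032.q694_0) (q_cons (Vale.Agent.P032.Lt.q R0Q032.q694_1) q_nil)))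

theorem p695 : Pat 73 73 TBm TCm (CB.map Fm) R0Q032.P695 R0Q032.I695 := Vale.Agent.P032.Lt.pat_eq (E' := R0Q032.E) eB (pat_step (by decide +kernel) (q_cons (Vale.Agent.P032.Lt.q R0Q032.q695_0) (q_cons (Vale.Agent.P032.Lt.q R0Q032.q695_1) q_nil)))

theorem p696 : Pat 73 73 TBm TCm (CB.map Fm) R0Q032.P696 R0Q032.I696 := Vale.Agent.P032.Lt.pat_eq (E' := R0Q032.E) eB (pat_step (by decide +kernel) (q_cons (Vale.Agent.P032.Lt.q R0Q032.q696_0) (q_cons (Vale.Agent.P032.Lt.q R0Q032.q696_1) (q_cons (Vale.Agent.P032.Lt.q R0Q032.q696_2) (q_cons (Vale.Agent.P032.Lt.q R0Q032.q696_3) (q_cons (Vale.Agent.P032.Lt.q R0Q032.q696_4) (q_cons (Vale.Agent.P032.Lt.q R0Q032.q696_5) (q_cons (Vale.Agent.P032.Lt.q R0Q032.q696_6) (q_cons (Vale.Agent.P032.Lt.q R0Q032.q696_7) (q_cons (Vale.Agent.P032.Lt.q R0Q032.q696_8) (q_cons (Vale.Agent.P032.Lt.q R0Q032.q696_9) (q_cons (Vale.Agent.P032.Lt.q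 R0Q032.q696_10) q_nil))))))))))))

theorem p697 : Pat 73 73 TBm TCm (CB.map Fm) R0Q032.P697 R0Q032.I697 := Vale.Agent.P032.Lt.pat_eq (E' := R0Q032.E) eB (pat_step (by decide +kernel) (q_cons (Vale.Agent.P032.Lt.q R0Q032.q697_0) q_nil))

theorem p698 : Pat 73 73 TBm TCm (CB.map Fm) R0Q032.P698 R0Q032.I698 := Vale.Agent.P032.Lt.pat_eq (E' := R0Q032.E) eB (pat_step (by decide +kernel) (q_cons (Vale.Agent.P032.Lt.q R0Q032.q698_0) (q_cons (Vale.Agent.P032.Lt.q R0Q032.q698_1) (q_cons (Vale.Agent.P032.Lt.q R0Q032.q698_2) (q_cons (Vale.Agent.P032.Lt.q R0Q032.q698_3) (q_cons (Vale.Agent.P032.Lt.q R0Q032.q698_4) (q_cons (Vale.Agent.P032.Lt.q R0Q032.q698_5) (q_cons (Vale.Agent.P032.Lt.q R0Q032.q698_6) (q_cons (Vale.Agent.P032.Lt.q R0Q032.q698_7) q_nil)))))))))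

theorem p699 : Pat 73 73 TBm TCm (CB.map Fm) R0Q032.P699 R0Q032.I699 := Vale.Agent.P032.Lt.pat_eq (E' := R0Q032.E) eB (pat_step (by decide +kernel) (q_cons (Vale.Agent.P032.Lt.q R0Q032.q699_0) (q_cons (Vale.Agent.P032.Lt.q R0Q032.q699_1) (q_cons (Vale.Agent.P032.Lt.q R0Q032.q699_2) (q_cons (Vale.Agent.P032.Lt.q R0Q032.q699_3) (q_cons (Vale.Agent.P032.Lt.q R0Q032.q699_4) (q_cons (Vale.Agent.P032.Lt.q R0Q032.q699_5) (q_cons (Vale.Agent.P032.Lt.q R0Q032.q699_6) (q_cons (Vale.Agent.P032.Lt.q R0Q032.q699_7) q_nil)))))))))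

def C700 : List ℕ := [0, 4, 8, 12, 16, 20, 24, 220161, 606209, 737281]
theorem p700 : Pat 73 73 TBm TCm (C700.map Fm) R0Q033.P700 R0Q033.I700 := Vale.Agent.P032.Lt.pat_eq (E' := R0Q033.E700) (by decide +kernel) (pat_step (by decide +kernel) (q_cons (Vale.Agent.P032.Lt.q R0Q033.q700_0) (q_cons (Vale.Agent.P032.Lt.q R0Q033.q700_1) (q_cons (Vale.Agent.P032.Lt.q R0Q033.q700_2) (q_cons (Vale.Agent.P032.Lt.q R0Q033.q700_3) (q_cons (Vale.Agent.P032.Lt.q R0Q033.q700_4) (q_cons (Vale.Agent.P032.Lt.q R0Q033.q700_5) (q_cons (Vale.Agent.P032.Lt.q R0Q033.q700_6) (q_cons (Vale.Agent.P032.Lt.q R0Q033.q700_7) (q_cons (Vale.Agent.P032.Lt.q R0Q033.q700_8) q_nil))))))))))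

def C701 : List ℕ := [0, 4, 8, 12, 16, 20, 24, 84993, 216065, 344065, 347137, 349185, 475137, 478209, 480257, 607233, 609281, 737281]
theorem p701 : Pat 73 73 TBm TCm (C701.map Fm) R0Q033.P701 R0Q033.I701 := Vale.Agent.P032.Lt.pat_eq (E' := R0Q033.E701) (by decide +kernel) (pat_step (by decide +kernel) (q_cons (Vale.Agent.P032.Lt.q R0Q033.q701_0) q_nil))

theorem p702 : Pat 73 73 TBm TCm (CB.map Fm) R0Q033.P702 R0Q033.I702 := Vale.Agent.P032.Lt.pat_eq (E' := R0Q033.E) eB (pat_step (by decide +kernel) (q_cons (Vale.Agent.P032.Lt.q R0Q033.q702_0) (q_cons (Vale.Agent.P032.Lt.q R0Q033.q702_1) (q_cons (Vale.Agent.P032.Lt.q R0Q033.q702_2) (q_cons (Vale.Agent.P032.Lt.q R0Q033.q702_3) (q_cons (Vale.Agent.P032.Lt.q R0Q033.q702_4) (q_cons (Vale.Agent.P032.Lt.q R0Q033.q702_5) (q_cons (Vale.Agent.P032.Lt.q R0Q033.q702_6) (q_cons (Vale.Agent.P032.Lt.q R0Q033.q702_7) (q_cons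 (Vale.Agent.P032.Lt.q R0Q033.q702_8) q_nil))))))))))

def C703 : List ℕ := [0, 4, 8, 12, 16, 20, 24, 82945, 212993, 344065, 475137, 478209, 607233, 737281]
theorem p703 : Pat 73 73 TBm TCm (C703.map Fm) R0Q033.P703 R0Q033.I703 := Vale.Agent.P032.Lt.pat_eq (E' := R0Q033.E703) (by decide +kernel) (pat_step (by decide +kernel) (q_cons (Vale.Agent.P032.Lt.q R0Q033.q703_0) q_nil))

theorem p704 : Pat 73 73 TBm TCm (CB.map Fm) R0Q033.P704 R0Q033.I704 := Vale.Agent.P032.Lt.pat_eq (E' := R0Q033.E) eB (pat_step (by decide +kernel) (q_cons (Vale.Agent.P032.Lt.q R0Q033.q704_0) (q_cons (Vale.Agent.P032.Lt.q R0Q033.q704_1) (q_cons (Vale.Agent.P032.Lt.q R0Q033.q704_2) q_nil))))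

theorem p705 : Pat 73 73 TBm TCm (CB.map Fm) R0Q033.P705 R0Q033.I705 := Vale.Agent.P032.Lt.pat_eq (E' := R0Q033.E) eB (pat_step (by decide +kernel) (q_cons (Vale.Agent.P032.Lt.q R0Q033.q705_0) (q_cons (Vale.Agent.P032.Lt.q R0Q033.q705_1) (q_cons (Vale.Agent.P032.Lt.q R0Q033.q705_2) (q_cons (Vale.Agent.P032.Lt.q R0Q033.q705_3) (q_cons (Vale.Agent.P032.Lt.q R0Q033.q705_4) (q_cons (Vale.Agent.P032.Lt.q R0Q033.q705_5) q_nil)))))))

def C706 : List ℕ := [0, 4, 8, 12, 16, 20, 24, 214017, 344065, 475137, 737281]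
theorem p706 : Pat 73 73 TBm TCm (C706.map Fm) R0Q033.P706 R0Q033.I706 := Vale.Agent.P032.Lt.pat_eq (E' := R0Q033.E706) (by decide +kernel) (pat_step (by decide +kernel) (q_cons (Vale.Agent.P032.Lt.q R0Q033.q706_0) (q_cons (Vale.Agent.P032.Lt.q R0Q033.q706_1) q_nil)))

def C707 : List ℕ := [0, 4, 8, 12, 16, 20, 24, 81921, 91137, 212993, 220161, 222209, 606209, 737281]
theorem p707 : Pat 73 73 TBm TCm (C707.map Fm) R0Q033.P707 R0Q033.I707 := Vale.Agent.P032.Lt.pat_eq (E' := R0Q033.E707) (by decide +kernel) (pat_step (by decide +kernel) (q_cons (Vale.Agent.P032.Lt.q R0Q033.q707_0) q_nil))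

theorem p708 : Pat 73 73 TBm TCm (CB.map Fm) R0Q033.P708 R0Q033.I708 := Vale.Agent.P032.Lt.pat_eq (E' := R0Q033.E) eB (pat_step (by decide +kernel) (q_cons (Vale.Agent.P032.Lt.q R0Q033.q708_0) q_nil))

theorem p709 : Pat 73 73 TBm TCm (CB.map Fm) R0Q033.P709 R0Q033.I709 := Vale.Agent.P032.Lt.pat_eq (E' := R0Q033.E) eB (pat_step (by decide +kernel) (q_cons (Vale.Agent.P032.Lt.q R0Q033.q709_0) (q_cons (Vale.Agent.P032.Lt.q R0Q033.q709_1) (q_cons (Vale.Agent.P032.Lt.q R0Q033.q709_2) (q_cons (Vale.Agent.P032.Lt.q R0Q033.q709_3) (q_cons (Vale.Agent.P032.Lt.q R0Q033.q709_4) q_nil))))))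

theorem p710 : Pat 73 73 TBm TCm (CB.map Fm) R0Q033.P710 R0Q033.I710 := Vale.Agent.P032.Lt.pat_eq (E' := R0Q033.E) eB (pat_step (by decide +kernel) (q_cons (Vale.Agent.P032.Lt.q R0Q033.q710_0) (q_cons (Vale.Agent.P032.Lt.q R0Q033.q710_1) (q_cons (Vale.Agent.P032.Lt.q R0Q033.q710_2) (q_cons (Vale.Agent.P032.Lt.q R0Q033.q710_3) (q_cons (Vale.Agent.P032.Lt.q R0Q033.q710_4) (q_cons (Vale.Agent.P032.Lt.q R0Q033.q710_5) (q_cons (Vale.Agent.P032.Lt.q R0Q033.q710_6) (q_cons (Vale.Agent.P032.Lt.q R0Q033.q710_7) (q_cons (Vale.Agent.P032.Lt.q R0Q033.q710_8) q_nil))))))))))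

def C711 : List ℕ := [0, 4, 8, 12, 16, 20, 24, 475137, 606209, 737281]
theorem p711 : Pat 73 73 TBm TCm (C711.map Fm) R0Q033.P711 [] := Vale.Agent.P032.Lt.pat_eq (E' := R0Q033.E711) (by decide +kernel) (pat_end (by decide +kernel) (Vale.Agent.P032.Lt.q R0Q033.q711))

theorem p712 : Pat 73 73 TBm TCm (CB.map Fm) R0Q033.P712 R0Q033.I712 := Vale.Agent.P032.Lt.pat_eq (E' := R0Q033.E) eB (pat_step (by decide +kernel) (q_cons (Vale.Agent.P032.Lt.q R0Q033.q712_0) (q_cons (Vale.Agent.P032.Lt.q R0Q033.q712_1) (q_cons (Vale.Agent.P032.Lt.q R0Q033.q712_2) (q_cons (Vale.Agent.P032.Lt.q R0Q033.q712_3) q_nil)))))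

theorem p713 : Pat 73 73 TBm TCm (CB.map Fm) R0Q033.P713 R0Q033.I713 := Vale.Agent.P032.Lt.pat_eq (E' := R0Q033.E) eB (pat_step (by decide +kernel) (q_cons (Vale.Agent.P032.Lt.q R0Q033.q713_0) (q_cons (Vale.Agent.P032.Lt.q R0Q033.q713_1) (q_cons (Vale.Agent.P032.Lt.q R0Q033.q713_2) (q_cons (Vale.Agent.P032.Lt.q R0Q033.q713_3) (q_cons (Vale.Agent.P032.Lt.q R0Q033.q713_4) (q_cons (Vale.Agent.P032.Lt.q R0Q033.q713_5) (q_cons (Vale.Agent.P032.Lt.q R0Q033.q713_6) q_nil))))))))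

theorem p714 : Pat 73 73 TBm TCm (CB.map Fm) R0Q033.P714 R0Q033.I714 := Vale.Agent.P032.Lt.pat_eq (E' := R0Q033.E) eB (pat_step (by decide +kernel) (q_cons (Vale.Agent.P032.Lt.q R0Q033.q714_0) (q_cons (Vale.Agent.P032.Lt.q R0Q033.q714_1) (q_cons (Vale.Agent.P032.Lt.q R0Q033.q714_2) (q_cons (Vale.Agent.P032.Lt.q R0Q033.q714_3) (q_cons (Vale.Agent.P032.Lt.q R0Q033.q714_4) (q_cons (Vale.Agent.P032.Lt.q R0Q033.q714_5) q_nil)))))))

theorem p715 : Pat 73 73 TBm TCm (CB.map Fm) R0Q033.P715 R0Q033.I715 := Vale.Agent.P032.Lt.pat_eq (E' := R0Q033.E) eB (pat_step (by decide +kernel) (q_cons (Vale.Agent.P032.Lt.q R0Q033.q715_0) q_nil))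

theorem p716 : Pat 73 73 TBm TCm (CB.map Fm) R0Q033.P716 R0Q033.I716 := Vale.Agent.P032.Lt.pat_eq (E' := R0Q033.E) eB (pat_step (by decide +kernel) (q_cons (Vale.Agent.P032.Lt.q R0Q033.q716_0) (q_cons (Vale.Agent.P032.Lt.q R0Q033.q716_1) (q_cons (Vale.Agent.P032.Lt.q R0Q033.q716_2) (q_cons (Vale.Agent.P032.Lt.q R0Q033.q716_3) q_nil)))))

def C717 : List ℕ := [0, 4, 8, 12, 16, 20, 24, 216065, 344065, 475137, 737281]
theorem p717 : Pat 73 73 TBm TCm (C717.map Fm) R0Q033.P717 R0Q033.I717 := Vale.Agent.P032.Lt.pat_eq (E' := R0Q033.E717) (by decide +kernel) (pat_step (by decide +kernel) (q_cons (Vale.Agent.P032.Lt.q R0Q033.q717_0) (q_cons (Vale.Agent.P032.Lt.q R0Q033.q717_1) (q_cons (Vale.Agent.P032.Lt.q R0Q033.q717_2) (q_cons (Vale.Agent.P032.Lt.q R0Q033.q717_3) q_nil)))))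

theorem p718 : Pat 73 73 TBm TCm (CB.map Fm) R0Q033.P718 R0Q033.I718 := Vale.Agent.P032.Lt.pat_eq (E' := R0Q033.E) eB (pat_step (by decide +kernel) (q_cons (Vale.Agent.P032.Lt.q R0Q033.q718_0) (q_cons (Vale.Agent.P032.Lt.q R0Q033.q718_1) (q_cons (Vale.Agent.P032.Lt.q R0Q033.q718_2) (q_cons (Vale.Agent.P032.Lt.q R0Q033.q718_3) (q_cons (Vale.Agent.P032.Lt.q R0Q033.q718_4) q_nil))))))

theorem p719 : Pat 73 73 TBm TCm (CB.map Fm) R0Q034.P719 R0Q034.I719 := Vale.Agent.P032.Lt.pat_eq (E' := R0Q034.E) eB (pat_step (by decide +kernel) (q_cons (Vale.Agent.P032.Lt.q R0Q034.q719_0) (q_cons (Vale.Agent.P032.Lt.q R0Q034.q719_1) (q_cons (Vale.Agent.P032.Lt.q R0Q034.q719_2) (q_cons (Vale.Agent.P032.Lt.q R0Q034.q719_3) (q_cons (Vale.Agent.P032.Lt.q R0Q034.q719_4) (q_cons (Vale.Agent.P032.Lt.q R0Q034.q719_5) (q_cons (Vale.Agent.P032.Lt.q R0Q034.q719_6) (q_cons (Vale.Agent.P032.Lt.q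 R0Q034.q719_7) q_nil)))))))))

def C720 : List ℕ := [0, 4, 8, 12, 16, 20, 24, 737281]
theorem p720 : Pat 73 73 TBm TCm (C720.map Fm) R0Q034.P720 R0Q034.I720 := Vale.Agent.P032.Lt.pat_eq (E' := R0Q034.E720) (by decide +kernel) (pat_step (by decide +kernel) (q_cons (Vale.Agent.P032.Lt.q R0Q034.q720_0) (q_cons (Vale.Agent.P032.Lt.q R0Q034.q720_1) (q_cons (Vale.Agent.P032.Lt.q R0Q034.q720_2) (q_cons (Vale.Agent.P032.Lt.q R0Q034.q720_3) (q_cons (Vale.Agent.P032.Lt.q R0Q034.q720_4) (q_cons (Vale.Agent.P032.Lt.q R0Q034.q720_5) (q_cons (Vale.Agent.P032.Lt.q R0Q034.q720_6) (q_cons (Vale.Agent.P032.Lt.q R0Q034.q720_7) (q_cons (Vale.Agent.P032.Lt.q R0Q034.q720_8) q_nil))))))))))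

theorem p721 : Pat 73 73 TBm TCm (CB.map Fm) R0Q034.P721 R0Q034.I721 := Vale.Agent.P032.Lt.pat_eq (E' := R0Q034.E) eB (pat_step (by decide +kernel) (q_cons (Vale.Agent.P032.Lt.q R0Q034.q721_0) (q_cons (Vale.Agent.P032.Lt.q R0Q034.q721_1) (q_cons (Vale.Agent.P032.Lt.q R0Q034.q721_2) (q_cons (Vale.Agent.P032.Lt.q R0Q034.q721_3) (q_cons (Vale.Agent.P032.Lt.q R0Q034.q721_4) (q_cons (Vale.Agent.P032.Lt.q R0Q034.q721_5) q_nil)))))))

theorem p722 : Pat 73 73 TBm TCm (CB.map Fm) R0Q034.P722 R0Q034.I722 := Vale.Agent.P032.Lt.pat_eq (E' := R0Q034.E) eB (pat_step (by decide +kernel) (q_cons (Vale.Agent.P032.Lt.q R0Q034.q722_0) (q_cons (Vale.Agent.P032.Lt.q R0Q034.q722_1) (q_cons (Vale.Agent.P032.Lt.q R0Q034.q722_2) q_nil))))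

theorem p723 : Pat 73 73 TBm TCm (CB.map Fm) R0Q034.P723 R0Q034.I723 := Vale.Agent.P032.Lt.pat_eq (E' := R0Q034.E) eB (pat_step (by decide +kernel) (q_cons (Vale.Agent.P032.Lt.q R0Q034.q723_0) q_nil))

theorem p724 : Pat 73 73 TBm TCm (CB.map Fm) R0Q034.P724 R0Q034.I724 := Vale.Agent.P032.Lt.pat_eq (E' := R0Q034.E) eB (pat_step (by decide +kernel) (q_cons (Vale.Agent.P032.Lt.q R0Q034.q724_0) q_nil))

theorem p725 : Pat 73 73 TBm TCm (CB.map Fm) R0Q034.P725 R0Q034.I725 := Vale.Agent.P032.Lt.pat_eq (E' := R0Q034.E) eB (pat_step (by decide +kernel) (q_cons (Vale.Agent.P032.Lt.q R0Q034.q725_0) (q_cons (Vale.Agent.P032.Lt.q R0Q034.q725_1) (q_cons (Vale.Agent.P032.Lt.q R0Q034.q725_2) (q_cons (Vale.Agent.P032.Lt.q R0Q034.q725_3) (q_cons (Vale.Agent.P032.Lt.q R0Q034.q725_4) (q_cons (Vale.Agent.P032.Lt.q R0Q034.q725_5) (q_cons (Vale.Agent.P032.Lt.q R0Q034.q725_6) q_nil))))))))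

theorem p726 : Pat 73 73 TBm TCm (CB.map Fm) R0Q034.P726 R0Q034.I726 := Vale.Agent.P032.Lt.pat_eq (E' := R0Q034.E) eB (pat_step (by decide +kernel) (q_cons (Vale.Agent.P032.Lt.q R0Q034.q726_0) (q_cons (Vale.Agent.P032.Lt.q R0Q034.q726_1) (q_cons (Vale.Agent.P032.Lt.q R0Q034.q726_2) (q_cons (Vale.Agent.P032.Lt.q R0Q034.q726_3) q_nil)))))

theorem p727 : Pat 73 73 TBm TCm (CB.map Fm) R0Q034.P727 R0Q034.I727 := Vale.Agent.P032.Lt.pat_eq (E' := R0Q034.E) eB (pat_step (by decide +kernel) (q_cons (Vale.Agent.P032.Lt.q R0Q034.q727_0) q_nil))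

def C728 : List ℕ := [0, 4, 8, 12, 16, 20, 24, 212993, 606209, 737281]
theorem p728 : Pat 73 73 TBm TCm (C728.map Fm) R0Q034.P728 R0Q034.I728 := Vale.Agent.P032.Lt.pat_eq (E' := R0Q034.E728) (by decide +kernel) (pat_step (by decide +kernel) (q_cons (Vale.Agent.P032.Lt.q R0Q034.q728_0) (q_cons (Vale.Agent.P032.Lt.q R0Q034.q728_1) (q_cons (Vale.Agent.P032.Lt.q R0Q034.q728_2) q_nil))))

theorem p729 : Pat 73 73 TBm TCm (CB.map Fm) R0Q034.P729 R0Q034.I729 := Vale.Agent.P032.Lt.pat_eq (E' := R0Q034.E) eB (pat_step (by decide +kernel) (q_cons (Vale.Agent.P032.Lt.q R0Q034.q729_0) q_nil))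

theorem p730 : Pat 73 73 TBm TCm (CB.map Fm) R0Q034.P730 R0Q034.I730 := Vale.Agent.P032.Lt.pat_eq (E' := R0Q034.E) eB (pat_step (by decide +kernel) (q_cons (Vale.Agent.P032.Lt.q R0Q034.q730_0) (q_cons (Vale.Agent.P032.Lt.q R0Q034.q730_1) (q_cons (Vale.Agent.P032.Lt.q R0Q034.q730_2) (q_cons (Vale.Agent.P032.Lt.q R0Q034.q730_3) (q_cons (Vale.Agent.P032.Lt.q R0Q034.q730_4) (q_cons (Vale.Agent.P032.Lt.q R0Q034.q730_5) (q_cons (Vale.Agent.P032.Lt.q R0Q034.q730_6) (q_cons (Vale.Agent.P032.Lt.q R0Q034.q730_7) (q_cons (Vale.Agent.P032.Lt.q R0Q034.q730_8) (q_cons (Vale.Agent.P032.Lt.q R0Q034.q730_9) (q_cons (Vale.Agent.P032.Lt.q R0Q034.q730_10) (q_cons (Vale.Agent.P032.Lt.q R0Q034.q730_11) (q_cons (Vale.Agent.P032.Lt.q R0Q034.q730_12) (q_cons (Vale.Agent.P032.Lt.q R0Q034.q730_13) (q_cons (Vale.Agent.P032.Lt.q R0Q034.q730_14) (q_cons (Vale.Agent.P032.Lt.q R0Q034.q730_15)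 (q_cons (Vale.Agent.P032.Lt.q R0Q034.q730_16) (q_cons (Vale.Agent.P032.Lt.q R0Q034.q730_17) (q_cons (Vale.Agent.P032.Lt.q R0Q034.q730_18) q_nil))))))))))))))))))))

theorem p731 : Pat 73 73 TBm TCm (CB.map Fm) R0Q034.P731 R0Q034.I731 := Vale.Agent.P032.Lt.pat_eq (E' := R0Q034.E) eB (pat_step (by decide +kernel) (q_cons (Vale.Agent.P032.Lt.q R0Q034.q731_0) (q_cons (Vale.Agent.P032.Lt.q R0Q034.q731_1) (q_cons (Vale.Agent.P032.Lt.q R0Q034.q731_2) (q_cons (Vale.Agent.P032.Lt.q R0Q034.q731_3) (q_cons (Vale.Agent.P032.Lt.q R0Q034.q731_4) (q_cons (Vale.Agent.P032.Lt.q R0Q034.q731_5) (q_cons (Vale.Agent.P032.Lt.q R0Q034.q731_6) q_nil))))))))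

def C732 : List ℕ := [0, 4, 8, 12, 16, 20, 24, 220161, 222209, 355329, 475137, 606209]
theorem p732 : Pat 73 73 TBm TCm (C732.map Fm) R0Q034.P732 R0Q034.I732 := Vale.Agent.P032.Lt.pat_eq (E' := R0Q034.E732) (by decide +kernel) (pat_step (by decide +kernel) (q_cons (Vale.Agent.P032.Lt.q R0Q034.q732_0) q_nil))

theorem p733 : Pat 73 73 TBm TCm (CB.map Fm) R0Q034.P733 R0Q034.I733 := Vale.Agent.P032.Lt.pat_eq (E' := R0Q034.E) eB (pat_step (by decide +kernel) (q_cons (Vale.Agent.P032.Lt.q R0Q034.q733_0) (q_cons (Vale.Agent.P032.Lt.q R0Q034.q733_1) (q_cons (Vale.Agent.P032.Lt.q R0Q034.q733_2) (q_cons (Vale.Agent.P032.Lt.q R0Q034.q733_3) q_nil)))))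

theorem p734 : Pat 73 73 TBm TCm (CB.map Fm) R0Q034.P734 R0Q034.I734 := Vale.Agent.P032.Lt.pat_eq (E' := R0Q034.E) eB (pat_step (by decide +kernel) (q_cons (Vale.Agent.P032.Lt.q R0Q034.q734_0) (q_cons (Vale.Agent.P032.Lt.q R0Q034.q734_1) (q_cons (Vale.Agent.P032.Lt.q R0Q034.q734_2) (q_cons (Vale.Agent.P032.Lt.q R0Q034.q734_3) (q_cons (Vale.Agent.P032.Lt.q R0Q034.q734_4) q_nil))))))

theorem p735 : Pat 73 73 TBm TCm (CB.map Fm) R0Q034.P735 R0Q034.I735 := Vale.Agent.P032.Lt.pat_eq (E' := R0Q034.E) eB (pat_step (by decide +kernel) (q_cons (Vale.Agent.P032.Lt.q R0Q034.q735_0) (q_cons (Vale.Agent.P032.Lt.q R0Q034.q735_1) q_nil)))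

def C736 : List ℕ := [0, 4, 8, 12, 16, 20, 24, 212993, 475137, 737281]
theorem p736 : Pat 73 73 TBm TCm (C736.map Fm) R0Q034.P736 R0Q034.I736 := Vale.Agent.P032.Lt.pat_eq (E' := R0Q034.E736) (by decide +kernel) (pat_step (by decide +kernel) (q_cons (Vale.Agent.P032.Lt.q R0Q034.q736_0) (q_cons (Vale.Agent.P032.Lt.q R0Q034.q736_1) (q_cons (Vale.Agent.P032.Lt.q R0Q034.q736_2) (q_cons (Vale.Agent.P032.Lt.q R0Q034.q736_3) (q_cons (Vale.Agent.P032.Lt.q R0Q034.q736_4) (q_cons (Vale.Agent.P032.Lt.q R0Q034.q736_5) q_nil)))))))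

def C737 : List ℕ := [0, 4, 8, 12, 16, 20, 24, 81921, 737281]
theorem p737 : Pat 73 73 TBm TCm (C737.map Fm) R0Q034.P737 R0Q034.I737 := Vale.Agent.P032.Lt.pat_eq (E' := R0Q034.E737) (by decide +kernel) (pat_step (by decide +kernel) (q_cons (Vale.Agent.P032.Lt.q R0Q034.q737_0) (q_cons (Vale.Agent.P032.Lt.q R0Q034.q737_1) (q_cons (Vale.Agent.P032.Lt.q R0Q034.q737_2) q_nil))))

theorem p738 : Pat 73 73 TBm TCm (CB.map Fm) R0Q034.P738 R0Q034.I738 := Vale.Agent.P032.Lt.pat_eq (E' := R0Q034.E) eB (pat_step (by decide +kernel) (q_cons (Vale.Agent.P032.Lt.q R0Q034.q738_0) (q_cons (Vale.Agent.P032.Lt.q R0Q034.q738_1) (q_cons (Vale.Agent.P032.Lt.q R0Q034.q738_2) (q_cons (Vale.Agent.P032.Lt.q R0Q034.q738_3) (q_cons (Vale.Agent.P032.Lt.q R0Q034.q738_4) q_nil))))))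

theorem p739 : Pat 73 73 TBm TCm (CB.map Fm) R0Q034.P739 R0Q034.I739 := Vale.Agent.P032.Lt.pat_eq (E' := R0Q034.E) eB (pat_step (by decide +kernel) (q_cons (Vale.Agent.P032.Lt.q R0Q034.q739_0) (q_cons (Vale.Agent.P032.Lt.q R0Q034.q739_1) (q_cons (Vale.Agent.P032.Lt.q R0Q034.q739_2) q_nil))))

def C740 : List ℕ := [0, 4, 8, 12, 16, 20, 24, 737281]
theorem p740 : Pat 73 73 TBm TCm (C740.map Fm) R0Q034.P740 R0Q034.I740 := Vale.Agent.P032.Lt.pat_eq (E' := R0Q034.E740) (by decide +kernel) (pat_step (by decide +kernel) (q_cons (Vale.Agent.P032.Lt.q R0Q034.q740_0) q_nil))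

theorem p741 : Pat 73 73 TBm TCm (CB.map Fm) R0Q034.P741 R0Q034.I741 := Vale.Agent.P032.Lt.pat_eq (E' := R0Q034.E) eB (pat_step (by decide +kernel) (q_cons (Vale.Agent.P032.Lt.q R0Q034.q741_0) q_nil))

theorem p742 : Pat 73 73 TBm TCm (CB.map Fm) R0Q034.P742 R0Q034.I742 := Vale.Agent.P032.Lt.pat_eq (E' := R0Q034.E) eB (pat_step (by decide +kernel) (q_cons (Vale.Agent.P032.Lt.q R0Q034.q742_0) (q_cons (Vale.Agent.P032.Lt.q R0Q034.q742_1) q_nil)))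

theorem p743 : Pat 73 73 TBm TCm (CB.map Fm) R0Q034.P743 R0Q034.I743 := Vale.Agent.P032.Lt.pat_eq (E' := R0Q034.E) eB (pat_step (by decide +kernel) (q_cons (Vale.Agent.P032.Lt.q R0Q034.q743_0) (q_cons (Vale.Agent.P032.Lt.q R0Q034.q743_1) (q_cons (Vale.Agent.P032.Lt.q R0Q034.q743_2) (q_cons (Vale.Agent.P032.Lt.q R0Q034.q743_3) (q_cons (Vale.Agent.P032.Lt.q R0Q034.q743_4) q_nil))))))

def C744 : List ℕ := [0, 4, 8, 12, 16, 20, 24, 475137, 737281]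
theorem p744 : Pat 73 73 TBm TCm (C744.map Fm) R0Q034.P744 R0Q034.I744 := Vale.Agent.P032.Lt.pat_eq (E' := R0Q034.E744) (by decide +kernel) (pat_step (by decide +kernel) (q_cons (Vale.Agent.P032.Lt.q R0Q034.q744_0) (q_cons (Vale.Agent.P032.Lt.q R0Q034.q744_1) (q_cons (Vale.Agent.P032.Lt.q R0Q034.q744_2) (q_cons (Vale.Agent.P032.Lt.q R0Q034.q744_3) (q_cons (Vale.Agent.P032.Lt.q R0Q034.q744_4) (q_cons (Vale.Agent.P032.Lt.q R0Q034.q744_5) (q_cons (Vale.Agent.P032.Lt.q R0Q034.q744_6) (q_cons (Vale.Agent.P032.Lt.q R0Q034.q744_7) (q_cons (Vale.Agent.P032.Lt.q R0Q034.q744_8) (q_cons (Vale.Agent.P032.Lt.q R0Q034.q744_9) (q_cons (Vale.Agent.P032.Lt.q R0Q034.q744_10) (q_cons (Vale.Agent.P032.Lt.q R0Q034.q744_11) (q_cons (Vale.Agent.P032.Lt.q R0Q034.q744_12) (q_cons (Vale.Agent.P032.Lt.q R0Q034.q744_13) (q_cons (Vale.Agent.P032.Lt.q R0Q034.q744_14) q_nil))))))))))))))))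

def C745 : List ℕ := [0, 4, 8, 12, 16, 20, 24, 475137, 737281]
theorem p745 : Pat 73 73 TBm TCm (C745.map Fm) R0Q034.P745 R0Q034.I745 := Vale.Agent.P032.Lt.pat_eq (E' := R0Q034.E745) (by decide +kernel) (pat_step (by decide +kernel) (q_cons (Vale.Agent.P032.Lt.q R0Q034.q745_0) (q_cons (Vale.Agent.P032.Lt.q R0Q034.q745_1) q_nil)))

theorem p746 : Pat 73 73 TBm TCm (CB.map Fm) R0Q035.P746 R0Q035.I746 := Vale.Agent.P032.Lt.pat_eq (E' := R0Q035.E) eB (pat_step (by decide +kernel) (q_cons (Vale.Agent.P032.Lt.q R0Q035.q746_0) (q_cons (Vale.Agent.P032.Lt.q R0Q035.q746_1) (q_cons (Vale.Agent.P032.Lt.q R0Q035.q746_2) (q_cons (Vale.Agent.P032.Lt.q R0Q035.q746_3) (q_cons (Vale.Agent.P032.Lt.q R0Q035.q746_4) q_nil))))))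

def C747 : List ℕ := [0, 4, 8, 12, 16, 20, 24, 475137, 737281]
theorem p747 : Pat 73 73 TBm TCm (C747.map Fm) R0Q035.P747 R0Q035.I747 := Vale.Agent.P032.Lt.pat_eq (E' := R0Q035.E747) (by decide +kernel) (pat_step (by decide +kernel) (q_cons (Vale.Agent.P032.Lt.q R0Q035.q747_0) (q_cons (Vale.Agent.P032.Lt.q R0Q035.q747_1) q_nil)))

theorem p748 : Pat 73 73 TBm TCm (CB.map Fm) R0Q035.P748 R0Q035.I748 := Vale.Agent.P032.Lt.pat_eq (E' := R0Q035.E) eB (pat_step (by decide +kernel) (q_cons (Vale.Agent.P032.Lt.q R0Q035.q748_0) q_nil))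

theorem p749 : Pat 73 73 TBm TCm (CB.map Fm) R0Q035.P749 R0Q035.I749 := Vale.Agent.P032.Lt.pat_eq (E' := R0Q035.E) eB (pat_step (by decide +kernel) (q_cons (Vale.Agent.P032.Lt.q R0Q035.q749_0) q_nil))

def C750 : List ℕ := [0, 4, 8, 12, 16, 20, 24, 617473]
theorem p750 : Pat 73 73 TBm TCm (C750.map Fm) R0Q035.P750 R0Q035.I750 := Vale.Agent.P032.Lt.pat_eq (E' := R0Q035.E750) (by decide +kernel) (pat_step (by decide +kernel) (q_cons (Vale.Agent.P032.Lt.q R0Q035.q750_0) (q_cons (Vale.Agent.P032.Lt.q R0Q035.q750_1) (q_cons (Vale.Agent.P032.Lt.q R0Q035.q750_2) (q_cons (Vale.Agent.P032.Lt.q R0Q035.q750_3) (q_cons (Vale.Agent.P032.Lt.q R0Q035.q750_4) (q_cons (Vale.Agent.P032.Lt.q R0Q035.q750_5) (q_cons (Vale.Agent.P032.Lt.q R0Q035.q750_6) (q_cons (Vale.Agent.P032.Lt.q R0Q035.q750_7) (q_cons (Vale.Agent.P032.Lt.q R0Q035.q750_8) (q_cons (Vale.Agent.P032.Lt.q R0Q035.q750_9)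 (q_cons (Vale.Agent.P032.Lt.q R0Q035.q750_10) q_nil))))))))))))

def C751 : List ℕ := [0, 4, 8, 12, 16, 20, 24, 475137, 617473, 737281]
theorem p751 : Pat 73 73 TBm TCm (C751.map Fm) R0Q035.P751 R0Q035.I751 := Vale.Agent.P032.Lt.pat_eq (E' := R0Q035.E751) (by decide +kernel) (pat_step (by decide +kernel) (q_cons (Vale.Agent.P032.Lt.q R0Q035.q751_0) (q_cons (Vale.Agent.P032.Lt.q R0Q035.q751_1) (q_cons (Vale.Agent.P032.Lt.q R0Q035.q751_2) (q_cons (Vale.Agent.P032.Lt.q R0Q035.q751_3) (q_cons (Vale.Agent.P032.Lt.q R0Q035.q751_4) (q_cons (Vale.Agent.P032.Lt.q R0Q035.q751_5) (q_cons (Vale.Agent.P032.Lt.q R0Q035.q751_6) (q_cons (Vale.Agent.P032.Lt.q R0Q035.q751_7) (q_cons (Vale.Agent.P032.Lt.q R0Q035.q751_8) (q_cons (Vale.Agent.P032.Lt.q R0Q035.q751_9) q_nil)))))))))))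

theorem p752 : Pat 73 73 TBm TCm (CB.map Fm) R0Q035.P752 R0Q035.I752 := Vale.Agent.P032.Lt.pat_eq (E' := R0Q035.E) eB (pat_step (by decide +kernel) (q_cons (Vale.Agent.P032.Lt.q R0Q035.q752_0) q_nil))

theorem p753 : Pat 73 73 TBm TCm (CB.map Fm) R0Q035.P753 R0Q035.I753 := Vale.Agent.P032.Lt.pat_eq (E' := R0Q035.E) eB (pat_step (by decide +kernel) (q_cons (Vale.Agent.P032.Lt.q R0Q035.q753_0) q_nil))

theorem p754 : Pat 73 73 TBm TCm (CB.map Fm) R0Q035.P754 R0Q035.I754 := Vale.Agent.P032.Lt.pat_eq (E' := R0Q035.E) eB (pat_step (by decide +kernel) (q_cons (Vale.Agent.P032.Lt.q R0Q035.q754_0) q_nil))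

theorem p755 : Pat 73 73 TBm TCm (CB.map Fm) R0Q035.P755 R0Q035.I755 := Vale.Agent.P032.Lt.pat_eq (E' := R0Q035.E) eB (pat_step (by decide +kernel) (q_cons (Vale.Agent.P032.Lt.q R0Q035.q755_0) q_nil))

theorem p756 : Pat 73 73 TBm TCm (CB.map Fm) R0Q036.P756 R0Q036.I756 := Vale.Agent.P032.Lt.pat_eq (E' := R0Q036.E) eB (pat_step (by decide +kernel) (q_cons (Vale.Agent.P032.Lt.q R0Q036.q756_0) q_nil))

theorem p757 : Pat 73 73 TBm TCm (CB.map Fm) R0Q037.P757 R0Q037.I757 := Vale.Agent.P032.Lt.pat_eq (E' := R0Q037.E) eB (pat_step (by decide +kernel) (q_cons (Vale.Agent.P032.Lt.q R0Q037.q757_0) (q_cons (Vale.Agent.P032.Lt.q R0Q037.q757_1) (q_cons (Vale.Agent.P032.Lt.q R0Q037.q757_2) (q_cons (Vale.Agent.P032.Lt.q R0Q037.q757_3) (q_cons (Vale.Agent.P032.Lt.q R0Q037.q757_4) q_nil))))))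

theorem p758 : Pat 73 73 TBm TCm (CB.map Fm) R0Q037.P758 R0Q037.I758 := Vale.Agent.P032.Lt.pat_eq (E' := R0Q037.E) eB (pat_step (by decide +kernel) (q_cons (Vale.Agent.P032.Lt.q R0Q037.q758_0) (q_cons (Vale.Agent.P032.Lt.q R0Q037.q758_1) (q_cons (Vale.Agent.P032.Lt.q R0Q037.q758_2) (q_cons (Vale.Agent.P032.Lt.q R0Q037.q758_3) (q_cons (Vale.Agent.P032.Lt.q R0Q037.q758_4) (q_cons (Vale.Agent.P032.Lt.q R0Q037.q758_5) q_nil)))))))

def C759 : List ℕ := [0, 4, 8, 12, 16, 20, 24, 214017, 347137, 349185, 606209]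
theorem p759 : Pat 73 73 TBm TCm (C759.map Fm) R0Q037.P759 R0Q037.I759 := Vale.Agent.P032.Lt.pat_eq (E' := R0Q037.E759) (by decide +kernel) (pat_step (by decide +kernel) (q_cons (Vale.Agent.P032.Lt.q R0Q037.q759_0) (q_cons (Vale.Agent.P032.Lt.q R0Q037.q759_1) (q_cons (Vale.Agent.P032.Lt.q R0Q037.q759_2) (q_cons (Vale.Agent.P032.Lt.q R0Q037.q759_3) (q_cons (Vale.Agent.P032.Lt.q R0Q037.q759_4) (q_cons (Vale.Agent.P032.Lt.q R0Q037.q759_5) (q_cons (Vale.Agent.P032.Lt.q R0Q037.q759_6) (q_cons (Vale.Agent.P032.Lt.q R0Q037.q759_7) (q_cons (Vale.Agent.P032.Lt.q R0Q037.q759_8) q_nil))))))))))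

theorem p760 : Pat 73 73 TBm TCm (CB.map Fm) R0Q037.P760 R0Q037.I760 := Vale.Agent.P032.Lt.pat_eq (E' := R0Q037.E) eB (pat_step (by decide +kernel) (q_cons (Vale.Agent.P032.Lt.q R0Q037.q760_0) q_nil))

theorem p761 : Pat 73 73 TBm TCm (CB.map Fm) R0Q037.P761 R0Q037.I761 := Vale.Agent.P032.Lt.pat_eq (E' := R0Q037.E) eB (pat_step (by decide +kernel) (q_cons (Vale.Agent.P032.Lt.q R0Q037.q761_0) (q_cons (Vale.Agent.P032.Lt.q R0Q037.q761_1) (q_cons (Vale.Agent.P032.Lt.q R0Q037.q761_2) (q_cons (Vale.Agent.P032.Lt.q R0Q037.q761_3) (q_cons (Vale.Agent.P032.Lt.q R0Q037.q761_4) (q_cons (Vale.Agent.P032.Lt.q R0Q037.q761_5) q_nil)))))))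

theorem p762 : Pat 73 73 TBm TCm (CB.map Fm) R0Q037.P762 R0Q037.I762 := Vale.Agent.P032.Lt.pat_eq (E' := R0Q037.E) eB (pat_step (by decide +kernel) (q_cons (Vale.Agent.P032.Lt.q R0Q037.q762_0) q_nil))

def C763 : List ℕ := [0, 4, 8, 12, 16, 20, 24, 214017, 347137, 606209, 737281]
theorem p763 : Pat 73 73 TBm TCm (C763.map Fm) R0Q037.P763 R0Q037.I763 := Vale.Agent.P032.Lt.pat_eq (E' := R0Q037.E763) (by decide +kernel) (pat_step (by decide +kernel) (q_cons (Vale.Agent.P032.Lt.q R0Q037.q763_0) (q_cons (Vale.Agent.P032.Lt.q R0Q037.q763_1) (q_cons (Vale.Agent.P032.Lt.q R0Q037.q763_2) (q_cons (Vale.Agent.P032.Lt.q R0Q037.q763_3) (q_cons (Vale.Agent.P032.Lt.q R0Q037.q763_4) q_nil))))))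

def C764 : List ℕ := [0, 4, 8, 12, 16, 20, 24, 606209, 737281]
theorem p764 : Pat 73 73 TBm TCm (C764.map Fm) R0Q037.P764 R0Q037.I764 := Vale.Agent.P032.Lt.pat_eq (E' := R0Q037.E764) (by decide +kernel) (pat_step (by decide +kernel) (q_cons (Vale.Agent.P032.Lt.q R0Q037.q764_0) (q_cons (Vale.Agent.P032.Lt.q R0Q037.q764_1) (q_cons (Vale.Agent.P032.Lt.q R0Q037.q764_2) (q_cons (Vale.Agent.P032.Lt.q R0Q037.q764_3) (q_cons (Vale.Agent.P032.Lt.q R0Q037.q764_4) (q_cons (Vale.Agent.P032.Lt.q R0Q037.q764_5) (q_cons (Vale.Agent.P032.Lt.q R0Q037.q764_6) q_nil))))))))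

def C765 : List ℕ := [0, 4, 8, 12, 16, 20, 24, 737281]
theorem p765 : Pat 73 73 TBm TCm (C765.map Fm) R0Q037.P765 R0Q037.I765 := Vale.Agent.P032.Lt.pat_eq (E' := R0Q037.E765) (by decide +kernel) (pat_step (by decide +kernel) (q_cons (Vale.Agent.P032.Lt.q R0Q037.q765_0) (q_cons (Vale.Agent.P032.Lt.q R0Q037.q765_1) (q_cons (Vale.Agent.P032.Lt.q R0Q037.q765_2) (q_cons (Vale.Agent.P032.Lt.q R0Q037.q765_3) (q_cons (Vale.Agent.P032.Lt.q R0Q037.q765_4) (q_cons (Vale.Agent.P032.Lt.q R0Q037.q765_5) (q_cons (Vale.Agent.P032.Lt.q R0Q037.q765_6) q_nil))))))))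

theorem p766 : Pat 73 73 TBm TCm (CB.map Fm) R0Q037.P766 R0Q037.I766 := Vale.Agent.P032.Lt.pat_eq (E' := R0Q037.E) eB (pat_step (by decide +kernel) (q_cons (Vale.Agent.P032.Lt.q R0Q037.q766_0) q_nil))

theorem p767 : Pat 73 73 TBm TCm (CB.map Fm) R0Q037.P767 R0Q037.I767 := Vale.Agent.P032.Lt.pat_eq (E' := R0Q037.E) eB (pat_step (by decide +kernel) (q_cons (Vale.Agent.P032.Lt.q R0Q037.q767_0) (q_cons (Vale.Agent.P032.Lt.q R0Q037.q767_1) (q_cons (Vale.Agent.P032.Lt.q R0Q037.q767_2) q_nil))))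

def L : List (List ℕ) := [R0Q029.P640, R0Q029.P641, R0Q029.P642, R0Q029.P643, R0Q029.P644, R0Q029.P645, R0Q029.P646, R0Q029.P647, R0Q029.P648, R0Q030.P649, R0Q030.P650, R0Q030.P651, R0Q030.P652, R0Q030.P653, R0Q030.P654, R0Q030.P655, R0Q030.P656, R0Q030.P657, R0Q030.P658, R0Q030.P659, R0Q030.P660, R0Q030.P661, R0Q030.P662, R0Q031.P663, R0Q031.P664, R0Q031.P665, R0Q031.P666, R0Q031.P667, R0Q031.P668, R0Q031.P669, R0Q031.P670, R0Q031.P671, R0Q031.P672, R0Q031.P673, R0Q031.P674, R0Q031.P675, R0Q031.P676, R0Q031.P677, R0Q031.P678, R0Q032.P679, R0Q032.P680, R0Q032.P681, R0Q032.P682, R0Q032.P683, R0Q032.P684, R0Q032.P685, R0Q032.P686, R0Q032.P687, R0Q032.P688, R0Q032.P689, R0Q032.P690, R0Q032.P691, R0Q032.P692, R0Q032.P693, R0Q032.P694, R0Q032.P695, R0Q032.P696, R0Q032.P697, R0Q032.P698, R0Q032.P699, R0Q033.P700, R0Q033.P701, R0Q033.P702, R0Q033.P703, R0Q033.P704, R0Q033.P705,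 R0Q033.P706, R0Q033.P707, R0Q033.P708, R0Q033.P709, R0Q033.P710, R0Q033.P711, R0Q033.P712, R0Q033.P713, R0Q033.P714, R0Q033.P715, R0Q033.P716, R0Q033.P717, R0Q033.P718, R0Q034.P719, R0Q034.P720, R0Q034.P721, R0Q034.P722, R0Q034.P723, R0Q034.P724, R0Q034.P725, R0Q034.P726, R0Q034.P727, R0Q034.P728, R0Q034.P729, R0Q034.P730, R0Q034.P731, R0Q034.P732, R0Q034.P733, R0Q034.P734, R0Q034.P735, R0Q034.P736, R0Q034.P737, R0Q034.P738, R0Q034.P739, R0Q034.P740, R0Q034.P741, R0Q034.P742, R0Q034.P743, R0Q034.P744, R0Q034.P745, R0Q035.P746, R0Q035.P747, R0Q035.P748, R0Q035.P749, R0Q035.P750, R0Q035.P751, R0Q035.P752, R0Q035.P753, R0Q035.P754, R0Q035.P755, R0Q036.P756, R0Q037.P757, R0Q037.P758, R0Q037.P759, R0Q037.P760, R0Q037.P761, R0Q037.P762, R0Q037.P763, R0Q037.P764, R0Q037.P765, R0Q037.P766, R0Q037.P767]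

theorem all : ∀ P ∈ L, CrtF 73 73 TBm TCm (Vale.Agent.P032.Fam.fam2 (Vale.Agent.P032.Fam.im0)) P := crtF_cons p640 (crtF_cons p641 (crtF_cons p642 (crtF_cons p643 (crtF_cons p644 (crtF_cons p645 (crtF_cons p646 (crtF_cons p647 (crtF_cons p648 (crtF_cons p649 (crtF_cons p650 (crtF_cons p651 (crtF_cons p652 (crtF_cons p653 (crtF_cons p654 (crtF_cons p655 (crtF_cons p656 (crtF_cons p657 (crtF_cons p658 (crtF_cons p659 (crtF_cons p660 (crtF_cons p661 (crtF_cons p662 (crtF_cons p663 (crtF_cons p664 (crtF_cons p665 (crtF_cons p666 (crtF_cons p667 (crtF_cons p668 (crtF_cons p669 (crtF_cons p670 (crtF_cons p671 (crtF_cons p672 (crtF_cons p673 (crtF_cons p674 (crtF_cons p675 (crtF_cons p676 (crtF_cons p677 (crtF_cons p678 (crtF_cons p679 (crtF_cons p680 (crtF_cons p681 (crtF_cons p682 (crtF_cons p683 (crtF_cons p684 (crtF_cons p685 (crtF_cons p686 (crtF_cons p687 (crtF_cons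 p688 (crtF_cons p689 (crtF_cons p690 (crtF_cons p691 (crtF_cons p692 (crtF_cons p693 (crtF_cons p694 (crtF_cons p695 (crtF_cons p696 (crtF_cons p697 (crtF_cons p698 (crtF_cons p699 (crtF_cons p700 (crtF_cons p701 (crtF_cons p702 (crtF_cons p703 (crtF_cons p704 (crtF_cons p705 (crtF_cons p706 (crtF_cons p707 (crtF_cons p708 (crtF_cons p709 (crtF_cons p710 (crtF_cons p711 (crtF_cons p712 (crtF_cons p713 (crtF_cons p714 (crtF_cons p715 (crtF_cons p716 (crtF_cons p717 (crtF_cons p718 (crtF_cons p719 (crtF_cons p720 (crtF_cons p721 (crtF_cons p722 (crtF_cons p723 (crtF_cons p724 (crtF_cons p725 (crtF_cons p726 (crtF_cons p727 (crtF_cons p728 (crtF_cons p729 (crtF_cons p730 (crtF_cons p731 (crtF_cons p732 (crtF_cons p733 (crtF_cons p734 (crtF_cons p735 (crtF_cons p736 (crtF_cons p737 (crtF_cons p738 (crtF_cons p739 (crtF_cons p740 (crtF_cons p741 (crtF_cons p742 (crtF_cons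 p743 (crtF_cons p744 (crtF_cons p745 (crtF_cons p746 (crtF_cons p747 (crtF_cons p748 (crtF_cons p749 (crtF_cons p750 (crtF_cons p751 (crtF_cons p752 (crtF_cons p753 (crtF_cons p754 (crtF_cons p755 (crtF_cons p756 (crtF_cons p757 (crtF_cons p758 (crtF_cons p759 (crtF_cons p760 (crtF_cons p761 (crtF_cons p762 (crtF_cons p763 (crtF_cons p764 (crtF_cons p765 (crtF_cons p766 (crtF_cons p767 crtF_nil)))))))))))))))))))))))))))))))))))))))))))))))))))))))))))))))))))))))))))))))))))))))))))))))))))))))))))))))))))))))))))))))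

theorem ch : chT 73 73 TCm s0_005 L = true := by decide +kernel

end Vale.Agent.P032X.Cert.XP.B1.R0H005
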