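import Vale.Agent.P032X.H892.LtH
import Vale.Agent.P032X.H286.W73
import Vale.Agent.P032X.Cert.XP.B1.R0T
import Vale.Agent.P032X.Cert.XP.B1.R0Q038
import Vale.Agent.P032X.Cert.XP.B1.R0Q039
import Vale.Agent.P032X.Cert.XP.B1.R0Q040
import Vale.Agent.P032X.Cert.XP.B1.R0Q041
import Vale.Agent.P032X.Cert.XP.B1.R0Q042

set_option maxRecDepth 1000000

namespace Vale.Agent.P032X.Cert.XP.B1.R0H006

open Vale.Agent.P032.H820.K Vale.Agent.P032.H357.MK Vale.Agent.P032.H286.E Vale.Agent.P032.H61 Vale.Agent.P032X.Cert.XP.B1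

noncomputable abbrev Fm : ℕ → List ℕ := Vale.Agent.P032.Fam.fam2 (Vale.Agent.P032.Fam.im0)

def CB : List ℕ := [0, 4, 8, 12, 16, 20, 24]

theorem eB : Vale.Agent.P032.Lt.eqLL (CB.map Fm) R0Q038.E = true := by decide +kernel

def C768 : List ℕ := [0, 4, 8, 12, 16, 20, 24, 84993, 214017, 347137, 349185, 478209, 606209, 737281]
theorem p768 : Pat 73 73 TBm TCm (C768.map Fm) R0Q038.P768 R0Q038.I768 := Vale.Agent.P032.Lt.pat_eq (E' := R0Q038.E768) (by decide +kernel) (pat_step (by decide +kernel) (q_cons (Vale.Agent.P032.Lt.q R0Q038.q768_0) (q_cons (Vale.Agent.P032.Lt.q R0Q038.q768_1) (q_cons (Vale.Agent.P032.Lt.q R0Q038.q768_2) (q_cons (Vale.Agent.P032.Lt.q R0Q038.q768_3) q_nil)))))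

def C769 : List ℕ := [0, 4, 8, 12, 16, 20, 24, 214017, 347137, 482305]
theorem p769 : Pat 73 73 TBm TCm (C769.map Fm) R0Q038.P769 R0Q038.I769 := Vale.Agent.P032.Lt.pat_eq (E' := R0Q038.E769) (by decide +kernel) (pat_step (by decide +kernel) (q_cons (Vale.Agent.P032.Lt.q R0Q038.q769_0) (q_cons (Vale.Agent.P032.Lt.q R0Q038.q769_1) (q_cons (Vale.Agent.P032.Lt.q R0Q038.q769_2) (q_cons (Vale.Agent.P032.Lt.q R0Q038.q769_3) (q_cons (Vale.Agent.P032.Lt.q R0Q038.q769_4) (q_cons (Vale.Agent.P032.Lt.q R0Q038.q769_5) q_nil)))))))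

theorem p770 : Pat 73 73 TBm TCm (CB.map Fm) R0Q038.P770 R0Q038.I770 := Vale.Agent.P032.Lt.pat_eq (E' := R0Q038.E) eB (pat_step (by decide +kernel) (q_cons (Vale.Agent.P032.Lt.q R0Q038.q770_0) (q_cons (Vale.Agent.P032.Lt.q R0Q038.q770_1) (q_cons (Vale.Agent.P032.Lt.q R0Q038.q770_2) q_nil))))

theorem p771 : Pat 73 73 TBm TCm (CB.map Fm) R0Q038.P771 R0Q038.I771 := Vale.Agent.P032.Lt.pat_eq (E' := R0Q038.E) eB (pat_step (by decide +kernel) (q_cons (Vale.Agent.P032.Lt.q R0Q038.q771_0) (q_cons (Vale.Agent.P032.Lt.q R0Q038.q771_1) (q_cons (Vale.Agent.P032.Lt.q R0Q038.q771_2) (q_cons (Vale.Agent.P032.Lt.q R0Q038.q771_3) q_nil)))))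

theorem p772 : Pat 73 73 TBm TCm (CB.map Fm) R0Q038.P772 R0Q038.I772 := Vale.Agent.P032.Lt.pat_eq (E' := R0Q038.E) eB (pat_step (by decide +kernel) (q_cons (Vale.Agent.P032.Lt.q R0Q038.q772_0) (q_cons (Vale.Agent.P032.Lt.q R0Q038.q772_1) (q_cons (Vale.Agent.P032.Lt.q R0Q038.q772_2) (q_cons (Vale.Agent.P032.Lt.q R0Q038.q772_3) q_nil)))))

theorem p773 : Pat 73 73 TBm TCm (CB.map Fm) R0Q038.P773 R0Q038.I773 := Vale.Agent.P032.Lt.pat_eq (E' := R0Q038.E) eB (pat_step (by decide +kernel) (q_cons (Vale.Agent.P032.Lt.q R0Q038.q773_0) (q_cons (Vale.Agent.P032.Lt.q R0Q038.q773_1) (q_cons (Vale.Agent.P032.Lt.q R0Q038.q773_2) (q_cons (Vale.Agent.P032.Lt.q R0Q038.q773_3) (q_cons (Vale.Agent.P032.Lt.q R0Q038.q773_4) (q_cons (Vale.Agent.P032.Lt.q R0Q038.q773_5) (q_cons (Vale.Agent.P032.Lt.q R0Q038.q773_6) q_nil))))))))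

theorem p774 : Pat 73 73 TBm TCm (CB.map Fm) R0Q038.P774 R0Q038.I774 := Vale.Agent.P032.Lt.pat_eq (E' := R0Q038.E) eB (pat_step (by decide +kernel) (q_cons (Vale.Agent.P032.Lt.q R0Q038.q774_0) (q_cons (Vale.Agent.P032.Lt.q R0Q038.q774_1) (q_cons (Vale.Agent.P032.Lt.q R0Q038.q774_2) (q_cons (Vale.Agent.P032.Lt.q R0Q038.q774_3) (q_cons (Vale.Agent.P032.Lt.q R0Q038.q774_4) (q_cons (Vale.Agent.P032.Lt.q R0Q038.q774_5) q_nil)))))))

theorem p775 : Pat 73 73 TBm TCm (CB.map Fm) R0Q038.P775 R0Q038.I775 := Vale.Agent.P032.Lt.pat_eq (E' := R0Q038.E) eB (pat_step (by decide +kernel) (q_cons (Vale.Agent.P032.Lt.q R0Q038.q775_0) q_nil))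

theorem p776 : Pat 73 73 TBm TCm (CB.map Fm) R0Q038.P776 R0Q038.I776 := Vale.Agent.P032.Lt.pat_eq (E' := R0Q038.E) eB (pat_step (by decide +kernel) (q_cons (Vale.Agent.P032.Lt.q R0Q038.q776_0) q_nil))

theorem p777 : Pat 73 73 TBm TCm (CB.map Fm) R0Q038.P777 R0Q038.I777 := Vale.Agent.P032.Lt.pat_eq (E' := R0Q038.E) eB (pat_step (by decide +kernel) (q_cons (Vale.Agent.P032.Lt.q R0Q038.q777_0) q_nil))

theorem p778 : Pat 73 73 TBm TCm (CB.map Fm) R0Q038.P778 R0Q038.I778 := Vale.Agent.P032.Lt.pat_eq (E' := R0Q038.E) eB (pat_step (by decide +kernel) (q_cons (Vale.Agent.P032.Lt.q R0Q038.q778_0) (q_cons (Vale.Agent.P032.Lt.q R0Q038.q778_1) (q_cons (Vale.Agent.P032.Lt.q R0Q038.q778_2) (q_cons (Vale.Agent.P032.Lt.q R0Q038.q778_3) (q_cons (Vale.Agent.P032.Lt.q R0Q038.q778_4) (q_cons (Vale.Agent.P032.Lt.q R0Q038.q778_5) (q_cons (Vale.Agent.P032.Lt.q R0Q038.q778_6) (q_cons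 (Vale.Agent.P032.Lt.q R0Q038.q778_7) (q_cons (Vale.Agent.P032.Lt.q R0Q038.q778_8) (q_cons (Vale.Agent.P032.Lt.q R0Q038.q778_9) (q_cons (Vale.Agent.P032.Lt.q R0Q038.q778_10) q_nil))))))))))))

theorem p779 : Pat 73 73 TBm TCm (CB.map Fm) R0Q038.P779 R0Q038.I779 := Vale.Agent.P032.Lt.pat_eq (E' := R0Q038.E) eB (pat_step (by decide +kernel) (q_cons (Vale.Agent.P032.Lt.q R0Q038.q779_0) q_nil))

theorem p780 : Pat 73 73 TBm TCm (CB.map Fm) R0Q038.P780 R0Q038.I780 := Vale.Agent.P032.Lt.pat_eq (E' := R0Q038.E) eB (pat_step (by decide +kernel) (q_cons (Vale.Agent.P032.Lt.q R0Q038.q780_0) (q_cons (Vale.Agent.P032.Lt.q R0Q038.q780_1) q_nil)))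

theorem p781 : Pat 73 73 TBm TCm (CB.map Fm) R0Q038.P781 R0Q038.I781 := Vale.Agent.P032.Lt.pat_eq (E' := R0Q038.E) eB (pat_step (by decide +kernel) (q_cons (Vale.Agent.P032.Lt.q R0Q038.q781_0) (q_cons (Vale.Agent.P032.Lt.q R0Q038.q781_1) (q_cons (Vale.Agent.P032.Lt.q R0Q038.q781_2) (q_cons (Vale.Agent.P032.Lt.q R0Q038.q781_3) q_nil)))))

theorem p782 : Pat 73 73 TBm TCm (CB.map Fm) R0Q038.P782 R0Q038.I782 := Vale.Agent.P032.Lt.pat_eq (E' := R0Q038.E) eB (pat_step (by decide +kernel) (q_cons (Vale.Agent.P032.Lt.q R0Q038.q782_0) q_nil))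

theorem p783 : Pat 73 73 TBm TCm (CB.map Fm) R0Q038.P783 R0Q038.I783 := Vale.Agent.P032.Lt.pat_eq (E' := R0Q038.E) eB (pat_step (by decide +kernel) (q_cons (Vale.Agent.P032.Lt.q R0Q038.q783_0) (q_cons (Vale.Agent.P032.Lt.q R0Q038.q783_1) (q_cons (Vale.Agent.P032.Lt.q R0Q038.q783_2) (q_cons (Vale.Agent.P032.Lt.q R0Q038.q783_3) (q_cons (Vale.Agent.P032.Lt.q R0Q038.q783_4) (q_cons (Vale.Agent.P032.Lt.q R0Q038.q783_5) (q_cons (Vale.Agent.P032.Lt.q R0Q038.q783_6) q_nil))))))))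

theorem p784 : Pat 73 73 TBm TCm (CB.map Fm) R0Q038.P784 R0Q038.I784 := Vale.Agent.P032.Lt.pat_eq (E' := R0Q038.E) eB (pat_step (by decide +kernel) (q_cons (Vale.Agent.P032.Lt.q R0Q038.q784_0) q_nil))

theorem p785 : Pat 73 73 TBm TCm (CB.map Fm) R0Q038.P785 R0Q038.I785 := Vale.Agent.P032.Lt.pat_eq (E' := R0Q038.E) eB (pat_step (by decide +kernel) (q_cons (Vale.Agent.P032.Lt.q R0Q038.q785_0) q_nil))

theorem p786 : Pat 73 73 TBm TCm (CB.map Fm) R0Q038.P786 R0Q038.I786 := Vale.Agent.P032.Lt.pat_eq (E' := R0Q038.E) eB (pat_step (by decide +kernel) (q_cons (Vale.Agent.P032.Lt.q R0Q038.q786_0) q_nil))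

theorem p787 : Pat 73 73 TBm TCm (CB.map Fm) R0Q038.P787 R0Q038.I787 := Vale.Agent.P032.Lt.pat_eq (E' := R0Q038.E) eB (pat_step (by decide +kernel) (q_cons (Vale.Agent.P032.Lt.q R0Q038.q787_0) (q_cons (Vale.Agent.P032.Lt.q R0Q038.q787_1) q_nil)))

theorem p788 : Pat 73 73 TBm TCm (CB.map Fm) R0Q039.P788 R0Q039.I788 := Vale.Agent.P032.Lt.pat_eq (E' := R0Q039.E) eB (pat_step (by decide +kernel) (q_cons (Vale.Agent.P032.Lt.q R0Q039.q788_0) (q_cons (Vale.Agent.P032.Lt.q R0Q039.q788_1) (q_cons (Vale.Agent.P032.Lt.q R0Q039.q788_2) (q_cons (Vale.Agent.P032.Lt.q R0Q039.q788_3) (q_cons (Vale.Agent.P032.Lt.q R0Q039.q788_4) (q_cons (Vale.Agent.P032.Lt.q R0Q039.q788_5) (q_cons (Vale.Agent.P032.Lt.q R0Q039.q788_6) (q_cons (Vale.Agent.P032.Lt.q R0Q039.q788_7) (q_cons (Vale.Agent.P032.Lt.q R0Q039.q788_8) (q_cons (Vale.Agent.P032.Lt.q R0Q039.q788_9) (q_cons (Vale.Agent.P032.Lt.q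 R0Q039.q788_10) (q_cons (Vale.Agent.P032.Lt.q R0Q039.q788_11) q_nil)))))))))))))

theorem p789 : Pat 73 73 TBm TCm (CB.map Fm) R0Q039.P789 R0Q039.I789 := Vale.Agent.P032.Lt.pat_eq (E' := R0Q039.E) eB (pat_step (by decide +kernel) (q_cons (Vale.Agent.P032.Lt.q R0Q039.q789_0) (q_cons (Vale.Agent.P032.Lt.q R0Q039.q789_1) q_nil)))

theorem p790 : Pat 73 73 TBm TCm (CB.map Fm) R0Q039.P790 R0Q039.I790 := Vale.Agent.P032.Lt.pat_eq (E' := R0Q039.E) eB (pat_step (by decide +kernel) (q_cons (Vale.Agent.P032.Lt.q R0Q039.q790_0) (q_cons (Vale.Agent.P032.Lt.q R0Q039.q790_1) (q_cons (Vale.Agent.P032.Lt.q R0Q039.q790_2) q_nil))))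

theorem p791 : Pat 73 73 TBm TCm (CB.map Fm) R0Q039.P791 R0Q039.I791 := Vale.Agent.P032.Lt.pat_eq (E' := R0Q039.E) eB (pat_step (by decide +kernel) (q_cons (Vale.Agent.P032.Lt.q R0Q039.q791_0) q_nil))

theorem p792 : Pat 73 73 TBm TCm (CB.map Fm) R0Q039.P792 R0Q039.I792 := Vale.Agent.P032.Lt.pat_eq (E' := R0Q039.E) eB (pat_step (by decide +kernel) (q_cons (Vale.Agent.P032.Lt.q R0Q039.q792_0) q_nil))

theorem p793 : Pat 73 73 TBm TCm (CB.map Fm) R0Q039.P793 R0Q039.I793 := Vale.Agent.P032.Lt.pat_eq (E' := R0Q039.E) eB (pat_step (by decide +kernel) (q_cons (Vale.Agent.P032.Lt.q R0Q039.q793_0) (q_cons (Vale.Agent.P032.Lt.q R0Q039.q793_1) (q_cons (Vale.Agent.P032.Lt.q R0Q039.q793_2) (q_cons (Vale.Agent.P032.Lt.q R0Q039.q793_3) q_nil)))))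

theorem p794 : Pat 73 73 TBm TCm (CB.map Fm) R0Q039.P794 R0Q039.I794 := Vale.Agent.P032.Lt.pat_eq (E' := R0Q039.E) eB (pat_step (by decide +kernel) (q_cons (Vale.Agent.P032.Lt.q R0Q039.q794_0) q_nil))

theorem p795 : Pat 73 73 TBm TCm (CB.map Fm) R0Q039.P795 R0Q039.I795 := Vale.Agent.P032.Lt.pat_eq (E' := R0Q039.E) eB (pat_step (by decide +kernel) (q_cons (Vale.Agent.P032.Lt.q R0Q039.q795_0) (q_cons (Vale.Agent.P032.Lt.q R0Q039.q795_1) (q_cons (Vale.Agent.P032.Lt.q R0Q039.q795_2) (q_cons (Vale.Agent.P032.Lt.q R0Q039.q795_3) (q_cons (Vale.Agent.P032.Lt.q R0Q039.q795_4) (q_cons (Vale.Agent.P032.Lt.q R0Q039.q795_5) (q_cons (Vale.Agent.P032.Lt.q R0Q039.q795_6) (q_cons (Vale.Agent.P032.Lt.q R0Q039.q795_7) q_nil)))))))))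

theorem p796 : Pat 73 73 TBm TCm (CB.map Fm) R0Q039.P796 R0Q039.I796 := Vale.Agent.P032.Lt.pat_eq (E' := R0Q039.E) eB (pat_step (by decide +kernel) (q_cons (Vale.Agent.P032.Lt.q R0Q039.q796_0) (q_cons (Vale.Agent.P032.Lt.q R0Q039.q796_1) (q_cons (Vale.Agent.P032.Lt.q R0Q039.q796_2) (q_cons (Vale.Agent.P032.Lt.q R0Q039.q796_3) (q_cons (Vale.Agent.P032.Lt.q R0Q039.q796_4) (q_cons (Vale.Agent.P032.Lt.q R0Q039.q796_5) (q_cons (Vale.Agent.P032.Lt.q R0Q039.q796_6) q_nil))))))))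

theorem p797 : Pat 73 73 TBm TCm (CB.map Fm) R0Q039.P797 R0Q039.I797 := Vale.Agent.P032.Lt.pat_eq (E' := R0Q039.E) eB (pat_step (by decide +kernel) (q_cons (Vale.Agent.P032.Lt.q R0Q039.q797_0) (q_cons (Vale.Agent.P032.Lt.q R0Q039.q797_1) (q_cons (Vale.Agent.P032.Lt.q R0Q039.q797_2) (q_cons (Vale.Agent.P032.Lt.q R0Q039.q797_3) (q_cons (Vale.Agent.P032.Lt.q R0Q039.q797_4) (q_cons (Vale.Agent.P032.Lt.q R0Q039.q797_5) (q_cons (Vale.Agent.P032.Lt.q R0Q039.q797_6) q_nil))))))))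

theorem p798 : Pat 73 73 TBm TCm (CB.map Fm) R0Q039.P798 R0Q039.I798 := Vale.Agent.P032.Lt.pat_eq (E' := R0Q039.E) eB (pat_step (by decide +kernel) (q_cons (Vale.Agent.P032.Lt.q R0Q039.q798_0) (q_cons (Vale.Agent.P032.Lt.q R0Q039.q798_1) (q_cons (Vale.Agent.P032.Lt.q R0Q039.q798_2) (q_cons (Vale.Agent.P032.Lt.q R0Q039.q798_3) (q_cons (Vale.Agent.P032.Lt.q R0Q039.q798_4) q_nil))))))

theorem p799 : Pat 73 73 TBm TCm (CB.map Fm) R0Q039.P799 R0Q039.I799 := Vale.Agent.P032.Lt.pat_eq (E' := R0Q039.E) eB (pat_step (by decide +kernel) (q_cons (Vale.Agent.P032.Lt.q R0Q039.q799_0) q_nil))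

theorem p800 : Pat 73 73 TBm TCm (CB.map Fm) R0Q039.P800 R0Q039.I800 := Vale.Agent.P032.Lt.pat_eq (E' := R0Q039.E) eB (pat_step (by decide +kernel) (q_cons (Vale.Agent.P032.Lt.q R0Q039.q800_0) (q_cons (Vale.Agent.P032.Lt.q R0Q039.q800_1) (q_cons (Vale.Agent.P032.Lt.q R0Q039.q800_2) (q_cons (Vale.Agent.P032.Lt.q R0Q039.q800_3) (q_cons (Vale.Agent.P032.Lt.q R0Q039.q800_4) q_nil))))))

theorem p801 : Pat 73 73 TBm TCm (CB.map Fm) R0Q039.P801 R0Q039.I801 := Vale.Agent.P032.Lt.pat_eq (E' := R0Q039.E) eB (pat_step (by decide +kernel) (q_cons (Vale.Agent.P032.Lt.q R0Q039.q801_0) q_nil))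

theorem p802 : Pat 73 73 TBm TCm (CB.map Fm) R0Q039.P802 R0Q039.I802 := Vale.Agent.P032.Lt.pat_eq (E' := R0Q039.E) eB (pat_step (by decide +kernel) (q_cons (Vale.Agent.P032.Lt.q R0Q039.q802_0) (q_cons (Vale.Agent.P032.Lt.q R0Q039.q802_1) (q_cons (Vale.Agent.P032.Lt.q R0Q039.q802_2) (q_cons (Vale.Agent.P032.Lt.q R0Q039.q802_3) (q_cons (Vale.Agent.P032.Lt.q R0Q039.q802_4) (q_cons (Vale.Agent.P032.Lt.q R0Q039.q802_5) (q_cons (Vale.Agent.P032.Lt.q R0Q039.q802_6) (q_cons (Vale.Agent.P032.Lt.q R0Q039.q802_7) (q_cons (Vale.Agent.P032.Lt.q R0Q039.q802_8) (q_cons (Vale.Agent.P032.Lt.q R0Q039.q802_9) (q_cons (Vale.Agent.P032.Lt.q R0Q039.q802_10) (q_cons (Vale.Agent.P032.Lt.q R0Q039.q802_11) (q_cons (Vale.Agent.P032.Lt.q R0Q039.q802_12) (q_cons (Vale.Agent.P032.Lt.q R0Q039.q802_13) (q_cons (Vale.Agent.P032.Lt.q R0Q039.q802_14) q_nil))))))))))))))))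

theorem p803 : Pat 73 73 TBm TCm (CB.map Fm) R0Q039.P803 R0Q039.I803 := Vale.Agent.P032.Lt.pat_eq (E' := R0Q039.E) eB (pat_step (by decide +kernel) (q_cons (Vale.Agent.P032.Lt.q R0Q039.q803_0) (q_cons (Vale.Agent.P032.Lt.q R0Q039.q803_1) (q_cons (Vale.Agent.P032.Lt.q R0Q039.q803_2) (q_cons (Vale.Agent.P032.Lt.q R0Q039.q803_3) q_nil)))))

theorem p804 : Pat 73 73 TBm TCm (CB.map Fm) R0Q039.P804 R0Q039.I804 := Vale.Agent.P032.Lt.pat_eq (E' := R0Q039.E) eB (pat_step (by decide +kernel) (q_cons (Vale.Agent.P032.Lt.q R0Q039.q804_0) (q_cons (Vale.Agent.P032.Lt.q R0Q039.q804_1) (q_cons (Vale.Agent.P032.Lt.q R0Q039.q804_2) (q_cons (Vale.Agent.P032.Lt.q R0Q039.q804_3) (q_cons (Vale.Agent.P032.Lt.q R0Q039.q804_4) (q_cons (Vale.Agent.P032.Lt.q R0Q039.q804_5) q_nil)))))))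

theorem p805 : Pat 73 73 TBm TCm (CB.map Fm) R0Q039.P805 R0Q039.I805 := Vale.Agent.P032.Lt.pat_eq (E' := R0Q039.E) eB (pat_step (by decide +kernel) (q_cons (Vale.Agent.P032.Lt.q R0Q039.q805_0) q_nil))

theorem p806 : Pat 73 73 TBm TCm (CB.map Fm) R0Q039.P806 R0Q039.I806 := Vale.Agent.P032.Lt.pat_eq (E' := R0Q039.E) eB (pat_step (by decide +kernel) (q_cons (Vale.Agent.P032.Lt.q R0Q039.q806_0) (q_cons (Vale.Agent.P032.Lt.q R0Q039.q806_1) (q_cons (Vale.Agent.P032.Lt.q R0Q039.q806_2) q_nil))))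

theorem p807 : Pat 73 73 TBm TCm (CB.map Fm) R0Q040.P807 R0Q040.I807 := Vale.Agent.P032.Lt.pat_eq (E' := R0Q040.E) eB (pat_step (by decide +kernel) (q_cons (Vale.Agent.P032.Lt.q R0Q040.q807_0) (q_cons (Vale.Agent.P032.Lt.q R0Q040.q807_1) (q_cons (Vale.Agent.P032.Lt.q R0Q040.q807_2) q_nil))))

theorem p808 : Pat 73 73 TBm TCm (CB.map Fm) R0Q040.P808 R0Q040.I808 := Vale.Agent.P032.Lt.pat_eq (E' := R0Q040.E) eB (pat_step (by decide +kernel) (q_cons (Vale.Agent.P032.Lt.q R0Q040.q808_0) q_nil))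

theorem p809 : Pat 73 73 TBm TCm (CB.map Fm) R0Q040.P809 R0Q040.I809 := Vale.Agent.P032.Lt.pat_eq (E' := R0Q040.E) eB (pat_step (by decide +kernel) (q_cons (Vale.Agent.P032.Lt.q R0Q040.q809_0) (q_cons (Vale.Agent.P032.Lt.q R0Q040.q809_1) (q_cons (Vale.Agent.P032.Lt.q R0Q040.q809_2) (q_cons (Vale.Agent.P032.Lt.q R0Q040.q809_3) (q_cons (Vale.Agent.P032.Lt.q R0Q040.q809_4) (q_cons (Vale.Agent.P032.Lt.q R0Q040.q809_5) (q_cons (Vale.Agent.P032.Lt.q R0Q040.q809_6) (q_cons (Vale.Agent.P032.Lt.q R0Q040.q809_7) (q_cons (Vale.Agent.P032.Lt.q R0Q040.q809_8) (q_cons (Vale.Agent.P032.Lt.q R0Q040.q809_9) (q_cons (Vale.Agent.P032.Lt.q R0Q040.q809_10) (q_cons (Vale.Agent.P032.Lt.q R0Q040.q809_11) (q_cons (Vale.Agent.P032.Lt.q R0Q040.q809_12) (q_cons (Vale.Agent.P032.Lt.q R0Q040.q809_13) (q_cons (Vale.Agent.P032.Lt.q R0Q040.q809_14) (q_cons (Vale.Agent.P032.Lt.q R0Q040.q809_15)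 (q_cons (Vale.Agent.P032.Lt.q R0Q040.q809_16) q_nil))))))))))))))))))

theorem p810 : Pat 73 73 TBm TCm (CB.map Fm) R0Q040.P810 R0Q040.I810 := Vale.Agent.P032.Lt.pat_eq (E' := R0Q040.E) eB (pat_step (by decide +kernel) (q_cons (Vale.Agent.P032.Lt.q R0Q040.q810_0) (q_cons (Vale.Agent.P032.Lt.q R0Q040.q810_1) (q_cons (Vale.Agent.P032.Lt.q R0Q040.q810_2) (q_cons (Vale.Agent.P032.Lt.q R0Q040.q810_3) (q_cons (Vale.Agent.P032.Lt.q R0Q040.q810_4) (q_cons (Vale.Agent.P032.Lt.q R0Q040.q810_5) (q_cons (Vale.Agent.P032.Lt.q R0Q040.q810_6) (q_cons (Vale.Agent.P032.Lt.q R0Q040.q810_7) q_nil)))))))))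

theorem p811 : Pat 73 73 TBm TCm (CB.map Fm) R0Q040.P811 R0Q040.I811 := Vale.Agent.P032.Lt.pat_eq (E' := R0Q040.E) eB (pat_step (by decide +kernel) (q_cons (Vale.Agent.P032.Lt.q R0Q040.q811_0) q_nil))

theorem p812 : Pat 73 73 TBm TCm (CB.map Fm) R0Q040.P812 R0Q040.I812 := Vale.Agent.P032.Lt.pat_eq (E' := R0Q040.E) eB (pat_step (by decide +kernel) (q_cons (Vale.Agent.P032.Lt.q R0Q040.q812_0) q_nil))

theorem p813 : Pat 73 73 TBm TCm (CB.map Fm) R0Q040.P813 R0Q040.I813 := Vale.Agent.P032.Lt.pat_eq (E' := R0Q040.E) eB (pat_step (by decide +kernel) (q_cons (Vale.Agent.P032.Lt.q R0Q040.q813_0) (q_cons (Vale.Agent.P032.Lt.q R0Q040.q813_1) (q_cons (Vale.Agent.P032.Lt.q R0Q040.q813_2) (q_cons (Vale.Agent.P032.Lt.q R0Q040.q813_3) (q_cons (Vale.Agent.P032.Lt.q R0Q040.q813_4) (q_cons (Vale.Agent.P032.Lt.q R0Q040.q813_5) (q_cons (Vale.Agent.P032.Lt.q R0Q040.q813_6) (q_cons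 (Vale.Agent.P032.Lt.q R0Q040.q813_7) (q_cons (Vale.Agent.P032.Lt.q R0Q040.q813_8) (q_cons (Vale.Agent.P032.Lt.q R0Q040.q813_9) (q_cons (Vale.Agent.P032.Lt.q R0Q040.q813_10) q_nil))))))))))))

theorem p814 : Pat 73 73 TBm TCm (CB.map Fm) R0Q040.P814 R0Q040.I814 := Vale.Agent.P032.Lt.pat_eq (E' := R0Q040.E) eB (pat_step (by decide +kernel) (q_cons (Vale.Agent.P032.Lt.q R0Q040.q814_0) (q_cons (Vale.Agent.P032.Lt.q R0Q040.q814_1) (q_cons (Vale.Agent.P032.Lt.q R0Q040.q814_2) (q_cons (Vale.Agent.P032.Lt.q R0Q040.q814_3) (q_cons (Vale.Agent.P032.Lt.q R0Q040.q814_4) (q_cons (Vale.Agent.P032.Lt.q R0Q040.q814_5) (q_cons (Vale.Agent.P032.Lt.q R0Q040.q814_6) (q_cons (Vale.Agent.P032.Lt.q R0Q040.q814_7) (q_cons (Vale.Agent.P032.Lt.q R0Q040.q814_8) (q_cons (Vale.Agent.P032.Lt.q R0Q040.q814_9) (q_cons (Vale.Agent.P032.Lt.q R0Q040.q814_10) q_nil))))))))))))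

theorem p815 : Pat 73 73 TBm TCm (CB.map Fm) R0Q040.P815 R0Q040.I815 := Vale.Agent.P032.Lt.pat_eq (E' := R0Q040.E) eB (pat_step (by decide +kernel) (q_cons (Vale.Agent.P032.Lt.q R0Q040.q815_0) q_nil))

theorem p816 : Pat 73 73 TBm TCm (CB.map Fm) R0Q040.P816 R0Q040.I816 := Vale.Agent.P032.Lt.pat_eq (E' := R0Q040.E) eB (pat_step (by decide +kernel) (q_cons (Vale.Agent.P032.Lt.q R0Q040.q816_0) (q_cons (Vale.Agent.P032.Lt.q R0Q040.q816_1) q_nil)))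

theorem p817 : Pat 73 73 TBm TCm (CB.map Fm) R0Q040.P817 R0Q040.I817 := Vale.Agent.P032.Lt.pat_eq (E' := R0Q040.E) eB (pat_step (by decide +kernel) (q_cons (Vale.Agent.P032.Lt.q R0Q040.q817_0) (q_cons (Vale.Agent.P032.Lt.q R0Q040.q817_1) (q_cons (Vale.Agent.P032.Lt.q R0Q040.q817_2) q_nil))))

theorem p818 : Pat 73 73 TBm TCm (CB.map Fm) R0Q040.P818 R0Q040.I818 := Vale.Agent.P032.Lt.pat_eq (E' := R0Q040.E) eB (pat_step (by decide +kernel) (q_cons (Vale.Agent.P032.Lt.q R0Q040.q818_0) (q_cons (Vale.Agent.P032.Lt.q R0Q040.q818_1) (q_cons (Vale.Agent.P032.Lt.q R0Q040.q818_2) (q_cons (Vale.Agent.P032.Lt.q R0Q040.q818_3) q_nil)))))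

theorem p819 : Pat 73 73 TBm TCm (CB.map Fm) R0Q040.P819 R0Q040.I819 := Vale.Agent.P032.Lt.pat_eq (E' := R0Q040.E) eB (pat_step (by decide +kernel) (q_cons (Vale.Agent.P032.Lt.q R0Q040.q819_0) (q_cons (Vale.Agent.P032.Lt.q R0Q040.q819_1) (q_cons (Vale.Agent.P032.Lt.q R0Q040.q819_2) (q_cons (Vale.Agent.P032.Lt.q R0Q040.q819_3) (q_cons (Vale.Agent.P032.Lt.q R0Q040.q819_4) (q_cons (Vale.Agent.P032.Lt.q R0Q040.q819_5) (q_cons (Vale.Agent.P032.Lt.q R0Q040.q819_6) (q_cons (Vale.Agent.P032.Lt.q R0Q040.q819_7) (q_cons (Vale.Agent.P032.Lt.q R0Q040.q819_8) (q_cons (Vale.Agent.P032.Lt.q R0Q040.q819_9) (q_cons (Vale.Agent.P032.Lt.q R0Q040.q819_10) (q_cons (Vale.Agent.P032.Lt.q R0Q040.q819_11) (q_cons (Vale.Agent.P032.Lt.q R0Q040.q819_12) (q_cons (Vale.Agent.P032.Lt.q R0Q040.q819_13) (q_cons (Vale.Agent.P032.Lt.q R0Q040.q819_14) q_nil))))))))))))))))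

theorem p820 : Pat 73 73 TBm TCm (CB.map Fm) R0Q040.P820 R0Q040.I820 := Vale.Agent.P032.Lt.pat_eq (E' := R0Q040.E) eB (pat_step (by decide +kernel) (q_cons (Vale.Agent.P032.Lt.q R0Q040.q820_0) q_nil))

theorem p821 : Pat 73 73 TBm TCm (CB.map Fm) R0Q040.P821 R0Q040.I821 := Vale.Agent.P032.Lt.pat_eq (E' := R0Q040.E) eB (pat_step (by decide +kernel) (q_cons (Vale.Agent.P032.Lt.q R0Q040.q821_0) (q_cons (Vale.Agent.P032.Lt.q R0Q040.q821_1) q_nil)))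

def C822 : List ℕ := [0, 4, 8, 12, 16, 20, 24, 344065, 606209, 737281]
theorem p822 : Pat 73 73 TBm TCm (C822.map Fm) R0Q040.P822 R0Q040.I822 := Vale.Agent.P032.Lt.pat_eq (E' := R0Q040.E822) (by decide +kernel) (pat_step (by decide +kernel) (q_cons (Vale.Agent.P032.Lt.q R0Q040.q822_0) (q_cons (Vale.Agent.P032.Lt.q R0Q040.q822_1) (q_cons (Vale.Agent.P032.Lt.q R0Q040.q822_2) q_nil))))

theorem p823 : Pat 73 73 TBm TCm (CB.map Fm) R0Q040.P823 R0Q040.I823 := Vale.Agent.P032.Lt.pat_eq (E' := R0Q040.E) eB (pat_step (by decide +kernel) (q_cons (Vale.Agent.P032.Lt.q R0Q040.q823_0) (q_cons (Vale.Agent.P032.Lt.q R0Q040.q823_1) (q_cons (Vale.Agent.P032.Lt.q R0Q040.q823_2) q_nil))))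

theorem p824 : Pat 73 73 TBm TCm (CB.map Fm) R0Q040.P824 R0Q040.I824 := Vale.Agent.P032.Lt.pat_eq (E' := R0Q040.E) eB (pat_step (by decide +kernel) (q_cons (Vale.Agent.P032.Lt.q R0Q040.q824_0) q_nil))

theorem p825 : Pat 73 73 TBm TCm (CB.map Fm) R0Q040.P825 R0Q040.I825 := Vale.Agent.P032.Lt.pat_eq (E' := R0Q040.E) eB (pat_step (by decide +kernel) (q_cons (Vale.Agent.P032.Lt.q R0Q040.q825_0) (q_cons (Vale.Agent.P032.Lt.q R0Q040.q825_1) (q_cons (Vale.Agent.P032.Lt.q R0Q040.q825_2) (q_cons (Vale.Agent.P032.Lt.q R0Q040.q825_3) (q_cons (Vale.Agent.P032.Lt.q R0Q040.q825_4) q_nil))))))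

def C826 : List ℕ := [0, 4, 8, 12, 16, 20, 24, 81921, 214017, 355329, 606209, 737281]
theorem p826 : Pat 73 73 TBm TCm (C826.map Fm) R0Q040.P826 R0Q040.I826 := Vale.Agent.P032.Lt.pat_eq (E' := R0Q040.E826) (by decide +kernel) (pat_step (by decide +kernel) (q_cons (Vale.Agent.P032.Lt.q R0Q040.q826_0) q_nil))

theorem p827 : Pat 73 73 TBm TCm (CB.map Fm) R0Q040.P827 R0Q040.I827 := Vale.Agent.P032.Lt.pat_eq (E' := R0Q040.E) eB (pat_step (by decide +kernel) (q_cons (Vale.Agent.P032.Lt.q R0Q040.q827_0) (q_cons (Vale.Agent.P032.Lt.q R0Q040.q827_1) (q_cons (Vale.Agent.P032.Lt.q R0Q040.q827_2) (q_cons (Vale.Agent.P032.Lt.q R0Q040.q827_3) (q_cons (Vale.Agent.P032.Lt.q R0Q040.q827_4) (q_cons (Vale.Agent.P032.Lt.q R0Q040.q827_5) q_nil)))))))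

def C828 : List ℕ := [0, 4, 8, 12, 16, 20, 24, 480257, 606209, 737281]
theorem p828 : Pat 73 73 TBm TCm (C828.map Fm) R0Q040.P828 R0Q040.I828 := Vale.Agent.P032.Lt.pat_eq (E' := R0Q040.E828) (by decide +kernel) (pat_step (by decide +kernel) (q_cons (Vale.Agent.P032.Lt.q R0Q040.q828_0) (q_cons (Vale.Agent.P032.Lt.q R0Q040.q828_1) (q_cons (Vale.Agent.P032.Lt.q R0Q040.q828_2) (q_cons (Vale.Agent.P032.Lt.q R0Q040.q828_3) (q_cons (Vale.Agent.P032.Lt.q R0Q040.q828_4) (q_cons (Vale.Agent.P032.Lt.q R0Q040.q828_5) q_nil)))))))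

theorem p829 : Pat 73 73 TBm TCm (CB.map Fm) R0Q040.P829 R0Q040.I829 := Vale.Agent.P032.Lt.pat_eq (E' := R0Q040.E) eB (pat_step (by decide +kernel) (q_cons (Vale.Agent.P032.Lt.q R0Q040.q829_0) (q_cons (Vale.Agent.P032.Lt.q R0Q040.q829_1) (q_cons (Vale.Agent.P032.Lt.q R0Q040.q829_2) q_nil))))

theorem p830 : Pat 73 73 TBm TCm (CB.map Fm) R0Q040.P830 R0Q040.I830 := Vale.Agent.P032.Lt.pat_eq (E' := R0Q040.E) eB (pat_step (by decide +kernel) (q_cons (Vale.Agent.P032.Lt.q R0Q040.q830_0) q_nil))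

theorem p831 : Pat 73 73 TBm TCm (CB.map Fm) R0Q040.P831 R0Q040.I831 := Vale.Agent.P032.Lt.pat_eq (E' := R0Q040.E) eB (pat_step (by decide +kernel) (q_cons (Vale.Agent.P032.Lt.q R0Q040.q831_0) (q_cons (Vale.Agent.P032.Lt.q R0Q040.q831_1) (q_cons (Vale.Agent.P032.Lt.q R0Q040.q831_2) (q_cons (Vale.Agent.P032.Lt.q R0Q040.q831_3) (q_cons (Vale.Agent.P032.Lt.q R0Q040.q831_4) (q_cons (Vale.Agent.P032.Lt.q R0Q040.q831_5) (q_cons (Vale.Agent.P032.Lt.q R0Q040.q831_6) (q_cons (Vale.Agent.P032.Lt.q R0Q040.q831_7) (q_cons (Vale.Agent.P032.Lt.q R0Q040.q831_8) (q_cons (Vale.Agent.P032.Lt.q R0Q040.q831_9) (q_cons (Vale.Agent.P032.Lt.q R0Q040.q831_10) (q_cons (Vale.Agent.P032.Lt.q R0Q040.q831_11) (q_cons (Vale.Agent.P032.Lt.q R0Q040.q831_12) (q_cons (Vale.Agent.P032.Lt.q R0Q040.q831_13) (q_cons (Vale.Agent.P032.Lt.q R0Q040.q831_14) (q_cons (Vale.Agent.P032.Lt.q R0Q040.q831_15)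 (q_cons (Vale.Agent.P032.Lt.q R0Q040.q831_16) (q_cons (Vale.Agent.P032.Lt.q R0Q040.q831_17) (q_cons (Vale.Agent.P032.Lt.q R0Q040.q831_18) (q_cons (Vale.Agent.P032.Lt.q R0Q040.q831_19) (q_cons (Vale.Agent.P032.Lt.q R0Q040.q831_20) (q_cons (Vale.Agent.P032.Lt.q R0Q040.q831_21) (q_cons (Vale.Agent.P032.Lt.q R0Q040.q831_22) (q_cons (Vale.Agent.P032.Lt.q R0Q040.q831_23) (q_cons (Vale.Agent.P032.Lt.q R0Q040.q831_24) (q_cons (Vale.Agent.P032.Lt.q R0Q040.q831_25) (q_cons (Vale.Agent.P032.Lt.q R0Q040.q831_26) (q_cons (Vale.Agent.P032.Lt.q R0Q040.q831_27) (q_cons (Vale.Agent.P032.Lt.q R0Q040.q831_28) (q_cons (Vale.Agent.P032.Lt.q R0Q040.q831_29) (q_cons (Vale.Agent.P032.Lt.q R0Q040.q831_30) (q_cons (Vale.Agent.P032.Lt.q R0Q040.q831_31) (q_cons (Vale.Agent.P032.Lt.q R0Q040.q831_32) (q_cons (Vale.Agent.P032.Lt.q R0Q040.q831_33) (q_cons (Vale.Agent.P032.Lt.q R0Q040.q831_34)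 (q_cons (Vale.Agent.P032.Lt.q R0Q040.q831_35) (q_cons (Vale.Agent.P032.Lt.q R0Q040.q831_36) (q_cons (Vale.Agent.P032.Lt.q R0Q040.q831_37) (q_cons (Vale.Agent.P032.Lt.q R0Q040.q831_38) (q_cons (Vale.Agent.P032.Lt.q R0Q040.q831_39) (q_cons (Vale.Agent.P032.Lt.q R0Q040.q831_40) q_nil))))))))))))))))))))))))))))))))))))))))))

theorem p832 : Pat 73 73 TBm TCm (CB.map Fm) R0Q040.P832 R0Q040.I832 := Vale.Agent.P032.Lt.pat_eq (E' := R0Q040.E) eB (pat_step (by decide +kernel) (q_cons (Vale.Agent.P032.Lt.q R0Q040.q832_0) (q_cons (Vale.Agent.P032.Lt.q R0Q040.q832_1) q_nil)))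

theorem p833 : Pat 73 73 TBm TCm (CB.map Fm) R0Q040.P833 R0Q040.I833 := Vale.Agent.P032.Lt.pat_eq (E' := R0Q040.E) eB (pat_step (by decide +kernel) (q_cons (Vale.Agent.P032.Lt.q R0Q040.q833_0) (q_cons (Vale.Agent.P032.Lt.q R0Q040.q833_1) (q_cons (Vale.Agent.P032.Lt.q R0Q040.q833_2) (q_cons (Vale.Agent.P032.Lt.q R0Q040.q833_3) (q_cons (Vale.Agent.P032.Lt.q R0Q040.q833_4) q_nil))))))

theorem p834 : Pat 73 73 TBm TCm (CB.map Fm) R0Q040.P834 R0Q040.I834 := Vale.Agent.P032.Lt.pat_eq (E' := R0Q040.E) eB (pat_step (by decide +kernel) (q_cons (Vale.Agent.P032.Lt.q R0Q040.q834_0) q_nil))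

theorem p835 : Pat 73 73 TBm TCm (CB.map Fm) R0Q040.P835 R0Q040.I835 := Vale.Agent.P032.Lt.pat_eq (E' := R0Q040.E) eB (pat_step (by decide +kernel) (q_cons (Vale.Agent.P032.Lt.q R0Q040.q835_0) q_nil))

def C836 : List ℕ := [0, 4, 8, 12, 16, 20, 24, 475137, 606209, 737281]
theorem p836 : Pat 73 73 TBm TCm (C836.map Fm) R0Q040.P836 R0Q040.I836 := Vale.Agent.P032.Lt.pat_eq (E' := R0Q040.E836) (by decide +kernel) (pat_step (by decide +kernel) (q_cons (Vale.Agent.P032.Lt.q R0Q040.q836_0) q_nil))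

theorem p837 : Pat 73 73 TBm TCm (CB.map Fm) R0Q040.P837 R0Q040.I837 := Vale.Agent.P032.Lt.pat_eq (E' := R0Q040.E) eB (pat_step (by decide +kernel) (q_cons (Vale.Agent.P032.Lt.q R0Q040.q837_0) q_nil))

def C838 : List ℕ := [0, 4, 8, 12, 16, 20, 24, 212993, 606209, 737281]
theorem p838 : Pat 73 73 TBm TCm (C838.map Fm) R0Q040.P838 R0Q040.I838 := Vale.Agent.P032.Lt.pat_eq (E' := R0Q040.E838) (by decide +kernel) (pat_step (by decide +kernel) (q_cons (Vale.Agent.P032.Lt.q R0Q040.q838_0) (q_cons (Vale.Agent.P032.Lt.q R0Q040.q838_1) (q_cons (Vale.Agent.P032.Lt.q R0Q040.q838_2) q_nil))))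

theorem p839 : Pat 73 73 TBm TCm (CB.map Fm) R0Q041.P839 R0Q041.I839 := Vale.Agent.P032.Lt.pat_eq (E' := R0Q041.E) eB (pat_step (by decide +kernel) (q_cons (Vale.Agent.P032.Lt.q R0Q041.q839_0) (q_cons (Vale.Agent.P032.Lt.q R0Q041.q839_1) (q_cons (Vale.Agent.P032.Lt.q R0Q041.q839_2) (q_cons (Vale.Agent.P032.Lt.q R0Q041.q839_3) (q_cons (Vale.Agent.P032.Lt.q R0Q041.q839_4) (q_cons (Vale.Agent.P032.Lt.q R0Q041.q839_5) (q_cons (Vale.Agent.P032.Lt.q R0Q041.q839_6) (q_cons (Vale.Agent.P032.Lt.q R0Q041.q839_7) (q_cons (Vale.Agent.P032.Lt.q R0Q041.q839_8) (q_cons (Vale.Agent.P032.Lt.q R0Q041.q839_9) (q_cons (Vale.Agent.P032.Lt.q R0Q041.q839_10) (q_cons (Vale.Agent.P032.Lt.q R0Q041.q839_11) (q_cons (Vale.Agent.P032.Lt.q R0Q041.q839_12) (q_cons (Vale.Agent.P032.Lt.q R0Q041.q839_13) (q_cons (Vale.Agent.P032.Lt.q R0Q041.q839_14) (q_cons (Vale.Agent.P032.Lt.q R0Q041.q839_15)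 (q_cons (Vale.Agent.P032.Lt.q R0Q041.q839_16) (q_cons (Vale.Agent.P032.Lt.q R0Q041.q839_17) q_nil)))))))))))))))))))

theorem p840 : Pat 73 73 TBm TCm (CB.map Fm) R0Q041.P840 R0Q041.I840 := Vale.Agent.P032.Lt.pat_eq (E' := R0Q041.E) eB (pat_step (by decide +kernel) (q_cons (Vale.Agent.P032.Lt.q R0Q041.q840_0) (q_cons (Vale.Agent.P032.Lt.q R0Q041.q840_1) (q_cons (Vale.Agent.P032.Lt.q R0Q041.q840_2) (q_cons (Vale.Agent.P032.Lt.q R0Q041.q840_3) (q_cons (Vale.Agent.P032.Lt.q R0Q041.q840_4) (q_cons (Vale.Agent.P032.Lt.q R0Q041.q840_5) (q_cons (Vale.Agent.P032.Lt.q R0Q041.q840_6) (q_cons (Vale.Agent.P032.Lt.q R0Q041.q840_7) (q_cons (Vale.Agent.P032.Lt.q R0Q041.q840_8) (q_cons (Vale.Agent.P032.Lt.q R0Q041.q840_9) q_nil)))))))))))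

theorem p841 : Pat 73 73 TBm TCm (CB.map Fm) R0Q041.P841 R0Q041.I841 := Vale.Agent.P032.Lt.pat_eq (E' := R0Q041.E) eB (pat_step (by decide +kernel) (q_cons (Vale.Agent.P032.Lt.q R0Q041.q841_0) (q_cons (Vale.Agent.P032.Lt.q R0Q041.q841_1) (q_cons (Vale.Agent.P032.Lt.q R0Q041.q841_2) (q_cons (Vale.Agent.P032.Lt.q R0Q041.q841_3) (q_cons (Vale.Agent.P032.Lt.q R0Q041.q841_4) (q_cons (Vale.Agent.P032.Lt.q R0Q041.q841_5) (q_cons (Vale.Agent.P032.Lt.q R0Q041.q841_6) (q_cons (Vale.Agent.P032.Lt.q R0Q041.q841_7) (q_cons (Vale.Agent.P032.Lt.q R0Q041.q841_8) (q_cons (Vale.Agent.P032.Lt.q R0Q041.q841_9) (q_cons (Vale.Agent.P032.Lt.q R0Q041.q841_10) (q_cons (Vale.Agent.P032.Lt.q R0Q041.q841_11) (q_cons (Vale.Agent.P032.Lt.q R0Q041.q841_12) (q_cons (Vale.Agent.P032.Lt.q R0Q041.q841_13) (q_cons (Vale.Agent.P032.Lt.q R0Q041.q841_14) (q_cons (Vale.Agent.P032.Lt.q R0Q041.q841_15)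 (q_cons (Vale.Agent.P032.Lt.q R0Q041.q841_16) (q_cons (Vale.Agent.P032.Lt.q R0Q041.q841_17) (q_cons (Vale.Agent.P032.Lt.q R0Q041.q841_18) (q_cons (Vale.Agent.P032.Lt.q R0Q041.q841_19) (q_cons (Vale.Agent.P032.Lt.q R0Q041.q841_20) (q_cons (Vale.Agent.P032.Lt.q R0Q041.q841_21) (q_cons (Vale.Agent.P032.Lt.q R0Q041.q841_22) (q_cons (Vale.Agent.P032.Lt.q R0Q041.q841_23) (q_cons (Vale.Agent.P032.Lt.q R0Q041.q841_24) (q_cons (Vale.Agent.P032.Lt.q R0Q041.q841_25) (q_cons (Vale.Agent.P032.Lt.q R0Q041.q841_26) (q_cons (Vale.Agent.P032.Lt.q R0Q041.q841_27) (q_cons (Vale.Agent.P032.Lt.q R0Q041.q841_28) (q_cons (Vale.Agent.P032.Lt.q R0Q041.q841_29) (q_cons (Vale.Agent.P032.Lt.q R0Q041.q841_30) (q_cons (Vale.Agent.P032.Lt.q R0Q041.q841_31) (q_cons (Vale.Agent.P032.Lt.q R0Q041.q841_32) (q_cons (Vale.Agent.P032.Lt.q R0Q041.q841_33) (q_cons (Vale.Agent.P032.Lt.q R0Q041.q841_34)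 (q_cons (Vale.Agent.P032.Lt.q R0Q041.q841_35) (q_cons (Vale.Agent.P032.Lt.q R0Q041.q841_36) (q_cons (Vale.Agent.P032.Lt.q R0Q041.q841_37) (q_cons (Vale.Agent.P032.Lt.q R0Q041.q841_38) (q_cons (Vale.Agent.P032.Lt.q R0Q041.q841_39) (q_cons (Vale.Agent.P032.Lt.q R0Q041.q841_40) (q_cons (Vale.Agent.P032.Lt.q R0Q041.q841_41) (q_cons (Vale.Agent.P032.Lt.q R0Q041.q841_42) (q_cons (Vale.Agent.P032.Lt.q R0Q041.q841_43) (q_cons (Vale.Agent.P032.Lt.q R0Q041.q841_44) (q_cons (Vale.Agent.P032.Lt.q R0Q041.q841_45) (q_cons (Vale.Agent.P032.Lt.q R0Q041.q841_46) (q_cons (Vale.Agent.P032.Lt.q R0Q041.q841_47) (q_cons (Vale.Agent.P032.Lt.q R0Q041.q841_48) (q_cons (Vale.Agent.P032.Lt.q R0Q041.q841_49) (q_cons (Vale.Agent.P032.Lt.q R0Q041.q841_50) (q_cons (Vale.Agent.P032.Lt.q R0Q041.q841_51) q_nil)))))))))))))))))))))))))))))))))))))))))))))))))))))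

theorem p842 : Pat 73 73 TBm TCm (CB.map Fm) R0Q041.P842 R0Q041.I842 := Vale.Agent.P032.Lt.pat_eq (E' := R0Q041.E) eB (pat_step (by decide +kernel) (q_cons (Vale.Agent.P032.Lt.q R0Q041.q842_0) (q_cons (Vale.Agent.P032.Lt.q R0Q041.q842_1) (q_cons (Vale.Agent.P032.Lt.q R0Q041.q842_2) (q_cons (Vale.Agent.P032.Lt.q R0Q041.q842_3) (q_cons (Vale.Agent.P032.Lt.q R0Q041.q842_4) q_nil))))))

def C843 : List ℕ := [0, 4, 8, 12, 16, 20, 24, 82945, 347137, 476161, 606209, 737281]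
theorem p843 : Pat 73 73 TBm TCm (C843.map Fm) R0Q041.P843 R0Q041.I843 := Vale.Agent.P032.Lt.pat_eq (E' := R0Q041.E843) (by decide +kernel) (pat_step (by decide +kernel) (q_cons (Vale.Agent.P032.Lt.q R0Q041.q843_0) (q_cons (Vale.Agent.P032.Lt.q R0Q041.q843_1) (q_cons (Vale.Agent.P032.Lt.q R0Q041.q843_2) (q_cons (Vale.Agent.P032.Lt.q R0Q041.q843_3) q_nil)))))

theorem p844 : Pat 73 73 TBm TCm (CB.map Fm) R0Q041.P844 R0Q041.I844 := Vale.Agent.P032.Lt.pat_eq (E' := R0Q041.E) eB (pat_step (by decide +kernel) (q_cons (Vale.Agent.P032.Lt.q R0Q041.q844_0) q_nil))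

theorem p845 : Pat 73 73 TBm TCm (CB.map Fm) R0Q041.P845 R0Q041.I845 := Vale.Agent.P032.Lt.pat_eq (E' := R0Q041.E) eB (pat_step (by decide +kernel) (q_cons (Vale.Agent.P032.Lt.q R0Q041.q845_0) (q_cons (Vale.Agent.P032.Lt.q R0Q041.q845_1) (q_cons (Vale.Agent.P032.Lt.q R0Q041.q845_2) (q_cons (Vale.Agent.P032.Lt.q R0Q041.q845_3) (q_cons (Vale.Agent.P032.Lt.q R0Q041.q845_4) (q_cons (Vale.Agent.P032.Lt.q R0Q041.q845_5) q_nil)))))))

theorem p846 : Pat 73 73 TBm TCm (CB.map Fm) R0Q041.P846 R0Q041.I846 := Vale.Agent.P032.Lt.pat_eq (E' := R0Q041.E) eB (pat_step (by decide +kernel) (q_cons (Vale.Agent.P032.Lt.q R0Q041.q846_0) (q_cons (Vale.Agent.P032.Lt.q R0Q041.q846_1) (q_cons (Vale.Agent.P032.Lt.q R0Q041.q846_2) q_nil))))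

theorem p847 : Pat 73 73 TBm TCm (CB.map Fm) R0Q041.P847 R0Q041.I847 := Vale.Agent.P032.Lt.pat_eq (E' := R0Q041.E) eB (pat_step (by decide +kernel) (q_cons (Vale.Agent.P032.Lt.q R0Q041.q847_0) q_nil))

theorem p848 : Pat 73 73 TBm TCm (CB.map Fm) R0Q041.P848 R0Q041.I848 := Vale.Agent.P032.Lt.pat_eq (E' := R0Q041.E) eB (pat_step (by decide +kernel) (q_cons (Vale.Agent.P032.Lt.q R0Q041.q848_0) (q_cons (Vale.Agent.P032.Lt.q R0Q041.q848_1) (q_cons (Vale.Agent.P032.Lt.q R0Q041.q848_2) (q_cons (Vale.Agent.P032.Lt.q R0Q041.q848_3) q_nil)))))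

theorem p849 : Pat 73 73 TBm TCm (CB.map Fm) R0Q041.P849 R0Q041.I849 := Vale.Agent.P032.Lt.pat_eq (E' := R0Q041.E) eB (pat_step (by decide +kernel) (q_cons (Vale.Agent.P032.Lt.q R0Q041.q849_0) q_nil))

theorem p850 : Pat 73 73 TBm TCm (CB.map Fm) R0Q041.P850 R0Q041.I850 := Vale.Agent.P032.Lt.pat_eq (E' := R0Q041.E) eB (pat_step (by decide +kernel) (q_cons (Vale.Agent.P032.Lt.q R0Q041.q850_0) (q_cons (Vale.Agent.P032.Lt.q R0Q041.q850_1) (q_cons (Vale.Agent.P032.Lt.q R0Q041.q850_2) (q_cons (Vale.Agent.P032.Lt.q R0Q041.q850_3) (q_cons (Vale.Agent.P032.Lt.q R0Q041.q850_4) (q_cons (Vale.Agent.P032.Lt.q R0Q041.q850_5) (q_cons (Vale.Agent.P032.Lt.q R0Q041.q850_6) (q_cons (Vale.Agent.P032.Lt.q R0Q041.q850_7) (q_cons (Vale.Agent.P032.Lt.q R0Q041.q850_8) (q_cons (Vale.Agent.P032.Lt.q R0Q041.q850_9) q_nil)))))))))))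

theorem p851 : Pat 73 73 TBm TCm (CB.map Fm) R0Q041.P851 R0Q041.I851 := Vale.Agent.P032.Lt.pat_eq (E' := R0Q041.E) eB (pat_step (by decide +kernel) (q_cons (Vale.Agent.P032.Lt.q R0Q041.q851_0) (q_cons (Vale.Agent.P032.Lt.q R0Q041.q851_1) (q_cons (Vale.Agent.P032.Lt.q R0Q041.q851_2) (q_cons (Vale.Agent.P032.Lt.q R0Q041.q851_3) q_nil)))))

theorem p852 : Pat 73 73 TBm TCm (CB.map Fm) R0Q041.P852 R0Q041.I852 := Vale.Agent.P032.Lt.pat_eq (E' := R0Q041.E) eB (pat_step (by decide +kernel) (q_cons (Vale.Agent.P032.Lt.q R0Q041.q852_0) (q_cons (Vale.Agent.P032.Lt.q R0Q041.q852_1) (q_cons (Vale.Agent.P032.Lt.q R0Q041.q852_2) (q_cons (Vale.Agent.P032.Lt.q R0Q041.q852_3) (q_cons (Vale.Agent.P032.Lt.q R0Q041.q852_4) q_nil))))))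

theorem p853 : Pat 73 73 TBm TCm (CB.map Fm) R0Q041.P853 R0Q041.I853 := Vale.Agent.P032.Lt.pat_eq (E' := R0Q041.E) eB (pat_step (by decide +kernel) (q_cons (Vale.Agent.P032.Lt.q R0Q041.q853_0) q_nil))

theorem p854 : Pat 73 73 TBm TCm (CB.map Fm) R0Q041.P854 R0Q041.I854 := Vale.Agent.P032.Lt.pat_eq (E' := R0Q041.E) eB (pat_step (by decide +kernel) (q_cons (Vale.Agent.P032.Lt.q R0Q041.q854_0) (q_cons (Vale.Agent.P032.Lt.q R0Q041.q854_1) (q_cons (Vale.Agent.P032.Lt.q R0Q041.q854_2) (q_cons (Vale.Agent.P032.Lt.q R0Q041.q854_3) (q_cons (Vale.Agent.P032.Lt.q R0Q041.q854_4) q_nil))))))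

theorem p855 : Pat 73 73 TBm TCm (CB.map Fm) R0Q041.P855 R0Q041.I855 := Vale.Agent.P032.Lt.pat_eq (E' := R0Q041.E) eB (pat_step (by decide +kernel) (q_cons (Vale.Agent.P032.Lt.q R0Q041.q855_0) (q_cons (Vale.Agent.P032.Lt.q R0Q041.q855_1) (q_cons (Vale.Agent.P032.Lt.q R0Q041.q855_2) q_nil))))

theorem p856 : Pat 73 73 TBm TCm (CB.map Fm) R0Q041.P856 R0Q041.I856 := Vale.Agent.P032.Lt.pat_eq (E' := R0Q041.E) eB (pat_step (by decide +kernel) (q_cons (Vale.Agent.P032.Lt.q R0Q041.q856_0) (q_cons (Vale.Agent.P032.Lt.q R0Q041.q856_1) (q_cons (Vale.Agent.P032.Lt.q R0Q041.q856_2) (q_cons (Vale.Agent.P032.Lt.q R0Q041.q856_3) q_nil)))))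

theorem p857 : Pat 73 73 TBm TCm (CB.map Fm) R0Q041.P857 R0Q041.I857 := Vale.Agent.P032.Lt.pat_eq (E' := R0Q041.E) eB (pat_step (by decide +kernel) (q_cons (Vale.Agent.P032.Lt.q R0Q041.q857_0) (q_cons (Vale.Agent.P032.Lt.q R0Q041.q857_1) (q_cons (Vale.Agent.P032.Lt.q R0Q041.q857_2) q_nil))))

theorem p858 : Pat 73 73 TBm TCm (CB.map Fm) R0Q041.P858 R0Q041.I858 := Vale.Agent.P032.Lt.pat_eq (E' := R0Q041.E) eB (pat_step (by decide +kernel) (q_cons (Vale.Agent.P032.Lt.q R0Q041.q858_0) (q_cons (Vale.Agent.P032.Lt.q R0Q041.q858_1) (q_cons (Vale.Agent.P032.Lt.q R0Q041.q858_2) (q_cons (Vale.Agent.P032.Lt.q R0Q041.q858_3) (q_cons (Vale.Agent.P032.Lt.q R0Q041.q858_4) q_nil))))))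

theorem p859 : Pat 73 73 TBm TCm (CB.map Fm) R0Q041.P859 R0Q041.I859 := Vale.Agent.P032.Lt.pat_eq (E' := R0Q041.E) eB (pat_step (by decide +kernel) (q_cons (Vale.Agent.P032.Lt.q R0Q041.q859_0) (q_cons (Vale.Agent.P032.Lt.q R0Q041.q859_1) (q_cons (Vale.Agent.P032.Lt.q R0Q041.q859_2) (q_cons (Vale.Agent.P032.Lt.q R0Q041.q859_3) (q_cons (Vale.Agent.P032.Lt.q R0Q041.q859_4) (q_cons (Vale.Agent.P032.Lt.q R0Q041.q859_5) (q_cons (Vale.Agent.P032.Lt.q R0Q041.q859_6) (q_cons (Vale.Agent.P032.Lt.q R0Q041.q859_7) (q_cons (Vale.Agent.P032.Lt.q R0Q041.q859_8) (q_cons (Vale.Agent.P032.Lt.q R0Q041.q859_9) (q_cons (Vale.Agent.P032.Lt.q R0Q041.q859_10) (q_cons (Vale.Agent.P032.Lt.q R0Q041.q859_11) (q_cons (Vale.Agent.P032.Lt.q R0Q041.q859_12) (q_cons (Vale.Agent.P032.Lt.q R0Q041.q859_13) (q_cons (Vale.Agent.P032.Lt.q R0Q041.q859_14) (q_cons (Vale.Agent.P032.Lt.q R0Q041.q859_15)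 (q_cons (Vale.Agent.P032.Lt.q R0Q041.q859_16) (q_cons (Vale.Agent.P032.Lt.q R0Q041.q859_17) (q_cons (Vale.Agent.P032.Lt.q R0Q041.q859_18) (q_cons (Vale.Agent.P032.Lt.q R0Q041.q859_19) (q_cons (Vale.Agent.P032.Lt.q R0Q041.q859_20) q_nil))))))))))))))))))))))

theorem p860 : Pat 73 73 TBm TCm (CB.map Fm) R0Q041.P860 R0Q041.I860 := Vale.Agent.P032.Lt.pat_eq (E' := R0Q041.E) eB (pat_step (by decide +kernel) (q_cons (Vale.Agent.P032.Lt.q R0Q041.q860_0) q_nil))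

theorem p861 : Pat 73 73 TBm TCm (CB.map Fm) R0Q041.P861 R0Q041.I861 := Vale.Agent.P032.Lt.pat_eq (E' := R0Q041.E) eB (pat_step (by decide +kernel) (q_cons (Vale.Agent.P032.Lt.q R0Q041.q861_0) q_nil))

theorem p862 : Pat 73 73 TBm TCm (CB.map Fm) R0Q041.P862 R0Q041.I862 := Vale.Agent.P032.Lt.pat_eq (E' := R0Q041.E) eB (pat_step (by decide +kernel) (q_cons (Vale.Agent.P032.Lt.q R0Q041.q862_0) q_nil))

theorem p863 : Pat 73 73 TBm TCm (CB.map Fm) R0Q042.P863 R0Q042.I863 := Vale.Agent.P032.Lt.pat_eq (E' := R0Q042.E) eB (pat_step (by decide +kernel) (q_cons (Vale.Agent.P032.Lt.q R0Q042.q863_0) (q_cons (Vale.Agent.P032.Lt.q R0Q042.q863_1) q_nil)))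

theorem p864 : Pat 73 73 TBm TCm (CB.map Fm) R0Q042.P864 R0Q042.I864 := Vale.Agent.P032.Lt.pat_eq (E' := R0Q042.E) eB (pat_step (by decide +kernel) (q_cons (Vale.Agent.P032.Lt.q R0Q042.q864_0) q_nil))

theorem p865 : Pat 73 73 TBm TCm (CB.map Fm) R0Q042.P865 R0Q042.I865 := Vale.Agent.P032.Lt.pat_eq (E' := R0Q042.E) eB (pat_step (by decide +kernel) (q_cons (Vale.Agent.P032.Lt.q R0Q042.q865_0) q_nil))

theorem p866 : Pat 73 73 TBm TCm (CB.map Fm) R0Q042.P866 R0Q042.I866 := Vale.Agent.P032.Lt.pat_eq (E' := R0Q042.E) eB (pat_step (by decide +kernel) (q_cons (Vale.Agent.P032.Lt.q R0Q042.q866_0) q_nil))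

theorem p867 : Pat 73 73 TBm TCm (CB.map Fm) R0Q042.P867 R0Q042.I867 := Vale.Agent.P032.Lt.pat_eq (E' := R0Q042.E) eB (pat_step (by decide +kernel) (q_cons (Vale.Agent.P032.Lt.q R0Q042.q867_0) q_nil))

theorem p868 : Pat 73 73 TBm TCm (CB.map Fm) R0Q042.P868 R0Q042.I868 := Vale.Agent.P032.Lt.pat_eq (E' := R0Q042.E) eB (pat_step (by decide +kernel) (q_cons (Vale.Agent.P032.Lt.q R0Q042.q868_0) q_nil))

theorem p869 : Pat 73 73 TBm TCm (CB.map Fm) R0Q042.P869 R0Q042.I869 := Vale.Agent.P032.Lt.pat_eq (E' := R0Q042.E) eB (pat_step (by decide +kernel) (q_cons (Vale.Agent.P032.Lt.q R0Q042.q869_0) q_nil))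

theorem p870 : Pat 73 73 TBm TCm (CB.map Fm) R0Q042.P870 R0Q042.I870 := Vale.Agent.P032.Lt.pat_eq (E' := R0Q042.E) eB (pat_step (by decide +kernel) (q_cons (Vale.Agent.P032.Lt.q R0Q042.q870_0) (q_cons (Vale.Agent.P032.Lt.q R0Q042.q870_1) q_nil)))

theorem p871 : Pat 73 73 TBm TCm (CB.map Fm) R0Q042.P871 R0Q042.I871 := Vale.Agent.P032.Lt.pat_eq (E' := R0Q042.E) eB (pat_step (by decide +kernel) (q_cons (Vale.Agent.P032.Lt.q R0Q042.q871_0) q_nil))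

theorem p872 : Pat 73 73 TBm TCm (CB.map Fm) R0Q042.P872 R0Q042.I872 := Vale.Agent.P032.Lt.pat_eq (E' := R0Q042.E) eB (pat_step (by decide +kernel) (q_cons (Vale.Agent.P032.Lt.q R0Q042.q872_0) (q_cons (Vale.Agent.P032.Lt.q R0Q042.q872_1) q_nil)))

def C873 : List ℕ := [0, 4, 8, 12, 16, 20, 24, 344065, 475137, 737281]
theorem p873 : Pat 73 73 TBm TCm (C873.map Fm) R0Q042.P873 R0Q042.I873 := Vale.Agent.P032.Lt.pat_eq (E' := R0Q042.E873) (by decide +kernel) (pat_step (by decide +kernel) (q_cons (Vale.Agent.P032.Lt.q R0Q042.q873_0) (q_cons (Vale.Agent.P032.Lt.q R0Q042.q873_1) (q_cons (Vale.Agent.P032.Lt.q R0Q042.q873_2) q_nil))))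

theorem p874 : Pat 73 73 TBm TCm (CB.map Fm) R0Q042.P874 R0Q042.I874 := Vale.Agent.P032.Lt.pat_eq (E' := R0Q042.E) eB (pat_step (by decide +kernel) (q_cons (Vale.Agent.P032.Lt.q R0Q042.q874_0) (q_cons (Vale.Agent.P032.Lt.q R0Q042.q874_1) q_nil)))

theorem p875 : Pat 73 73 TBm TCm (CB.map Fm) R0Q042.P875 R0Q042.I875 := Vale.Agent.P032.Lt.pat_eq (E' := R0Q042.E) eB (pat_step (by decide +kernel) (q_cons (Vale.Agent.P032.Lt.q R0Q042.q875_0) (q_cons (Vale.Agent.P032.Lt.q R0Q042.q875_1) q_nil)))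

theorem p876 : Pat 73 73 TBm TCm (CB.map Fm) R0Q042.P876 R0Q042.I876 := Vale.Agent.P032.Lt.pat_eq (E' := R0Q042.E) eB (pat_step (by decide +kernel) (q_cons (Vale.Agent.P032.Lt.q R0Q042.q876_0) (q_cons (Vale.Agent.P032.Lt.q R0Q042.q876_1) (q_cons (Vale.Agent.P032.Lt.q R0Q042.q876_2) (q_cons (Vale.Agent.P032.Lt.q R0Q042.q876_3) q_nil)))))

theorem p877 : Pat 73 73 TBm TCm (CB.map Fm) R0Q042.P877 R0Q042.I877 := Vale.Agent.P032.Lt.pat_eq (E' := R0Q042.E) eB (pat_step (by decide +kernel) (q_cons (Vale.Agent.P032.Lt.q R0Q042.q877_0) q_nil))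

theorem p878 : Pat 73 73 TBm TCm (CB.map Fm) R0Q042.P878 R0Q042.I878 := Vale.Agent.P032.Lt.pat_eq (E' := R0Q042.E) eB (pat_step (by decide +kernel) (q_cons (Vale.Agent.P032.Lt.q R0Q042.q878_0) q_nil))

theorem p879 : Pat 73 73 TBm TCm (CB.map Fm) R0Q042.P879 R0Q042.I879 := Vale.Agent.P032.Lt.pat_eq (E' := R0Q042.E) eB (pat_step (by decide +kernel) (q_cons (Vale.Agent.P032.Lt.q R0Q042.q879_0) (q_cons (Vale.Agent.P032.Lt.q R0Q042.q879_1) (q_cons (Vale.Agent.P032.Lt.q R0Q042.q879_2) (q_cons (Vale.Agent.P032.Lt.q R0Q042.q879_3) q_nil)))))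

theorem p880 : Pat 73 73 TBm TCm (CB.map Fm) R0Q042.P880 R0Q042.I880 := Vale.Agent.P032.Lt.pat_eq (E' := R0Q042.E) eB (pat_step (by decide +kernel) (q_cons (Vale.Agent.P032.Lt.q R0Q042.q880_0) q_nil))

theorem p881 : Pat 73 73 TBm TCm (CB.map Fm) R0Q042.P881 R0Q042.I881 := Vale.Agent.P032.Lt.pat_eq (E' := R0Q042.E) eB (pat_step (by decide +kernel) (q_cons (Vale.Agent.P032.Lt.q R0Q042.q881_0) (q_cons (Vale.Agent.P032.Lt.q R0Q042.q881_1) (q_cons (Vale.Agent.P032.Lt.q R0Q042.q881_2) (q_cons (Vale.Agent.P032.Lt.q R0Q042.q881_3) q_nil)))))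

def C882 : List ℕ := [0, 4, 8, 12, 16, 20, 24, 212993, 475137, 617473, 737281]
theorem p882 : Pat 73 73 TBm TCm (C882.map Fm) R0Q042.P882 R0Q042.I882 := Vale.Agent.P032.Lt.pat_eq (E' := R0Q042.E882) (by decide +kernel) (pat_step (by decide +kernel) (q_cons (Vale.Agent.P032.Lt.q R0Q042.q882_0) (q_cons (Vale.Agent.P032.Lt.q R0Q042.q882_1) (q_cons (Vale.Agent.P032.Lt.q R0Q042.q882_2) (q_cons (Vale.Agent.P032.Lt.q R0Q042.q882_3) q_nil)))))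

theorem p883 : Pat 73 73 TBm TCm (CB.map Fm) R0Q042.P883 R0Q042.I883 := Vale.Agent.P032.Lt.pat_eq (E' := R0Q042.E) eB (pat_step (by decide +kernel) (q_cons (Vale.Agent.P032.Lt.q R0Q042.q883_0) (q_cons (Vale.Agent.P032.Lt.q R0Q042.q883_1) (q_cons (Vale.Agent.P032.Lt.q R0Q042.q883_2) (q_cons (Vale.Agent.P032.Lt.q R0Q042.q883_3) (q_cons (Vale.Agent.P032.Lt.q R0Q042.q883_4) (q_cons (Vale.Agent.P032.Lt.q R0Q042.q883_5) (q_cons (Vale.Agent.P032.Lt.q R0Q042.q883_6) q_nil))))))))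

theorem p884 : Pat 73 73 TBm TCm (CB.map Fm) R0Q042.P884 R0Q042.I884 := Vale.Agent.P032.Lt.pat_eq (E' := R0Q042.E) eB (pat_step (by decide +kernel) (q_cons (Vale.Agent.P032.Lt.q R0Q042.q884_0) (q_cons (Vale.Agent.P032.Lt.q R0Q042.q884_1) (q_cons (Vale.Agent.P032.Lt.q R0Q042.q884_2) (q_cons (Vale.Agent.P032.Lt.q R0Q042.q884_3) (q_cons (Vale.Agent.P032.Lt.q R0Q042.q884_4) q_nil))))))

theorem p885 : Pat 73 73 TBm TCm (CB.map Fm) R0Q042.P885 R0Q042.I885 := Vale.Agent.P032.Lt.pat_eq (E' := R0Q042.E) eB (pat_step (by decide +kernel) (q_cons (Vale.Agent.P032.Lt.q R0Q042.q885_0) (q_cons (Vale.Agent.P032.Lt.q R0Q042.q885_1) q_nil)))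

theorem p886 : Pat 73 73 TBm TCm (CB.map Fm) R0Q042.P886 R0Q042.I886 := Vale.Agent.P032.Lt.pat_eq (E' := R0Q042.E) eB (pat_step (by decide +kernel) (q_cons (Vale.Agent.P032.Lt.q R0Q042.q886_0) q_nil))

theorem p887 : Pat 73 73 TBm TCm (CB.map Fm) R0Q042.P887 R0Q042.I887 := Vale.Agent.P032.Lt.pat_eq (E' := R0Q042.E) eB (pat_step (by decide +kernel) (q_cons (Vale.Agent.P032.Lt.q R0Q042.q887_0) q_nil))

theorem p888 : Pat 73 73 TBm TCm (CB.map Fm) R0Q042.P888 R0Q042.I888 := Vale.Agent.P032.Lt.pat_eq (E' := R0Q042.E) eB (pat_step (by decide +kernel) (q_cons (Vale.Agent.P032.Lt.q R0Q042.q888_0) (q_cons (Vale.Agent.P032.Lt.q R0Q042.q888_1) q_nil)))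

theorem p889 : Pat 73 73 TBm TCm (CB.map Fm) R0Q042.P889 R0Q042.I889 := Vale.Agent.P032.Lt.pat_eq (E' := R0Q042.E) eB (pat_step (by decide +kernel) (q_cons (Vale.Agent.P032.Lt.q R0Q042.q889_0) (q_cons (Vale.Agent.P032.Lt.q R0Q042.q889_1) (q_cons (Vale.Agent.P032.Lt.q R0Q042.q889_2) q_nil))))

theorem p890 : Pat 73 73 TBm TCm (CB.map Fm) R0Q042.P890 R0Q042.I890 := Vale.Agent.P032.Lt.pat_eq (E' := R0Q042.E) eB (pat_step (by decide +kernel) (q_cons (Vale.Agent.P032.Lt.q R0Q042.q890_0) (q_cons (Vale.Agent.P032.Lt.q R0Q042.q890_1) (q_cons (Vale.Agent.P032.Lt.q R0Q042.q890_2) (q_cons (Vale.Agent.P032.Lt.q R0Q042.q890_3) q_nil)))))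

theorem p891 : Pat 73 73 TBm TCm (CB.map Fm) R0Q042.P891 R0Q042.I891 := Vale.Agent.P032.Lt.pat_eq (E' := R0Q042.E) eB (pat_step (by decide +kernel) (q_cons (Vale.Agent.P032.Lt.q R0Q042.q891_0) (q_cons (Vale.Agent.P032.Lt.q R0Q042.q891_1) (q_cons (Vale.Agent.P032.Lt.q R0Q042.q891_2) q_nil))))

theorem p892 : Pat 73 73 TBm TCm (CB.map Fm) R0Q042.P892 R0Q042.I892 := Vale.Agent.P032.Lt.pat_eq (E' := R0Q042.E) eB (pat_step (by decide +kernel) (q_cons (Vale.Agent.P032.Lt.q R0Q042.q892_0) (q_cons (Vale.Agent.P032.Lt.q R0Q042.q892_1) q_nil)))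

theorem p893 : Pat 73 73 TBm TCm (CB.map Fm) R0Q042.P893 R0Q042.I893 := Vale.Agent.P032.Lt.pat_eq (E' := R0Q042.E) eB (pat_step (by decide +kernel) (q_cons (Vale.Agent.P032.Lt.q R0Q042.q893_0) (q_cons (Vale.Agent.P032.Lt.q R0Q042.q893_1) q_nil)))

theorem p894 : Pat 73 73 TBm TCm (CB.map Fm) R0Q042.P894 R0Q042.I894 := Vale.Agent.P032.Lt.pat_eq (E' := R0Q042.E) eB (pat_step (by decide +kernel) (q_cons (Vale.Agent.P032.Lt.q R0Q042.q894_0) (q_cons (Vale.Agent.P032.Lt.q R0Q042.q894_1) (q_cons (Vale.Agent.P032.Lt.q R0Q042.q894_2) (q_cons (Vale.Agent.P032.Lt.q R0Q042.q894_3) (q_cons (Vale.Agent.P032.Lt.q R0Q042.q894_4) (q_cons (Vale.Agent.P032.Lt.q R0Q042.q894_5) (q_cons (Vale.Agent.P032.Lt.q R0Q042.q894_6) (q_cons (Vale.Agent.P032.Lt.q R0Q042.q894_7) (q_cons (Vale.Agent.P032.Lt.q R0Q042.q894_8) (q_cons (Vale.Agent.P032.Lt.q R0Q042.q894_9) (q_cons (Vale.Agent.P032.Lt.q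 R0Q042.q894_10) q_nil))))))))))))

theorem p895 : Pat 73 73 TBm TCm (CB.map Fm) R0Q042.P895 R0Q042.I895 := Vale.Agent.P032.Lt.pat_eq (E' := R0Q042.E) eB (pat_step (by decide +kernel) (q_cons (Vale.Agent.P032.Lt.q R0Q042.q895_0) q_nil))

def L : List (List ℕ) := [R0Q038.P768, R0Q038.P769, R0Q038.P770, R0Q038.P771, R0Q038.P772, R0Q038.P773, R0Q038.P774, R0Q038.P775, R0Q038.P776, R0Q038.P777, R0Q038.P778, R0Q038.P779, R0Q038.P780, R0Q038.P781, R0Q038.P782, R0Q038.P783, R0Q038.P784, R0Q038.P785, R0Q038.P786, R0Q038.P787, R0Q039.P788, R0Q039.P789, R0Q039.P790, R0Q039.P791, R0Q039.P792, R0Q039.P793, R0Q039.P794, R0Q039.P795, R0Q039.P796, R0Q039.P797, R0Q039.P798, R0Q039.P799, R0Q039.P800, R0Q039.P801, R0Q039.P802, R0Q039.P803, R0Q039.P804, R0Q039.P805, R0Q039.P806, R0Q040.P807, R0Q040.P808, R0Q040.P809, R0Q040.P810, R0Q040.P811, R0Q040.P812, R0Q040.P813, R0Q040.P814,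 R0Q040.P815, R0Q040.P816, R0Q040.P817, R0Q040.P818, R0Q040.P819, R0Q040.P820, R0Q040.P821, R0Q040.P822, R0Q040.P823, R0Q040.P824, R0Q040.P825, R0Q040.P826, R0Q040.P827, R0Q040.P828, R0Q040.P829, R0Q040.P830, R0Q040.P831, R0Q040.P832, R0Q040.P833, R0Q040.P834, R0Q040.P835, R0Q040.P836, R0Q040.P837, R0Q040.P838, R0Q041.P839, R0Q041.P840, R0Q041.P841, R0Q041.P842, R0Q041.P843, R0Q041.P844, R0Q041.P845, R0Q041.P846, R0Q041.P847, R0Q041.P848, R0Q041.P849, R0Q041.P850, R0Q041.P851, R0Q041.P852, R0Q041.P853, R0Q041.P854, R0Q041.P855, R0Q041.P856, R0Q041.P857, R0Q041.P858, R0Q041.P859, R0Q041.P860, R0Q041.P861, R0Q041.P862, R0Q042.P863, R0Q042.P864, R0Q042.P865, R0Q042.P866, R0Q042.P867, R0Q042.P868, R0Q042.P869, R0Q042.P870, R0Q042.P871, R0Q042.P872, R0Q042.P873, R0Q042.P874, R0Q042.P875, R0Q042.P876, R0Q042.P877, R0Q042.P878, R0Q042.P879, R0Q042.P880, R0Q042.P881,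 R0Q042.P882, R0Q042.P883, R0Q042.P884, R0Q042.P885, R0Q042.P886, R0Q042.P887, R0Q042.P888, R0Q042.P889, R0Q042.P890, R0Q042.P891, R0Q042.P892, R0Q042.P893, R0Q042.P894, R0Q042.P895]

theorem all : ∀ P ∈ L, CrtF 73 73 TBm TCm (Vale.Agent.P032.Fam.fam2 (Vale.Agent.P032.Fam.im0)) P := crtF_cons p768 (crtF_cons p769 (crtF_cons p770 (crtF_cons p771 (crtF_cons p772 (crtF_cons p773 (crtF_cons p774 (crtF_cons p775 (crtF_cons p776 (crtF_cons p777 (crtF_cons p778 (crtF_cons p779 (crtF_cons p780 (crtF_cons p781 (crtF_cons p782 (crtF_cons p783 (crtF_cons p784 (crtF_cons p785 (crtF_cons p786 (crtF_cons p787 (crtF_cons p788 (crtF_cons p789 (crtF_cons p790 (crtF_cons p791 (crtF_cons p792 (crtF_cons p793 (crtF_cons p794 (crtF_cons p795 (crtF_cons p796 (crtF_cons p797 (crtF_cons p798 (crtF_cons p799 (crtF_cons p800 (crtF_cons p801 (crtF_cons p802 (crtF_cons p803 (crtF_cons p804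 (crtF_cons p805 (crtF_cons p806 (crtF_cons p807 (crtF_cons p808 (crtF_cons p809 (crtF_cons p810 (crtF_cons p811 (crtF_cons p812 (crtF_cons p813 (crtF_cons p814 (crtF_cons p815 (crtF_cons p816 (crtF_cons p817 (crtF_cons p818 (crtF_cons p819 (crtF_cons p820 (crtF_cons p821 (crtF_cons p822 (crtF_cons p823 (crtF_cons p824 (crtF_cons p825 (crtF_cons p826 (crtF_cons p827 (crtF_cons p828 (crtF_cons p829 (crtF_cons p830 (crtF_cons p831 (crtF_cons p832 (crtF_cons p833 (crtF_cons p834 (crtF_cons p835 (crtF_cons p836 (crtF_cons p837 (crtF_cons p838 (crtF_cons p839 (crtF_cons p840 (crtF_cons p841 (crtF_cons p842 (crtF_cons p843 (crtF_cons p844 (crtF_cons p845 (crtF_cons p846 (crtF_cons p847 (crtF_cons p848 (crtF_cons p849 (crtF_cons p850 (crtF_cons p851 (crtF_cons p852 (crtF_cons p853 (crtF_cons p854 (crtF_cons p855 (crtF_cons p856 (crtF_cons p857 (crtF_cons p858 (crtF_cons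 p859 (crtF_cons p860 (crtF_cons p861 (crtF_cons p862 (crtF_cons p863 (crtF_cons p864 (crtF_cons p865 (crtF_cons p866 (crtF_cons p867 (crtF_cons p868 (crtF_cons p869 (crtF_cons p870 (crtF_cons p871 (crtF_cons p872 (crtF_cons p873 (crtF_cons p874 (crtF_cons p875 (crtF_cons p876 (crtF_cons p877 (crtF_cons p878 (crtF_cons p879 (crtF_cons p880 (crtF_cons p881 (crtF_cons p882 (crtF_cons p883 (crtF_cons p884 (crtF_cons p885 (crtF_cons p886 (crtF_cons p887 (crtF_cons p888 (crtF_cons p889 (crtF_cons p890 (crtF_cons p891 (crtF_cons p892 (crtF_cons p893 (crtF_cons p894 (crtF_cons p895 crtF_nil)))))))))))))))))))))))))))))))))))))))))))))))))))))))))))))))))))))))))))))))))))))))))))))))))))))))))))))))))))))))))))))))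

theorem ch : chT 73 73 TCm s0_006 L = true := by decide +kernel

end Vale.Agent.P032X.Cert.XP.B1.R0H006
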