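import Vale.Agent.P032X.H892.LtH
import Vale.Agent.P032X.H286.W73
import Vale.Agent.P032X.Cert.XP.B1.R0T
import Vale.Agent.P032X.Cert.XP.B1.R0Q043
import Vale.Agent.P032X.Cert.XP.B1.R0Q044
import Vale.Agent.P032X.Cert.XP.B1.R0Q045
import Vale.Agent.P032X.Cert.XP.B1.R0Q046
import Vale.Agent.P032X.Cert.XP.B1.R0Q047
import Vale.Agent.P032X.Cert.XP.B1.R0Q048

set_option maxRecDepth 1000000

namespace Vale.Agent.P032X.Cert.XP.B1.R0H007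

open Vale.Agent.P032.H820.K Vale.Agent.P032.H357.MK Vale.Agent.P032.H286.E Vale.Agent.P032.H61 Vale.Agent.P032X.Cert.XP.B1

noncomputable abbrev Fm : ℕ → List ℕ := Vale.Agent.P032.Fam.fam2 (Vale.Agent.P032.Fam.im0)

def CB : List ℕ := [0, 4, 8, 12, 16, 20, 24]

theorem eB : Vale.Agent.P032.Lt.eqLL (CB.map Fm) R0Q043.E = true := by decide +kernel

theorem p896 : Pat 73 73 TBm TCm (CB.map Fm) R0Q043.P896 R0Q043.I896 := Vale.Agent.P032.Lt.pat_eq (E' := R0Q043.E) eB (pat_step (by decide +kernel) (q_cons (Vale.Agent.P032.Lt.q R0Q043.q896_0) q_nil))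

theorem p897 : Pat 73 73 TBm TCm (CB.map Fm) R0Q043.P897 R0Q043.I897 := Vale.Agent.P032.Lt.pat_eq (E' := R0Q043.E) eB (pat_step (by decide +kernel) (q_cons (Vale.Agent.P032.Lt.q R0Q043.q897_0) q_nil))

theorem p898 : Pat 73 73 TBm TCm (CB.map Fm) R0Q043.P898 R0Q043.I898 := Vale.Agent.P032.Lt.pat_eq (E' := R0Q043.E) eB (pat_step (by decide +kernel) (q_cons (Vale.Agent.P032.Lt.q R0Q043.q898_0) q_nil))

theorem p899 : Pat 73 73 TBm TCm (CB.map Fm) R0Q043.P899 R0Q043.I899 := Vale.Agent.P032.Lt.pat_eq (E' := R0Q043.E) eB (pat_step (by decide +kernel) (q_cons (Vale.Agent.P032.Lt.q R0Q043.q899_0) q_nil))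

theorem p900 : Pat 73 73 TBm TCm (CB.map Fm) R0Q043.P900 R0Q043.I900 := Vale.Agent.P032.Lt.pat_eq (E' := R0Q043.E) eB (pat_step (by decide +kernel) (q_cons (Vale.Agent.P032.Lt.q R0Q043.q900_0) q_nil))

theorem p901 : Pat 73 73 TBm TCm (CB.map Fm) R0Q043.P901 R0Q043.I901 := Vale.Agent.P032.Lt.pat_eq (E' := R0Q043.E) eB (pat_step (by decide +kernel) (q_cons (Vale.Agent.P032.Lt.q R0Q043.q901_0) q_nil))

theorem p902 : Pat 73 73 TBm TCm (CB.map Fm) R0Q043.P902 R0Q043.I902 := Vale.Agent.P032.Lt.pat_eq (E' := R0Q043.E) eB (pat_step (by decide +kernel) (q_cons (Vale.Agent.P032.Lt.q R0Q043.q902_0) (q_cons (Vale.Agent.P032.Lt.q R0Q043.q902_1) q_nil)))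

theorem p903 : Pat 73 73 TBm TCm (CB.map Fm) R0Q043.P903 R0Q043.I903 := Vale.Agent.P032.Lt.pat_eq (E' := R0Q043.E) eB (pat_step (by decide +kernel) (q_cons (Vale.Agent.P032.Lt.q R0Q043.q903_0) (q_cons (Vale.Agent.P032.Lt.q R0Q043.q903_1) q_nil)))

theorem p904 : Pat 73 73 TBm TCm (CB.map Fm) R0Q043.P904 R0Q043.I904 := Vale.Agent.P032.Lt.pat_eq (E' := R0Q043.E) eB (pat_step (by decide +kernel) (q_cons (Vale.Agent.P032.Lt.q R0Q043.q904_0) (q_cons (Vale.Agent.P032.Lt.q R0Q043.q904_1) (q_cons (Vale.Agent.P032.Lt.q R0Q043.q904_2) (q_cons (Vale.Agent.P032.Lt.q R0Q043.q904_3) (q_cons (Vale.Agent.P032.Lt.q R0Q043.q904_4) (q_cons (Vale.Agent.P032.Lt.q R0Q043.q904_5) q_nil)))))))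

theorem p905 : Pat 73 73 TBm TCm (CB.map Fm) R0Q043.P905 R0Q043.I905 := Vale.Agent.P032.Lt.pat_eq (E' := R0Q043.E) eB (pat_step (by decide +kernel) (q_cons (Vale.Agent.P032.Lt.q R0Q043.q905_0) q_nil))

theorem p906 : Pat 73 73 TBm TCm (CB.map Fm) R0Q043.P906 R0Q043.I906 := Vale.Agent.P032.Lt.pat_eq (E' := R0Q043.E) eB (pat_step (by decide +kernel) (q_cons (Vale.Agent.P032.Lt.q R0Q043.q906_0) (q_cons (Vale.Agent.P032.Lt.q R0Q043.q906_1) q_nil)))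

theorem p907 : Pat 73 73 TBm TCm (CB.map Fm) R0Q043.P907 R0Q043.I907 := Vale.Agent.P032.Lt.pat_eq (E' := R0Q043.E) eB (pat_step (by decide +kernel) (q_cons (Vale.Agent.P032.Lt.q R0Q043.q907_0) q_nil))

theorem p908 : Pat 73 73 TBm TCm (CB.map Fm) R0Q043.P908 R0Q043.I908 := Vale.Agent.P032.Lt.pat_eq (E' := R0Q043.E) eB (pat_step (by decide +kernel) (q_cons (Vale.Agent.P032.Lt.q R0Q043.q908_0) (q_cons (Vale.Agent.P032.Lt.q R0Q043.q908_1) (q_cons (Vale.Agent.P032.Lt.q R0Q043.q908_2) (q_cons (Vale.Agent.P032.Lt.q R0Q043.q908_3) q_nil)))))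

theorem p909 : Pat 73 73 TBm TCm (CB.map Fm) R0Q043.P909 R0Q043.I909 := Vale.Agent.P032.Lt.pat_eq (E' := R0Q043.E) eB (pat_step (by decide +kernel) (q_cons (Vale.Agent.P032.Lt.q R0Q043.q909_0) q_nil))

theorem p910 : Pat 73 73 TBm TCm (CB.map Fm) R0Q043.P910 R0Q043.I910 := Vale.Agent.P032.Lt.pat_eq (E' := R0Q043.E) eB (pat_step (by decide +kernel) (q_cons (Vale.Agent.P032.Lt.q R0Q043.q910_0) (q_cons (Vale.Agent.P032.Lt.q R0Q043.q910_1) (q_cons (Vale.Agent.P032.Lt.q R0Q043.q910_2) (q_cons (Vale.Agent.P032.Lt.q R0Q043.q910_3) (q_cons (Vale.Agent.P032.Lt.q R0Q043.q910_4) (q_cons (Vale.Agent.P032.Lt.q R0Q043.q910_5) (q_cons (Vale.Agent.P032.Lt.q R0Q043.q910_6) (q_cons (Vale.Agent.P032.Lt.q R0Q043.q910_7) (q_cons (Vale.Agent.P032.Lt.q R0Q043.q910_8) (q_cons (Vale.Agent.P032.Lt.q R0Q043.q910_9) (q_cons (Vale.Agent.P032.Lt.q R0Q043.q910_10) (q_cons (Vale.Agent.P032.Lt.q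 R0Q043.q910_11) (q_cons (Vale.Agent.P032.Lt.q R0Q043.q910_12) (q_cons (Vale.Agent.P032.Lt.q R0Q043.q910_13) (q_cons (Vale.Agent.P032.Lt.q R0Q043.q910_14) (q_cons (Vale.Agent.P032.Lt.q R0Q043.q910_15) (q_cons (Vale.Agent.P032.Lt.q R0Q043.q910_16) (q_cons (Vale.Agent.P032.Lt.q R0Q043.q910_17) (q_cons (Vale.Agent.P032.Lt.q R0Q043.q910_18) (q_cons (Vale.Agent.P032.Lt.q R0Q043.q910_19) (q_cons (Vale.Agent.P032.Lt.q R0Q043.q910_20) (q_cons (Vale.Agent.P032.Lt.q R0Q043.q910_21) (q_cons (Vale.Agent.P032.Lt.q R0Q043.q910_22) (q_cons (Vale.Agent.P032.Lt.q R0Q043.q910_23) q_nil)))))))))))))))))))))))))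

theorem p911 : Pat 73 73 TBm TCm (CB.map Fm) R0Q043.P911 R0Q043.I911 := Vale.Agent.P032.Lt.pat_eq (E' := R0Q043.E) eB (pat_step (by decide +kernel) (q_cons (Vale.Agent.P032.Lt.q R0Q043.q911_0) (q_cons (Vale.Agent.P032.Lt.q R0Q043.q911_1) (q_cons (Vale.Agent.P032.Lt.q R0Q043.q911_2) (q_cons (Vale.Agent.P032.Lt.q R0Q043.q911_3) (q_cons (Vale.Agent.P032.Lt.q R0Q043.q911_4) q_nil))))))

theorem p912 : Pat 73 73 TBm TCm (CB.map Fm) R0Q043.P912 R0Q043.I912 := Vale.Agent.P032.Lt.pat_eq (E' := R0Q043.E) eB (pat_step (by decide +kernel) (q_cons (Vale.Agent.P032.Lt.q R0Q043.q912_0) (q_cons (Vale.Agent.P032.Lt.q R0Q043.q912_1) (q_cons (Vale.Agent.P032.Lt.q R0Q043.q912_2) q_nil))))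

theorem p913 : Pat 73 73 TBm TCm (CB.map Fm) R0Q043.P913 R0Q043.I913 := Vale.Agent.P032.Lt.pat_eq (E' := R0Q043.E) eB (pat_step (by decide +kernel) (q_cons (Vale.Agent.P032.Lt.q R0Q043.q913_0) (q_cons (Vale.Agent.P032.Lt.q R0Q043.q913_1) (q_cons (Vale.Agent.P032.Lt.q R0Q043.q913_2) (q_cons (Vale.Agent.P032.Lt.q R0Q043.q913_3) (q_cons (Vale.Agent.P032.Lt.q R0Q043.q913_4) (q_cons (Vale.Agent.P032.Lt.q R0Q043.q913_5) q_nil)))))))

theorem p914 : Pat 73 73 TBm TCm (CB.map Fm) R0Q043.P914 R0Q043.I914 := Vale.Agent.P032.Lt.pat_eq (E' := R0Q043.E) eB (pat_step (by decide +kernel) (q_cons (Vale.Agent.P032.Lt.q R0Q043.q914_0) (q_cons (Vale.Agent.P032.Lt.q R0Q043.q914_1) q_nil)))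

theorem p915 : Pat 73 73 TBm TCm (CB.map Fm) R0Q043.P915 R0Q043.I915 := Vale.Agent.P032.Lt.pat_eq (E' := R0Q043.E) eB (pat_step (by decide +kernel) (q_cons (Vale.Agent.P032.Lt.q R0Q043.q915_0) q_nil))

theorem p916 : Pat 73 73 TBm TCm (CB.map Fm) R0Q043.P916 R0Q043.I916 := Vale.Agent.P032.Lt.pat_eq (E' := R0Q043.E) eB (pat_step (by decide +kernel) (q_cons (Vale.Agent.P032.Lt.q R0Q043.q916_0) q_nil))

theorem p917 : Pat 73 73 TBm TCm (CB.map Fm) R0Q043.P917 R0Q043.I917 := Vale.Agent.P032.Lt.pat_eq (E' := R0Q043.E) eB (pat_step (by decide +kernel) (q_cons (Vale.Agent.P032.Lt.q R0Q043.q917_0) (q_cons (Vale.Agent.P032.Lt.q R0Q043.q917_1) q_nil)))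

theorem p918 : Pat 73 73 TBm TCm (CB.map Fm) R0Q043.P918 R0Q043.I918 := Vale.Agent.P032.Lt.pat_eq (E' := R0Q043.E) eB (pat_step (by decide +kernel) (q_cons (Vale.Agent.P032.Lt.q R0Q043.q918_0) (q_cons (Vale.Agent.P032.Lt.q R0Q043.q918_1) q_nil)))

theorem p919 : Pat 73 73 TBm TCm (CB.map Fm) R0Q043.P919 R0Q043.I919 := Vale.Agent.P032.Lt.pat_eq (E' := R0Q043.E) eB (pat_step (by decide +kernel) (q_cons (Vale.Agent.P032.Lt.q R0Q043.q919_0) (q_cons (Vale.Agent.P032.Lt.q R0Q043.q919_1) (q_cons (Vale.Agent.P032.Lt.q R0Q043.q919_2) (q_cons (Vale.Agent.P032.Lt.q R0Q043.q919_3) (q_cons (Vale.Agent.P032.Lt.q R0Q043.q919_4) (q_cons (Vale.Agent.P032.Lt.q R0Q043.q919_5) (q_cons (Vale.Agent.P032.Lt.q R0Q043.q919_6) q_nil))))))))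

theorem p920 : Pat 73 73 TBm TCm (CB.map Fm) R0Q043.P920 R0Q043.I920 := Vale.Agent.P032.Lt.pat_eq (E' := R0Q043.E) eB (pat_step (by decide +kernel) (q_cons (Vale.Agent.P032.Lt.q R0Q043.q920_0) (q_cons (Vale.Agent.P032.Lt.q R0Q043.q920_1) (q_cons (Vale.Agent.P032.Lt.q R0Q043.q920_2) (q_cons (Vale.Agent.P032.Lt.q R0Q043.q920_3) (q_cons (Vale.Agent.P032.Lt.q R0Q043.q920_4) (q_cons (Vale.Agent.P032.Lt.q R0Q043.q920_5) (q_cons (Vale.Agent.P032.Lt.q R0Q043.q920_6) (q_cons (Vale.Agent.P032.Lt.q R0Q043.q920_7) (q_cons (Vale.Agent.P032.Lt.q R0Q043.q920_8) (q_cons (Vale.Agent.P032.Lt.q R0Q043.q920_9) (q_cons (Vale.Agent.P032.Lt.q R0Q043.q920_10) (q_cons (Vale.Agent.P032.Lt.q R0Q043.q920_11) (q_cons (Vale.Agent.P032.Lt.q R0Q043.q920_12) (q_cons (Vale.Agent.P032.Lt.q R0Q043.q920_13) (q_cons (Vale.Agent.P032.Lt.q R0Q043.q920_14) (q_cons (Vale.Agent.P032.Lt.q R0Q043.q920_15)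 (q_cons (Vale.Agent.P032.Lt.q R0Q043.q920_16) (q_cons (Vale.Agent.P032.Lt.q R0Q043.q920_17) (q_cons (Vale.Agent.P032.Lt.q R0Q043.q920_18) (q_cons (Vale.Agent.P032.Lt.q R0Q043.q920_19) (q_cons (Vale.Agent.P032.Lt.q R0Q043.q920_20) (q_cons (Vale.Agent.P032.Lt.q R0Q043.q920_21) (q_cons (Vale.Agent.P032.Lt.q R0Q043.q920_22) (q_cons (Vale.Agent.P032.Lt.q R0Q043.q920_23) (q_cons (Vale.Agent.P032.Lt.q R0Q043.q920_24) (q_cons (Vale.Agent.P032.Lt.q R0Q043.q920_25) (q_cons (Vale.Agent.P032.Lt.q R0Q043.q920_26) q_nil))))))))))))))))))))))))))))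

theorem p921 : Pat 73 73 TBm TCm (CB.map Fm) R0Q043.P921 R0Q043.I921 := Vale.Agent.P032.Lt.pat_eq (E' := R0Q043.E) eB (pat_step (by decide +kernel) (q_cons (Vale.Agent.P032.Lt.q R0Q043.q921_0) (q_cons (Vale.Agent.P032.Lt.q R0Q043.q921_1) (q_cons (Vale.Agent.P032.Lt.q R0Q043.q921_2) q_nil))))

def C922 : List ℕ := [0, 4, 8, 12, 16, 20, 24, 478209, 737281]
theorem p922 : Pat 73 73 TBm TCm (C922.map Fm) R0Q043.P922 R0Q043.I922 := Vale.Agent.P032.Lt.pat_eq (E' := R0Q043.E922) (by decide +kernel) (pat_step (by decide +kernel) (q_cons (Vale.Agent.P032.Lt.q R0Q043.q922_0) q_nil))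

theorem p923 : Pat 73 73 TBm TCm (CB.map Fm) R0Q043.P923 R0Q043.I923 := Vale.Agent.P032.Lt.pat_eq (E' := R0Q043.E) eB (pat_step (by decide +kernel) (q_cons (Vale.Agent.P032.Lt.q R0Q043.q923_0) (q_cons (Vale.Agent.P032.Lt.q R0Q043.q923_1) q_nil)))

theorem p924 : Pat 73 73 TBm TCm (CB.map Fm) R0Q043.P924 R0Q043.I924 := Vale.Agent.P032.Lt.pat_eq (E' := R0Q043.E) eB (pat_step (by decide +kernel) (q_cons (Vale.Agent.P032.Lt.q R0Q043.q924_0) (q_cons (Vale.Agent.P032.Lt.q R0Q043.q924_1) (q_cons (Vale.Agent.P032.Lt.q R0Q043.q924_2) (q_cons (Vale.Agent.P032.Lt.q R0Q043.q924_3) (q_cons (Vale.Agent.P032.Lt.q R0Q043.q924_4) (q_cons (Vale.Agent.P032.Lt.q R0Q043.q924_5) (q_cons (Vale.Agent.P032.Lt.q R0Q043.q924_6) (q_cons (Vale.Agent.P032.Lt.q R0Q043.q924_7) q_nil)))))))))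

theorem p925 : Pat 73 73 TBm TCm (CB.map Fm) R0Q044.P925 R0Q044.I925 := Vale.Agent.P032.Lt.pat_eq (E' := R0Q044.E) eB (pat_step (by decide +kernel) (q_cons (Vale.Agent.P032.Lt.q R0Q044.q925_0) (q_cons (Vale.Agent.P032.Lt.q R0Q044.q925_1) (q_cons (Vale.Agent.P032.Lt.q R0Q044.q925_2) (q_cons (Vale.Agent.P032.Lt.q R0Q044.q925_3) (q_cons (Vale.Agent.P032.Lt.q R0Q044.q925_4) q_nil))))))

theorem p926 : Pat 73 73 TBm TCm (CB.map Fm) R0Q044.P926 R0Q044.I926 := Vale.Agent.P032.Lt.pat_eq (E' := R0Q044.E) eB (pat_step (by decide +kernel) (q_cons (Vale.Agent.P032.Lt.q R0Q044.q926_0) q_nil))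

theorem p927 : Pat 73 73 TBm TCm (CB.map Fm) R0Q044.P927 R0Q044.I927 := Vale.Agent.P032.Lt.pat_eq (E' := R0Q044.E) eB (pat_step (by decide +kernel) (q_cons (Vale.Agent.P032.Lt.q R0Q044.q927_0) (q_cons (Vale.Agent.P032.Lt.q R0Q044.q927_1) (q_cons (Vale.Agent.P032.Lt.q R0Q044.q927_2) (q_cons (Vale.Agent.P032.Lt.q R0Q044.q927_3) (q_cons (Vale.Agent.P032.Lt.q R0Q044.q927_4) (q_cons (Vale.Agent.P032.Lt.q R0Q044.q927_5) (q_cons (Vale.Agent.P032.Lt.q R0Q044.q927_6) (q_cons (Vale.Agent.P032.Lt.q R0Q044.q927_7) q_nil)))))))))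

theorem p928 : Pat 73 73 TBm TCm (CB.map Fm) R0Q044.P928 R0Q044.I928 := Vale.Agent.P032.Lt.pat_eq (E' := R0Q044.E) eB (pat_step (by decide +kernel) (q_cons (Vale.Agent.P032.Lt.q R0Q044.q928_0) (q_cons (Vale.Agent.P032.Lt.q R0Q044.q928_1) q_nil)))

theorem p929 : Pat 73 73 TBm TCm (CB.map Fm) R0Q044.P929 R0Q044.I929 := Vale.Agent.P032.Lt.pat_eq (E' := R0Q044.E) eB (pat_step (by decide +kernel) (q_cons (Vale.Agent.P032.Lt.q R0Q044.q929_0) (q_cons (Vale.Agent.P032.Lt.q R0Q044.q929_1) (q_cons (Vale.Agent.P032.Lt.q R0Q044.q929_2) (q_cons (Vale.Agent.P032.Lt.q R0Q044.q929_3) (q_cons (Vale.Agent.P032.Lt.q R0Q044.q929_4) (q_cons (Vale.Agent.P032.Lt.q R0Q044.q929_5) (q_cons (Vale.Agent.P032.Lt.q R0Q044.q929_6) (q_cons (Vale.Agent.P032.Lt.q R0Q044.q929_7) q_nil)))))))))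

theorem p930 : Pat 73 73 TBm TCm (CB.map Fm) R0Q044.P930 R0Q044.I930 := Vale.Agent.P032.Lt.pat_eq (E' := R0Q044.E) eB (pat_step (by decide +kernel) (q_cons (Vale.Agent.P032.Lt.q R0Q044.q930_0) (q_cons (Vale.Agent.P032.Lt.q R0Q044.q930_1) (q_cons (Vale.Agent.P032.Lt.q R0Q044.q930_2) q_nil))))

theorem p931 : Pat 73 73 TBm TCm (CB.map Fm) R0Q044.P931 R0Q044.I931 := Vale.Agent.P032.Lt.pat_eq (E' := R0Q044.E) eB (pat_step (by decide +kernel) (q_cons (Vale.Agent.P032.Lt.q R0Q044.q931_0) q_nil))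

theorem p932 : Pat 73 73 TBm TCm (CB.map Fm) R0Q044.P932 R0Q044.I932 := Vale.Agent.P032.Lt.pat_eq (E' := R0Q044.E) eB (pat_step (by decide +kernel) (q_cons (Vale.Agent.P032.Lt.q R0Q044.q932_0) q_nil))

theorem p933 : Pat 73 73 TBm TCm (CB.map Fm) R0Q044.P933 R0Q044.I933 := Vale.Agent.P032.Lt.pat_eq (E' := R0Q044.E) eB (pat_step (by decide +kernel) (q_cons (Vale.Agent.P032.Lt.q R0Q044.q933_0) (q_cons (Vale.Agent.P032.Lt.q R0Q044.q933_1) (q_cons (Vale.Agent.P032.Lt.q R0Q044.q933_2) (q_cons (Vale.Agent.P032.Lt.q R0Q044.q933_3) q_nil)))))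

theorem p934 : Pat 73 73 TBm TCm (CB.map Fm) R0Q044.P934 R0Q044.I934 := Vale.Agent.P032.Lt.pat_eq (E' := R0Q044.E) eB (pat_step (by decide +kernel) (q_cons (Vale.Agent.P032.Lt.q R0Q044.q934_0) (q_cons (Vale.Agent.P032.Lt.q R0Q044.q934_1) (q_cons (Vale.Agent.P032.Lt.q R0Q044.q934_2) q_nil))))

theorem p935 : Pat 73 73 TBm TCm (CB.map Fm) R0Q044.P935 R0Q044.I935 := Vale.Agent.P032.Lt.pat_eq (E' := R0Q044.E) eB (pat_step (by decide +kernel) (q_cons (Vale.Agent.P032.Lt.q R0Q044.q935_0) (q_cons (Vale.Agent.P032.Lt.q R0Q044.q935_1) (q_cons (Vale.Agent.P032.Lt.q R0Q044.q935_2) (q_cons (Vale.Agent.P032.Lt.q R0Q044.q935_3) q_nil)))))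

theorem p936 : Pat 73 73 TBm TCm (CB.map Fm) R0Q044.P936 R0Q044.I936 := Vale.Agent.P032.Lt.pat_eq (E' := R0Q044.E) eB (pat_step (by decide +kernel) (q_cons (Vale.Agent.P032.Lt.q R0Q044.q936_0) (q_cons (Vale.Agent.P032.Lt.q R0Q044.q936_1) (q_cons (Vale.Agent.P032.Lt.q R0Q044.q936_2) q_nil))))

def C937 : List ℕ := [0, 4, 8, 12, 16, 20, 24, 81921, 91137, 212993, 220161, 222209, 353281, 475137, 615425, 617473, 737281]
theorem p937 : Pat 73 73 TBm TCm (C937.map Fm) R0Q044.P937 R0Q044.I937 := Vale.Agent.P032.Lt.pat_eq (E' := R0Q044.E937) (by decide +kernel) (pat_step (by decide +kernel) (q_cons (Vale.Agent.P032.Lt.q R0Q044.q937_0) q_nil))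

def C938 : List ℕ := [0, 4, 8, 12, 16, 20, 24, 737281]
theorem p938 : Pat 73 73 TBm TCm (C938.map Fm) R0Q044.P938 R0Q044.I938 := Vale.Agent.P032.Lt.pat_eq (E' := R0Q044.E938) (by decide +kernel) (pat_step (by decide +kernel) (q_cons (Vale.Agent.P032.Lt.q R0Q044.q938_0) (q_cons (Vale.Agent.P032.Lt.q R0Q044.q938_1) (q_cons (Vale.Agent.P032.Lt.q R0Q044.q938_2) (q_cons (Vale.Agent.P032.Lt.q R0Q044.q938_3) q_nil)))))

theorem p939 : Pat 73 73 TBm TCm (CB.map Fm) R0Q044.P939 R0Q044.I939 := Vale.Agent.P032.Lt.pat_eq (E' := R0Q044.E) eB (pat_step (by decide +kernel) (q_cons (Vale.Agent.P032.Lt.q R0Q044.q939_0) (q_cons (Vale.Agent.P032.Lt.q R0Q044.q939_1) (q_cons (Vale.Agent.P032.Lt.q R0Q044.q939_2) (q_cons (Vale.Agent.P032.Lt.q R0Q044.q939_3) (q_cons (Vale.Agent.P032.Lt.q R0Q044.q939_4) (q_cons (Vale.Agent.P032.Lt.q R0Q044.q939_5) (q_cons (Vale.Agent.P032.Lt.q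 R0Q044.q939_6) (q_cons (Vale.Agent.P032.Lt.q R0Q044.q939_7) (q_cons (Vale.Agent.P032.Lt.q R0Q044.q939_8) (q_cons (Vale.Agent.P032.Lt.q R0Q044.q939_9) (q_cons (Vale.Agent.P032.Lt.q R0Q044.q939_10) (q_cons (Vale.Agent.P032.Lt.q R0Q044.q939_11) q_nil)))))))))))))

theorem p940 : Pat 73 73 TBm TCm (CB.map Fm) R0Q044.P940 R0Q044.I940 := Vale.Agent.P032.Lt.pat_eq (E' := R0Q044.E) eB (pat_step (by decide +kernel) (q_cons (Vale.Agent.P032.Lt.q R0Q044.q940_0) q_nil))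

theorem p941 : Pat 73 73 TBm TCm (CB.map Fm) R0Q044.P941 R0Q044.I941 := Vale.Agent.P032.Lt.pat_eq (E' := R0Q044.E) eB (pat_step (by decide +kernel) (q_cons (Vale.Agent.P032.Lt.q R0Q044.q941_0) (q_cons (Vale.Agent.P032.Lt.q R0Q044.q941_1) (q_cons (Vale.Agent.P032.Lt.q R0Q044.q941_2) (q_cons (Vale.Agent.P032.Lt.q R0Q044.q941_3) (q_cons (Vale.Agent.P032.Lt.q R0Q044.q941_4) (q_cons (Vale.Agent.P032.Lt.q R0Q044.q941_5) (q_cons (Vale.Agent.P032.Lt.q R0Q044.q941_6) (q_cons (Vale.Agent.P032.Lt.q R0Q044.q941_7) (q_cons (Vale.Agent.P032.Lt.q R0Q044.q941_8) (q_cons (Vale.Agent.P032.Lt.q R0Q044.q941_9) (q_cons (Vale.Agent.P032.Lt.q R0Q044.q941_10) (q_cons (Vale.Agent.P032.Lt.q R0Q044.q941_11) (q_cons (Vale.Agent.P032.Lt.q R0Q044.q941_12) q_nil))))))))))))))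

def C942 : List ℕ := [0, 4, 8, 12, 16, 20, 24, 81921, 212993, 220161, 222209, 353281, 606209, 737281]
theorem p942 : Pat 73 73 TBm TCm (C942.map Fm) R0Q044.P942 R0Q044.I942 := Vale.Agent.P032.Lt.pat_eq (E' := R0Q044.E942) (by decide +kernel) (pat_step (by decide +kernel) (q_cons (Vale.Agent.P032.Lt.q R0Q044.q942_0) q_nil))

theorem p943 : Pat 73 73 TBm TCm (CB.map Fm) R0Q044.P943 R0Q044.I943 := Vale.Agent.P032.Lt.pat_eq (E' := R0Q044.E) eB (pat_step (by decide +kernel) (q_cons (Vale.Agent.P032.Lt.q R0Q044.q943_0) (q_cons (Vale.Agent.P032.Lt.q R0Q044.q943_1) (q_cons (Vale.Agent.P032.Lt.q R0Q044.q943_2) (q_cons (Vale.Agent.P032.Lt.q R0Q044.q943_3) (q_cons (Vale.Agent.P032.Lt.q R0Q044.q943_4) (q_cons (Vale.Agent.P032.Lt.q R0Q044.q943_5) (q_cons (Vale.Agent.P032.Lt.q R0Q044.q943_6) (q_cons (Vale.Agent.P032.Lt.q R0Q044.q943_7) (q_cons (Vale.Agent.P032.Lt.q R0Q044.q943_8)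 q_nil))))))))))

theorem p944 : Pat 73 73 TBm TCm (CB.map Fm) R0Q045.P944 R0Q045.I944 := Vale.Agent.P032.Lt.pat_eq (E' := R0Q045.E) eB (pat_step (by decide +kernel) (q_cons (Vale.Agent.P032.Lt.q R0Q045.q944_0) (q_cons (Vale.Agent.P032.Lt.q R0Q045.q944_1) (q_cons (Vale.Agent.P032.Lt.q R0Q045.q944_2) (q_cons (Vale.Agent.P032.Lt.q R0Q045.q944_3) (q_cons (Vale.Agent.P032.Lt.q R0Q045.q944_4) (q_cons (Vale.Agent.P032.Lt.q R0Q045.q944_5) (q_cons (Vale.Agent.P032.Lt.q R0Q045.q944_6) (q_cons (Vale.Agent.P032.Lt.q R0Q045.q944_7) (q_cons (Vale.Agent.P032.Lt.q R0Q045.q944_8) (q_cons (Vale.Agent.P032.Lt.q R0Q045.q944_9) (q_cons (Vale.Agent.P032.Lt.q R0Q045.q944_10) (q_cons (Vale.Agent.P032.Lt.q R0Q045.q944_11) (q_cons (Vale.Agent.P032.Lt.q R0Q045.q944_12) (q_cons (Vale.Agent.P032.Lt.q R0Q045.q944_13) (q_cons (Vale.Agent.P032.Lt.q R0Q045.q944_14) (q_cons (Vale.Agent.P032.Lt.q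 R0Q045.q944_15) (q_cons (Vale.Agent.P032.Lt.q R0Q045.q944_16) (q_cons (Vale.Agent.P032.Lt.q R0Q045.q944_17) q_nil)))))))))))))))))))

theorem p945 : Pat 73 73 TBm TCm (CB.map Fm) R0Q045.P945 R0Q045.I945 := Vale.Agent.P032.Lt.pat_eq (E' := R0Q045.E) eB (pat_step (by decide +kernel) (q_cons (Vale.Agent.P032.Lt.q R0Q045.q945_0) (q_cons (Vale.Agent.P032.Lt.q R0Q045.q945_1) (q_cons (Vale.Agent.P032.Lt.q R0Q045.q945_2) q_nil))))

theorem p946 : Pat 73 73 TBm TCm (CB.map Fm) R0Q045.P946 R0Q045.I946 := Vale.Agent.P032.Lt.pat_eq (E' := R0Q045.E) eB (pat_step (by decide +kernel) (q_cons (Vale.Agent.P032.Lt.q R0Q045.q946_0) (q_cons (Vale.Agent.P032.Lt.q R0Q045.q946_1) (q_cons (Vale.Agent.P032.Lt.q R0Q045.q946_2) (q_cons (Vale.Agent.P032.Lt.q R0Q045.q946_3) (q_cons (Vale.Agent.P032.Lt.q R0Q045.q946_4) (q_cons (Vale.Agent.P032.Lt.q R0Q045.q946_5) (q_cons (Vale.Agent.P032.Lt.q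 R0Q045.q946_6) q_nil))))))))

theorem p947 : Pat 73 73 TBm TCm (CB.map Fm) R0Q045.P947 R0Q045.I947 := Vale.Agent.P032.Lt.pat_eq (E' := R0Q045.E) eB (pat_step (by decide +kernel) (q_cons (Vale.Agent.P032.Lt.q R0Q045.q947_0) (q_cons (Vale.Agent.P032.Lt.q R0Q045.q947_1) (q_cons (Vale.Agent.P032.Lt.q R0Q045.q947_2) (q_cons (Vale.Agent.P032.Lt.q R0Q045.q947_3) q_nil)))))

theorem p948 : Pat 73 73 TBm TCm (CB.map Fm) R0Q045.P948 R0Q045.I948 := Vale.Agent.P032.Lt.pat_eq (E' := R0Q045.E) eB (pat_step (by decide +kernel) (q_cons (Vale.Agent.P032.Lt.q R0Q045.q948_0) (q_cons (Vale.Agent.P032.Lt.q R0Q045.q948_1) q_nil)))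

theorem p949 : Pat 73 73 TBm TCm (CB.map Fm) R0Q045.P949 R0Q045.I949 := Vale.Agent.P032.Lt.pat_eq (E' := R0Q045.E) eB (pat_step (by decide +kernel) (q_cons (Vale.Agent.P032.Lt.q R0Q045.q949_0) q_nil))

theorem p950 : Pat 73 73 TBm TCm (CB.map Fm) R0Q045.P950 R0Q045.I950 := Vale.Agent.P032.Lt.pat_eq (E' := R0Q045.E) eB (pat_step (by decide +kernel) (q_cons (Vale.Agent.P032.Lt.q R0Q045.q950_0) (q_cons (Vale.Agent.P032.Lt.q R0Q045.q950_1) (q_cons (Vale.Agent.P032.Lt.q R0Q045.q950_2) (q_cons (Vale.Agent.P032.Lt.q R0Q045.q950_3) (q_cons (Vale.Agent.P032.Lt.q R0Q045.q950_4) (q_cons (Vale.Agent.P032.Lt.q R0Q045.q950_5) (q_cons (Vale.Agent.P032.Lt.q R0Q045.q950_6) (q_cons (Vale.Agent.P032.Lt.q R0Q045.q950_7) (q_cons (Vale.Agent.P032.Lt.q R0Q045.q950_8) (q_cons (Vale.Agent.P032.Lt.q R0Q045.q950_9) q_nil)))))))))))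

theorem p951 : Pat 73 73 TBm TCm (CB.map Fm) R0Q045.P951 R0Q045.I951 := Vale.Agent.P032.Lt.pat_eq (E' := R0Q045.E) eB (pat_step (by decide +kernel) (q_cons (Vale.Agent.P032.Lt.q R0Q045.q951_0) (q_cons (Vale.Agent.P032.Lt.q R0Q045.q951_1) (q_cons (Vale.Agent.P032.Lt.q R0Q045.q951_2) (q_cons (Vale.Agent.P032.Lt.q R0Q045.q951_3) (q_cons (Vale.Agent.P032.Lt.q R0Q045.q951_4) (q_cons (Vale.Agent.P032.Lt.q R0Q045.q951_5) (q_cons (Vale.Agent.P032.Lt.q R0Q045.q951_6) (q_cons (Vale.Agent.P032.Lt.q R0Q045.q951_7) (q_cons (Vale.Agent.P032.Lt.q R0Q045.q951_8) (q_cons (Vale.Agent.P032.Lt.q R0Q045.q951_9) (q_cons (Vale.Agent.P032.Lt.q R0Q045.q951_10) (q_cons (Vale.Agent.P032.Lt.q R0Q045.q951_11) (q_cons (Vale.Agent.P032.Lt.q R0Q045.q951_12) q_nil))))))))))))))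

theorem p952 : Pat 73 73 TBm TCm (CB.map Fm) R0Q045.P952 R0Q045.I952 := Vale.Agent.P032.Lt.pat_eq (E' := R0Q045.E) eB (pat_step (by decide +kernel) (q_cons (Vale.Agent.P032.Lt.q R0Q045.q952_0) (q_cons (Vale.Agent.P032.Lt.q R0Q045.q952_1) q_nil)))

theorem p953 : Pat 73 73 TBm TCm (CB.map Fm) R0Q045.P953 R0Q045.I953 := Vale.Agent.P032.Lt.pat_eq (E' := R0Q045.E) eB (pat_step (by decide +kernel) (q_cons (Vale.Agent.P032.Lt.q R0Q045.q953_0) (q_cons (Vale.Agent.P032.Lt.q R0Q045.q953_1) (q_cons (Vale.Agent.P032.Lt.q R0Q045.q953_2) (q_cons (Vale.Agent.P032.Lt.q R0Q045.q953_3) (q_cons (Vale.Agent.P032.Lt.q R0Q045.q953_4) (q_cons (Vale.Agent.P032.Lt.q R0Q045.q953_5) (q_cons (Vale.Agent.P032.Lt.q R0Q045.q953_6) q_nil))))))))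

theorem p954 : Pat 73 73 TBm TCm (CB.map Fm) R0Q045.P954 R0Q045.I954 := Vale.Agent.P032.Lt.pat_eq (E' := R0Q045.E) eB (pat_step (by decide +kernel) (q_cons (Vale.Agent.P032.Lt.q R0Q045.q954_0) (q_cons (Vale.Agent.P032.Lt.q R0Q045.q954_1) (q_cons (Vale.Agent.P032.Lt.q R0Q045.q954_2) (q_cons (Vale.Agent.P032.Lt.q R0Q045.q954_3) (q_cons (Vale.Agent.P032.Lt.q R0Q045.q954_4) q_nil))))))

theorem p955 : Pat 73 73 TBm TCm (CB.map Fm) R0Q045.P955 R0Q045.I955 := Vale.Agent.P032.Lt.pat_eq (E' := R0Q045.E) eB (pat_step (by decide +kernel) (q_cons (Vale.Agent.P032.Lt.q R0Q045.q955_0) (q_cons (Vale.Agent.P032.Lt.q R0Q045.q955_1) (q_cons (Vale.Agent.P032.Lt.q R0Q045.q955_2) q_nil))))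

theorem p956 : Pat 73 73 TBm TCm (CB.map Fm) R0Q045.P956 R0Q045.I956 := Vale.Agent.P032.Lt.pat_eq (E' := R0Q045.E) eB (pat_step (by decide +kernel) (q_cons (Vale.Agent.P032.Lt.q R0Q045.q956_0) (q_cons (Vale.Agent.P032.Lt.q R0Q045.q956_1) (q_cons (Vale.Agent.P032.Lt.q R0Q045.q956_2) q_nil))))

theorem p957 : Pat 73 73 TBm TCm (CB.map Fm) R0Q045.P957 R0Q045.I957 := Vale.Agent.P032.Lt.pat_eq (E' := R0Q045.E) eB (pat_step (by decide +kernel) (q_cons (Vale.Agent.P032.Lt.q R0Q045.q957_0) (q_cons (Vale.Agent.P032.Lt.q R0Q045.q957_1) q_nil)))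

def C958 : List ℕ := [0, 4, 8, 12, 16, 20, 24, 476161, 606209, 737281]
theorem p958 : Pat 73 73 TBm TCm (C958.map Fm) R0Q045.P958 R0Q045.I958 := Vale.Agent.P032.Lt.pat_eq (E' := R0Q045.E958) (by decide +kernel) (pat_step (by decide +kernel) (q_cons (Vale.Agent.P032.Lt.q R0Q045.q958_0) (q_cons (Vale.Agent.P032.Lt.q R0Q045.q958_1) q_nil)))

theorem p959 : Pat 73 73 TBm TCm (CB.map Fm) R0Q045.P959 R0Q045.I959 := Vale.Agent.P032.Lt.pat_eq (E' := R0Q045.E) eB (pat_step (by decide +kernel) (q_cons (Vale.Agent.P032.Lt.q R0Q045.q959_0) q_nil))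

theorem p960 : Pat 73 73 TBm TCm (CB.map Fm) R0Q045.P960 R0Q045.I960 := Vale.Agent.P032.Lt.pat_eq (E' := R0Q045.E) eB (pat_step (by decide +kernel) (q_cons (Vale.Agent.P032.Lt.q R0Q045.q960_0) (q_cons (Vale.Agent.P032.Lt.q R0Q045.q960_1) q_nil)))

def C961 : List ℕ := [0, 4, 8, 12, 16, 20, 24, 212993, 606209, 607233, 737281]
theorem p961 : Pat 73 73 TBm TCm (C961.map Fm) R0Q045.P961 R0Q045.I961 := Vale.Agent.P032.Lt.pat_eq (E' := R0Q045.E961) (by decide +kernel) (pat_step (by decide +kernel) (q_cons (Vale.Agent.P032.Lt.q R0Q045.q961_0) (q_cons (Vale.Agent.P032.Lt.q R0Q045.q961_1) q_nil)))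

theorem p962 : Pat 73 73 TBm TCm (CB.map Fm) R0Q045.P962 R0Q045.I962 := Vale.Agent.P032.Lt.pat_eq (E' := R0Q045.E) eB (pat_step (by decide +kernel) (q_cons (Vale.Agent.P032.Lt.q R0Q045.q962_0) q_nil))

theorem p963 : Pat 73 73 TBm TCm (CB.map Fm) R0Q045.P963 R0Q045.I963 := Vale.Agent.P032.Lt.pat_eq (E' := R0Q045.E) eB (pat_step (by decide +kernel) (q_cons (Vale.Agent.P032.Lt.q R0Q045.q963_0) q_nil))

def C964 : List ℕ := [0, 4, 8, 12, 16, 20, 24, 212993, 347137, 353281, 606209, 737281]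
theorem p964 : Pat 73 73 TBm TCm (C964.map Fm) R0Q045.P964 R0Q045.I964 := Vale.Agent.P032.Lt.pat_eq (E' := R0Q045.E964) (by decide +kernel) (pat_step (by decide +kernel) (q_cons (Vale.Agent.P032.Lt.q R0Q045.q964_0) (q_cons (Vale.Agent.P032.Lt.q R0Q045.q964_1) (q_cons (Vale.Agent.P032.Lt.q R0Q045.q964_2) (q_cons (Vale.Agent.P032.Lt.q R0Q045.q964_3) (q_cons (Vale.Agent.P032.Lt.q R0Q045.q964_4) q_nil))))))

theorem p965 : Pat 73 73 TBm TCm (CB.map Fm) R0Q045.P965 R0Q045.I965 := Vale.Agent.P032.Lt.pat_eq (E' := R0Q045.E) eB (pat_step (by decide +kernel) (q_cons (Vale.Agent.P032.Lt.q R0Q045.q965_0) (q_cons (Vale.Agent.P032.Lt.q R0Q045.q965_1) q_nil)))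

theorem p966 : Pat 73 73 TBm TCm (CB.map Fm) R0Q045.P966 R0Q045.I966 := Vale.Agent.P032.Lt.pat_eq (E' := R0Q045.E) eB (pat_step (by decide +kernel) (q_cons (Vale.Agent.P032.Lt.q R0Q045.q966_0) (q_cons (Vale.Agent.P032.Lt.q R0Q045.q966_1) (q_cons (Vale.Agent.P032.Lt.q R0Q045.q966_2) q_nil))))

theorem p967 : Pat 73 73 TBm TCm (CB.map Fm) R0Q045.P967 R0Q045.I967 := Vale.Agent.P032.Lt.pat_eq (E' := R0Q045.E) eB (pat_step (by decide +kernel) (q_cons (Vale.Agent.P032.Lt.q R0Q045.q967_0) (q_cons (Vale.Agent.P032.Lt.q R0Q045.q967_1) (q_cons (Vale.Agent.P032.Lt.q R0Q045.q967_2) q_nil))))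

theorem p968 : Pat 73 73 TBm TCm (CB.map Fm) R0Q045.P968 R0Q045.I968 := Vale.Agent.P032.Lt.pat_eq (E' := R0Q045.E) eB (pat_step (by decide +kernel) (q_cons (Vale.Agent.P032.Lt.q R0Q045.q968_0) (q_cons (Vale.Agent.P032.Lt.q R0Q045.q968_1) (q_cons (Vale.Agent.P032.Lt.q R0Q045.q968_2) (q_cons (Vale.Agent.P032.Lt.q R0Q045.q968_3) (q_cons (Vale.Agent.P032.Lt.q R0Q045.q968_4) (q_cons (Vale.Agent.P032.Lt.q R0Q045.q968_5) q_nil)))))))

theorem p969 : Pat 73 73 TBm TCm (CB.map Fm) R0Q045.P969 R0Q045.I969 := Vale.Agent.P032.Lt.pat_eq (E' := R0Q045.E) eB (pat_step (by decide +kernel) (q_cons (Vale.Agent.P032.Lt.q R0Q045.q969_0) (q_cons (Vale.Agent.P032.Lt.q R0Q045.q969_1) (q_cons (Vale.Agent.P032.Lt.q R0Q045.q969_2) q_nil))))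

theorem p970 : Pat 73 73 TBm TCm (CB.map Fm) R0Q046.P970 R0Q046.I970 := Vale.Agent.P032.Lt.pat_eq (E' := R0Q046.E) eB (pat_step (by decide +kernel) (q_cons (Vale.Agent.P032.Lt.q R0Q046.q970_0) (q_cons (Vale.Agent.P032.Lt.q R0Q046.q970_1) (q_cons (Vale.Agent.P032.Lt.q R0Q046.q970_2) (q_cons (Vale.Agent.P032.Lt.q R0Q046.q970_3) (q_cons (Vale.Agent.P032.Lt.q R0Q046.q970_4) (q_cons (Vale.Agent.P032.Lt.q R0Q046.q970_5) (q_cons (Vale.Agent.P032.Lt.q R0Q046.q970_6) (q_cons (Vale.Agent.P032.Lt.q R0Q046.q970_7) (q_cons (Vale.Agent.P032.Lt.q R0Q046.q970_8) (q_cons (Vale.Agent.P032.Lt.q R0Q046.q970_9) (q_cons (Vale.Agent.P032.Lt.q R0Q046.q970_10) q_nil))))))))))))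

theorem p971 : Pat 73 73 TBm TCm (CB.map Fm) R0Q046.P971 R0Q046.I971 := Vale.Agent.P032.Lt.pat_eq (E' := R0Q046.E) eB (pat_step (by decide +kernel) (q_cons (Vale.Agent.P032.Lt.q R0Q046.q971_0) (q_cons (Vale.Agent.P032.Lt.q R0Q046.q971_1) (q_cons (Vale.Agent.P032.Lt.q R0Q046.q971_2) (q_cons (Vale.Agent.P032.Lt.q R0Q046.q971_3) (q_cons (Vale.Agent.P032.Lt.q R0Q046.q971_4) (q_cons (Vale.Agent.P032.Lt.q R0Q046.q971_5) (q_cons (Vale.Agent.P032.Lt.q R0Q046.q971_6) (q_cons (Vale.Agent.P032.Lt.q R0Q046.q971_7) (q_cons (Vale.Agent.P032.Lt.q R0Q046.q971_8) (q_cons (Vale.Agent.P032.Lt.q R0Q046.q971_9) (q_cons (Vale.Agent.P032.Lt.q R0Q046.q971_10) q_nil))))))))))))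

theorem p972 : Pat 73 73 TBm TCm (CB.map Fm) R0Q046.P972 R0Q046.I972 := Vale.Agent.P032.Lt.pat_eq (E' := R0Q046.E) eB (pat_step (by decide +kernel) (q_cons (Vale.Agent.P032.Lt.q R0Q046.q972_0) (q_cons (Vale.Agent.P032.Lt.q R0Q046.q972_1) (q_cons (Vale.Agent.P032.Lt.q R0Q046.q972_2) (q_cons (Vale.Agent.P032.Lt.q R0Q046.q972_3) (q_cons (Vale.Agent.P032.Lt.q R0Q046.q972_4) (q_cons (Vale.Agent.P032.Lt.q R0Q046.q972_5) (q_cons (Vale.Agent.P032.Lt.q R0Q046.q972_6) (q_cons (Vale.Agent.P032.Lt.q R0Q046.q972_7) (q_cons (Vale.Agent.P032.Lt.q R0Q046.q972_8) (q_cons (Vale.Agent.P032.Lt.q R0Q046.q972_9) (q_cons (Vale.Agent.P032.Lt.q R0Q046.q972_10) (q_cons (Vale.Agent.P032.Lt.q R0Q046.q972_11) q_nil)))))))))))))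

theorem p973 : Pat 73 73 TBm TCm (CB.map Fm) R0Q046.P973 R0Q046.I973 := Vale.Agent.P032.Lt.pat_eq (E' := R0Q046.E) eB (pat_step (by decide +kernel) (q_cons (Vale.Agent.P032.Lt.q R0Q046.q973_0) (q_cons (Vale.Agent.P032.Lt.q R0Q046.q973_1) q_nil)))

def C974 : List ℕ := [0, 4, 8, 12, 16, 20, 24, 737281]
theorem p974 : Pat 73 73 TBm TCm (C974.map Fm) R0Q046.P974 R0Q046.I974 := Vale.Agent.P032.Lt.pat_eq (E' := R0Q046.E974) (by decide +kernel) (pat_step (by decide +kernel) (q_cons (Vale.Agent.P032.Lt.q R0Q046.q974_0) q_nil))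

theorem p975 : Pat 73 73 TBm TCm (CB.map Fm) R0Q046.P975 R0Q046.I975 := Vale.Agent.P032.Lt.pat_eq (E' := R0Q046.E) eB (pat_step (by decide +kernel) (q_cons (Vale.Agent.P032.Lt.q R0Q046.q975_0) (q_cons (Vale.Agent.P032.Lt.q R0Q046.q975_1) (q_cons (Vale.Agent.P032.Lt.q R0Q046.q975_2) (q_cons (Vale.Agent.P032.Lt.q R0Q046.q975_3) q_nil)))))

theorem p976 : Pat 73 73 TBm TCm (CB.map Fm) R0Q046.P976 R0Q046.I976 := Vale.Agent.P032.Lt.pat_eq (E' := R0Q046.E) eB (pat_step (by decide +kernel) (q_cons (Vale.Agent.P032.Lt.q R0Q046.q976_0) q_nil))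

theorem p977 : Pat 73 73 TBm TCm (CB.map Fm) R0Q046.P977 R0Q046.I977 := Vale.Agent.P032.Lt.pat_eq (E' := R0Q046.E) eB (pat_step (by decide +kernel) (q_cons (Vale.Agent.P032.Lt.q R0Q046.q977_0) q_nil))

theorem p978 : Pat 73 73 TBm TCm (CB.map Fm) R0Q046.P978 R0Q046.I978 := Vale.Agent.P032.Lt.pat_eq (E' := R0Q046.E) eB (pat_step (by decide +kernel) (q_cons (Vale.Agent.P032.Lt.q R0Q046.q978_0) (q_cons (Vale.Agent.P032.Lt.q R0Q046.q978_1) (q_cons (Vale.Agent.P032.Lt.q R0Q046.q978_2) q_nil))))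

theorem p979 : Pat 73 73 TBm TCm (CB.map Fm) R0Q046.P979 R0Q046.I979 := Vale.Agent.P032.Lt.pat_eq (E' := R0Q046.E) eB (pat_step (by decide +kernel) (q_cons (Vale.Agent.P032.Lt.q R0Q046.q979_0) q_nil))

theorem p980 : Pat 73 73 TBm TCm (CB.map Fm) R0Q046.P980 R0Q046.I980 := Vale.Agent.P032.Lt.pat_eq (E' := R0Q046.E) eB (pat_step (by decide +kernel) (q_cons (Vale.Agent.P032.Lt.q R0Q046.q980_0) (q_cons (Vale.Agent.P032.Lt.q R0Q046.q980_1) (q_cons (Vale.Agent.P032.Lt.q R0Q046.q980_2) (q_cons (Vale.Agent.P032.Lt.q R0Q046.q980_3) (q_cons (Vale.Agent.P032.Lt.q R0Q046.q980_4) (q_cons (Vale.Agent.P032.Lt.q R0Q046.q980_5) (q_cons (Vale.Agent.P032.Lt.q R0Q046.q980_6) (q_cons (Vale.Agent.P032.Lt.q R0Q046.q980_7) (q_cons (Vale.Agent.P032.Lt.q R0Q046.q980_8) (q_cons (Vale.Agent.P032.Lt.q R0Q046.q980_9) (q_cons (Vale.Agent.P032.Lt.q R0Q046.q980_10) (q_cons (Vale.Agent.P032.Lt.q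 R0Q046.q980_11) (q_cons (Vale.Agent.P032.Lt.q R0Q046.q980_12) (q_cons (Vale.Agent.P032.Lt.q R0Q046.q980_13) (q_cons (Vale.Agent.P032.Lt.q R0Q046.q980_14) (q_cons (Vale.Agent.P032.Lt.q R0Q046.q980_15) (q_cons (Vale.Agent.P032.Lt.q R0Q046.q980_16) (q_cons (Vale.Agent.P032.Lt.q R0Q046.q980_17) q_nil)))))))))))))))))))

theorem p981 : Pat 73 73 TBm TCm (CB.map Fm) R0Q046.P981 R0Q046.I981 := Vale.Agent.P032.Lt.pat_eq (E' := R0Q046.E) eB (pat_step (by decide +kernel) (q_cons (Vale.Agent.P032.Lt.q R0Q046.q981_0) (q_cons (Vale.Agent.P032.Lt.q R0Q046.q981_1) (q_cons (Vale.Agent.P032.Lt.q R0Q046.q981_2) (q_cons (Vale.Agent.P032.Lt.q R0Q046.q981_3) (q_cons (Vale.Agent.P032.Lt.q R0Q046.q981_4) (q_cons (Vale.Agent.P032.Lt.q R0Q046.q981_5) (q_cons (Vale.Agent.P032.Lt.q R0Q046.q981_6) (q_cons (Vale.Agent.P032.Lt.q R0Q046.q981_7) q_nil)))))))))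

theorem p982 : Pat 73 73 TBm TCm (CB.map Fm) R0Q046.P982 R0Q046.I982 := Vale.Agent.P032.Lt.pat_eq (E' := R0Q046.E) eB (pat_step (by decide +kernel) (q_cons (Vale.Agent.P032.Lt.q R0Q046.q982_0) (q_cons (Vale.Agent.P032.Lt.q R0Q046.q982_1) (q_cons (Vale.Agent.P032.Lt.q R0Q046.q982_2) (q_cons (Vale.Agent.P032.Lt.q R0Q046.q982_3) (q_cons (Vale.Agent.P032.Lt.q R0Q046.q982_4) (q_cons (Vale.Agent.P032.Lt.q R0Q046.q982_5) (q_cons (Vale.Agent.P032.Lt.q R0Q046.q982_6) (q_cons (Vale.Agent.P032.Lt.q R0Q046.q982_7) (q_cons (Vale.Agent.P032.Lt.q R0Q046.q982_8) (q_cons (Vale.Agent.P032.Lt.q R0Q046.q982_9) q_nil)))))))))))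

theorem p983 : Pat 73 73 TBm TCm (CB.map Fm) R0Q046.P983 R0Q046.I983 := Vale.Agent.P032.Lt.pat_eq (E' := R0Q046.E) eB (pat_step (by decide +kernel) (q_cons (Vale.Agent.P032.Lt.q R0Q046.q983_0) (q_cons (Vale.Agent.P032.Lt.q R0Q046.q983_1) (q_cons (Vale.Agent.P032.Lt.q R0Q046.q983_2) (q_cons (Vale.Agent.P032.Lt.q R0Q046.q983_3) (q_cons (Vale.Agent.P032.Lt.q R0Q046.q983_4) (q_cons (Vale.Agent.P032.Lt.q R0Q046.q983_5) (q_cons (Vale.Agent.P032.Lt.q R0Q046.q983_6) (q_cons (Vale.Agent.P032.Lt.q R0Q046.q983_7) (q_cons (Vale.Agent.P032.Lt.q R0Q046.q983_8) (q_cons (Vale.Agent.P032.Lt.q R0Q046.q983_9) (q_cons (Vale.Agent.P032.Lt.q R0Q046.q983_10) q_nil))))))))))))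

theorem p984 : Pat 73 73 TBm TCm (CB.map Fm) R0Q046.P984 R0Q046.I984 := Vale.Agent.P032.Lt.pat_eq (E' := R0Q046.E) eB (pat_step (by decide +kernel) (q_cons (Vale.Agent.P032.Lt.q R0Q046.q984_0) (q_cons (Vale.Agent.P032.Lt.q R0Q046.q984_1) (q_cons (Vale.Agent.P032.Lt.q R0Q046.q984_2) (q_cons (Vale.Agent.P032.Lt.q R0Q046.q984_3) (q_cons (Vale.Agent.P032.Lt.q R0Q046.q984_4) q_nil))))))

def C985 : List ℕ := [0, 4, 8, 12, 16, 20, 24, 475137, 737281]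
theorem p985 : Pat 73 73 TBm TCm (C985.map Fm) R0Q046.P985 R0Q046.I985 := Vale.Agent.P032.Lt.pat_eq (E' := R0Q046.E985) (by decide +kernel) (pat_step (by decide +kernel) (q_cons (Vale.Agent.P032.Lt.q R0Q046.q985_0) (q_cons (Vale.Agent.P032.Lt.q R0Q046.q985_1) (q_cons (Vale.Agent.P032.Lt.q R0Q046.q985_2) (q_cons (Vale.Agent.P032.Lt.q R0Q046.q985_3) (q_cons (Vale.Agent.P032.Lt.q R0Q046.q985_4) (q_cons (Vale.Agent.P032.Lt.q R0Q046.q985_5) (q_cons (Vale.Agent.P032.Lt.q R0Q046.q985_6) (q_cons (Vale.Agent.P032.Lt.q R0Q046.q985_7) (q_cons (Vale.Agent.P032.Lt.q R0Q046.q985_8) (q_cons (Vale.Agent.P032.Lt.q R0Q046.q985_9) (q_cons (Vale.Agent.P032.Lt.q R0Q046.q985_10) (q_cons (Vale.Agent.P032.Lt.q R0Q046.q985_11) (q_cons (Vale.Agent.P032.Lt.q R0Q046.q985_12) q_nil))))))))))))))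

theorem p986 : Pat 73 73 TBm TCm (CB.map Fm) R0Q046.P986 R0Q046.I986 := Vale.Agent.P032.Lt.pat_eq (E' := R0Q046.E) eB (pat_step (by decide +kernel) (q_cons (Vale.Agent.P032.Lt.q R0Q046.q986_0) (q_cons (Vale.Agent.P032.Lt.q R0Q046.q986_1) (q_cons (Vale.Agent.P032.Lt.q R0Q046.q986_2) (q_cons (Vale.Agent.P032.Lt.q R0Q046.q986_3) (q_cons (Vale.Agent.P032.Lt.q R0Q046.q986_4) (q_cons (Vale.Agent.P032.Lt.q R0Q046.q986_5) (q_cons (Vale.Agent.P032.Lt.q R0Q046.q986_6) (q_cons (Vale.Agent.P032.Lt.q R0Q046.q986_7) (q_cons (Vale.Agent.P032.Lt.q R0Q046.q986_8) (q_cons (Vale.Agent.P032.Lt.q R0Q046.q986_9) (q_cons (Vale.Agent.P032.Lt.q R0Q046.q986_10) (q_cons (Vale.Agent.P032.Lt.q R0Q046.q986_11) q_nil)))))))))))))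

theorem p987 : Pat 73 73 TBm TCm (CB.map Fm) R0Q046.P987 R0Q046.I987 := Vale.Agent.P032.Lt.pat_eq (E' := R0Q046.E) eB (pat_step (by decide +kernel) (q_cons (Vale.Agent.P032.Lt.q R0Q046.q987_0) (q_cons (Vale.Agent.P032.Lt.q R0Q046.q987_1) (q_cons (Vale.Agent.P032.Lt.q R0Q046.q987_2) (q_cons (Vale.Agent.P032.Lt.q R0Q046.q987_3) (q_cons (Vale.Agent.P032.Lt.q R0Q046.q987_4) (q_cons (Vale.Agent.P032.Lt.q R0Q046.q987_5) (q_cons (Vale.Agent.P032.Lt.q R0Q046.q987_6) q_nil))))))))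

theorem p988 : Pat 73 73 TBm TCm (CB.map Fm) R0Q046.P988 R0Q046.I988 := Vale.Agent.P032.Lt.pat_eq (E' := R0Q046.E) eB (pat_step (by decide +kernel) (q_cons (Vale.Agent.P032.Lt.q R0Q046.q988_0) q_nil))

theorem p989 : Pat 73 73 TBm TCm (CB.map Fm) R0Q046.P989 R0Q046.I989 := Vale.Agent.P032.Lt.pat_eq (E' := R0Q046.E) eB (pat_step (by decide +kernel) (q_cons (Vale.Agent.P032.Lt.q R0Q046.q989_0) q_nil))

theorem p990 : Pat 73 73 TBm TCm (CB.map Fm) R0Q046.P990 R0Q046.I990 := Vale.Agent.P032.Lt.pat_eq (E' := R0Q046.E) eB (pat_step (by decide +kernel) (q_cons (Vale.Agent.P032.Lt.q R0Q046.q990_0) (q_cons (Vale.Agent.P032.Lt.q R0Q046.q990_1) (q_cons (Vale.Agent.P032.Lt.q R0Q046.q990_2) q_nil))))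

def C991 : List ℕ := [0, 4, 8, 12, 16, 20, 24, 737281]
theorem p991 : Pat 73 73 TBm TCm (C991.map Fm) R0Q046.P991 R0Q046.I991 := Vale.Agent.P032.Lt.pat_eq (E' := R0Q046.E991) (by decide +kernel) (pat_step (by decide +kernel) (q_cons (Vale.Agent.P032.Lt.q R0Q046.q991_0) (q_cons (Vale.Agent.P032.Lt.q R0Q046.q991_1) (q_cons (Vale.Agent.P032.Lt.q R0Q046.q991_2) (q_cons (Vale.Agent.P032.Lt.q R0Q046.q991_3) (q_cons (Vale.Agent.P032.Lt.q R0Q046.q991_4) (q_cons (Vale.Agent.P032.Lt.q R0Q046.q991_5) (q_cons (Vale.Agent.P032.Lt.q R0Q046.q991_6) (q_cons (Vale.Agent.P032.Lt.q R0Q046.q991_7) (q_cons (Vale.Agent.P032.Lt.q R0Q046.q991_8) q_nil))))))))))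

def C992 : List ℕ := [0, 4, 8, 12, 16, 20, 24, 737281]
theorem p992 : Pat 73 73 TBm TCm (C992.map Fm) R0Q047.P992 R0Q047.I992 := Vale.Agent.P032.Lt.pat_eq (E' := R0Q047.E992) (by decide +kernel) (pat_step (by decide +kernel) (q_cons (Vale.Agent.P032.Lt.q R0Q047.q992_0) (q_cons (Vale.Agent.P032.Lt.q R0Q047.q992_1) (q_cons (Vale.Agent.P032.Lt.q R0Q047.q992_2) (q_cons (Vale.Agent.P032.Lt.q R0Q047.q992_3) (q_cons (Vale.Agent.P032.Lt.q R0Q047.q992_4) (q_cons (Vale.Agent.P032.Lt.q R0Q047.q992_5) (q_cons (Vale.Agent.P032.Lt.q R0Q047.q992_6) (q_cons (Vale.Agent.P032.Lt.q R0Q047.q992_7) (q_cons (Vale.Agent.P032.Lt.q R0Q047.q992_8) (q_cons (Vale.Agent.P032.Lt.q R0Q047.q992_9) (q_cons (Vale.Agent.P032.Lt.q R0Q047.q992_10) (q_cons (Vale.Agent.P032.Lt.q R0Q047.q992_11) (q_cons (Vale.Agent.P032.Lt.q R0Q047.q992_12) (q_cons (Vale.Agent.P032.Lt.q R0Q047.q992_13) (q_cons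 (Vale.Agent.P032.Lt.q R0Q047.q992_14) (q_cons (Vale.Agent.P032.Lt.q R0Q047.q992_15) (q_cons (Vale.Agent.P032.Lt.q R0Q047.q992_16) (q_cons (Vale.Agent.P032.Lt.q R0Q047.q992_17) (q_cons (Vale.Agent.P032.Lt.q R0Q047.q992_18) (q_cons (Vale.Agent.P032.Lt.q R0Q047.q992_19) (q_cons (Vale.Agent.P032.Lt.q R0Q047.q992_20) q_nil))))))))))))))))))))))

def C993 : List ℕ := [0, 4, 8, 12, 16, 20, 24, 606209, 737281]
theorem p993 : Pat 73 73 TBm TCm (C993.map Fm) R0Q047.P993 R0Q047.I993 := Vale.Agent.P032.Lt.pat_eq (E' := R0Q047.E993) (by decide +kernel) (pat_step (by decide +kernel) (q_cons (Vale.Agent.P032.Lt.q R0Q047.q993_0) (q_cons (Vale.Agent.P032.Lt.q R0Q047.q993_1) (q_cons (Vale.Agent.P032.Lt.q R0Q047.q993_2) (q_cons (Vale.Agent.P032.Lt.q R0Q047.q993_3) (q_cons (Vale.Agent.P032.Lt.q R0Q047.q993_4) (q_cons (Vale.Agent.P032.Lt.q R0Q047.q993_5) (q_cons (Vale.Agent.P032.Lt.q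 R0Q047.q993_6) (q_cons (Vale.Agent.P032.Lt.q R0Q047.q993_7) (q_cons (Vale.Agent.P032.Lt.q R0Q047.q993_8) (q_cons (Vale.Agent.P032.Lt.q R0Q047.q993_9) (q_cons (Vale.Agent.P032.Lt.q R0Q047.q993_10) (q_cons (Vale.Agent.P032.Lt.q R0Q047.q993_11) (q_cons (Vale.Agent.P032.Lt.q R0Q047.q993_12) (q_cons (Vale.Agent.P032.Lt.q R0Q047.q993_13) (q_cons (Vale.Agent.P032.Lt.q R0Q047.q993_14) (q_cons (Vale.Agent.P032.Lt.q R0Q047.q993_15) (q_cons (Vale.Agent.P032.Lt.q R0Q047.q993_16) (q_cons (Vale.Agent.P032.Lt.q R0Q047.q993_17) (q_cons (Vale.Agent.P032.Lt.q R0Q047.q993_18) (q_cons (Vale.Agent.P032.Lt.q R0Q047.q993_19) (q_cons (Vale.Agent.P032.Lt.q R0Q047.q993_20) (q_cons (Vale.Agent.P032.Lt.q R0Q047.q993_21) q_nil)))))))))))))))))))))))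

theorem p994 : Pat 73 73 TBm TCm (CB.map Fm) R0Q047.P994 R0Q047.I994 := Vale.Agent.P032.Lt.pat_eq (E' := R0Q047.E) eB (pat_step (by decide +kernel) (q_cons (Vale.Agent.P032.Lt.q R0Q047.q994_0) (q_cons (Vale.Agent.P032.Lt.q R0Q047.q994_1) (q_cons (Vale.Agent.P032.Lt.q R0Q047.q994_2) (q_cons (Vale.Agent.P032.Lt.q R0Q047.q994_3) q_nil)))))

theorem p995 : Pat 73 73 TBm TCm (CB.map Fm) R0Q047.P995 R0Q047.I995 := Vale.Agent.P032.Lt.pat_eq (E' := R0Q047.E) eB (pat_step (by decide +kernel) (q_cons (Vale.Agent.P032.Lt.q R0Q047.q995_0) (q_cons (Vale.Agent.P032.Lt.q R0Q047.q995_1) (q_cons (Vale.Agent.P032.Lt.q R0Q047.q995_2) (q_cons (Vale.Agent.P032.Lt.q R0Q047.q995_3) (q_cons (Vale.Agent.P032.Lt.q R0Q047.q995_4) (q_cons (Vale.Agent.P032.Lt.q R0Q047.q995_5) (q_cons (Vale.Agent.P032.Lt.q R0Q047.q995_6) (q_cons (Vale.Agent.P032.Lt.q R0Q047.q995_7) (q_cons (Vale.Agent.P032.Lt.q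 R0Q047.q995_8) (q_cons (Vale.Agent.P032.Lt.q R0Q047.q995_9) (q_cons (Vale.Agent.P032.Lt.q R0Q047.q995_10) (q_cons (Vale.Agent.P032.Lt.q R0Q047.q995_11) (q_cons (Vale.Agent.P032.Lt.q R0Q047.q995_12) (q_cons (Vale.Agent.P032.Lt.q R0Q047.q995_13) (q_cons (Vale.Agent.P032.Lt.q R0Q047.q995_14) (q_cons (Vale.Agent.P032.Lt.q R0Q047.q995_15) (q_cons (Vale.Agent.P032.Lt.q R0Q047.q995_16) (q_cons (Vale.Agent.P032.Lt.q R0Q047.q995_17) (q_cons (Vale.Agent.P032.Lt.q R0Q047.q995_18) (q_cons (Vale.Agent.P032.Lt.q R0Q047.q995_19) (q_cons (Vale.Agent.P032.Lt.q R0Q047.q995_20) (q_cons (Vale.Agent.P032.Lt.q R0Q047.q995_21) (q_cons (Vale.Agent.P032.Lt.q R0Q047.q995_22) (q_cons (Vale.Agent.P032.Lt.q R0Q047.q995_23) (q_cons (Vale.Agent.P032.Lt.q R0Q047.q995_24) (q_cons (Vale.Agent.P032.Lt.q R0Q047.q995_25) (q_cons (Vale.Agent.P032.Lt.q R0Q047.q995_26) (q_cons (Vale.Agent.P032.Lt.q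 R0Q047.q995_27) (q_cons (Vale.Agent.P032.Lt.q R0Q047.q995_28) (q_cons (Vale.Agent.P032.Lt.q R0Q047.q995_29) (q_cons (Vale.Agent.P032.Lt.q R0Q047.q995_30) (q_cons (Vale.Agent.P032.Lt.q R0Q047.q995_31) (q_cons (Vale.Agent.P032.Lt.q R0Q047.q995_32) (q_cons (Vale.Agent.P032.Lt.q R0Q047.q995_33) (q_cons (Vale.Agent.P032.Lt.q R0Q047.q995_34) (q_cons (Vale.Agent.P032.Lt.q R0Q047.q995_35) (q_cons (Vale.Agent.P032.Lt.q R0Q047.q995_36) (q_cons (Vale.Agent.P032.Lt.q R0Q047.q995_37) (q_cons (Vale.Agent.P032.Lt.q R0Q047.q995_38) (q_cons (Vale.Agent.P032.Lt.q R0Q047.q995_39) (q_cons (Vale.Agent.P032.Lt.q R0Q047.q995_40) (q_cons (Vale.Agent.P032.Lt.q R0Q047.q995_41) (q_cons (Vale.Agent.P032.Lt.q R0Q047.q995_42) (q_cons (Vale.Agent.P032.Lt.q R0Q047.q995_43) (q_cons (Vale.Agent.P032.Lt.q R0Q047.q995_44) (q_cons (Vale.Agent.P032.Lt.q R0Q047.q995_45) q_nil)))))))))))))))))))))))))))))))))))))))))))))))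

theorem p996 : Pat 73 73 TBm TCm (CB.map Fm) R0Q047.P996 R0Q047.I996 := Vale.Agent.P032.Lt.pat_eq (E' := R0Q047.E) eB (pat_step (by decide +kernel) (q_cons (Vale.Agent.P032.Lt.q R0Q047.q996_0) (q_cons (Vale.Agent.P032.Lt.q R0Q047.q996_1) (q_cons (Vale.Agent.P032.Lt.q R0Q047.q996_2) (q_cons (Vale.Agent.P032.Lt.q R0Q047.q996_3) (q_cons (Vale.Agent.P032.Lt.q R0Q047.q996_4) (q_cons (Vale.Agent.P032.Lt.q R0Q047.q996_5) (q_cons (Vale.Agent.P032.Lt.q R0Q047.q996_6) (q_cons (Vale.Agent.P032.Lt.q R0Q047.q996_7) q_nil)))))))))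

theorem p997 : Pat 73 73 TBm TCm (CB.map Fm) R0Q047.P997 R0Q047.I997 := Vale.Agent.P032.Lt.pat_eq (E' := R0Q047.E) eB (pat_step (by decide +kernel) (q_cons (Vale.Agent.P032.Lt.q R0Q047.q997_0) (q_cons (Vale.Agent.P032.Lt.q R0Q047.q997_1) (q_cons (Vale.Agent.P032.Lt.q R0Q047.q997_2) (q_cons (Vale.Agent.P032.Lt.q R0Q047.q997_3) (q_cons (Vale.Agent.P032.Lt.q R0Q047.q997_4) (q_cons (Vale.Agent.P032.Lt.q R0Q047.q997_5) (q_cons (Vale.Agent.P032.Lt.q R0Q047.q997_6) (q_cons (Vale.Agent.P032.Lt.q R0Q047.q997_7) (q_cons (Vale.Agent.P032.Lt.q R0Q047.q997_8) (q_cons (Vale.Agent.P032.Lt.q R0Q047.q997_9) (q_cons (Vale.Agent.P032.Lt.q R0Q047.q997_10) (q_cons (Vale.Agent.P032.Lt.q R0Q047.q997_11) q_nil)))))))))))))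

theorem p998 : Pat 73 73 TBm TCm (CB.map Fm) R0Q047.P998 R0Q047.I998 := Vale.Agent.P032.Lt.pat_eq (E' := R0Q047.E) eB (pat_step (by decide +kernel) (q_cons (Vale.Agent.P032.Lt.q R0Q047.q998_0) (q_cons (Vale.Agent.P032.Lt.q R0Q047.q998_1) (q_cons (Vale.Agent.P032.Lt.q R0Q047.q998_2) q_nil))))

theorem p999 : Pat 73 73 TBm TCm (CB.map Fm) R0Q047.P999 R0Q047.I999 := Vale.Agent.P032.Lt.pat_eq (E' := R0Q047.E) eB (pat_step (by decide +kernel) (q_cons (Vale.Agent.P032.Lt.q R0Q047.q999_0) (q_cons (Vale.Agent.P032.Lt.q R0Q047.q999_1) (q_cons (Vale.Agent.P032.Lt.q R0Q047.q999_2) (q_cons (Vale.Agent.P032.Lt.q R0Q047.q999_3) (q_cons (Vale.Agent.P032.Lt.q R0Q047.q999_4) (q_cons (Vale.Agent.P032.Lt.q R0Q047.q999_5) (q_cons (Vale.Agent.P032.Lt.q R0Q047.q999_6) (q_cons (Vale.Agent.P032.Lt.q R0Q047.q999_7) (q_cons (Vale.Agent.P032.Lt.q R0Q047.q999_8) (q_cons (Vale.Agent.P032.Lt.q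 R0Q047.q999_9) (q_cons (Vale.Agent.P032.Lt.q R0Q047.q999_10) (q_cons (Vale.Agent.P032.Lt.q R0Q047.q999_11) (q_cons (Vale.Agent.P032.Lt.q R0Q047.q999_12) (q_cons (Vale.Agent.P032.Lt.q R0Q047.q999_13) q_nil)))))))))))))))

theorem p1000 : Pat 73 73 TBm TCm (CB.map Fm) R0Q047.P1000 R0Q047.I1000 := Vale.Agent.P032.Lt.pat_eq (E' := R0Q047.E) eB (pat_step (by decide +kernel) (q_cons (Vale.Agent.P032.Lt.q R0Q047.q1000_0) (q_cons (Vale.Agent.P032.Lt.q R0Q047.q1000_1) (q_cons (Vale.Agent.P032.Lt.q R0Q047.q1000_2) (q_cons (Vale.Agent.P032.Lt.q R0Q047.q1000_3) (q_cons (Vale.Agent.P032.Lt.q R0Q047.q1000_4) (q_cons (Vale.Agent.P032.Lt.q R0Q047.q1000_5) q_nil)))))))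

theorem p1001 : Pat 73 73 TBm TCm (CB.map Fm) R0Q047.P1001 R0Q047.I1001 := Vale.Agent.P032.Lt.pat_eq (E' := R0Q047.E) eB (pat_step (by decide +kernel) (q_cons (Vale.Agent.P032.Lt.q R0Q047.q1001_0) (q_cons (Vale.Agent.P032.Lt.q R0Q047.q1001_1) (q_cons (Vale.Agent.P032.Lt.q R0Q047.q1001_2) (q_cons (Vale.Agent.P032.Lt.q R0Q047.q1001_3) q_nil)))))

theorem p1002 : Pat 73 73 TBm TCm (CB.map Fm) R0Q047.P1002 R0Q047.I1002 := Vale.Agent.P032.Lt.pat_eq (E' := R0Q047.E) eB (pat_step (by decide +kernel) (q_cons (Vale.Agent.P032.Lt.q R0Q047.q1002_0) q_nil))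

def C1003 : List ℕ := [0, 4, 8, 12, 16, 20, 24, 81921, 212993, 344065]
theorem p1003 : Pat 73 73 TBm TCm (C1003.map Fm) R0Q047.P1003 R0Q047.I1003 := Vale.Agent.P032.Lt.pat_eq (E' := R0Q047.E1003) (by decide +kernel) (pat_step (by decide +kernel) (q_cons (Vale.Agent.P032.Lt.q R0Q047.q1003_0) (q_cons (Vale.Agent.P032.Lt.q R0Q047.q1003_1) (q_cons (Vale.Agent.P032.Lt.q R0Q047.q1003_2) (q_cons (Vale.Agent.P032.Lt.q R0Q047.q1003_3) (q_cons (Vale.Agent.P032.Lt.q R0Q047.q1003_4) (q_cons (Vale.Agent.P032.Lt.q R0Q047.q1003_5) q_nil)))))))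

def C1004 : List ℕ := [0, 4, 8, 12, 16, 20, 24, 82945, 741377]
theorem p1004 : Pat 73 73 TBm TCm (C1004.map Fm) R0Q047.P1004 R0Q047.I1004 := Vale.Agent.P032.Lt.pat_eq (E' := R0Q047.E1004) (by decide +kernel) (pat_step (by decide +kernel) (q_cons (Vale.Agent.P032.Lt.q R0Q047.q1004_0) (q_cons (Vale.Agent.P032.Lt.q R0Q047.q1004_1) (q_cons (Vale.Agent.P032.Lt.q R0Q047.q1004_2) (q_cons (Vale.Agent.P032.Lt.q R0Q047.q1004_3) q_nil)))))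

theorem p1005 : Pat 73 73 TBm TCm (CB.map Fm) R0Q047.P1005 [] := Vale.Agent.P032.Lt.pat_eq (E' := R0Q047.E) eB (pat_end (by decide +kernel) (Vale.Agent.P032.Lt.q R0Q047.q1005))

theorem p1006 : Pat 73 73 TBm TCm (CB.map Fm) R0Q047.P1006 R0Q047.I1006 := Vale.Agent.P032.Lt.pat_eq (E' := R0Q047.E) eB (pat_step (by decide +kernel) (q_cons (Vale.Agent.P032.Lt.q R0Q047.q1006_0) (q_cons (Vale.Agent.P032.Lt.q R0Q047.q1006_1) (q_cons (Vale.Agent.P032.Lt.q R0Q047.q1006_2) (q_cons (Vale.Agent.P032.Lt.q R0Q047.q1006_3) (q_cons (Vale.Agent.P032.Lt.q R0Q047.q1006_4) (q_cons (Vale.Agent.P032.Lt.q R0Q047.q1006_5) (q_cons (Vale.Agent.P032.Lt.q R0Q047.q1006_6) (q_cons (Vale.Agent.P032.Lt.q R0Q047.q1006_7) (q_cons (Vale.Agent.P032.Lt.q R0Q047.q1006_8) q_nil))))))))))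

theorem p1007 : Pat 73 73 TBm TCm (CB.map Fm) R0Q047.P1007 R0Q047.I1007 := Vale.Agent.P032.Lt.pat_eq (E' := R0Q047.E) eB (pat_step (by decide +kernel) (q_cons (Vale.Agent.P032.Lt.q R0Q047.q1007_0) (q_cons (Vale.Agent.P032.Lt.q R0Q047.q1007_1) (q_cons (Vale.Agent.P032.Lt.q R0Q047.q1007_2) (q_cons (Vale.Agent.P032.Lt.q R0Q047.q1007_3) (q_cons (Vale.Agent.P032.Lt.q R0Q047.q1007_4) (q_cons (Vale.Agent.P032.Lt.q R0Q047.q1007_5) (q_cons (Vale.Agent.P032.Lt.q R0Q047.q1007_6) q_nil))))))))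

theorem p1008 : Pat 73 73 TBm TCm (CB.map Fm) R0Q047.P1008 R0Q047.I1008 := Vale.Agent.P032.Lt.pat_eq (E' := R0Q047.E) eB (pat_step (by decide +kernel) (q_cons (Vale.Agent.P032.Lt.q R0Q047.q1008_0) (q_cons (Vale.Agent.P032.Lt.q R0Q047.q1008_1) (q_cons (Vale.Agent.P032.Lt.q R0Q047.q1008_2) (q_cons (Vale.Agent.P032.Lt.q R0Q047.q1008_3) (q_cons (Vale.Agent.P032.Lt.q R0Q047.q1008_4) (q_cons (Vale.Agent.P032.Lt.q R0Q047.q1008_5) (q_cons (Vale.Agent.P032.Lt.q R0Q047.q1008_6) (q_cons (Vale.Agent.P032.Lt.q R0Q047.q1008_7) q_nil)))))))))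

theorem p1009 : Pat 73 73 TBm TCm (CB.map Fm) R0Q047.P1009 R0Q047.I1009 := Vale.Agent.P032.Lt.pat_eq (E' := R0Q047.E) eB (pat_step (by decide +kernel) (q_cons (Vale.Agent.P032.Lt.q R0Q047.q1009_0) q_nil))

theorem p1010 : Pat 73 73 TBm TCm (CB.map Fm) R0Q047.P1010 R0Q047.I1010 := Vale.Agent.P032.Lt.pat_eq (E' := R0Q047.E) eB (pat_step (by decide +kernel) (q_cons (Vale.Agent.P032.Lt.q R0Q047.q1010_0) q_nil))

theorem p1011 : Pat 73 73 TBm TCm (CB.map Fm) R0Q048.P1011 R0Q048.I1011 := Vale.Agent.P032.Lt.pat_eq (E' := R0Q048.E) eB (pat_step (by decide +kernel) (q_cons (Vale.Agent.P032.Lt.q R0Q048.q1011_0) (q_cons (Vale.Agent.P032.Lt.q R0Q048.q1011_1) (q_cons (Vale.Agent.P032.Lt.q R0Q048.q1011_2) (q_cons (Vale.Agent.P032.Lt.q R0Q048.q1011_3) (q_cons (Vale.Agent.P032.Lt.q R0Q048.q1011_4) (q_cons (Vale.Agent.P032.Lt.q R0Q048.q1011_5) (q_cons (Vale.Agent.P032.Lt.q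 R0Q048.q1011_6) (q_cons (Vale.Agent.P032.Lt.q R0Q048.q1011_7) (q_cons (Vale.Agent.P032.Lt.q R0Q048.q1011_8) (q_cons (Vale.Agent.P032.Lt.q R0Q048.q1011_9) (q_cons (Vale.Agent.P032.Lt.q R0Q048.q1011_10) (q_cons (Vale.Agent.P032.Lt.q R0Q048.q1011_11) q_nil)))))))))))))

theorem p1012 : Pat 73 73 TBm TCm (CB.map Fm) R0Q048.P1012 R0Q048.I1012 := Vale.Agent.P032.Lt.pat_eq (E' := R0Q048.E) eB (pat_step (by decide +kernel) (q_cons (Vale.Agent.P032.Lt.q R0Q048.q1012_0) (q_cons (Vale.Agent.P032.Lt.q R0Q048.q1012_1) q_nil)))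

theorem p1013 : Pat 73 73 TBm TCm (CB.map Fm) R0Q048.P1013 R0Q048.I1013 := Vale.Agent.P032.Lt.pat_eq (E' := R0Q048.E) eB (pat_step (by decide +kernel) (q_cons (Vale.Agent.P032.Lt.q R0Q048.q1013_0) q_nil))

theorem p1014 : Pat 73 73 TBm TCm (CB.map Fm) R0Q048.P1014 R0Q048.I1014 := Vale.Agent.P032.Lt.pat_eq (E' := R0Q048.E) eB (pat_step (by decide +kernel) (q_cons (Vale.Agent.P032.Lt.q R0Q048.q1014_0) (q_cons (Vale.Agent.P032.Lt.q R0Q048.q1014_1) (q_cons (Vale.Agent.P032.Lt.q R0Q048.q1014_2) q_nil))))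

theorem p1015 : Pat 73 73 TBm TCm (CB.map Fm) R0Q048.P1015 R0Q048.I1015 := Vale.Agent.P032.Lt.pat_eq (E' := R0Q048.E) eB (pat_step (by decide +kernel) (q_cons (Vale.Agent.P032.Lt.q R0Q048.q1015_0) q_nil))

theorem p1016 : Pat 73 73 TBm TCm (CB.map Fm) R0Q048.P1016 R0Q048.I1016 := Vale.Agent.P032.Lt.pat_eq (E' := R0Q048.E) eB (pat_step (by decide +kernel) (q_cons (Vale.Agent.P032.Lt.q R0Q048.q1016_0) (q_cons (Vale.Agent.P032.Lt.q R0Q048.q1016_1) q_nil)))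

theorem p1017 : Pat 73 73 TBm TCm (CB.map Fm) R0Q048.P1017 R0Q048.I1017 := Vale.Agent.P032.Lt.pat_eq (E' := R0Q048.E) eB (pat_step (by decide +kernel) (q_cons (Vale.Agent.P032.Lt.q R0Q048.q1017_0) (q_cons (Vale.Agent.P032.Lt.q R0Q048.q1017_1) (q_cons (Vale.Agent.P032.Lt.q R0Q048.q1017_2) (q_cons (Vale.Agent.P032.Lt.q R0Q048.q1017_3) (q_cons (Vale.Agent.P032.Lt.q R0Q048.q1017_4) (q_cons (Vale.Agent.P032.Lt.q R0Q048.q1017_5) q_nil)))))))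

theorem p1018 : Pat 73 73 TBm TCm (CB.map Fm) R0Q048.P1018 R0Q048.I1018 := Vale.Agent.P032.Lt.pat_eq (E' := R0Q048.E) eB (pat_step (by decide +kernel) (q_cons (Vale.Agent.P032.Lt.q R0Q048.q1018_0) (q_cons (Vale.Agent.P032.Lt.q R0Q048.q1018_1) q_nil)))

theorem p1019 : Pat 73 73 TBm TCm (CB.map Fm) R0Q048.P1019 R0Q048.I1019 := Vale.Agent.P032.Lt.pat_eq (E' := R0Q048.E) eB (pat_step (by decide +kernel) (q_cons (Vale.Agent.P032.Lt.q R0Q048.q1019_0) (q_cons (Vale.Agent.P032.Lt.q R0Q048.q1019_1) (q_cons (Vale.Agent.P032.Lt.q R0Q048.q1019_2) (q_cons (Vale.Agent.P032.Lt.q R0Q048.q1019_3) q_nil)))))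

def C1020 : List ℕ := [0, 4, 8, 12, 16, 20, 24, 81921, 212993, 220161, 344065, 475137, 737281]
theorem p1020 : Pat 73 73 TBm TCm (C1020.map Fm) R0Q048.P1020 R0Q048.I1020 := Vale.Agent.P032.Lt.pat_eq (E' := R0Q048.E1020) (by decide +kernel) (pat_step (by decide +kernel) (q_cons (Vale.Agent.P032.Lt.q R0Q048.q1020_0) (q_cons (Vale.Agent.P032.Lt.q R0Q048.q1020_1) (q_cons (Vale.Agent.P032.Lt.q R0Q048.q1020_2) (q_cons (Vale.Agent.P032.Lt.q R0Q048.q1020_3) q_nil)))))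

def C1021 : List ℕ := [0, 4, 8, 12, 16, 20, 24, 81921, 212993, 344065, 475137, 737281]
theorem p1021 : Pat 73 73 TBm TCm (C1021.map Fm) R0Q048.P1021 R0Q048.I1021 := Vale.Agent.P032.Lt.pat_eq (E' := R0Q048.E1021) (by decide +kernel) (pat_step (by decide +kernel) (q_cons (Vale.Agent.P032.Lt.q R0Q048.q1021_0) (q_cons (Vale.Agent.P032.Lt.q R0Q048.q1021_1) (q_cons (Vale.Agent.P032.Lt.q R0Q048.q1021_2) (q_cons (Vale.Agent.P032.Lt.q R0Q048.q1021_3) q_nil)))))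

theorem p1022 : Pat 73 73 TBm TCm (CB.map Fm) R0Q048.P1022 R0Q048.I1022 := Vale.Agent.P032.Lt.pat_eq (E' := R0Q048.E) eB (pat_step (by decide +kernel) (q_cons (Vale.Agent.P032.Lt.q R0Q048.q1022_0) (q_cons (Vale.Agent.P032.Lt.q R0Q048.q1022_1) (q_cons (Vale.Agent.P032.Lt.q R0Q048.q1022_2) q_nil))))

theorem p1023 : Pat 73 73 TBm TCm (CB.map Fm) R0Q048.P1023 R0Q048.I1023 := Vale.Agent.P032.Lt.pat_eq (E' := R0Q048.E) eB (pat_step (by decide +kernel) (q_cons (Vale.Agent.P032.Lt.q R0Q048.q1023_0) q_nil))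

def L : List (List ℕ) := [R0Q043.P896, R0Q043.P897, R0Q043.P898, R0Q043.P899, R0Q043.P900, R0Q043.P901, R0Q043.P902, R0Q043.P903, R0Q043.P904, R0Q043.P905, R0Q043.P906, R0Q043.P907, R0Q043.P908, R0Q043.P909, R0Q043.P910, R0Q043.P911, R0Q043.P912, R0Q043.P913, R0Q043.P914, R0Q043.P915, R0Q043.P916, R0Q043.P917, R0Q043.P918, R0Q043.P919, R0Q043.P920, R0Q043.P921, R0Q043.P922, R0Q043.P923, R0Q043.P924, R0Q044.P925, R0Q044.P926, R0Q044.P927, R0Q044.P928, R0Q044.P929, R0Q044.P930, R0Q044.P931, R0Q044.P932, R0Q044.P933, R0Q044.P934, R0Q044.P935, R0Q044.P936, R0Q044.P937, R0Q044.P938, R0Q044.P939, R0Q044.P940, R0Q044.P941, R0Q044.P942, R0Q044.P943, R0Q045.P944, R0Q045.P945, R0Q045.P946, R0Q045.P947, R0Q045.P948, R0Q045.P949, R0Q045.P950, R0Q045.P951, R0Q045.P952, R0Q045.P953, R0Q045.P954, R0Q045.P955, R0Q045.P956, R0Q045.P957, R0Q045.P958, R0Q045.P959, R0Q045.P960,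 R0Q045.P961, R0Q045.P962, R0Q045.P963, R0Q045.P964, R0Q045.P965, R0Q045.P966, R0Q045.P967, R0Q045.P968, R0Q045.P969, R0Q046.P970, R0Q046.P971, R0Q046.P972, R0Q046.P973, R0Q046.P974, R0Q046.P975, R0Q046.P976, R0Q046.P977, R0Q046.P978, R0Q046.P979, R0Q046.P980, R0Q046.P981, R0Q046.P982, R0Q046.P983, R0Q046.P984, R0Q046.P985, R0Q046.P986, R0Q046.P987, R0Q046.P988, R0Q046.P989, R0Q046.P990, R0Q046.P991, R0Q047.P992, R0Q047.P993, R0Q047.P994, R0Q047.P995, R0Q047.P996, R0Q047.P997, R0Q047.P998, R0Q047.P999, R0Q047.P1000, R0Q047.P1001, R0Q047.P1002, R0Q047.P1003, R0Q047.P1004, R0Q047.P1005, R0Q047.P1006, R0Q047.P1007, R0Q047.P1008, R0Q047.P1009, R0Q047.P1010, R0Q048.P1011, R0Q048.P1012, R0Q048.P1013, R0Q048.P1014, R0Q048.P1015, R0Q048.P1016, R0Q048.P1017, R0Q048.P1018, R0Q048.P1019, R0Q048.P1020, R0Q048.P1021, R0Q048.P1022, R0Q048.P1023]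

theorem all : ∀ P ∈ L, CrtF 73 73 TBm TCm (Vale.Agent.P032.Fam.fam2 (Vale.Agent.P032.Fam.im0)) P := crtF_cons p896 (crtF_cons p897 (crtF_cons p898 (crtF_cons p899 (crtF_cons p900 (crtF_cons p901 (crtF_cons p902 (crtF_cons p903 (crtF_cons p904 (crtF_cons p905 (crtF_cons p906 (crtF_cons p907 (crtF_cons p908 (crtF_cons p909 (crtF_cons p910 (crtF_cons p911 (crtF_cons p912 (crtF_cons p913 (crtF_cons p914 (crtF_cons p915 (crtF_cons p916 (crtF_cons p917 (crtF_cons p918 (crtF_cons p919 (crtF_cons p920 (crtF_cons p921 (crtF_cons p922 (crtF_cons p923 (crtF_cons p924 (crtF_cons p925 (crtF_cons p926 (crtF_cons p927 (crtF_cons p928 (crtF_cons p929 (crtF_cons p930 (crtF_cons p931 (crtF_cons p932 (crtF_cons p933 (crtF_cons p934 (crtF_cons p935 (crtF_cons p936 (crtF_cons p937 (crtF_cons p938 (crtF_cons p939 (crtF_cons p940 (crtF_cons p941 (crtF_cons p942 (crtF_cons p943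 (crtF_cons p944 (crtF_cons p945 (crtF_cons p946 (crtF_cons p947 (crtF_cons p948 (crtF_cons p949 (crtF_cons p950 (crtF_cons p951 (crtF_cons p952 (crtF_cons p953 (crtF_cons p954 (crtF_cons p955 (crtF_cons p956 (crtF_cons p957 (crtF_cons p958 (crtF_cons p959 (crtF_cons p960 (crtF_cons p961 (crtF_cons p962 (crtF_cons p963 (crtF_cons p964 (crtF_cons p965 (crtF_cons p966 (crtF_cons p967 (crtF_cons p968 (crtF_cons p969 (crtF_cons p970 (crtF_cons p971 (crtF_cons p972 (crtF_cons p973 (crtF_cons p974 (crtF_cons p975 (crtF_cons p976 (crtF_cons p977 (crtF_cons p978 (crtF_cons p979 (crtF_cons p980 (crtF_cons p981 (crtF_cons p982 (crtF_cons p983 (crtF_cons p984 (crtF_cons p985 (crtF_cons p986 (crtF_cons p987 (crtF_cons p988 (crtF_cons p989 (crtF_cons p990 (crtF_cons p991 (crtF_cons p992 (crtF_cons p993 (crtF_cons p994 (crtF_cons p995 (crtF_cons p996 (crtF_cons p997 (crtF_cons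 p998 (crtF_cons p999 (crtF_cons p1000 (crtF_cons p1001 (crtF_cons p1002 (crtF_cons p1003 (crtF_cons p1004 (crtF_cons p1005 (crtF_cons p1006 (crtF_cons p1007 (crtF_cons p1008 (crtF_cons p1009 (crtF_cons p1010 (crtF_cons p1011 (crtF_cons p1012 (crtF_cons p1013 (crtF_cons p1014 (crtF_cons p1015 (crtF_cons p1016 (crtF_cons p1017 (crtF_cons p1018 (crtF_cons p1019 (crtF_cons p1020 (crtF_cons p1021 (crtF_cons p1022 (crtF_cons p1023 crtF_nil)))))))))))))))))))))))))))))))))))))))))))))))))))))))))))))))))))))))))))))))))))))))))))))))))))))))))))))))))))))))))))))))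

theorem ch : chT 73 73 TCm s0_007 L = true := by decide +kernel

end Vale.Agent.P032X.Cert.XP.B1.R0H007
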