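import Vale.Agent.P032X.H892.LtH
import Vale.Agent.P032X.H286.W73
import Vale.Agent.P032X.Cert.XP.B1.R0T
import Vale.Agent.P032X.Cert.XP.B1.R0Q054
import Vale.Agent.P032X.Cert.XP.B1.R0Q055
import Vale.Agent.P032X.Cert.XP.B1.R0Q056
import Vale.Agent.P032X.Cert.XP.B1.R0Q057
import Vale.Agent.P032X.Cert.XP.B1.R0Q058

set_option maxRecDepth 1000000

namespace Vale.Agent.P032X.Cert.XP.B1.R0H009

open Vale.Agent.P032.H820.K Vale.Agent.P032.H357.MK Vale.Agent.P032.H286.E Vale.Agent.P032.H61 Vale.Agent.P032X.Cert.XP.B1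

noncomputable abbrev Fm : ℕ → List ℕ := Vale.Agent.P032.Fam.fam2 (Vale.Agent.P032.Fam.im0)

def CB : List ℕ := [0, 4, 8, 12, 16, 20, 24]

theorem eB : Vale.Agent.P032.Lt.eqLL (CB.map Fm) R0Q054.E = true := by decide +kernel

theorem p1152 : Pat 73 73 TBm TCm (CB.map Fm) R0Q054.P1152 R0Q054.I1152 := Vale.Agent.P032.Lt.pat_eq (E' := R0Q054.E) eB (pat_step (by decide +kernel) (q_cons (Vale.Agent.P032.Lt.q R0Q054.q1152_0) (q_cons (Vale.Agent.P032.Lt.q R0Q054.q1152_1) q_nil)))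

theorem p1153 : Pat 73 73 TBm TCm (CB.map Fm) R0Q054.P1153 R0Q054.I1153 := Vale.Agent.P032.Lt.pat_eq (E' := R0Q054.E) eB (pat_step (by decide +kernel) (q_cons (Vale.Agent.P032.Lt.q R0Q054.q1153_0) q_nil))

def C1154 : List ℕ := [0, 4, 8, 12, 16, 20, 24, 344065, 475137, 737281]
theorem p1154 : Pat 73 73 TBm TCm (C1154.map Fm) R0Q054.P1154 R0Q054.I1154 := Vale.Agent.P032.Lt.pat_eq (E' := R0Q054.E1154) (by decide +kernel) (pat_step (by decide +kernel) (q_cons (Vale.Agent.P032.Lt.q R0Q054.q1154_0) (q_cons (Vale.Agent.P032.Lt.q R0Q054.q1154_1) (q_cons (Vale.Agent.P032.Lt.q R0Q054.q1154_2) (q_cons (Vale.Agent.P032.Lt.q R0Q054.q1154_3) (q_cons (Vale.Agent.P032.Lt.q R0Q054.q1154_4) (q_cons (Vale.Agent.P032.Lt.q R0Q054.q1154_5) (q_cons (Vale.Agent.P032.Lt.q R0Q054.q1154_6) q_nil))))))))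

theorem p1155 : Pat 73 73 TBm TCm (CB.map Fm) R0Q054.P1155 R0Q054.I1155 := Vale.Agent.P032.Lt.pat_eq (E' := R0Q054.E) eB (pat_step (by decide +kernel) (q_cons (Vale.Agent.P032.Lt.q R0Q054.q1155_0) (q_cons (Vale.Agent.P032.Lt.q R0Q054.q1155_1) (q_cons (Vale.Agent.P032.Lt.q R0Q054.q1155_2) q_nil))))

theorem p1156 : Pat 73 73 TBm TCm (CB.map Fm) R0Q054.P1156 R0Q054.I1156 := Vale.Agent.P032.Lt.pat_eq (E' := R0Q054.E) eB (pat_step (by decide +kernel) (q_cons (Vale.Agent.P032.Lt.q R0Q054.q1156_0) (q_cons (Vale.Agent.P032.Lt.q R0Q054.q1156_1) (q_cons (Vale.Agent.P032.Lt.q R0Q054.q1156_2) (q_cons (Vale.Agent.P032.Lt.q R0Q054.q1156_3) (q_cons (Vale.Agent.P032.Lt.q R0Q054.q1156_4) (q_cons (Vale.Agent.P032.Lt.q R0Q054.q1156_5) (q_cons (Vale.Agent.P032.Lt.q R0Q054.q1156_6) (q_cons (Vale.Agent.P032.Lt.q R0Q054.q1156_7) (q_cons (Vale.Agent.P032.Lt.q R0Q054.q1156_8)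 (q_cons (Vale.Agent.P032.Lt.q R0Q054.q1156_9) (q_cons (Vale.Agent.P032.Lt.q R0Q054.q1156_10) (q_cons (Vale.Agent.P032.Lt.q R0Q054.q1156_11) (q_cons (Vale.Agent.P032.Lt.q R0Q054.q1156_12) (q_cons (Vale.Agent.P032.Lt.q R0Q054.q1156_13) (q_cons (Vale.Agent.P032.Lt.q R0Q054.q1156_14) (q_cons (Vale.Agent.P032.Lt.q R0Q054.q1156_15) (q_cons (Vale.Agent.P032.Lt.q R0Q054.q1156_16) (q_cons (Vale.Agent.P032.Lt.q R0Q054.q1156_17) (q_cons (Vale.Agent.P032.Lt.q R0Q054.q1156_18) (q_cons (Vale.Agent.P032.Lt.q R0Q054.q1156_19) (q_cons (Vale.Agent.P032.Lt.q R0Q054.q1156_20) (q_cons (Vale.Agent.P032.Lt.q R0Q054.q1156_21) (q_cons (Vale.Agent.P032.Lt.q R0Q054.q1156_22) (q_cons (Vale.Agent.P032.Lt.q R0Q054.q1156_23) (q_cons (Vale.Agent.P032.Lt.q R0Q054.q1156_24) (q_cons (Vale.Agent.P032.Lt.q R0Q054.q1156_25) (q_cons (Vale.Agent.P032.Lt.q R0Q054.q1156_26) (q_cons (Vale.Agent.P032.Lt.q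 R0Q054.q1156_27) (q_cons (Vale.Agent.P032.Lt.q R0Q054.q1156_28) (q_cons (Vale.Agent.P032.Lt.q R0Q054.q1156_29) q_nil)))))))))))))))))))))))))))))))

theorem p1157 : Pat 73 73 TBm TCm (CB.map Fm) R0Q054.P1157 R0Q054.I1157 := Vale.Agent.P032.Lt.pat_eq (E' := R0Q054.E) eB (pat_step (by decide +kernel) (q_cons (Vale.Agent.P032.Lt.q R0Q054.q1157_0) (q_cons (Vale.Agent.P032.Lt.q R0Q054.q1157_1) (q_cons (Vale.Agent.P032.Lt.q R0Q054.q1157_2) (q_cons (Vale.Agent.P032.Lt.q R0Q054.q1157_3) (q_cons (Vale.Agent.P032.Lt.q R0Q054.q1157_4) (q_cons (Vale.Agent.P032.Lt.q R0Q054.q1157_5) (q_cons (Vale.Agent.P032.Lt.q R0Q054.q1157_6) (q_cons (Vale.Agent.P032.Lt.q R0Q054.q1157_7) (q_cons (Vale.Agent.P032.Lt.q R0Q054.q1157_8) (q_cons (Vale.Agent.P032.Lt.q R0Q054.q1157_9) (q_cons (Vale.Agent.P032.Lt.q R0Q054.q1157_10) (q_cons (Vale.Agent.P032.Lt.q R0Q054.q1157_11) q_nil)))))))))))))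

def C1158 : List ℕ := [0, 4, 8, 12, 16, 20, 24, 212993, 355329, 475137, 613377, 737281]
theorem p1158 : Pat 73 73 TBm TCm (C1158.map Fm) R0Q054.P1158 R0Q054.I1158 := Vale.Agent.P032.Lt.pat_eq (E' := R0Q054.E1158) (by decide +kernel) (pat_step (by decide +kernel) (q_cons (Vale.Agent.P032.Lt.q R0Q054.q1158_0) q_nil))

theorem p1159 : Pat 73 73 TBm TCm (CB.map Fm) R0Q054.P1159 R0Q054.I1159 := Vale.Agent.P032.Lt.pat_eq (E' := R0Q054.E) eB (pat_step (by decide +kernel) (q_cons (Vale.Agent.P032.Lt.q R0Q054.q1159_0) q_nil))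

def C1160 : List ℕ := [0, 4, 8, 12, 16, 20, 24, 82945, 214017, 344065, 475137, 606209, 737281]
theorem p1160 : Pat 73 73 TBm TCm (C1160.map Fm) R0Q054.P1160 R0Q054.I1160 := Vale.Agent.P032.Lt.pat_eq (E' := R0Q054.E1160) (by decide +kernel) (pat_step (by decide +kernel) (q_cons (Vale.Agent.P032.Lt.q R0Q054.q1160_0) q_nil))

theorem p1161 : Pat 73 73 TBm TCm (CB.map Fm) R0Q054.P1161 R0Q054.I1161 := Vale.Agent.P032.Lt.pat_eq (E' := R0Q054.E) eB (pat_step (by decide +kernel) (q_cons (Vale.Agent.P032.Lt.q R0Q054.q1161_0) q_nil))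

theorem p1162 : Pat 73 73 TBm TCm (CB.map Fm) R0Q054.P1162 R0Q054.I1162 := Vale.Agent.P032.Lt.pat_eq (E' := R0Q054.E) eB (pat_step (by decide +kernel) (q_cons (Vale.Agent.P032.Lt.q R0Q054.q1162_0) (q_cons (Vale.Agent.P032.Lt.q R0Q054.q1162_1) (q_cons (Vale.Agent.P032.Lt.q R0Q054.q1162_2) (q_cons (Vale.Agent.P032.Lt.q R0Q054.q1162_3) (q_cons (Vale.Agent.P032.Lt.q R0Q054.q1162_4) (q_cons (Vale.Agent.P032.Lt.q R0Q054.q1162_5) (q_cons (Vale.Agent.P032.Lt.q R0Q054.q1162_6) (q_cons (Vale.Agent.P032.Lt.q R0Q054.q1162_7) (q_cons (Vale.Agent.P032.Lt.q R0Q054.q1162_8) q_nil))))))))))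

theorem p1163 : Pat 73 73 TBm TCm (CB.map Fm) R0Q054.P1163 R0Q054.I1163 := Vale.Agent.P032.Lt.pat_eq (E' := R0Q054.E) eB (pat_step (by decide +kernel) (q_cons (Vale.Agent.P032.Lt.q R0Q054.q1163_0) (q_cons (Vale.Agent.P032.Lt.q R0Q054.q1163_1) (q_cons (Vale.Agent.P032.Lt.q R0Q054.q1163_2) (q_cons (Vale.Agent.P032.Lt.q R0Q054.q1163_3) (q_cons (Vale.Agent.P032.Lt.q R0Q054.q1163_4) (q_cons (Vale.Agent.P032.Lt.q R0Q054.q1163_5) (q_cons (Vale.Agent.P032.Lt.q R0Q054.q1163_6) (q_cons (Vale.Agent.P032.Lt.q R0Q054.q1163_7) (q_cons (Vale.Agent.P032.Lt.q R0Q054.q1163_8) q_nil))))))))))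

theorem p1164 : Pat 73 73 TBm TCm (CB.map Fm) R0Q054.P1164 R0Q054.I1164 := Vale.Agent.P032.Lt.pat_eq (E' := R0Q054.E) eB (pat_step (by decide +kernel) (q_cons (Vale.Agent.P032.Lt.q R0Q054.q1164_0) (q_cons (Vale.Agent.P032.Lt.q R0Q054.q1164_1) (q_cons (Vale.Agent.P032.Lt.q R0Q054.q1164_2) (q_cons (Vale.Agent.P032.Lt.q R0Q054.q1164_3) (q_cons (Vale.Agent.P032.Lt.q R0Q054.q1164_4) (q_cons (Vale.Agent.P032.Lt.q R0Q054.q1164_5) q_nil)))))))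

def C1165 : List ℕ := [0, 4, 8, 12, 16, 20, 24, 212993, 475137, 737281]
theorem p1165 : Pat 73 73 TBm TCm (C1165.map Fm) R0Q054.P1165 R0Q054.I1165 := Vale.Agent.P032.Lt.pat_eq (E' := R0Q054.E1165) (by decide +kernel) (pat_step (by decide +kernel) (q_cons (Vale.Agent.P032.Lt.q R0Q054.q1165_0) (q_cons (Vale.Agent.P032.Lt.q R0Q054.q1165_1) (q_cons (Vale.Agent.P032.Lt.q R0Q054.q1165_2) (q_cons (Vale.Agent.P032.Lt.q R0Q054.q1165_3) (q_cons (Vale.Agent.P032.Lt.q R0Q054.q1165_4) (q_cons (Vale.Agent.P032.Lt.q R0Q054.q1165_5) (q_cons (Vale.Agent.P032.Lt.q R0Q054.q1165_6) q_nil))))))))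

theorem p1166 : Pat 73 73 TBm TCm (CB.map Fm) R0Q054.P1166 R0Q054.I1166 := Vale.Agent.P032.Lt.pat_eq (E' := R0Q054.E) eB (pat_step (by decide +kernel) (q_cons (Vale.Agent.P032.Lt.q R0Q054.q1166_0) (q_cons (Vale.Agent.P032.Lt.q R0Q054.q1166_1) (q_cons (Vale.Agent.P032.Lt.q R0Q054.q1166_2) (q_cons (Vale.Agent.P032.Lt.q R0Q054.q1166_3) q_nil)))))

def C1167 : List ℕ := [0, 4, 8, 12, 16, 20, 24, 81921, 607233]
theorem p1167 : Pat 73 73 TBm TCm (C1167.map Fm) R0Q054.P1167 R0Q054.I1167 := Vale.Agent.P032.Lt.pat_eq (E' := R0Q054.E1167) (by decide +kernel) (pat_step (by decide +kernel) (q_cons (Vale.Agent.P032.Lt.q R0Q054.q1167_0) (q_cons (Vale.Agent.P032.Lt.q R0Q054.q1167_1) (q_cons (Vale.Agent.P032.Lt.q R0Q054.q1167_2) q_nil))))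

theorem p1168 : Pat 73 73 TBm TCm (CB.map Fm) R0Q055.P1168 R0Q055.I1168 := Vale.Agent.P032.Lt.pat_eq (E' := R0Q055.E) eB (pat_step (by decide +kernel) (q_cons (Vale.Agent.P032.Lt.q R0Q055.q1168_0) q_nil))

theorem p1169 : Pat 73 73 TBm TCm (CB.map Fm) R0Q055.P1169 R0Q055.I1169 := Vale.Agent.P032.Lt.pat_eq (E' := R0Q055.E) eB (pat_step (by decide +kernel) (q_cons (Vale.Agent.P032.Lt.q R0Q055.q1169_0) (q_cons (Vale.Agent.P032.Lt.q R0Q055.q1169_1) q_nil)))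

theorem p1170 : Pat 73 73 TBm TCm (CB.map Fm) R0Q055.P1170 R0Q055.I1170 := Vale.Agent.P032.Lt.pat_eq (E' := R0Q055.E) eB (pat_step (by decide +kernel) (q_cons (Vale.Agent.P032.Lt.q R0Q055.q1170_0) (q_cons (Vale.Agent.P032.Lt.q R0Q055.q1170_1) (q_cons (Vale.Agent.P032.Lt.q R0Q055.q1170_2) (q_cons (Vale.Agent.P032.Lt.q R0Q055.q1170_3) (q_cons (Vale.Agent.P032.Lt.q R0Q055.q1170_4) (q_cons (Vale.Agent.P032.Lt.q R0Q055.q1170_5) q_nil)))))))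

theorem p1171 : Pat 73 73 TBm TCm (CB.map Fm) R0Q055.P1171 R0Q055.I1171 := Vale.Agent.P032.Lt.pat_eq (E' := R0Q055.E) eB (pat_step (by decide +kernel) (q_cons (Vale.Agent.P032.Lt.q R0Q055.q1171_0) q_nil))

theorem p1172 : Pat 73 73 TBm TCm (CB.map Fm) R0Q055.P1172 R0Q055.I1172 := Vale.Agent.P032.Lt.pat_eq (E' := R0Q055.E) eB (pat_step (by decide +kernel) (q_cons (Vale.Agent.P032.Lt.q R0Q055.q1172_0) q_nil))

theorem p1173 : Pat 73 73 TBm TCm (CB.map Fm) R0Q055.P1173 R0Q055.I1173 := Vale.Agent.P032.Lt.pat_eq (E' := R0Q055.E) eB (pat_step (by decide +kernel) (q_cons (Vale.Agent.P032.Lt.q R0Q055.q1173_0) (q_cons (Vale.Agent.P032.Lt.q R0Q055.q1173_1) (q_cons (Vale.Agent.P032.Lt.q R0Q055.q1173_2) q_nil))))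

theorem p1174 : Pat 73 73 TBm TCm (CB.map Fm) R0Q055.P1174 R0Q055.I1174 := Vale.Agent.P032.Lt.pat_eq (E' := R0Q055.E) eB (pat_step (by decide +kernel) (q_cons (Vale.Agent.P032.Lt.q R0Q055.q1174_0) q_nil))

theorem p1175 : Pat 73 73 TBm TCm (CB.map Fm) R0Q055.P1175 R0Q055.I1175 := Vale.Agent.P032.Lt.pat_eq (E' := R0Q055.E) eB (pat_step (by decide +kernel) (q_cons (Vale.Agent.P032.Lt.q R0Q055.q1175_0) (q_cons (Vale.Agent.P032.Lt.q R0Q055.q1175_1) q_nil)))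

theorem p1176 : Pat 73 73 TBm TCm (CB.map Fm) R0Q055.P1176 R0Q055.I1176 := Vale.Agent.P032.Lt.pat_eq (E' := R0Q055.E) eB (pat_step (by decide +kernel) (q_cons (Vale.Agent.P032.Lt.q R0Q055.q1176_0) q_nil))

theorem p1177 : Pat 73 73 TBm TCm (CB.map Fm) R0Q055.P1177 R0Q055.I1177 := Vale.Agent.P032.Lt.pat_eq (E' := R0Q055.E) eB (pat_step (by decide +kernel) (q_cons (Vale.Agent.P032.Lt.q R0Q055.q1177_0) (q_cons (Vale.Agent.P032.Lt.q R0Q055.q1177_1) (q_cons (Vale.Agent.P032.Lt.q R0Q055.q1177_2) q_nil))))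

theorem p1178 : Pat 73 73 TBm TCm (CB.map Fm) R0Q055.P1178 R0Q055.I1178 := Vale.Agent.P032.Lt.pat_eq (E' := R0Q055.E) eB (pat_step (by decide +kernel) (q_cons (Vale.Agent.P032.Lt.q R0Q055.q1178_0) q_nil))

theorem p1179 : Pat 73 73 TBm TCm (CB.map Fm) R0Q055.P1179 R0Q055.I1179 := Vale.Agent.P032.Lt.pat_eq (E' := R0Q055.E) eB (pat_step (by decide +kernel) (q_cons (Vale.Agent.P032.Lt.q R0Q055.q1179_0) (q_cons (Vale.Agent.P032.Lt.q R0Q055.q1179_1) q_nil)))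

theorem p1180 : Pat 73 73 TBm TCm (CB.map Fm) R0Q055.P1180 R0Q055.I1180 := Vale.Agent.P032.Lt.pat_eq (E' := R0Q055.E) eB (pat_step (by decide +kernel) (q_cons (Vale.Agent.P032.Lt.q R0Q055.q1180_0) q_nil))

theorem p1181 : Pat 73 73 TBm TCm (CB.map Fm) R0Q055.P1181 R0Q055.I1181 := Vale.Agent.P032.Lt.pat_eq (E' := R0Q055.E) eB (pat_step (by decide +kernel) (q_cons (Vale.Agent.P032.Lt.q R0Q055.q1181_0) (q_cons (Vale.Agent.P032.Lt.q R0Q055.q1181_1) (q_cons (Vale.Agent.P032.Lt.q R0Q055.q1181_2) (q_cons (Vale.Agent.P032.Lt.q R0Q055.q1181_3) (q_cons (Vale.Agent.P032.Lt.q R0Q055.q1181_4) q_nil))))))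

theorem p1182 : Pat 73 73 TBm TCm (CB.map Fm) R0Q055.P1182 R0Q055.I1182 := Vale.Agent.P032.Lt.pat_eq (E' := R0Q055.E) eB (pat_step (by decide +kernel) (q_cons (Vale.Agent.P032.Lt.q R0Q055.q1182_0) q_nil))

theorem p1183 : Pat 73 73 TBm TCm (CB.map Fm) R0Q055.P1183 R0Q055.I1183 := Vale.Agent.P032.Lt.pat_eq (E' := R0Q055.E) eB (pat_step (by decide +kernel) (q_cons (Vale.Agent.P032.Lt.q R0Q055.q1183_0) q_nil))

theorem p1184 : Pat 73 73 TBm TCm (CB.map Fm) R0Q055.P1184 R0Q055.I1184 := Vale.Agent.P032.Lt.pat_eq (E' := R0Q055.E) eB (pat_step (by decide +kernel) (q_cons (Vale.Agent.P032.Lt.q R0Q055.q1184_0) (q_cons (Vale.Agent.P032.Lt.q R0Q055.q1184_1) q_nil)))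

theorem p1185 : Pat 73 73 TBm TCm (CB.map Fm) R0Q055.P1185 R0Q055.I1185 := Vale.Agent.P032.Lt.pat_eq (E' := R0Q055.E) eB (pat_step (by decide +kernel) (q_cons (Vale.Agent.P032.Lt.q R0Q055.q1185_0) q_nil))

theorem p1186 : Pat 73 73 TBm TCm (CB.map Fm) R0Q055.P1186 R0Q055.I1186 := Vale.Agent.P032.Lt.pat_eq (E' := R0Q055.E) eB (pat_step (by decide +kernel) (q_cons (Vale.Agent.P032.Lt.q R0Q055.q1186_0) (q_cons (Vale.Agent.P032.Lt.q R0Q055.q1186_1) q_nil)))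

theorem p1187 : Pat 73 73 TBm TCm (CB.map Fm) R0Q055.P1187 R0Q055.I1187 := Vale.Agent.P032.Lt.pat_eq (E' := R0Q055.E) eB (pat_step (by decide +kernel) (q_cons (Vale.Agent.P032.Lt.q R0Q055.q1187_0) (q_cons (Vale.Agent.P032.Lt.q R0Q055.q1187_1) (q_cons (Vale.Agent.P032.Lt.q R0Q055.q1187_2) (q_cons (Vale.Agent.P032.Lt.q R0Q055.q1187_3) q_nil)))))

theorem p1188 : Pat 73 73 TBm TCm (CB.map Fm) R0Q055.P1188 R0Q055.I1188 := Vale.Agent.P032.Lt.pat_eq (E' := R0Q055.E) eB (pat_step (by decide +kernel) (q_cons (Vale.Agent.P032.Lt.q R0Q055.q1188_0) (q_cons (Vale.Agent.P032.Lt.q R0Q055.q1188_1) q_nil)))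

theorem p1189 : Pat 73 73 TBm TCm (CB.map Fm) R0Q055.P1189 R0Q055.I1189 := Vale.Agent.P032.Lt.pat_eq (E' := R0Q055.E) eB (pat_step (by decide +kernel) (q_cons (Vale.Agent.P032.Lt.q R0Q055.q1189_0) (q_cons (Vale.Agent.P032.Lt.q R0Q055.q1189_1) (q_cons (Vale.Agent.P032.Lt.q R0Q055.q1189_2) q_nil))))

theorem p1190 : Pat 73 73 TBm TCm (CB.map Fm) R0Q055.P1190 R0Q055.I1190 := Vale.Agent.P032.Lt.pat_eq (E' := R0Q055.E) eB (pat_step (by decide +kernel) (q_cons (Vale.Agent.P032.Lt.q R0Q055.q1190_0) q_nil))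

theorem p1191 : Pat 73 73 TBm TCm (CB.map Fm) R0Q055.P1191 R0Q055.I1191 := Vale.Agent.P032.Lt.pat_eq (E' := R0Q055.E) eB (pat_step (by decide +kernel) (q_cons (Vale.Agent.P032.Lt.q R0Q055.q1191_0) (q_cons (Vale.Agent.P032.Lt.q R0Q055.q1191_1) q_nil)))

theorem p1192 : Pat 73 73 TBm TCm (CB.map Fm) R0Q055.P1192 [] := Vale.Agent.P032.Lt.pat_eq (E' := R0Q055.E) eB (pat_end (by decide +kernel) (Vale.Agent.P032.Lt.q R0Q055.q1192))

theorem p1193 : Pat 73 73 TBm TCm (CB.map Fm) R0Q055.P1193 R0Q055.I1193 := Vale.Agent.P032.Lt.pat_eq (E' := R0Q055.E) eB (pat_step (by decide +kernel) (q_cons (Vale.Agent.P032.Lt.q R0Q055.q1193_0) q_nil))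

theorem p1194 : Pat 73 73 TBm TCm (CB.map Fm) R0Q055.P1194 R0Q055.I1194 := Vale.Agent.P032.Lt.pat_eq (E' := R0Q055.E) eB (pat_step (by decide +kernel) (q_cons (Vale.Agent.P032.Lt.q R0Q055.q1194_0) (q_cons (Vale.Agent.P032.Lt.q R0Q055.q1194_1) q_nil)))

theorem p1195 : Pat 73 73 TBm TCm (CB.map Fm) R0Q055.P1195 R0Q055.I1195 := Vale.Agent.P032.Lt.pat_eq (E' := R0Q055.E) eB (pat_step (by decide +kernel) (q_cons (Vale.Agent.P032.Lt.q R0Q055.q1195_0) (q_cons (Vale.Agent.P032.Lt.q R0Q055.q1195_1) (q_cons (Vale.Agent.P032.Lt.q R0Q055.q1195_2) (q_cons (Vale.Agent.P032.Lt.q R0Q055.q1195_3) q_nil)))))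

def C1196 : List ℕ := [0, 4, 8, 12, 16, 20, 24, 212993, 737281]
theorem p1196 : Pat 73 73 TBm TCm (C1196.map Fm) R0Q055.P1196 R0Q055.I1196 := Vale.Agent.P032.Lt.pat_eq (E' := R0Q055.E1196) (by decide +kernel) (pat_step (by decide +kernel) (q_cons (Vale.Agent.P032.Lt.q R0Q055.q1196_0) (q_cons (Vale.Agent.P032.Lt.q R0Q055.q1196_1) (q_cons (Vale.Agent.P032.Lt.q R0Q055.q1196_2) (q_cons (Vale.Agent.P032.Lt.q R0Q055.q1196_3) (q_cons (Vale.Agent.P032.Lt.q R0Q055.q1196_4) q_nil))))))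

theorem p1197 : Pat 73 73 TBm TCm (CB.map Fm) R0Q055.P1197 R0Q055.I1197 := Vale.Agent.P032.Lt.pat_eq (E' := R0Q055.E) eB (pat_step (by decide +kernel) (q_cons (Vale.Agent.P032.Lt.q R0Q055.q1197_0) (q_cons (Vale.Agent.P032.Lt.q R0Q055.q1197_1) (q_cons (Vale.Agent.P032.Lt.q R0Q055.q1197_2) (q_cons (Vale.Agent.P032.Lt.q R0Q055.q1197_3) (q_cons (Vale.Agent.P032.Lt.q R0Q055.q1197_4) (q_cons (Vale.Agent.P032.Lt.q R0Q055.q1197_5) (q_cons (Vale.Agent.P032.Lt.q R0Q055.q1197_6) (q_cons (Vale.Agent.P032.Lt.q R0Q055.q1197_7) (q_cons (Vale.Agent.P032.Lt.q R0Q055.q1197_8) q_nil))))))))))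

def C1198 : List ℕ := [0, 4, 8, 12, 16, 20, 24, 214017, 344065, 606209, 737281]
theorem p1198 : Pat 73 73 TBm TCm (C1198.map Fm) R0Q055.P1198 R0Q055.I1198 := Vale.Agent.P032.Lt.pat_eq (E' := R0Q055.E1198) (by decide +kernel) (pat_step (by decide +kernel) (q_cons (Vale.Agent.P032.Lt.q R0Q055.q1198_0) (q_cons (Vale.Agent.P032.Lt.q R0Q055.q1198_1) (q_cons (Vale.Agent.P032.Lt.q R0Q055.q1198_2) q_nil))))

theorem p1199 : Pat 73 73 TBm TCm (CB.map Fm) R0Q055.P1199 R0Q055.I1199 := Vale.Agent.P032.Lt.pat_eq (E' := R0Q055.E) eB (pat_step (by decide +kernel) (q_cons (Vale.Agent.P032.Lt.q R0Q055.q1199_0) (q_cons (Vale.Agent.P032.Lt.q R0Q055.q1199_1) (q_cons (Vale.Agent.P032.Lt.q R0Q055.q1199_2) (q_cons (Vale.Agent.P032.Lt.q R0Q055.q1199_3) q_nil)))))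

theorem p1200 : Pat 73 73 TBm TCm (CB.map Fm) R0Q055.P1200 R0Q055.I1200 := Vale.Agent.P032.Lt.pat_eq (E' := R0Q055.E) eB (pat_step (by decide +kernel) (q_cons (Vale.Agent.P032.Lt.q R0Q055.q1200_0) (q_cons (Vale.Agent.P032.Lt.q R0Q055.q1200_1) (q_cons (Vale.Agent.P032.Lt.q R0Q055.q1200_2) (q_cons (Vale.Agent.P032.Lt.q R0Q055.q1200_3) (q_cons (Vale.Agent.P032.Lt.q R0Q055.q1200_4) (q_cons (Vale.Agent.P032.Lt.q R0Q055.q1200_5) (q_cons (Vale.Agent.P032.Lt.q R0Q055.q1200_6) (q_cons (Vale.Agent.P032.Lt.q R0Q055.q1200_7) q_nil)))))))))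

theorem p1201 : Pat 73 73 TBm TCm (CB.map Fm) R0Q055.P1201 R0Q055.I1201 := Vale.Agent.P032.Lt.pat_eq (E' := R0Q055.E) eB (pat_step (by decide +kernel) (q_cons (Vale.Agent.P032.Lt.q R0Q055.q1201_0) (q_cons (Vale.Agent.P032.Lt.q R0Q055.q1201_1) (q_cons (Vale.Agent.P032.Lt.q R0Q055.q1201_2) q_nil))))

theorem p1202 : Pat 73 73 TBm TCm (CB.map Fm) R0Q055.P1202 R0Q055.I1202 := Vale.Agent.P032.Lt.pat_eq (E' := R0Q055.E) eB (pat_step (by decide +kernel) (q_cons (Vale.Agent.P032.Lt.q R0Q055.q1202_0) (q_cons (Vale.Agent.P032.Lt.q R0Q055.q1202_1) (q_cons (Vale.Agent.P032.Lt.q R0Q055.q1202_2) (q_cons (Vale.Agent.P032.Lt.q R0Q055.q1202_3) (q_cons (Vale.Agent.P032.Lt.q R0Q055.q1202_4) (q_cons (Vale.Agent.P032.Lt.q R0Q055.q1202_5) (q_cons (Vale.Agent.P032.Lt.q R0Q055.q1202_6) q_nil))))))))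

def C1203 : List ℕ := [0, 4, 8, 12, 16, 20, 24, 84993, 212993, 349185, 606209, 737281]
theorem p1203 : Pat 73 73 TBm TCm (C1203.map Fm) R0Q055.P1203 R0Q055.I1203 := Vale.Agent.P032.Lt.pat_eq (E' := R0Q055.E1203) (by decide +kernel) (pat_step (by decide +kernel) (q_cons (Vale.Agent.P032.Lt.q R0Q055.q1203_0) (q_cons (Vale.Agent.P032.Lt.q R0Q055.q1203_1) (q_cons (Vale.Agent.P032.Lt.q R0Q055.q1203_2) (q_cons (Vale.Agent.P032.Lt.q R0Q055.q1203_3) (q_cons (Vale.Agent.P032.Lt.q R0Q055.q1203_4) (q_cons (Vale.Agent.P032.Lt.q R0Q055.q1203_5) (q_cons (Vale.Agent.P032.Lt.q R0Q055.q1203_6) (q_cons (Vale.Agent.P032.Lt.q R0Q055.q1203_7) q_nil)))))))))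

theorem p1204 : Pat 73 73 TBm TCm (CB.map Fm) R0Q056.P1204 R0Q056.I1204 := Vale.Agent.P032.Lt.pat_eq (E' := R0Q056.E) eB (pat_step (by decide +kernel) (q_cons (Vale.Agent.P032.Lt.q R0Q056.q1204_0) (q_cons (Vale.Agent.P032.Lt.q R0Q056.q1204_1) (q_cons (Vale.Agent.P032.Lt.q R0Q056.q1204_2) (q_cons (Vale.Agent.P032.Lt.q R0Q056.q1204_3) q_nil)))))

def C1205 : List ℕ := [0, 4, 8, 12, 16, 20, 24, 606209, 737281]
theorem p1205 : Pat 73 73 TBm TCm (C1205.map Fm) R0Q056.P1205 R0Q056.I1205 := Vale.Agent.P032.Lt.pat_eq (E' := R0Q056.E1205) (by decide +kernel) (pat_step (by decide +kernel) (q_cons (Vale.Agent.P032.Lt.q R0Q056.q1205_0) q_nil))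

theorem p1206 : Pat 73 73 TBm TCm (CB.map Fm) R0Q056.P1206 R0Q056.I1206 := Vale.Agent.P032.Lt.pat_eq (E' := R0Q056.E) eB (pat_step (by decide +kernel) (q_cons (Vale.Agent.P032.Lt.q R0Q056.q1206_0) (q_cons (Vale.Agent.P032.Lt.q R0Q056.q1206_1) (q_cons (Vale.Agent.P032.Lt.q R0Q056.q1206_2) (q_cons (Vale.Agent.P032.Lt.q R0Q056.q1206_3) (q_cons (Vale.Agent.P032.Lt.q R0Q056.q1206_4) (q_cons (Vale.Agent.P032.Lt.q R0Q056.q1206_5) (q_cons (Vale.Agent.P032.Lt.q R0Q056.q1206_6) (q_cons (Vale.Agent.P032.Lt.q R0Q056.q1206_7) q_nil)))))))))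

def C1207 : List ℕ := [0, 4, 8, 12, 16, 20, 24, 214017, 737281]
theorem p1207 : Pat 73 73 TBm TCm (C1207.map Fm) R0Q056.P1207 R0Q056.I1207 := Vale.Agent.P032.Lt.pat_eq (E' := R0Q056.E1207) (by decide +kernel) (pat_step (by decide +kernel) (q_cons (Vale.Agent.P032.Lt.q R0Q056.q1207_0) (q_cons (Vale.Agent.P032.Lt.q R0Q056.q1207_1) (q_cons (Vale.Agent.P032.Lt.q R0Q056.q1207_2) (q_cons (Vale.Agent.P032.Lt.q R0Q056.q1207_3) (q_cons (Vale.Agent.P032.Lt.q R0Q056.q1207_4) (q_cons (Vale.Agent.P032.Lt.q R0Q056.q1207_5) (q_cons (Vale.Agent.P032.Lt.q R0Q056.q1207_6) q_nil))))))))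

def C1208 : List ℕ := [0, 4, 8, 12, 16, 20, 24, 220161, 606209, 737281]
theorem p1208 : Pat 73 73 TBm TCm (C1208.map Fm) R0Q056.P1208 R0Q056.I1208 := Vale.Agent.P032.Lt.pat_eq (E' := R0Q056.E1208) (by decide +kernel) (pat_step (by decide +kernel) (q_cons (Vale.Agent.P032.Lt.q R0Q056.q1208_0) (q_cons (Vale.Agent.P032.Lt.q R0Q056.q1208_1) (q_cons (Vale.Agent.P032.Lt.q R0Q056.q1208_2) (q_cons (Vale.Agent.P032.Lt.q R0Q056.q1208_3) (q_cons (Vale.Agent.P032.Lt.q R0Q056.q1208_4) (q_cons (Vale.Agent.P032.Lt.q R0Q056.q1208_5) q_nil)))))))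

theorem p1209 : Pat 73 73 TBm TCm (CB.map Fm) R0Q056.P1209 R0Q056.I1209 := Vale.Agent.P032.Lt.pat_eq (E' := R0Q056.E) eB (pat_step (by decide +kernel) (q_cons (Vale.Agent.P032.Lt.q R0Q056.q1209_0) (q_cons (Vale.Agent.P032.Lt.q R0Q056.q1209_1) (q_cons (Vale.Agent.P032.Lt.q R0Q056.q1209_2) (q_cons (Vale.Agent.P032.Lt.q R0Q056.q1209_3) q_nil)))))

theorem p1210 : Pat 73 73 TBm TCm (CB.map Fm) R0Q056.P1210 R0Q056.I1210 := Vale.Agent.P032.Lt.pat_eq (E' := R0Q056.E) eB (pat_step (by decide +kernel) (q_cons (Vale.Agent.P032.Lt.q R0Q056.q1210_0) (q_cons (Vale.Agent.P032.Lt.q R0Q056.q1210_1) (q_cons (Vale.Agent.P032.Lt.q R0Q056.q1210_2) (q_cons (Vale.Agent.P032.Lt.q R0Q056.q1210_3) (q_cons (Vale.Agent.P032.Lt.q R0Q056.q1210_4) (q_cons (Vale.Agent.P032.Lt.q R0Q056.q1210_5) (q_cons (Vale.Agent.P032.Lt.q R0Q056.q1210_6) q_nil))))))))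

theorem p1211 : Pat 73 73 TBm TCm (CB.map Fm) R0Q056.P1211 R0Q056.I1211 := Vale.Agent.P032.Lt.pat_eq (E' := R0Q056.E) eB (pat_step (by decide +kernel) (q_cons (Vale.Agent.P032.Lt.q R0Q056.q1211_0) (q_cons (Vale.Agent.P032.Lt.q R0Q056.q1211_1) q_nil)))

theorem p1212 : Pat 73 73 TBm TCm (CB.map Fm) R0Q056.P1212 R0Q056.I1212 := Vale.Agent.P032.Lt.pat_eq (E' := R0Q056.E) eB (pat_step (by decide +kernel) (q_cons (Vale.Agent.P032.Lt.q R0Q056.q1212_0) (q_cons (Vale.Agent.P032.Lt.q R0Q056.q1212_1) (q_cons (Vale.Agent.P032.Lt.q R0Q056.q1212_2) (q_cons (Vale.Agent.P032.Lt.q R0Q056.q1212_3) (q_cons (Vale.Agent.P032.Lt.q R0Q056.q1212_4) (q_cons (Vale.Agent.P032.Lt.q R0Q056.q1212_5) (q_cons (Vale.Agent.P032.Lt.q R0Q056.q1212_6) (q_cons (Vale.Agent.P032.Lt.q R0Q056.q1212_7) (q_cons (Vale.Agent.P032.Lt.q R0Q056.q1212_8) (q_cons (Vale.Agent.P032.Lt.q R0Q056.q1212_9) (q_cons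 (Vale.Agent.P032.Lt.q R0Q056.q1212_10) (q_cons (Vale.Agent.P032.Lt.q R0Q056.q1212_11) q_nil)))))))))))))

theorem p1213 : Pat 73 73 TBm TCm (CB.map Fm) R0Q056.P1213 R0Q056.I1213 := Vale.Agent.P032.Lt.pat_eq (E' := R0Q056.E) eB (pat_step (by decide +kernel) (q_cons (Vale.Agent.P032.Lt.q R0Q056.q1213_0) (q_cons (Vale.Agent.P032.Lt.q R0Q056.q1213_1) (q_cons (Vale.Agent.P032.Lt.q R0Q056.q1213_2) (q_cons (Vale.Agent.P032.Lt.q R0Q056.q1213_3) (q_cons (Vale.Agent.P032.Lt.q R0Q056.q1213_4) q_nil))))))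

theorem p1214 : Pat 73 73 TBm TCm (CB.map Fm) R0Q056.P1214 R0Q056.I1214 := Vale.Agent.P032.Lt.pat_eq (E' := R0Q056.E) eB (pat_step (by decide +kernel) (q_cons (Vale.Agent.P032.Lt.q R0Q056.q1214_0) (q_cons (Vale.Agent.P032.Lt.q R0Q056.q1214_1) (q_cons (Vale.Agent.P032.Lt.q R0Q056.q1214_2) (q_cons (Vale.Agent.P032.Lt.q R0Q056.q1214_3) q_nil)))))

theorem p1215 : Pat 73 73 TBm TCm (CB.map Fm) R0Q056.P1215 R0Q056.I1215 := Vale.Agent.P032.Lt.pat_eq (E' := R0Q056.E) eB (pat_step (by decide +kernel) (q_cons (Vale.Agent.P032.Lt.q R0Q056.q1215_0) (q_cons (Vale.Agent.P032.Lt.q R0Q056.q1215_1) (q_cons (Vale.Agent.P032.Lt.q R0Q056.q1215_2) (q_cons (Vale.Agent.P032.Lt.q R0Q056.q1215_3) (q_cons (Vale.Agent.P032.Lt.q R0Q056.q1215_4) (q_cons (Vale.Agent.P032.Lt.q R0Q056.q1215_5) (q_cons (Vale.Agent.P032.Lt.q R0Q056.q1215_6) (q_cons (Vale.Agent.P032.Lt.q R0Q056.q1215_7)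 (q_cons (Vale.Agent.P032.Lt.q R0Q056.q1215_8) (q_cons (Vale.Agent.P032.Lt.q R0Q056.q1215_9) (q_cons (Vale.Agent.P032.Lt.q R0Q056.q1215_10) (q_cons (Vale.Agent.P032.Lt.q R0Q056.q1215_11) (q_cons (Vale.Agent.P032.Lt.q R0Q056.q1215_12) (q_cons (Vale.Agent.P032.Lt.q R0Q056.q1215_13) (q_cons (Vale.Agent.P032.Lt.q R0Q056.q1215_14) (q_cons (Vale.Agent.P032.Lt.q R0Q056.q1215_15) (q_cons (Vale.Agent.P032.Lt.q R0Q056.q1215_16) q_nil))))))))))))))))))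

theorem p1216 : Pat 73 73 TBm TCm (CB.map Fm) R0Q056.P1216 R0Q056.I1216 := Vale.Agent.P032.Lt.pat_eq (E' := R0Q056.E) eB (pat_step (by decide +kernel) (q_cons (Vale.Agent.P032.Lt.q R0Q056.q1216_0) (q_cons (Vale.Agent.P032.Lt.q R0Q056.q1216_1) (q_cons (Vale.Agent.P032.Lt.q R0Q056.q1216_2) (q_cons (Vale.Agent.P032.Lt.q R0Q056.q1216_3) (q_cons (Vale.Agent.P032.Lt.q R0Q056.q1216_4) (q_cons (Vale.Agent.P032.Lt.q R0Q056.q1216_5) (q_cons (Vale.Agent.P032.Lt.q R0Q056.q1216_6) (q_cons (Vale.Agent.P032.Lt.q R0Q056.q1216_7) (q_cons (Vale.Agent.P032.Lt.q R0Q056.q1216_8) (q_cons (Vale.Agent.P032.Lt.q R0Q056.q1216_9) (q_cons (Vale.Agent.P032.Lt.q R0Q056.q1216_10) (q_cons (Vale.Agent.P032.Lt.q R0Q056.q1216_11) (q_cons (Vale.Agent.P032.Lt.q R0Q056.q1216_12) q_nil))))))))))))))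

def C1217 : List ℕ := [0, 4, 8, 12, 16, 20, 24, 344065, 606209, 737281]
theorem p1217 : Pat 73 73 TBm TCm (C1217.map Fm) R0Q056.P1217 R0Q056.I1217 := Vale.Agent.P032.Lt.pat_eq (E' := R0Q056.E1217) (by decide +kernel) (pat_step (by decide +kernel) (q_cons (Vale.Agent.P032.Lt.q R0Q056.q1217_0) (q_cons (Vale.Agent.P032.Lt.q R0Q056.q1217_1) (q_cons (Vale.Agent.P032.Lt.q R0Q056.q1217_2) (q_cons (Vale.Agent.P032.Lt.q R0Q056.q1217_3) (q_cons (Vale.Agent.P032.Lt.q R0Q056.q1217_4) (q_cons (Vale.Agent.P032.Lt.q R0Q056.q1217_5) (q_cons (Vale.Agent.P032.Lt.q R0Q056.q1217_6) q_nil))))))))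

theorem p1218 : Pat 73 73 TBm TCm (CB.map Fm) R0Q056.P1218 R0Q056.I1218 := Vale.Agent.P032.Lt.pat_eq (E' := R0Q056.E) eB (pat_step (by decide +kernel) (q_cons (Vale.Agent.P032.Lt.q R0Q056.q1218_0) (q_cons (Vale.Agent.P032.Lt.q R0Q056.q1218_1) (q_cons (Vale.Agent.P032.Lt.q R0Q056.q1218_2) (q_cons (Vale.Agent.P032.Lt.q R0Q056.q1218_3) (q_cons (Vale.Agent.P032.Lt.q R0Q056.q1218_4) (q_cons (Vale.Agent.P032.Lt.q R0Q056.q1218_5) (q_cons (Vale.Agent.P032.Lt.q R0Q056.q1218_6) (q_cons (Vale.Agent.P032.Lt.q R0Q056.q1218_7) q_nil)))))))))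

theorem p1219 : Pat 73 73 TBm TCm (CB.map Fm) R0Q056.P1219 R0Q056.I1219 := Vale.Agent.P032.Lt.pat_eq (E' := R0Q056.E) eB (pat_step (by decide +kernel) (q_cons (Vale.Agent.P032.Lt.q R0Q056.q1219_0) (q_cons (Vale.Agent.P032.Lt.q R0Q056.q1219_1) (q_cons (Vale.Agent.P032.Lt.q R0Q056.q1219_2) (q_cons (Vale.Agent.P032.Lt.q R0Q056.q1219_3) (q_cons (Vale.Agent.P032.Lt.q R0Q056.q1219_4) (q_cons (Vale.Agent.P032.Lt.q R0Q056.q1219_5) q_nil)))))))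

def C1220 : List ℕ := [0, 4, 8, 12, 16, 20, 24, 475137, 617473]
theorem p1220 : Pat 73 73 TBm TCm (C1220.map Fm) R0Q056.P1220 R0Q056.I1220 := Vale.Agent.P032.Lt.pat_eq (E' := R0Q056.E1220) (by decide +kernel) (pat_step (by decide +kernel) (q_cons (Vale.Agent.P032.Lt.q R0Q056.q1220_0) (q_cons (Vale.Agent.P032.Lt.q R0Q056.q1220_1) q_nil)))

theorem p1221 : Pat 73 73 TBm TCm (CB.map Fm) R0Q056.P1221 R0Q056.I1221 := Vale.Agent.P032.Lt.pat_eq (E' := R0Q056.E) eB (pat_step (by decide +kernel) (q_cons (Vale.Agent.P032.Lt.q R0Q056.q1221_0) q_nil))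

theorem p1222 : Pat 73 73 TBm TCm (CB.map Fm) R0Q056.P1222 R0Q056.I1222 := Vale.Agent.P032.Lt.pat_eq (E' := R0Q056.E) eB (pat_step (by decide +kernel) (q_cons (Vale.Agent.P032.Lt.q R0Q056.q1222_0) (q_cons (Vale.Agent.P032.Lt.q R0Q056.q1222_1) q_nil)))

def C1223 : List ℕ := [0, 4, 8, 12, 16, 20, 24, 617473, 737281]
theorem p1223 : Pat 73 73 TBm TCm (C1223.map Fm) R0Q056.P1223 R0Q056.I1223 := Vale.Agent.P032.Lt.pat_eq (E' := R0Q056.E1223) (by decide +kernel) (pat_step (by decide +kernel) (q_cons (Vale.Agent.P032.Lt.q R0Q056.q1223_0) (q_cons (Vale.Agent.P032.Lt.q R0Q056.q1223_1) q_nil)))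

def C1224 : List ℕ := [0, 4, 8, 12, 16, 20, 24, 347137]
theorem p1224 : Pat 73 73 TBm TCm (C1224.map Fm) R0Q056.P1224 R0Q056.I1224 := Vale.Agent.P032.Lt.pat_eq (E' := R0Q056.E1224) (by decide +kernel) (pat_step (by decide +kernel) (q_cons (Vale.Agent.P032.Lt.q R0Q056.q1224_0) (q_cons (Vale.Agent.P032.Lt.q R0Q056.q1224_1) (q_cons (Vale.Agent.P032.Lt.q R0Q056.q1224_2) (q_cons (Vale.Agent.P032.Lt.q R0Q056.q1224_3) q_nil)))))

theorem p1225 : Pat 73 73 TBm TCm (CB.map Fm) R0Q056.P1225 R0Q056.I1225 := Vale.Agent.P032.Lt.pat_eq (E' := R0Q056.E) eB (pat_step (by decide +kernel) (q_cons (Vale.Agent.P032.Lt.q R0Q056.q1225_0) (q_cons (Vale.Agent.P032.Lt.q R0Q056.q1225_1) (q_cons (Vale.Agent.P032.Lt.q R0Q056.q1225_2) (q_cons (Vale.Agent.P032.Lt.q R0Q056.q1225_3) (q_cons (Vale.Agent.P032.Lt.q R0Q056.q1225_4) q_nil))))))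

theorem p1226 : Pat 73 73 TBm TCm (CB.map Fm) R0Q056.P1226 R0Q056.I1226 := Vale.Agent.P032.Lt.pat_eq (E' := R0Q056.E) eB (pat_step (by decide +kernel) (q_cons (Vale.Agent.P032.Lt.q R0Q056.q1226_0) (q_cons (Vale.Agent.P032.Lt.q R0Q056.q1226_1) (q_cons (Vale.Agent.P032.Lt.q R0Q056.q1226_2) (q_cons (Vale.Agent.P032.Lt.q R0Q056.q1226_3) (q_cons (Vale.Agent.P032.Lt.q R0Q056.q1226_4) (q_cons (Vale.Agent.P032.Lt.q R0Q056.q1226_5) (q_cons (Vale.Agent.P032.Lt.q R0Q056.q1226_6) (q_cons (Vale.Agent.P032.Lt.q R0Q056.q1226_7) q_nil)))))))))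

theorem p1227 : Pat 73 73 TBm TCm (CB.map Fm) R0Q056.P1227 R0Q056.I1227 := Vale.Agent.P032.Lt.pat_eq (E' := R0Q056.E) eB (pat_step (by decide +kernel) (q_cons (Vale.Agent.P032.Lt.q R0Q056.q1227_0) (q_cons (Vale.Agent.P032.Lt.q R0Q056.q1227_1) q_nil)))

theorem p1228 : Pat 73 73 TBm TCm (CB.map Fm) R0Q056.P1228 R0Q056.I1228 := Vale.Agent.P032.Lt.pat_eq (E' := R0Q056.E) eB (pat_step (by decide +kernel) (q_cons (Vale.Agent.P032.Lt.q R0Q056.q1228_0) q_nil))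

theorem p1229 : Pat 73 73 TBm TCm (CB.map Fm) R0Q056.P1229 R0Q056.I1229 := Vale.Agent.P032.Lt.pat_eq (E' := R0Q056.E) eB (pat_step (by decide +kernel) (q_cons (Vale.Agent.P032.Lt.q R0Q056.q1229_0) (q_cons (Vale.Agent.P032.Lt.q R0Q056.q1229_1) (q_cons (Vale.Agent.P032.Lt.q R0Q056.q1229_2) (q_cons (Vale.Agent.P032.Lt.q R0Q056.q1229_3) (q_cons (Vale.Agent.P032.Lt.q R0Q056.q1229_4) (q_cons (Vale.Agent.P032.Lt.q R0Q056.q1229_5) (q_cons (Vale.Agent.P032.Lt.q R0Q056.q1229_6) (q_cons (Vale.Agent.P032.Lt.q R0Q056.q1229_7) (q_cons (Vale.Agent.P032.Lt.q R0Q056.q1229_8) (q_cons (Vale.Agent.P032.Lt.q R0Q056.q1229_9) q_nil)))))))))))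

theorem p1230 : Pat 73 73 TBm TCm (CB.map Fm) R0Q057.P1230 R0Q057.I1230 := Vale.Agent.P032.Lt.pat_eq (E' := R0Q057.E) eB (pat_step (by decide +kernel) (q_cons (Vale.Agent.P032.Lt.q R0Q057.q1230_0) q_nil))

theorem p1231 : Pat 73 73 TBm TCm (CB.map Fm) R0Q057.P1231 R0Q057.I1231 := Vale.Agent.P032.Lt.pat_eq (E' := R0Q057.E) eB (pat_step (by decide +kernel) (q_cons (Vale.Agent.P032.Lt.q R0Q057.q1231_0) q_nil))

theorem p1232 : Pat 73 73 TBm TCm (CB.map Fm) R0Q057.P1232 R0Q057.I1232 := Vale.Agent.P032.Lt.pat_eq (E' := R0Q057.E) eB (pat_step (by decide +kernel) (q_cons (Vale.Agent.P032.Lt.q R0Q057.q1232_0) (q_cons (Vale.Agent.P032.Lt.q R0Q057.q1232_1) (q_cons (Vale.Agent.P032.Lt.q R0Q057.q1232_2) (q_cons (Vale.Agent.P032.Lt.q R0Q057.q1232_3) (q_cons (Vale.Agent.P032.Lt.q R0Q057.q1232_4) q_nil))))))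

theorem p1233 : Pat 73 73 TBm TCm (CB.map Fm) R0Q057.P1233 R0Q057.I1233 := Vale.Agent.P032.Lt.pat_eq (E' := R0Q057.E) eB (pat_step (by decide +kernel) (q_cons (Vale.Agent.P032.Lt.q R0Q057.q1233_0) (q_cons (Vale.Agent.P032.Lt.q R0Q057.q1233_1) (q_cons (Vale.Agent.P032.Lt.q R0Q057.q1233_2) (q_cons (Vale.Agent.P032.Lt.q R0Q057.q1233_3) (q_cons (Vale.Agent.P032.Lt.q R0Q057.q1233_4) (q_cons (Vale.Agent.P032.Lt.q R0Q057.q1233_5) (q_cons (Vale.Agent.P032.Lt.q R0Q057.q1233_6) (q_cons (Vale.Agent.P032.Lt.q R0Q057.q1233_7) (q_cons (Vale.Agent.P032.Lt.q R0Q057.q1233_8) (q_cons (Vale.Agent.P032.Lt.q R0Q057.q1233_9) (q_cons (Vale.Agent.P032.Lt.q R0Q057.q1233_10) (q_cons (Vale.Agent.P032.Lt.q R0Q057.q1233_11) (q_cons (Vale.Agent.P032.Lt.q R0Q057.q1233_12) (q_cons (Vale.Agent.P032.Lt.q R0Q057.q1233_13) (q_cons (Vale.Agent.P032.Lt.q R0Q057.q1233_14) (q_cons (Vale.Agent.P032.Lt.q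 R0Q057.q1233_15) (q_cons (Vale.Agent.P032.Lt.q R0Q057.q1233_16) q_nil))))))))))))))))))

theorem p1234 : Pat 73 73 TBm TCm (CB.map Fm) R0Q057.P1234 R0Q057.I1234 := Vale.Agent.P032.Lt.pat_eq (E' := R0Q057.E) eB (pat_step (by decide +kernel) (q_cons (Vale.Agent.P032.Lt.q R0Q057.q1234_0) (q_cons (Vale.Agent.P032.Lt.q R0Q057.q1234_1) (q_cons (Vale.Agent.P032.Lt.q R0Q057.q1234_2) q_nil))))

theorem p1235 : Pat 73 73 TBm TCm (CB.map Fm) R0Q057.P1235 R0Q057.I1235 := Vale.Agent.P032.Lt.pat_eq (E' := R0Q057.E) eB (pat_step (by decide +kernel) (q_cons (Vale.Agent.P032.Lt.q R0Q057.q1235_0) (q_cons (Vale.Agent.P032.Lt.q R0Q057.q1235_1) (q_cons (Vale.Agent.P032.Lt.q R0Q057.q1235_2) (q_cons (Vale.Agent.P032.Lt.q R0Q057.q1235_3) (q_cons (Vale.Agent.P032.Lt.q R0Q057.q1235_4) (q_cons (Vale.Agent.P032.Lt.q R0Q057.q1235_5) (q_cons (Vale.Agent.P032.Lt.q R0Q057.q1235_6) (q_cons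 (Vale.Agent.P032.Lt.q R0Q057.q1235_7) (q_cons (Vale.Agent.P032.Lt.q R0Q057.q1235_8) (q_cons (Vale.Agent.P032.Lt.q R0Q057.q1235_9) (q_cons (Vale.Agent.P032.Lt.q R0Q057.q1235_10) (q_cons (Vale.Agent.P032.Lt.q R0Q057.q1235_11) q_nil)))))))))))))

theorem p1236 : Pat 73 73 TBm TCm (CB.map Fm) R0Q057.P1236 R0Q057.I1236 := Vale.Agent.P032.Lt.pat_eq (E' := R0Q057.E) eB (pat_step (by decide +kernel) (q_cons (Vale.Agent.P032.Lt.q R0Q057.q1236_0) (q_cons (Vale.Agent.P032.Lt.q R0Q057.q1236_1) (q_cons (Vale.Agent.P032.Lt.q R0Q057.q1236_2) (q_cons (Vale.Agent.P032.Lt.q R0Q057.q1236_3) (q_cons (Vale.Agent.P032.Lt.q R0Q057.q1236_4) q_nil))))))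

theorem p1237 : Pat 73 73 TBm TCm (CB.map Fm) R0Q057.P1237 R0Q057.I1237 := Vale.Agent.P032.Lt.pat_eq (E' := R0Q057.E) eB (pat_step (by decide +kernel) (q_cons (Vale.Agent.P032.Lt.q R0Q057.q1237_0) (q_cons (Vale.Agent.P032.Lt.q R0Q057.q1237_1) q_nil)))

theorem p1238 : Pat 73 73 TBm TCm (CB.map Fm) R0Q057.P1238 R0Q057.I1238 := Vale.Agent.P032.Lt.pat_eq (E' := R0Q057.E) eB (pat_step (by decide +kernel) (q_cons (Vale.Agent.P032.Lt.q R0Q057.q1238_0) (q_cons (Vale.Agent.P032.Lt.q R0Q057.q1238_1) (q_cons (Vale.Agent.P032.Lt.q R0Q057.q1238_2) (q_cons (Vale.Agent.P032.Lt.q R0Q057.q1238_3) q_nil)))))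

theorem p1239 : Pat 73 73 TBm TCm (CB.map Fm) R0Q057.P1239 R0Q057.I1239 := Vale.Agent.P032.Lt.pat_eq (E' := R0Q057.E) eB (pat_step (by decide +kernel) (q_cons (Vale.Agent.P032.Lt.q R0Q057.q1239_0) (q_cons (Vale.Agent.P032.Lt.q R0Q057.q1239_1) q_nil)))

theorem p1240 : Pat 73 73 TBm TCm (CB.map Fm) R0Q057.P1240 R0Q057.I1240 := Vale.Agent.P032.Lt.pat_eq (E' := R0Q057.E) eB (pat_step (by decide +kernel) (q_cons (Vale.Agent.P032.Lt.q R0Q057.q1240_0) (q_cons (Vale.Agent.P032.Lt.q R0Q057.q1240_1) q_nil)))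

theorem p1241 : Pat 73 73 TBm TCm (CB.map Fm) R0Q057.P1241 R0Q057.I1241 := Vale.Agent.P032.Lt.pat_eq (E' := R0Q057.E) eB (pat_step (by decide +kernel) (q_cons (Vale.Agent.P032.Lt.q R0Q057.q1241_0) (q_cons (Vale.Agent.P032.Lt.q R0Q057.q1241_1) q_nil)))

theorem p1242 : Pat 73 73 TBm TCm (CB.map Fm) R0Q057.P1242 R0Q057.I1242 := Vale.Agent.P032.Lt.pat_eq (E' := R0Q057.E) eB (pat_step (by decide +kernel) (q_cons (Vale.Agent.P032.Lt.q R0Q057.q1242_0) (q_cons (Vale.Agent.P032.Lt.q R0Q057.q1242_1) (q_cons (Vale.Agent.P032.Lt.q R0Q057.q1242_2) (q_cons (Vale.Agent.P032.Lt.q R0Q057.q1242_3) (q_cons (Vale.Agent.P032.Lt.q R0Q057.q1242_4) q_nil))))))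

theorem p1243 : Pat 73 73 TBm TCm (CB.map Fm) R0Q057.P1243 R0Q057.I1243 := Vale.Agent.P032.Lt.pat_eq (E' := R0Q057.E) eB (pat_step (by decide +kernel) (q_cons (Vale.Agent.P032.Lt.q R0Q057.q1243_0) q_nil))

theorem p1244 : Pat 73 73 TBm TCm (CB.map Fm) R0Q057.P1244 R0Q057.I1244 := Vale.Agent.P032.Lt.pat_eq (E' := R0Q057.E) eB (pat_step (by decide +kernel) (q_cons (Vale.Agent.P032.Lt.q R0Q057.q1244_0) q_nil))

theorem p1245 : Pat 73 73 TBm TCm (CB.map Fm) R0Q057.P1245 R0Q057.I1245 := Vale.Agent.P032.Lt.pat_eq (E' := R0Q057.E) eB (pat_step (by decide +kernel) (q_cons (Vale.Agent.P032.Lt.q R0Q057.q1245_0) q_nil))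

theorem p1246 : Pat 73 73 TBm TCm (CB.map Fm) R0Q057.P1246 R0Q057.I1246 := Vale.Agent.P032.Lt.pat_eq (E' := R0Q057.E) eB (pat_step (by decide +kernel) (q_cons (Vale.Agent.P032.Lt.q R0Q057.q1246_0) (q_cons (Vale.Agent.P032.Lt.q R0Q057.q1246_1) (q_cons (Vale.Agent.P032.Lt.q R0Q057.q1246_2) (q_cons (Vale.Agent.P032.Lt.q R0Q057.q1246_3) (q_cons (Vale.Agent.P032.Lt.q R0Q057.q1246_4) (q_cons (Vale.Agent.P032.Lt.q R0Q057.q1246_5) q_nil)))))))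

theorem p1247 : Pat 73 73 TBm TCm (CB.map Fm) R0Q057.P1247 R0Q057.I1247 := Vale.Agent.P032.Lt.pat_eq (E' := R0Q057.E) eB (pat_step (by decide +kernel) (q_cons (Vale.Agent.P032.Lt.q R0Q057.q1247_0) q_nil))

def C1248 : List ℕ := [0, 4, 8, 12, 16, 20, 24, 82945, 218113, 347137, 606209, 609281, 737281]
theorem p1248 : Pat 73 73 TBm TCm (C1248.map Fm) R0Q057.P1248 R0Q057.I1248 := Vale.Agent.P032.Lt.pat_eq (E' := R0Q057.E1248) (by decide +kernel) (pat_step (by decide +kernel) (q_cons (Vale.Agent.P032.Lt.q R0Q057.q1248_0) q_nil))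

theorem p1249 : Pat 73 73 TBm TCm (CB.map Fm) R0Q057.P1249 R0Q057.I1249 := Vale.Agent.P032.Lt.pat_eq (E' := R0Q057.E) eB (pat_step (by decide +kernel) (q_cons (Vale.Agent.P032.Lt.q R0Q057.q1249_0) (q_cons (Vale.Agent.P032.Lt.q R0Q057.q1249_1) (q_cons (Vale.Agent.P032.Lt.q R0Q057.q1249_2) q_nil))))

theorem p1250 : Pat 73 73 TBm TCm (CB.map Fm) R0Q057.P1250 R0Q057.I1250 := Vale.Agent.P032.Lt.pat_eq (E' := R0Q057.E) eB (pat_step (by decide +kernel) (q_cons (Vale.Agent.P032.Lt.q R0Q057.q1250_0) (q_cons (Vale.Agent.P032.Lt.q R0Q057.q1250_1) (q_cons (Vale.Agent.P032.Lt.q R0Q057.q1250_2) (q_cons (Vale.Agent.P032.Lt.q R0Q057.q1250_3) q_nil)))))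

theorem p1251 : Pat 73 73 TBm TCm (CB.map Fm) R0Q057.P1251 R0Q057.I1251 := Vale.Agent.P032.Lt.pat_eq (E' := R0Q057.E) eB (pat_step (by decide +kernel) (q_cons (Vale.Agent.P032.Lt.q R0Q057.q1251_0) (q_cons (Vale.Agent.P032.Lt.q R0Q057.q1251_1) q_nil)))

theorem p1252 : Pat 73 73 TBm TCm (CB.map Fm) R0Q057.P1252 R0Q057.I1252 := Vale.Agent.P032.Lt.pat_eq (E' := R0Q057.E) eB (pat_step (by decide +kernel) (q_cons (Vale.Agent.P032.Lt.q R0Q057.q1252_0) (q_cons (Vale.Agent.P032.Lt.q R0Q057.q1252_1) q_nil)))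

theorem p1253 : Pat 73 73 TBm TCm (CB.map Fm) R0Q057.P1253 R0Q057.I1253 := Vale.Agent.P032.Lt.pat_eq (E' := R0Q057.E) eB (pat_step (by decide +kernel) (q_cons (Vale.Agent.P032.Lt.q R0Q057.q1253_0) (q_cons (Vale.Agent.P032.Lt.q R0Q057.q1253_1) (q_cons (Vale.Agent.P032.Lt.q R0Q057.q1253_2) (q_cons (Vale.Agent.P032.Lt.q R0Q057.q1253_3) (q_cons (Vale.Agent.P032.Lt.q R0Q057.q1253_4) q_nil))))))

theorem p1254 : Pat 73 73 TBm TCm (CB.map Fm) R0Q057.P1254 R0Q057.I1254 := Vale.Agent.P032.Lt.pat_eq (E' := R0Q057.E) eB (pat_step (by decide +kernel) (q_cons (Vale.Agent.P032.Lt.q R0Q057.q1254_0) q_nil))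

theorem p1255 : Pat 73 73 TBm TCm (CB.map Fm) R0Q057.P1255 R0Q057.I1255 := Vale.Agent.P032.Lt.pat_eq (E' := R0Q057.E) eB (pat_step (by decide +kernel) (q_cons (Vale.Agent.P032.Lt.q R0Q057.q1255_0) (q_cons (Vale.Agent.P032.Lt.q R0Q057.q1255_1) (q_cons (Vale.Agent.P032.Lt.q R0Q057.q1255_2) (q_cons (Vale.Agent.P032.Lt.q R0Q057.q1255_3) (q_cons (Vale.Agent.P032.Lt.q R0Q057.q1255_4) q_nil))))))

theorem p1256 : Pat 73 73 TBm TCm (CB.map Fm) R0Q057.P1256 R0Q057.I1256 := Vale.Agent.P032.Lt.pat_eq (E' := R0Q057.E) eB (pat_step (by decide +kernel) (q_cons (Vale.Agent.P032.Lt.q R0Q057.q1256_0) (q_cons (Vale.Agent.P032.Lt.q R0Q057.q1256_1) (q_cons (Vale.Agent.P032.Lt.q R0Q057.q1256_2) (q_cons (Vale.Agent.P032.Lt.q R0Q057.q1256_3) (q_cons (Vale.Agent.P032.Lt.q R0Q057.q1256_4) (q_cons (Vale.Agent.P032.Lt.q R0Q057.q1256_5) q_nil)))))))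

def C1257 : List ℕ := [0, 4, 8, 12, 16, 20, 24, 214017, 220161, 344065, 606209, 737281]
theorem p1257 : Pat 73 73 TBm TCm (C1257.map Fm) R0Q057.P1257 R0Q057.I1257 := Vale.Agent.P032.Lt.pat_eq (E' := R0Q057.E1257) (by decide +kernel) (pat_step (by decide +kernel) (q_cons (Vale.Agent.P032.Lt.q R0Q057.q1257_0) (q_cons (Vale.Agent.P032.Lt.q R0Q057.q1257_1) (q_cons (Vale.Agent.P032.Lt.q R0Q057.q1257_2) (q_cons (Vale.Agent.P032.Lt.q R0Q057.q1257_3) (q_cons (Vale.Agent.P032.Lt.q R0Q057.q1257_4) (q_cons (Vale.Agent.P032.Lt.q R0Q057.q1257_5) (q_cons (Vale.Agent.P032.Lt.q R0Q057.q1257_6) (q_cons (Vale.Agent.P032.Lt.q R0Q057.q1257_7) (q_cons (Vale.Agent.P032.Lt.q R0Q057.q1257_8) (q_cons (Vale.Agent.P032.Lt.q R0Q057.q1257_9) q_nil)))))))))))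

theorem p1258 : Pat 73 73 TBm TCm (CB.map Fm) R0Q057.P1258 R0Q057.I1258 := Vale.Agent.P032.Lt.pat_eq (E' := R0Q057.E) eB (pat_step (by decide +kernel) (q_cons (Vale.Agent.P032.Lt.q R0Q057.q1258_0) q_nil))

def C1259 : List ℕ := [0, 4, 8, 12, 16, 20, 24, 355329, 475137, 617473, 737281]
theorem p1259 : Pat 73 73 TBm TCm (C1259.map Fm) R0Q057.P1259 R0Q057.I1259 := Vale.Agent.P032.Lt.pat_eq (E' := R0Q057.E1259) (by decide +kernel) (pat_step (by decide +kernel) (q_cons (Vale.Agent.P032.Lt.q R0Q057.q1259_0) q_nil))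

def C1260 : List ℕ := [0, 4, 8, 12, 16, 20, 24, 353281, 486401, 737281]
theorem p1260 : Pat 73 73 TBm TCm (C1260.map Fm) R0Q057.P1260 R0Q057.I1260 := Vale.Agent.P032.Lt.pat_eq (E' := R0Q057.E1260) (by decide +kernel) (pat_step (by decide +kernel) (q_cons (Vale.Agent.P032.Lt.q R0Q057.q1260_0) q_nil))

theorem p1261 : Pat 73 73 TBm TCm (CB.map Fm) R0Q058.P1261 R0Q058.I1261 := Vale.Agent.P032.Lt.pat_eq (E' := R0Q058.E) eB (pat_step (by decide +kernel) (q_cons (Vale.Agent.P032.Lt.q R0Q058.q1261_0) (q_cons (Vale.Agent.P032.Lt.q R0Q058.q1261_1) (q_cons (Vale.Agent.P032.Lt.q R0Q058.q1261_2) (q_cons (Vale.Agent.P032.Lt.q R0Q058.q1261_3) (q_cons (Vale.Agent.P032.Lt.q R0Q058.q1261_4) q_nil))))))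

theorem p1262 : Pat 73 73 TBm TCm (CB.map Fm) R0Q058.P1262 R0Q058.I1262 := Vale.Agent.P032.Lt.pat_eq (E' := R0Q058.E) eB (pat_step (by decide +kernel) (q_cons (Vale.Agent.P032.Lt.q R0Q058.q1262_0) q_nil))

def C1263 : List ℕ := [0, 4, 8, 12, 16, 20, 24, 212993, 475137, 737281]
theorem p1263 : Pat 73 73 TBm TCm (C1263.map Fm) R0Q058.P1263 R0Q058.I1263 := Vale.Agent.P032.Lt.pat_eq (E' := R0Q058.E1263) (by decide +kernel) (pat_step (by decide +kernel) (q_cons (Vale.Agent.P032.Lt.q R0Q058.q1263_0) (q_cons (Vale.Agent.P032.Lt.q R0Q058.q1263_1) (q_cons (Vale.Agent.P032.Lt.q R0Q058.q1263_2) (q_cons (Vale.Agent.P032.Lt.q R0Q058.q1263_3) (q_cons (Vale.Agent.P032.Lt.q R0Q058.q1263_4) q_nil))))))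

theorem p1264 : Pat 73 73 TBm TCm (CB.map Fm) R0Q058.P1264 R0Q058.I1264 := Vale.Agent.P032.Lt.pat_eq (E' := R0Q058.E) eB (pat_step (by decide +kernel) (q_cons (Vale.Agent.P032.Lt.q R0Q058.q1264_0) (q_cons (Vale.Agent.P032.Lt.q R0Q058.q1264_1) (q_cons (Vale.Agent.P032.Lt.q R0Q058.q1264_2) q_nil))))

theorem p1265 : Pat 73 73 TBm TCm (CB.map Fm) R0Q058.P1265 R0Q058.I1265 := Vale.Agent.P032.Lt.pat_eq (E' := R0Q058.E) eB (pat_step (by decide +kernel) (q_cons (Vale.Agent.P032.Lt.q R0Q058.q1265_0) q_nil))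

def C1266 : List ℕ := [0, 4, 8, 12, 16, 20, 24, 214017, 216065, 475137, 607233, 737281]
theorem p1266 : Pat 73 73 TBm TCm (C1266.map Fm) R0Q058.P1266 R0Q058.I1266 := Vale.Agent.P032.Lt.pat_eq (E' := R0Q058.E1266) (by decide +kernel) (pat_step (by decide +kernel) (q_cons (Vale.Agent.P032.Lt.q R0Q058.q1266_0) q_nil))

def C1267 : List ℕ := [0, 4, 8, 12, 16, 20, 24, 475137, 606209, 737281]
theorem p1267 : Pat 73 73 TBm TCm (C1267.map Fm) R0Q058.P1267 [] := Vale.Agent.P032.Lt.pat_eq (E' := R0Q058.E1267) (by decide +kernel) (pat_end (by decide +kernel) (Vale.Agent.P032.Lt.q R0Q058.q1267))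

theorem p1268 : Pat 73 73 TBm TCm (CB.map Fm) R0Q058.P1268 R0Q058.I1268 := Vale.Agent.P032.Lt.pat_eq (E' := R0Q058.E) eB (pat_step (by decide +kernel) (q_cons (Vale.Agent.P032.Lt.q R0Q058.q1268_0) (q_cons (Vale.Agent.P032.Lt.q R0Q058.q1268_1) (q_cons (Vale.Agent.P032.Lt.q R0Q058.q1268_2) (q_cons (Vale.Agent.P032.Lt.q R0Q058.q1268_3) (q_cons (Vale.Agent.P032.Lt.q R0Q058.q1268_4) (q_cons (Vale.Agent.P032.Lt.q R0Q058.q1268_5) q_nil)))))))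

theorem p1269 : Pat 73 73 TBm TCm (CB.map Fm) R0Q058.P1269 R0Q058.I1269 := Vale.Agent.P032.Lt.pat_eq (E' := R0Q058.E) eB (pat_step (by decide +kernel) (q_cons (Vale.Agent.P032.Lt.q R0Q058.q1269_0) (q_cons (Vale.Agent.P032.Lt.q R0Q058.q1269_1) q_nil)))

theorem p1270 : Pat 73 73 TBm TCm (CB.map Fm) R0Q058.P1270 R0Q058.I1270 := Vale.Agent.P032.Lt.pat_eq (E' := R0Q058.E) eB (pat_step (by decide +kernel) (q_cons (Vale.Agent.P032.Lt.q R0Q058.q1270_0) (q_cons (Vale.Agent.P032.Lt.q R0Q058.q1270_1) (q_cons (Vale.Agent.P032.Lt.q R0Q058.q1270_2) (q_cons (Vale.Agent.P032.Lt.q R0Q058.q1270_3) (q_cons (Vale.Agent.P032.Lt.q R0Q058.q1270_4) (q_cons (Vale.Agent.P032.Lt.q R0Q058.q1270_5) (q_cons (Vale.Agent.P032.Lt.q R0Q058.q1270_6) (q_cons (Vale.Agent.P032.Lt.q R0Q058.q1270_7) (q_cons (Vale.Agent.P032.Lt.q R0Q058.q1270_8) (q_cons (Vale.Agent.P032.Lt.q R0Q058.q1270_9) (q_cons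 (Vale.Agent.P032.Lt.q R0Q058.q1270_10) q_nil))))))))))))

theorem p1271 : Pat 73 73 TBm TCm (CB.map Fm) R0Q058.P1271 R0Q058.I1271 := Vale.Agent.P032.Lt.pat_eq (E' := R0Q058.E) eB (pat_step (by decide +kernel) (q_cons (Vale.Agent.P032.Lt.q R0Q058.q1271_0) (q_cons (Vale.Agent.P032.Lt.q R0Q058.q1271_1) (q_cons (Vale.Agent.P032.Lt.q R0Q058.q1271_2) (q_cons (Vale.Agent.P032.Lt.q R0Q058.q1271_3) (q_cons (Vale.Agent.P032.Lt.q R0Q058.q1271_4) (q_cons (Vale.Agent.P032.Lt.q R0Q058.q1271_5) (q_cons (Vale.Agent.P032.Lt.q R0Q058.q1271_6) (q_cons (Vale.Agent.P032.Lt.q R0Q058.q1271_7) (q_cons (Vale.Agent.P032.Lt.q R0Q058.q1271_8) (q_cons (Vale.Agent.P032.Lt.q R0Q058.q1271_9) q_nil)))))))))))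

theorem p1272 : Pat 73 73 TBm TCm (CB.map Fm) R0Q058.P1272 R0Q058.I1272 := Vale.Agent.P032.Lt.pat_eq (E' := R0Q058.E) eB (pat_step (by decide +kernel) (q_cons (Vale.Agent.P032.Lt.q R0Q058.q1272_0) (q_cons (Vale.Agent.P032.Lt.q R0Q058.q1272_1) (q_cons (Vale.Agent.P032.Lt.q R0Q058.q1272_2) q_nil))))

theorem p1273 : Pat 73 73 TBm TCm (CB.map Fm) R0Q058.P1273 R0Q058.I1273 := Vale.Agent.P032.Lt.pat_eq (E' := R0Q058.E) eB (pat_step (by decide +kernel) (q_cons (Vale.Agent.P032.Lt.q R0Q058.q1273_0) q_nil))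

theorem p1274 : Pat 73 73 TBm TCm (CB.map Fm) R0Q058.P1274 R0Q058.I1274 := Vale.Agent.P032.Lt.pat_eq (E' := R0Q058.E) eB (pat_step (by decide +kernel) (q_cons (Vale.Agent.P032.Lt.q R0Q058.q1274_0) (q_cons (Vale.Agent.P032.Lt.q R0Q058.q1274_1) q_nil)))

theorem p1275 : Pat 73 73 TBm TCm (CB.map Fm) R0Q058.P1275 R0Q058.I1275 := Vale.Agent.P032.Lt.pat_eq (E' := R0Q058.E) eB (pat_step (by decide +kernel) (q_cons (Vale.Agent.P032.Lt.q R0Q058.q1275_0) (q_cons (Vale.Agent.P032.Lt.q R0Q058.q1275_1) (q_cons (Vale.Agent.P032.Lt.q R0Q058.q1275_2) (q_cons (Vale.Agent.P032.Lt.q R0Q058.q1275_3) q_nil)))))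

theorem p1276 : Pat 73 73 TBm TCm (CB.map Fm) R0Q058.P1276 R0Q058.I1276 := Vale.Agent.P032.Lt.pat_eq (E' := R0Q058.E) eB (pat_step (by decide +kernel) (q_cons (Vale.Agent.P032.Lt.q R0Q058.q1276_0) (q_cons (Vale.Agent.P032.Lt.q R0Q058.q1276_1) (q_cons (Vale.Agent.P032.Lt.q R0Q058.q1276_2) q_nil))))

theorem p1277 : Pat 73 73 TBm TCm (CB.map Fm) R0Q058.P1277 R0Q058.I1277 := Vale.Agent.P032.Lt.pat_eq (E' := R0Q058.E) eB (pat_step (by decide +kernel) (q_cons (Vale.Agent.P032.Lt.q R0Q058.q1277_0) q_nil))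

theorem p1278 : Pat 73 73 TBm TCm (CB.map Fm) R0Q058.P1278 R0Q058.I1278 := Vale.Agent.P032.Lt.pat_eq (E' := R0Q058.E) eB (pat_step (by decide +kernel) (q_cons (Vale.Agent.P032.Lt.q R0Q058.q1278_0) q_nil))

def C1279 : List ℕ := [0, 4, 8, 12, 16, 20, 24, 81921, 212993, 475137, 615425]
theorem p1279 : Pat 73 73 TBm TCm (C1279.map Fm) R0Q058.P1279 R0Q058.I1279 := Vale.Agent.P032.Lt.pat_eq (E' := R0Q058.E1279) (by decide +kernel) (pat_step (by decide +kernel) (q_cons (Vale.Agent.P032.Lt.q R0Q058.q1279_0) (q_cons (Vale.Agent.P032.Lt.q R0Q058.q1279_1) q_nil)))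

def L : List (List ℕ) := [R0Q054.P1152, R0Q054.P1153, R0Q054.P1154, R0Q054.P1155, R0Q054.P1156, R0Q054.P1157, R0Q054.P1158, R0Q054.P1159, R0Q054.P1160, R0Q054.P1161, R0Q054.P1162, R0Q054.P1163, R0Q054.P1164, R0Q054.P1165, R0Q054.P1166, R0Q054.P1167, R0Q055.P1168, R0Q055.P1169, R0Q055.P1170, R0Q055.P1171, R0Q055.P1172, R0Q055.P1173, R0Q055.P1174, R0Q055.P1175, R0Q055.P1176, R0Q055.P1177, R0Q055.P1178, R0Q055.P1179, R0Q055.P1180, R0Q055.P1181, R0Q055.P1182, R0Q055.P1183, R0Q055.P1184, R0Q055.P1185, R0Q055.P1186, R0Q055.P1187, R0Q055.P1188, R0Q055.P1189, R0Q055.P1190, R0Q055.P1191, R0Q055.P1192, R0Q055.P1193, R0Q055.P1194, R0Q055.P1195, R0Q055.P1196, R0Q055.P1197, R0Q055.P1198, R0Q055.P1199, R0Q055.P1200, R0Q055.P1201, R0Q055.P1202, R0Q055.P1203, R0Q056.P1204, R0Q056.P1205, R0Q056.P1206, R0Q056.P1207, R0Q056.P1208, R0Q056.P1209, R0Q056.P1210, R0Q056.P1211,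 R0Q056.P1212, R0Q056.P1213, R0Q056.P1214, R0Q056.P1215, R0Q056.P1216, R0Q056.P1217, R0Q056.P1218, R0Q056.P1219, R0Q056.P1220, R0Q056.P1221, R0Q056.P1222, R0Q056.P1223, R0Q056.P1224, R0Q056.P1225, R0Q056.P1226, R0Q056.P1227, R0Q056.P1228, R0Q056.P1229, R0Q057.P1230, R0Q057.P1231, R0Q057.P1232, R0Q057.P1233, R0Q057.P1234, R0Q057.P1235, R0Q057.P1236, R0Q057.P1237, R0Q057.P1238, R0Q057.P1239, R0Q057.P1240, R0Q057.P1241, R0Q057.P1242, R0Q057.P1243, R0Q057.P1244, R0Q057.P1245, R0Q057.P1246, R0Q057.P1247, R0Q057.P1248, R0Q057.P1249, R0Q057.P1250, R0Q057.P1251, R0Q057.P1252, R0Q057.P1253, R0Q057.P1254, R0Q057.P1255, R0Q057.P1256, R0Q057.P1257, R0Q057.P1258, R0Q057.P1259, R0Q057.P1260, R0Q058.P1261, R0Q058.P1262, R0Q058.P1263, R0Q058.P1264, R0Q058.P1265, R0Q058.P1266, R0Q058.P1267, R0Q058.P1268, R0Q058.P1269, R0Q058.P1270, R0Q058.P1271, R0Q058.P1272, R0Q058.P1273,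 R0Q058.P1274, R0Q058.P1275, R0Q058.P1276, R0Q058.P1277, R0Q058.P1278, R0Q058.P1279]

theorem all : ∀ P ∈ L, CrtF 73 73 TBm TCm (Vale.Agent.P032.Fam.fam2 (Vale.Agent.P032.Fam.im0)) P := crtF_cons p1152 (crtF_cons p1153 (crtF_cons p1154 (crtF_cons p1155 (crtF_cons p1156 (crtF_cons p1157 (crtF_cons p1158 (crtF_cons p1159 (crtF_cons p1160 (crtF_cons p1161 (crtF_cons p1162 (crtF_cons p1163 (crtF_cons p1164 (crtF_cons p1165 (crtF_cons p1166 (crtF_cons p1167 (crtF_cons p1168 (crtF_cons p1169 (crtF_cons p1170 (crtF_cons p1171 (crtF_cons p1172 (crtF_cons p1173 (crtF_cons p1174 (crtF_cons p1175 (crtF_cons p1176 (crtF_cons p1177 (crtF_cons p1178 (crtF_cons p1179 (crtF_cons p1180 (crtF_cons p1181 (crtF_cons p1182 (crtF_cons p1183 (crtF_cons p1184 (crtF_cons p1185 (crtF_cons p1186 (crtF_cons p1187 (crtF_cons p1188 (crtF_cons p1189 (crtF_cons p1190 (crtF_cons p1191 (crtF_cons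 p1192 (crtF_cons p1193 (crtF_cons p1194 (crtF_cons p1195 (crtF_cons p1196 (crtF_cons p1197 (crtF_cons p1198 (crtF_cons p1199 (crtF_cons p1200 (crtF_cons p1201 (crtF_cons p1202 (crtF_cons p1203 (crtF_cons p1204 (crtF_cons p1205 (crtF_cons p1206 (crtF_cons p1207 (crtF_cons p1208 (crtF_cons p1209 (crtF_cons p1210 (crtF_cons p1211 (crtF_cons p1212 (crtF_cons p1213 (crtF_cons p1214 (crtF_cons p1215 (crtF_cons p1216 (crtF_cons p1217 (crtF_cons p1218 (crtF_cons p1219 (crtF_cons p1220 (crtF_cons p1221 (crtF_cons p1222 (crtF_cons p1223 (crtF_cons p1224 (crtF_cons p1225 (crtF_cons p1226 (crtF_cons p1227 (crtF_cons p1228 (crtF_cons p1229 (crtF_cons p1230 (crtF_cons p1231 (crtF_cons p1232 (crtF_cons p1233 (crtF_cons p1234 (crtF_cons p1235 (crtF_cons p1236 (crtF_cons p1237 (crtF_cons p1238 (crtF_cons p1239 (crtF_cons p1240 (crtF_cons p1241 (crtF_cons p1242 (crtF_cons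 p1243 (crtF_cons p1244 (crtF_cons p1245 (crtF_cons p1246 (crtF_cons p1247 (crtF_cons p1248 (crtF_cons p1249 (crtF_cons p1250 (crtF_cons p1251 (crtF_cons p1252 (crtF_cons p1253 (crtF_cons p1254 (crtF_cons p1255 (crtF_cons p1256 (crtF_cons p1257 (crtF_cons p1258 (crtF_cons p1259 (crtF_cons p1260 (crtF_cons p1261 (crtF_cons p1262 (crtF_cons p1263 (crtF_cons p1264 (crtF_cons p1265 (crtF_cons p1266 (crtF_cons p1267 (crtF_cons p1268 (crtF_cons p1269 (crtF_cons p1270 (crtF_cons p1271 (crtF_cons p1272 (crtF_cons p1273 (crtF_cons p1274 (crtF_cons p1275 (crtF_cons p1276 (crtF_cons p1277 (crtF_cons p1278 (crtF_cons p1279 crtF_nil)))))))))))))))))))))))))))))))))))))))))))))))))))))))))))))))))))))))))))))))))))))))))))))))))))))))))))))))))))))))))))))))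

theorem ch : chT 73 73 TCm s0_009 L = true := by decide +kernel

end Vale.Agent.P032X.Cert.XP.B1.R0H009
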