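import Vale.Agent.P032X.H892.LtH
import Vale.Agent.P032X.H286.W73
import Vale.Agent.P032X.Cert.XP.B1.R0T
import Vale.Agent.P032X.Cert.XP.B1.R0Q059
import Vale.Agent.P032X.Cert.XP.B1.R0Q060
import Vale.Agent.P032X.Cert.XP.B1.R0Q061
import Vale.Agent.P032X.Cert.XP.B1.R0Q062
import Vale.Agent.P032X.Cert.XP.B1.R0Q063
import Vale.Agent.P032X.Cert.XP.B1.R0Q064

set_option maxRecDepth 1000000

namespace Vale.Agent.P032X.Cert.XP.B1.R0H010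

open Vale.Agent.P032.H820.K Vale.Agent.P032.H357.MK Vale.Agent.P032.H286.E Vale.Agent.P032.H61 Vale.Agent.P032X.Cert.XP.B1

noncomputable abbrev Fm : ℕ → List ℕ := Vale.Agent.P032.Fam.fam2 (Vale.Agent.P032.Fam.im0)

def CB : List ℕ := [0, 4, 8, 12, 16, 20, 24]

theorem eB : Vale.Agent.P032.Lt.eqLL (CB.map Fm) R0Q059.E = true := by decide +kernel

theorem p1280 : Pat 73 73 TBm TCm (CB.map Fm) R0Q059.P1280 R0Q059.I1280 := Vale.Agent.P032.Lt.pat_eq (E' := R0Q059.E) eB (pat_step (by decide +kernel) (q_cons (Vale.Agent.P032.Lt.q R0Q059.q1280_0) (q_cons (Vale.Agent.P032.Lt.q R0Q059.q1280_1) q_nil)))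

theorem p1281 : Pat 73 73 TBm TCm (CB.map Fm) R0Q059.P1281 R0Q059.I1281 := Vale.Agent.P032.Lt.pat_eq (E' := R0Q059.E) eB (pat_step (by decide +kernel) (q_cons (Vale.Agent.P032.Lt.q R0Q059.q1281_0) (q_cons (Vale.Agent.P032.Lt.q R0Q059.q1281_1) q_nil)))

theorem p1282 : Pat 73 73 TBm TCm (CB.map Fm) R0Q059.P1282 R0Q059.I1282 := Vale.Agent.P032.Lt.pat_eq (E' := R0Q059.E) eB (pat_step (by decide +kernel) (q_cons (Vale.Agent.P032.Lt.q R0Q059.q1282_0) (q_cons (Vale.Agent.P032.Lt.q R0Q059.q1282_1) (q_cons (Vale.Agent.P032.Lt.q R0Q059.q1282_2) q_nil))))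

def C1283 : List ℕ := [0, 4, 8, 12, 16, 20, 24, 738305]
theorem p1283 : Pat 73 73 TBm TCm (C1283.map Fm) R0Q059.P1283 R0Q059.I1283 := Vale.Agent.P032.Lt.pat_eq (E' := R0Q059.E1283) (by decide +kernel) (pat_step (by decide +kernel) (q_cons (Vale.Agent.P032.Lt.q R0Q059.q1283_0) (q_cons (Vale.Agent.P032.Lt.q R0Q059.q1283_1) (q_cons (Vale.Agent.P032.Lt.q R0Q059.q1283_2) (q_cons (Vale.Agent.P032.Lt.q R0Q059.q1283_3) (q_cons (Vale.Agent.P032.Lt.q R0Q059.q1283_4) (q_cons (Vale.Agent.P032.Lt.q R0Q059.q1283_5) (q_cons (Vale.Agent.P032.Lt.q R0Q059.q1283_6) (q_cons (Vale.Agent.P032.Lt.q R0Q059.q1283_7) (q_cons (Vale.Agent.P032.Lt.q R0Q059.q1283_8) q_nil))))))))))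

theorem p1284 : Pat 73 73 TBm TCm (CB.map Fm) R0Q059.P1284 R0Q059.I1284 := Vale.Agent.P032.Lt.pat_eq (E' := R0Q059.E) eB (pat_step (by decide +kernel) (q_cons (Vale.Agent.P032.Lt.q R0Q059.q1284_0) (q_cons (Vale.Agent.P032.Lt.q R0Q059.q1284_1) q_nil)))

theorem p1285 : Pat 73 73 TBm TCm (CB.map Fm) R0Q059.P1285 R0Q059.I1285 := Vale.Agent.P032.Lt.pat_eq (E' := R0Q059.E) eB (pat_step (by decide +kernel) (q_cons (Vale.Agent.P032.Lt.q R0Q059.q1285_0) q_nil))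

theorem p1286 : Pat 73 73 TBm TCm (CB.map Fm) R0Q059.P1286 [] := Vale.Agent.P032.Lt.pat_eq (E' := R0Q059.E) eB (pat_end (by decide +kernel) (Vale.Agent.P032.Lt.q R0Q059.q1286))

theorem p1287 : Pat 73 73 TBm TCm (CB.map Fm) R0Q059.P1287 R0Q059.I1287 := Vale.Agent.P032.Lt.pat_eq (E' := R0Q059.E) eB (pat_step (by decide +kernel) (q_cons (Vale.Agent.P032.Lt.q R0Q059.q1287_0) (q_cons (Vale.Agent.P032.Lt.q R0Q059.q1287_1) (q_cons (Vale.Agent.P032.Lt.q R0Q059.q1287_2) (q_cons (Vale.Agent.P032.Lt.q R0Q059.q1287_3) (q_cons (Vale.Agent.P032.Lt.q R0Q059.q1287_4) (q_cons (Vale.Agent.P032.Lt.q R0Q059.q1287_5) (q_cons (Vale.Agent.P032.Lt.q R0Q059.q1287_6) (q_cons (Vale.Agent.P032.Lt.q R0Q059.q1287_7) q_nil)))))))))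

theorem p1288 : Pat 73 73 TBm TCm (CB.map Fm) R0Q059.P1288 R0Q059.I1288 := Vale.Agent.P032.Lt.pat_eq (E' := R0Q059.E) eB (pat_step (by decide +kernel) (q_cons (Vale.Agent.P032.Lt.q R0Q059.q1288_0) q_nil))

theorem p1289 : Pat 73 73 TBm TCm (CB.map Fm) R0Q059.P1289 R0Q059.I1289 := Vale.Agent.P032.Lt.pat_eq (E' := R0Q059.E) eB (pat_step (by decide +kernel) (q_cons (Vale.Agent.P032.Lt.q R0Q059.q1289_0) (q_cons (Vale.Agent.P032.Lt.q R0Q059.q1289_1) q_nil)))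

theorem p1290 : Pat 73 73 TBm TCm (CB.map Fm) R0Q059.P1290 R0Q059.I1290 := Vale.Agent.P032.Lt.pat_eq (E' := R0Q059.E) eB (pat_step (by decide +kernel) (q_cons (Vale.Agent.P032.Lt.q R0Q059.q1290_0) (q_cons (Vale.Agent.P032.Lt.q R0Q059.q1290_1) (q_cons (Vale.Agent.P032.Lt.q R0Q059.q1290_2) (q_cons (Vale.Agent.P032.Lt.q R0Q059.q1290_3) (q_cons (Vale.Agent.P032.Lt.q R0Q059.q1290_4) (q_cons (Vale.Agent.P032.Lt.q R0Q059.q1290_5) (q_cons (Vale.Agent.P032.Lt.q R0Q059.q1290_6) (q_cons (Vale.Agent.P032.Lt.q R0Q059.q1290_7) q_nil)))))))))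

theorem p1291 : Pat 73 73 TBm TCm (CB.map Fm) R0Q059.P1291 R0Q059.I1291 := Vale.Agent.P032.Lt.pat_eq (E' := R0Q059.E) eB (pat_step (by decide +kernel) (q_cons (Vale.Agent.P032.Lt.q R0Q059.q1291_0) (q_cons (Vale.Agent.P032.Lt.q R0Q059.q1291_1) (q_cons (Vale.Agent.P032.Lt.q R0Q059.q1291_2) (q_cons (Vale.Agent.P032.Lt.q R0Q059.q1291_3) (q_cons (Vale.Agent.P032.Lt.q R0Q059.q1291_4) (q_cons (Vale.Agent.P032.Lt.q R0Q059.q1291_5) (q_cons (Vale.Agent.P032.Lt.q R0Q059.q1291_6) (q_cons (Vale.Agent.P032.Lt.q R0Q059.q1291_7) (q_cons (Vale.Agent.P032.Lt.q R0Q059.q1291_8) q_nil))))))))))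

theorem p1292 : Pat 73 73 TBm TCm (CB.map Fm) R0Q059.P1292 R0Q059.I1292 := Vale.Agent.P032.Lt.pat_eq (E' := R0Q059.E) eB (pat_step (by decide +kernel) (q_cons (Vale.Agent.P032.Lt.q R0Q059.q1292_0) q_nil))

theorem p1293 : Pat 73 73 TBm TCm (CB.map Fm) R0Q059.P1293 R0Q059.I1293 := Vale.Agent.P032.Lt.pat_eq (E' := R0Q059.E) eB (pat_step (by decide +kernel) (q_cons (Vale.Agent.P032.Lt.q R0Q059.q1293_0) (q_cons (Vale.Agent.P032.Lt.q R0Q059.q1293_1) q_nil)))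

theorem p1294 : Pat 73 73 TBm TCm (CB.map Fm) R0Q059.P1294 R0Q059.I1294 := Vale.Agent.P032.Lt.pat_eq (E' := R0Q059.E) eB (pat_step (by decide +kernel) (q_cons (Vale.Agent.P032.Lt.q R0Q059.q1294_0) (q_cons (Vale.Agent.P032.Lt.q R0Q059.q1294_1) (q_cons (Vale.Agent.P032.Lt.q R0Q059.q1294_2) (q_cons (Vale.Agent.P032.Lt.q R0Q059.q1294_3) (q_cons (Vale.Agent.P032.Lt.q R0Q059.q1294_4) q_nil))))))

theorem p1295 : Pat 73 73 TBm TCm (CB.map Fm) R0Q059.P1295 R0Q059.I1295 := Vale.Agent.P032.Lt.pat_eq (E' := R0Q059.E) eB (pat_step (by decide +kernel) (q_cons (Vale.Agent.P032.Lt.q R0Q059.q1295_0) q_nil))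

theorem p1296 : Pat 73 73 TBm TCm (CB.map Fm) R0Q059.P1296 R0Q059.I1296 := Vale.Agent.P032.Lt.pat_eq (E' := R0Q059.E) eB (pat_step (by decide +kernel) (q_cons (Vale.Agent.P032.Lt.q R0Q059.q1296_0) q_nil))

def C1297 : List ℕ := [0, 4, 8, 12, 16, 20, 24, 222209, 355329]
theorem p1297 : Pat 73 73 TBm TCm (C1297.map Fm) R0Q059.P1297 R0Q059.I1297 := Vale.Agent.P032.Lt.pat_eq (E' := R0Q059.E1297) (by decide +kernel) (pat_step (by decide +kernel) (q_cons (Vale.Agent.P032.Lt.q R0Q059.q1297_0) q_nil))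

def C1298 : List ℕ := [0, 4, 8, 12, 16, 20, 24, 222209]
theorem p1298 : Pat 73 73 TBm TCm (C1298.map Fm) R0Q059.P1298 R0Q059.I1298 := Vale.Agent.P032.Lt.pat_eq (E' := R0Q059.E1298) (by decide +kernel) (pat_step (by decide +kernel) (q_cons (Vale.Agent.P032.Lt.q R0Q059.q1298_0) q_nil))

theorem p1299 : Pat 73 73 TBm TCm (CB.map Fm) R0Q059.P1299 R0Q059.I1299 := Vale.Agent.P032.Lt.pat_eq (E' := R0Q059.E) eB (pat_step (by decide +kernel) (q_cons (Vale.Agent.P032.Lt.q R0Q059.q1299_0) (q_cons (Vale.Agent.P032.Lt.q R0Q059.q1299_1) q_nil)))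

theorem p1300 : Pat 73 73 TBm TCm (CB.map Fm) R0Q059.P1300 R0Q059.I1300 := Vale.Agent.P032.Lt.pat_eq (E' := R0Q059.E) eB (pat_step (by decide +kernel) (q_cons (Vale.Agent.P032.Lt.q R0Q059.q1300_0) q_nil))

theorem p1301 : Pat 73 73 TBm TCm (CB.map Fm) R0Q059.P1301 R0Q059.I1301 := Vale.Agent.P032.Lt.pat_eq (E' := R0Q059.E) eB (pat_step (by decide +kernel) (q_cons (Vale.Agent.P032.Lt.q R0Q059.q1301_0) (q_cons (Vale.Agent.P032.Lt.q R0Q059.q1301_1) (q_cons (Vale.Agent.P032.Lt.q R0Q059.q1301_2) (q_cons (Vale.Agent.P032.Lt.q R0Q059.q1301_3) (q_cons (Vale.Agent.P032.Lt.q R0Q059.q1301_4) (q_cons (Vale.Agent.P032.Lt.q R0Q059.q1301_5) (q_cons (Vale.Agent.P032.Lt.q R0Q059.q1301_6) (q_cons (Vale.Agent.P032.Lt.q R0Q059.q1301_7) (q_cons (Vale.Agent.P032.Lt.q R0Q059.q1301_8) (q_cons (Vale.Agent.P032.Lt.q R0Q059.q1301_9) (q_cons (Vale.Agent.P032.Lt.q R0Q059.q1301_10)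 (q_cons (Vale.Agent.P032.Lt.q R0Q059.q1301_11) (q_cons (Vale.Agent.P032.Lt.q R0Q059.q1301_12) (q_cons (Vale.Agent.P032.Lt.q R0Q059.q1301_13) (q_cons (Vale.Agent.P032.Lt.q R0Q059.q1301_14) (q_cons (Vale.Agent.P032.Lt.q R0Q059.q1301_15) (q_cons (Vale.Agent.P032.Lt.q R0Q059.q1301_16) (q_cons (Vale.Agent.P032.Lt.q R0Q059.q1301_17) (q_cons (Vale.Agent.P032.Lt.q R0Q059.q1301_18) (q_cons (Vale.Agent.P032.Lt.q R0Q059.q1301_19) (q_cons (Vale.Agent.P032.Lt.q R0Q059.q1301_20) (q_cons (Vale.Agent.P032.Lt.q R0Q059.q1301_21) (q_cons (Vale.Agent.P032.Lt.q R0Q059.q1301_22) (q_cons (Vale.Agent.P032.Lt.q R0Q059.q1301_23) (q_cons (Vale.Agent.P032.Lt.q R0Q059.q1301_24) (q_cons (Vale.Agent.P032.Lt.q R0Q059.q1301_25) (q_cons (Vale.Agent.P032.Lt.q R0Q059.q1301_26) (q_cons (Vale.Agent.P032.Lt.q R0Q059.q1301_27) (q_cons (Vale.Agent.P032.Lt.q R0Q059.q1301_28) (q_cons (Vale.Agent.P032.Lt.q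 R0Q059.q1301_29) (q_cons (Vale.Agent.P032.Lt.q R0Q059.q1301_30) (q_cons (Vale.Agent.P032.Lt.q R0Q059.q1301_31) (q_cons (Vale.Agent.P032.Lt.q R0Q059.q1301_32) (q_cons (Vale.Agent.P032.Lt.q R0Q059.q1301_33) (q_cons (Vale.Agent.P032.Lt.q R0Q059.q1301_34) (q_cons (Vale.Agent.P032.Lt.q R0Q059.q1301_35) (q_cons (Vale.Agent.P032.Lt.q R0Q059.q1301_36) (q_cons (Vale.Agent.P032.Lt.q R0Q059.q1301_37) (q_cons (Vale.Agent.P032.Lt.q R0Q059.q1301_38) (q_cons (Vale.Agent.P032.Lt.q R0Q059.q1301_39) (q_cons (Vale.Agent.P032.Lt.q R0Q059.q1301_40) (q_cons (Vale.Agent.P032.Lt.q R0Q059.q1301_41) (q_cons (Vale.Agent.P032.Lt.q R0Q059.q1301_42) (q_cons (Vale.Agent.P032.Lt.q R0Q059.q1301_43) (q_cons (Vale.Agent.P032.Lt.q R0Q059.q1301_44) (q_cons (Vale.Agent.P032.Lt.q R0Q059.q1301_45) (q_cons (Vale.Agent.P032.Lt.q R0Q059.q1301_46) (q_cons (Vale.Agent.P032.Lt.q R0Q059.q1301_47)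 (q_cons (Vale.Agent.P032.Lt.q R0Q059.q1301_48) (q_cons (Vale.Agent.P032.Lt.q R0Q059.q1301_49) q_nil)))))))))))))))))))))))))))))))))))))))))))))))))))

theorem p1302 : Pat 73 73 TBm TCm (CB.map Fm) R0Q059.P1302 R0Q059.I1302 := Vale.Agent.P032.Lt.pat_eq (E' := R0Q059.E) eB (pat_step (by decide +kernel) (q_cons (Vale.Agent.P032.Lt.q R0Q059.q1302_0) q_nil))

theorem p1303 : Pat 73 73 TBm TCm (CB.map Fm) R0Q060.P1303 R0Q060.I1303 := Vale.Agent.P032.Lt.pat_eq (E' := R0Q060.E) eB (pat_step (by decide +kernel) (q_cons (Vale.Agent.P032.Lt.q R0Q060.q1303_0) (q_cons (Vale.Agent.P032.Lt.q R0Q060.q1303_1) (q_cons (Vale.Agent.P032.Lt.q R0Q060.q1303_2) (q_cons (Vale.Agent.P032.Lt.q R0Q060.q1303_3) (q_cons (Vale.Agent.P032.Lt.q R0Q060.q1303_4) (q_cons (Vale.Agent.P032.Lt.q R0Q060.q1303_5) (q_cons (Vale.Agent.P032.Lt.q R0Q060.q1303_6) (q_cons (Vale.Agent.P032.Lt.q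 R0Q060.q1303_7) (q_cons (Vale.Agent.P032.Lt.q R0Q060.q1303_8) (q_cons (Vale.Agent.P032.Lt.q R0Q060.q1303_9) (q_cons (Vale.Agent.P032.Lt.q R0Q060.q1303_10) (q_cons (Vale.Agent.P032.Lt.q R0Q060.q1303_11) (q_cons (Vale.Agent.P032.Lt.q R0Q060.q1303_12) (q_cons (Vale.Agent.P032.Lt.q R0Q060.q1303_13) (q_cons (Vale.Agent.P032.Lt.q R0Q060.q1303_14) (q_cons (Vale.Agent.P032.Lt.q R0Q060.q1303_15) (q_cons (Vale.Agent.P032.Lt.q R0Q060.q1303_16) q_nil))))))))))))))))))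

theorem p1304 : Pat 73 73 TBm TCm (CB.map Fm) R0Q060.P1304 R0Q060.I1304 := Vale.Agent.P032.Lt.pat_eq (E' := R0Q060.E) eB (pat_step (by decide +kernel) (q_cons (Vale.Agent.P032.Lt.q R0Q060.q1304_0) (q_cons (Vale.Agent.P032.Lt.q R0Q060.q1304_1) (q_cons (Vale.Agent.P032.Lt.q R0Q060.q1304_2) (q_cons (Vale.Agent.P032.Lt.q R0Q060.q1304_3) (q_cons (Vale.Agent.P032.Lt.q R0Q060.q1304_4) q_nil))))))

def C1305 : List ℕ := [0, 4, 8, 12, 16, 20, 24, 220161, 741377]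
theorem p1305 : Pat 73 73 TBm TCm (C1305.map Fm) R0Q060.P1305 R0Q060.I1305 := Vale.Agent.P032.Lt.pat_eq (E' := R0Q060.E1305) (by decide +kernel) (pat_step (by decide +kernel) (q_cons (Vale.Agent.P032.Lt.q R0Q060.q1305_0) (q_cons (Vale.Agent.P032.Lt.q R0Q060.q1305_1) (q_cons (Vale.Agent.P032.Lt.q R0Q060.q1305_2) (q_cons (Vale.Agent.P032.Lt.q R0Q060.q1305_3) (q_cons (Vale.Agent.P032.Lt.q R0Q060.q1305_4) (q_cons (Vale.Agent.P032.Lt.q R0Q060.q1305_5) (q_cons (Vale.Agent.P032.Lt.q R0Q060.q1305_6) (q_cons (Vale.Agent.P032.Lt.q R0Q060.q1305_7) (q_cons (Vale.Agent.P032.Lt.q R0Q060.q1305_8) (q_cons (Vale.Agent.P032.Lt.q R0Q060.q1305_9) (q_cons (Vale.Agent.P032.Lt.q R0Q060.q1305_10) q_nil))))))))))))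

theorem p1306 : Pat 73 73 TBm TCm (CB.map Fm) R0Q060.P1306 R0Q060.I1306 := Vale.Agent.P032.Lt.pat_eq (E' := R0Q060.E) eB (pat_step (by decide +kernel) (q_cons (Vale.Agent.P032.Lt.q R0Q060.q1306_0) q_nil))

theorem p1307 : Pat 73 73 TBm TCm (CB.map Fm) R0Q060.P1307 R0Q060.I1307 := Vale.Agent.P032.Lt.pat_eq (E' := R0Q060.E) eB (pat_step (by decide +kernel) (q_cons (Vale.Agent.P032.Lt.q R0Q060.q1307_0) q_nil))

theorem p1308 : Pat 73 73 TBm TCm (CB.map Fm) R0Q060.P1308 R0Q060.I1308 := Vale.Agent.P032.Lt.pat_eq (E' := R0Q060.E) eB (pat_step (by decide +kernel) (q_cons (Vale.Agent.P032.Lt.q R0Q060.q1308_0) q_nil))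

theorem p1309 : Pat 73 73 TBm TCm (CB.map Fm) R0Q060.P1309 R0Q060.I1309 := Vale.Agent.P032.Lt.pat_eq (E' := R0Q060.E) eB (pat_step (by decide +kernel) (q_cons (Vale.Agent.P032.Lt.q R0Q060.q1309_0) (q_cons (Vale.Agent.P032.Lt.q R0Q060.q1309_1) q_nil)))

theorem p1310 : Pat 73 73 TBm TCm (CB.map Fm) R0Q060.P1310 R0Q060.I1310 := Vale.Agent.P032.Lt.pat_eq (E' := R0Q060.E) eB (pat_step (by decide +kernel) (q_cons (Vale.Agent.P032.Lt.q R0Q060.q1310_0) (q_cons (Vale.Agent.P032.Lt.q R0Q060.q1310_1) q_nil)))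

theorem p1311 : Pat 73 73 TBm TCm (CB.map Fm) R0Q060.P1311 R0Q060.I1311 := Vale.Agent.P032.Lt.pat_eq (E' := R0Q060.E) eB (pat_step (by decide +kernel) (q_cons (Vale.Agent.P032.Lt.q R0Q060.q1311_0) q_nil))

theorem p1312 : Pat 73 73 TBm TCm (CB.map Fm) R0Q060.P1312 R0Q060.I1312 := Vale.Agent.P032.Lt.pat_eq (E' := R0Q060.E) eB (pat_step (by decide +kernel) (q_cons (Vale.Agent.P032.Lt.q R0Q060.q1312_0) q_nil))

theorem p1313 : Pat 73 73 TBm TCm (CB.map Fm) R0Q060.P1313 R0Q060.I1313 := Vale.Agent.P032.Lt.pat_eq (E' := R0Q060.E) eB (pat_step (by decide +kernel) (q_cons (Vale.Agent.P032.Lt.q R0Q060.q1313_0) q_nil))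

theorem p1314 : Pat 73 73 TBm TCm (CB.map Fm) R0Q060.P1314 R0Q060.I1314 := Vale.Agent.P032.Lt.pat_eq (E' := R0Q060.E) eB (pat_step (by decide +kernel) (q_cons (Vale.Agent.P032.Lt.q R0Q060.q1314_0) q_nil))

theorem p1315 : Pat 73 73 TBm TCm (CB.map Fm) R0Q060.P1315 R0Q060.I1315 := Vale.Agent.P032.Lt.pat_eq (E' := R0Q060.E) eB (pat_step (by decide +kernel) (q_cons (Vale.Agent.P032.Lt.q R0Q060.q1315_0) (q_cons (Vale.Agent.P032.Lt.q R0Q060.q1315_1) (q_cons (Vale.Agent.P032.Lt.q R0Q060.q1315_2) (q_cons (Vale.Agent.P032.Lt.q R0Q060.q1315_3) (q_cons (Vale.Agent.P032.Lt.q R0Q060.q1315_4) (q_cons (Vale.Agent.P032.Lt.q R0Q060.q1315_5) (q_cons (Vale.Agent.P032.Lt.q R0Q060.q1315_6) (q_cons (Vale.Agent.P032.Lt.q R0Q060.q1315_7) q_nil)))))))))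

theorem p1316 : Pat 73 73 TBm TCm (CB.map Fm) R0Q060.P1316 R0Q060.I1316 := Vale.Agent.P032.Lt.pat_eq (E' := R0Q060.E) eB (pat_step (by decide +kernel) (q_cons (Vale.Agent.P032.Lt.q R0Q060.q1316_0) q_nil))

theorem p1317 : Pat 73 73 TBm TCm (CB.map Fm) R0Q060.P1317 R0Q060.I1317 := Vale.Agent.P032.Lt.pat_eq (E' := R0Q060.E) eB (pat_step (by decide +kernel) (q_cons (Vale.Agent.P032.Lt.q R0Q060.q1317_0) (q_cons (Vale.Agent.P032.Lt.q R0Q060.q1317_1) (q_cons (Vale.Agent.P032.Lt.q R0Q060.q1317_2) (q_cons (Vale.Agent.P032.Lt.q R0Q060.q1317_3) (q_cons (Vale.Agent.P032.Lt.q R0Q060.q1317_4) q_nil))))))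

theorem p1318 : Pat 73 73 TBm TCm (CB.map Fm) R0Q060.P1318 R0Q060.I1318 := Vale.Agent.P032.Lt.pat_eq (E' := R0Q060.E) eB (pat_step (by decide +kernel) (q_cons (Vale.Agent.P032.Lt.q R0Q060.q1318_0) q_nil))

theorem p1319 : Pat 73 73 TBm TCm (CB.map Fm) R0Q060.P1319 R0Q060.I1319 := Vale.Agent.P032.Lt.pat_eq (E' := R0Q060.E) eB (pat_step (by decide +kernel) (q_cons (Vale.Agent.P032.Lt.q R0Q060.q1319_0) (q_cons (Vale.Agent.P032.Lt.q R0Q060.q1319_1) (q_cons (Vale.Agent.P032.Lt.q R0Q060.q1319_2) (q_cons (Vale.Agent.P032.Lt.q R0Q060.q1319_3) (q_cons (Vale.Agent.P032.Lt.q R0Q060.q1319_4) (q_cons (Vale.Agent.P032.Lt.q R0Q060.q1319_5) (q_cons (Vale.Agent.P032.Lt.q R0Q060.q1319_6) (q_cons (Vale.Agent.P032.Lt.q R0Q060.q1319_7) (q_cons (Vale.Agent.P032.Lt.q R0Q060.q1319_8) (q_cons (Vale.Agent.P032.Lt.q R0Q060.q1319_9) (q_cons (Vale.Agent.P032.Lt.q R0Q060.q1319_10)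 (q_cons (Vale.Agent.P032.Lt.q R0Q060.q1319_11) (q_cons (Vale.Agent.P032.Lt.q R0Q060.q1319_12) q_nil))))))))))))))

theorem p1320 : Pat 73 73 TBm TCm (CB.map Fm) R0Q060.P1320 R0Q060.I1320 := Vale.Agent.P032.Lt.pat_eq (E' := R0Q060.E) eB (pat_step (by decide +kernel) (q_cons (Vale.Agent.P032.Lt.q R0Q060.q1320_0) (q_cons (Vale.Agent.P032.Lt.q R0Q060.q1320_1) (q_cons (Vale.Agent.P032.Lt.q R0Q060.q1320_2) (q_cons (Vale.Agent.P032.Lt.q R0Q060.q1320_3) (q_cons (Vale.Agent.P032.Lt.q R0Q060.q1320_4) (q_cons (Vale.Agent.P032.Lt.q R0Q060.q1320_5) (q_cons (Vale.Agent.P032.Lt.q R0Q060.q1320_6) (q_cons (Vale.Agent.P032.Lt.q R0Q060.q1320_7) (q_cons (Vale.Agent.P032.Lt.q R0Q060.q1320_8) (q_cons (Vale.Agent.P032.Lt.q R0Q060.q1320_9) (q_cons (Vale.Agent.P032.Lt.q R0Q060.q1320_10) (q_cons (Vale.Agent.P032.Lt.q R0Q060.q1320_11) (q_cons (Vale.Agent.P032.Lt.q R0Q060.q1320_12)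 (q_cons (Vale.Agent.P032.Lt.q R0Q060.q1320_13) q_nil)))))))))))))))

theorem p1321 : Pat 73 73 TBm TCm (CB.map Fm) R0Q060.P1321 R0Q060.I1321 := Vale.Agent.P032.Lt.pat_eq (E' := R0Q060.E) eB (pat_step (by decide +kernel) (q_cons (Vale.Agent.P032.Lt.q R0Q060.q1321_0) q_nil))

theorem p1322 : Pat 73 73 TBm TCm (CB.map Fm) R0Q061.P1322 R0Q061.I1322 := Vale.Agent.P032.Lt.pat_eq (E' := R0Q061.E) eB (pat_step (by decide +kernel) (q_cons (Vale.Agent.P032.Lt.q R0Q061.q1322_0) (q_cons (Vale.Agent.P032.Lt.q R0Q061.q1322_1) (q_cons (Vale.Agent.P032.Lt.q R0Q061.q1322_2) (q_cons (Vale.Agent.P032.Lt.q R0Q061.q1322_3) (q_cons (Vale.Agent.P032.Lt.q R0Q061.q1322_4) (q_cons (Vale.Agent.P032.Lt.q R0Q061.q1322_5) (q_cons (Vale.Agent.P032.Lt.q R0Q061.q1322_6) (q_cons (Vale.Agent.P032.Lt.q R0Q061.q1322_7) (q_cons (Vale.Agent.P032.Lt.q R0Q061.q1322_8) (q_cons (Vale.Agent.P032.Lt.q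 R0Q061.q1322_9) (q_cons (Vale.Agent.P032.Lt.q R0Q061.q1322_10) (q_cons (Vale.Agent.P032.Lt.q R0Q061.q1322_11) (q_cons (Vale.Agent.P032.Lt.q R0Q061.q1322_12) (q_cons (Vale.Agent.P032.Lt.q R0Q061.q1322_13) (q_cons (Vale.Agent.P032.Lt.q R0Q061.q1322_14) (q_cons (Vale.Agent.P032.Lt.q R0Q061.q1322_15) (q_cons (Vale.Agent.P032.Lt.q R0Q061.q1322_16) (q_cons (Vale.Agent.P032.Lt.q R0Q061.q1322_17) (q_cons (Vale.Agent.P032.Lt.q R0Q061.q1322_18) q_nil))))))))))))))))))))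

theorem p1323 : Pat 73 73 TBm TCm (CB.map Fm) R0Q061.P1323 R0Q061.I1323 := Vale.Agent.P032.Lt.pat_eq (E' := R0Q061.E) eB (pat_step (by decide +kernel) (q_cons (Vale.Agent.P032.Lt.q R0Q061.q1323_0) (q_cons (Vale.Agent.P032.Lt.q R0Q061.q1323_1) (q_cons (Vale.Agent.P032.Lt.q R0Q061.q1323_2) (q_cons (Vale.Agent.P032.Lt.q R0Q061.q1323_3) (q_cons (Vale.Agent.P032.Lt.q R0Q061.q1323_4) (q_cons (Vale.Agent.P032.Lt.q R0Q061.q1323_5) (q_cons (Vale.Agent.P032.Lt.q R0Q061.q1323_6) (q_cons (Vale.Agent.P032.Lt.q R0Q061.q1323_7) (q_cons (Vale.Agent.P032.Lt.q R0Q061.q1323_8) (q_cons (Vale.Agent.P032.Lt.q R0Q061.q1323_9) (q_cons (Vale.Agent.P032.Lt.q R0Q061.q1323_10) (q_cons (Vale.Agent.P032.Lt.q R0Q061.q1323_11) q_nil)))))))))))))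

theorem p1324 : Pat 73 73 TBm TCm (CB.map Fm) R0Q061.P1324 R0Q061.I1324 := Vale.Agent.P032.Lt.pat_eq (E' := R0Q061.E) eB (pat_step (by decide +kernel) (q_cons (Vale.Agent.P032.Lt.q R0Q061.q1324_0) (q_cons (Vale.Agent.P032.Lt.q R0Q061.q1324_1) (q_cons (Vale.Agent.P032.Lt.q R0Q061.q1324_2) q_nil))))

theorem p1325 : Pat 73 73 TBm TCm (CB.map Fm) R0Q061.P1325 R0Q061.I1325 := Vale.Agent.P032.Lt.pat_eq (E' := R0Q061.E) eB (pat_step (by decide +kernel) (q_cons (Vale.Agent.P032.Lt.q R0Q061.q1325_0) (q_cons (Vale.Agent.P032.Lt.q R0Q061.q1325_1) q_nil)))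

theorem p1326 : Pat 73 73 TBm TCm (CB.map Fm) R0Q061.P1326 R0Q061.I1326 := Vale.Agent.P032.Lt.pat_eq (E' := R0Q061.E) eB (pat_step (by decide +kernel) (q_cons (Vale.Agent.P032.Lt.q R0Q061.q1326_0) q_nil))

theorem p1327 : Pat 73 73 TBm TCm (CB.map Fm) R0Q061.P1327 R0Q061.I1327 := Vale.Agent.P032.Lt.pat_eq (E' := R0Q061.E) eB (pat_step (by decide +kernel) (q_cons (Vale.Agent.P032.Lt.q R0Q061.q1327_0) (q_cons (Vale.Agent.P032.Lt.q R0Q061.q1327_1) q_nil)))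

theorem p1328 : Pat 73 73 TBm TCm (CB.map Fm) R0Q061.P1328 R0Q061.I1328 := Vale.Agent.P032.Lt.pat_eq (E' := R0Q061.E) eB (pat_step (by decide +kernel) (q_cons (Vale.Agent.P032.Lt.q R0Q061.q1328_0) q_nil))

theorem p1329 : Pat 73 73 TBm TCm (CB.map Fm) R0Q061.P1329 R0Q061.I1329 := Vale.Agent.P032.Lt.pat_eq (E' := R0Q061.E) eB (pat_step (by decide +kernel) (q_cons (Vale.Agent.P032.Lt.q R0Q061.q1329_0) (q_cons (Vale.Agent.P032.Lt.q R0Q061.q1329_1) q_nil)))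

theorem p1330 : Pat 73 73 TBm TCm (CB.map Fm) R0Q061.P1330 R0Q061.I1330 := Vale.Agent.P032.Lt.pat_eq (E' := R0Q061.E) eB (pat_step (by decide +kernel) (q_cons (Vale.Agent.P032.Lt.q R0Q061.q1330_0) q_nil))

theorem p1331 : Pat 73 73 TBm TCm (CB.map Fm) R0Q061.P1331 R0Q061.I1331 := Vale.Agent.P032.Lt.pat_eq (E' := R0Q061.E) eB (pat_step (by decide +kernel) (q_cons (Vale.Agent.P032.Lt.q R0Q061.q1331_0) q_nil))

theorem p1332 : Pat 73 73 TBm TCm (CB.map Fm) R0Q061.P1332 R0Q061.I1332 := Vale.Agent.P032.Lt.pat_eq (E' := R0Q061.E) eB (pat_step (by decide +kernel) (q_cons (Vale.Agent.P032.Lt.q R0Q061.q1332_0) (q_cons (Vale.Agent.P032.Lt.q R0Q061.q1332_1) (q_cons (Vale.Agent.P032.Lt.q R0Q061.q1332_2) (q_cons (Vale.Agent.P032.Lt.q R0Q061.q1332_3) (q_cons (Vale.Agent.P032.Lt.q R0Q061.q1332_4) (q_cons (Vale.Agent.P032.Lt.q R0Q061.q1332_5) q_nil)))))))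

theorem p1333 : Pat 73 73 TBm TCm (CB.map Fm) R0Q061.P1333 R0Q061.I1333 := Vale.Agent.P032.Lt.pat_eq (E' := R0Q061.E) eB (pat_step (by decide +kernel) (q_cons (Vale.Agent.P032.Lt.q R0Q061.q1333_0) (q_cons (Vale.Agent.P032.Lt.q R0Q061.q1333_1) q_nil)))

theorem p1334 : Pat 73 73 TBm TCm (CB.map Fm) R0Q061.P1334 R0Q061.I1334 := Vale.Agent.P032.Lt.pat_eq (E' := R0Q061.E) eB (pat_step (by decide +kernel) (q_cons (Vale.Agent.P032.Lt.q R0Q061.q1334_0) (q_cons (Vale.Agent.P032.Lt.q R0Q061.q1334_1) q_nil)))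

theorem p1335 : Pat 73 73 TBm TCm (CB.map Fm) R0Q061.P1335 R0Q061.I1335 := Vale.Agent.P032.Lt.pat_eq (E' := R0Q061.E) eB (pat_step (by decide +kernel) (q_cons (Vale.Agent.P032.Lt.q R0Q061.q1335_0) q_nil))

theorem p1336 : Pat 73 73 TBm TCm (CB.map Fm) R0Q061.P1336 R0Q061.I1336 := Vale.Agent.P032.Lt.pat_eq (E' := R0Q061.E) eB (pat_step (by decide +kernel) (q_cons (Vale.Agent.P032.Lt.q R0Q061.q1336_0) q_nil))

theorem p1337 : Pat 73 73 TBm TCm (CB.map Fm) R0Q061.P1337 R0Q061.I1337 := Vale.Agent.P032.Lt.pat_eq (E' := R0Q061.E) eB (pat_step (by decide +kernel) (q_cons (Vale.Agent.P032.Lt.q R0Q061.q1337_0) (q_cons (Vale.Agent.P032.Lt.q R0Q061.q1337_1) (q_cons (Vale.Agent.P032.Lt.q R0Q061.q1337_2) q_nil))))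

theorem p1338 : Pat 73 73 TBm TCm (CB.map Fm) R0Q061.P1338 R0Q061.I1338 := Vale.Agent.P032.Lt.pat_eq (E' := R0Q061.E) eB (pat_step (by decide +kernel) (q_cons (Vale.Agent.P032.Lt.q R0Q061.q1338_0) (q_cons (Vale.Agent.P032.Lt.q R0Q061.q1338_1) (q_cons (Vale.Agent.P032.Lt.q R0Q061.q1338_2) q_nil))))

theorem p1339 : Pat 73 73 TBm TCm (CB.map Fm) R0Q061.P1339 R0Q061.I1339 := Vale.Agent.P032.Lt.pat_eq (E' := R0Q061.E) eB (pat_step (by decide +kernel) (q_cons (Vale.Agent.P032.Lt.q R0Q061.q1339_0) (q_cons (Vale.Agent.P032.Lt.q R0Q061.q1339_1) q_nil)))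

theorem p1340 : Pat 73 73 TBm TCm (CB.map Fm) R0Q061.P1340 R0Q061.I1340 := Vale.Agent.P032.Lt.pat_eq (E' := R0Q061.E) eB (pat_step (by decide +kernel) (q_cons (Vale.Agent.P032.Lt.q R0Q061.q1340_0) (q_cons (Vale.Agent.P032.Lt.q R0Q061.q1340_1) (q_cons (Vale.Agent.P032.Lt.q R0Q061.q1340_2) (q_cons (Vale.Agent.P032.Lt.q R0Q061.q1340_3) (q_cons (Vale.Agent.P032.Lt.q R0Q061.q1340_4) (q_cons (Vale.Agent.P032.Lt.q R0Q061.q1340_5) (q_cons (Vale.Agent.P032.Lt.q R0Q061.q1340_6) q_nil))))))))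

theorem p1341 : Pat 73 73 TBm TCm (CB.map Fm) R0Q061.P1341 R0Q061.I1341 := Vale.Agent.P032.Lt.pat_eq (E' := R0Q061.E) eB (pat_step (by decide +kernel) (q_cons (Vale.Agent.P032.Lt.q R0Q061.q1341_0) (q_cons (Vale.Agent.P032.Lt.q R0Q061.q1341_1) (q_cons (Vale.Agent.P032.Lt.q R0Q061.q1341_2) (q_cons (Vale.Agent.P032.Lt.q R0Q061.q1341_3) (q_cons (Vale.Agent.P032.Lt.q R0Q061.q1341_4) (q_cons (Vale.Agent.P032.Lt.q R0Q061.q1341_5) (q_cons (Vale.Agent.P032.Lt.q R0Q061.q1341_6) (q_cons (Vale.Agent.P032.Lt.q R0Q061.q1341_7) q_nil)))))))))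

theorem p1342 : Pat 73 73 TBm TCm (CB.map Fm) R0Q061.P1342 R0Q061.I1342 := Vale.Agent.P032.Lt.pat_eq (E' := R0Q061.E) eB (pat_step (by decide +kernel) (q_cons (Vale.Agent.P032.Lt.q R0Q061.q1342_0) (q_cons (Vale.Agent.P032.Lt.q R0Q061.q1342_1) (q_cons (Vale.Agent.P032.Lt.q R0Q061.q1342_2) q_nil))))

theorem p1343 : Pat 73 73 TBm TCm (CB.map Fm) R0Q061.P1343 R0Q061.I1343 := Vale.Agent.P032.Lt.pat_eq (E' := R0Q061.E) eB (pat_step (by decide +kernel) (q_cons (Vale.Agent.P032.Lt.q R0Q061.q1343_0) (q_cons (Vale.Agent.P032.Lt.q R0Q061.q1343_1) (q_cons (Vale.Agent.P032.Lt.q R0Q061.q1343_2) (q_cons (Vale.Agent.P032.Lt.q R0Q061.q1343_3) (q_cons (Vale.Agent.P032.Lt.q R0Q061.q1343_4) (q_cons (Vale.Agent.P032.Lt.q R0Q061.q1343_5) q_nil)))))))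

theorem p1344 : Pat 73 73 TBm TCm (CB.map Fm) R0Q061.P1344 R0Q061.I1344 := Vale.Agent.P032.Lt.pat_eq (E' := R0Q061.E) eB (pat_step (by decide +kernel) (q_cons (Vale.Agent.P032.Lt.q R0Q061.q1344_0) (q_cons (Vale.Agent.P032.Lt.q R0Q061.q1344_1) q_nil)))

theorem p1345 : Pat 73 73 TBm TCm (CB.map Fm) R0Q061.P1345 R0Q061.I1345 := Vale.Agent.P032.Lt.pat_eq (E' := R0Q061.E) eB (pat_step (by decide +kernel) (q_cons (Vale.Agent.P032.Lt.q R0Q061.q1345_0) (q_cons (Vale.Agent.P032.Lt.q R0Q061.q1345_1) (q_cons (Vale.Agent.P032.Lt.q R0Q061.q1345_2) q_nil))))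

def C1346 : List ℕ := [0, 4, 8, 12, 16, 20, 24, 222209, 353281]
theorem p1346 : Pat 73 73 TBm TCm (C1346.map Fm) R0Q061.P1346 R0Q061.I1346 := Vale.Agent.P032.Lt.pat_eq (E' := R0Q061.E1346) (by decide +kernel) (pat_step (by decide +kernel) (q_cons (Vale.Agent.P032.Lt.q R0Q061.q1346_0) q_nil))

def C1347 : List ℕ := [0, 4, 8, 12, 16, 20, 24, 215041, 222209, 475137, 737281]
theorem p1347 : Pat 73 73 TBm TCm (C1347.map Fm) R0Q061.P1347 R0Q061.I1347 := Vale.Agent.P032.Lt.pat_eq (E' := R0Q061.E1347) (by decide +kernel) (pat_step (by decide +kernel) (q_cons (Vale.Agent.P032.Lt.q R0Q061.q1347_0) q_nil))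

theorem p1348 : Pat 73 73 TBm TCm (CB.map Fm) R0Q061.P1348 R0Q061.I1348 := Vale.Agent.P032.Lt.pat_eq (E' := R0Q061.E) eB (pat_step (by decide +kernel) (q_cons (Vale.Agent.P032.Lt.q R0Q061.q1348_0) (q_cons (Vale.Agent.P032.Lt.q R0Q061.q1348_1) (q_cons (Vale.Agent.P032.Lt.q R0Q061.q1348_2) (q_cons (Vale.Agent.P032.Lt.q R0Q061.q1348_3) q_nil)))))

theorem p1349 : Pat 73 73 TBm TCm (CB.map Fm) R0Q061.P1349 R0Q061.I1349 := Vale.Agent.P032.Lt.pat_eq (E' := R0Q061.E) eB (pat_step (by decide +kernel) (q_cons (Vale.Agent.P032.Lt.q R0Q061.q1349_0) (q_cons (Vale.Agent.P032.Lt.q R0Q061.q1349_1) (q_cons (Vale.Agent.P032.Lt.q R0Q061.q1349_2) (q_cons (Vale.Agent.P032.Lt.q R0Q061.q1349_3) q_nil)))))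

theorem p1350 : Pat 73 73 TBm TCm (CB.map Fm) R0Q061.P1350 R0Q061.I1350 := Vale.Agent.P032.Lt.pat_eq (E' := R0Q061.E) eB (pat_step (by decide +kernel) (q_cons (Vale.Agent.P032.Lt.q R0Q061.q1350_0) q_nil))

theorem p1351 : Pat 73 73 TBm TCm (CB.map Fm) R0Q061.P1351 R0Q061.I1351 := Vale.Agent.P032.Lt.pat_eq (E' := R0Q061.E) eB (pat_step (by decide +kernel) (q_cons (Vale.Agent.P032.Lt.q R0Q061.q1351_0) (q_cons (Vale.Agent.P032.Lt.q R0Q061.q1351_1) (q_cons (Vale.Agent.P032.Lt.q R0Q061.q1351_2) (q_cons (Vale.Agent.P032.Lt.q R0Q061.q1351_3) (q_cons (Vale.Agent.P032.Lt.q R0Q061.q1351_4) (q_cons (Vale.Agent.P032.Lt.q R0Q061.q1351_5) (q_cons (Vale.Agent.P032.Lt.q R0Q061.q1351_6) (q_cons (Vale.Agent.P032.Lt.q R0Q061.q1351_7) (q_cons (Vale.Agent.P032.Lt.q R0Q061.q1351_8) q_nil))))))))))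

theorem p1352 : Pat 73 73 TBm TCm (CB.map Fm) R0Q061.P1352 R0Q061.I1352 := Vale.Agent.P032.Lt.pat_eq (E' := R0Q061.E) eB (pat_step (by decide +kernel) (q_cons (Vale.Agent.P032.Lt.q R0Q061.q1352_0) (q_cons (Vale.Agent.P032.Lt.q R0Q061.q1352_1) (q_cons (Vale.Agent.P032.Lt.q R0Q061.q1352_2) (q_cons (Vale.Agent.P032.Lt.q R0Q061.q1352_3) (q_cons (Vale.Agent.P032.Lt.q R0Q061.q1352_4) (q_cons (Vale.Agent.P032.Lt.q R0Q061.q1352_5) q_nil)))))))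

theorem p1353 : Pat 73 73 TBm TCm (CB.map Fm) R0Q062.P1353 R0Q062.I1353 := Vale.Agent.P032.Lt.pat_eq (E' := R0Q062.E) eB (pat_step (by decide +kernel) (q_cons (Vale.Agent.P032.Lt.q R0Q062.q1353_0) (q_cons (Vale.Agent.P032.Lt.q R0Q062.q1353_1) (q_cons (Vale.Agent.P032.Lt.q R0Q062.q1353_2) (q_cons (Vale.Agent.P032.Lt.q R0Q062.q1353_3) (q_cons (Vale.Agent.P032.Lt.q R0Q062.q1353_4) (q_cons (Vale.Agent.P032.Lt.q R0Q062.q1353_5) (q_cons (Vale.Agent.P032.Lt.q R0Q062.q1353_6) (q_cons (Vale.Agent.P032.Lt.q R0Q062.q1353_7) (q_cons (Vale.Agent.P032.Lt.q R0Q062.q1353_8) (q_cons (Vale.Agent.P032.Lt.q R0Q062.q1353_9) (q_cons (Vale.Agent.P032.Lt.q R0Q062.q1353_10) q_nil))))))))))))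

theorem p1354 : Pat 73 73 TBm TCm (CB.map Fm) R0Q062.P1354 R0Q062.I1354 := Vale.Agent.P032.Lt.pat_eq (E' := R0Q062.E) eB (pat_step (by decide +kernel) (q_cons (Vale.Agent.P032.Lt.q R0Q062.q1354_0) (q_cons (Vale.Agent.P032.Lt.q R0Q062.q1354_1) (q_cons (Vale.Agent.P032.Lt.q R0Q062.q1354_2) (q_cons (Vale.Agent.P032.Lt.q R0Q062.q1354_3) (q_cons (Vale.Agent.P032.Lt.q R0Q062.q1354_4) (q_cons (Vale.Agent.P032.Lt.q R0Q062.q1354_5) (q_cons (Vale.Agent.P032.Lt.q R0Q062.q1354_6) (q_cons (Vale.Agent.P032.Lt.q R0Q062.q1354_7) (q_cons (Vale.Agent.P032.Lt.q R0Q062.q1354_8) (q_cons (Vale.Agent.P032.Lt.q R0Q062.q1354_9) (q_cons (Vale.Agent.P032.Lt.q R0Q062.q1354_10) (q_cons (Vale.Agent.P032.Lt.q R0Q062.q1354_11) q_nil)))))))))))))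

theorem p1355 : Pat 73 73 TBm TCm (CB.map Fm) R0Q062.P1355 R0Q062.I1355 := Vale.Agent.P032.Lt.pat_eq (E' := R0Q062.E) eB (pat_step (by decide +kernel) (q_cons (Vale.Agent.P032.Lt.q R0Q062.q1355_0) (q_cons (Vale.Agent.P032.Lt.q R0Q062.q1355_1) (q_cons (Vale.Agent.P032.Lt.q R0Q062.q1355_2) (q_cons (Vale.Agent.P032.Lt.q R0Q062.q1355_3) (q_cons (Vale.Agent.P032.Lt.q R0Q062.q1355_4) (q_cons (Vale.Agent.P032.Lt.q R0Q062.q1355_5) q_nil)))))))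

theorem p1356 : Pat 73 73 TBm TCm (CB.map Fm) R0Q062.P1356 R0Q062.I1356 := Vale.Agent.P032.Lt.pat_eq (E' := R0Q062.E) eB (pat_step (by decide +kernel) (q_cons (Vale.Agent.P032.Lt.q R0Q062.q1356_0) (q_cons (Vale.Agent.P032.Lt.q R0Q062.q1356_1) (q_cons (Vale.Agent.P032.Lt.q R0Q062.q1356_2) (q_cons (Vale.Agent.P032.Lt.q R0Q062.q1356_3) q_nil)))))

theorem p1357 : Pat 73 73 TBm TCm (CB.map Fm) R0Q062.P1357 R0Q062.I1357 := Vale.Agent.P032.Lt.pat_eq (E' := R0Q062.E) eB (pat_step (by decide +kernel) (q_cons (Vale.Agent.P032.Lt.q R0Q062.q1357_0) (q_cons (Vale.Agent.P032.Lt.q R0Q062.q1357_1) (q_cons (Vale.Agent.P032.Lt.q R0Q062.q1357_2) (q_cons (Vale.Agent.P032.Lt.q R0Q062.q1357_3) (q_cons (Vale.Agent.P032.Lt.q R0Q062.q1357_4) (q_cons (Vale.Agent.P032.Lt.q R0Q062.q1357_5) q_nil)))))))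

theorem p1358 : Pat 73 73 TBm TCm (CB.map Fm) R0Q062.P1358 R0Q062.I1358 := Vale.Agent.P032.Lt.pat_eq (E' := R0Q062.E) eB (pat_step (by decide +kernel) (q_cons (Vale.Agent.P032.Lt.q R0Q062.q1358_0) (q_cons (Vale.Agent.P032.Lt.q R0Q062.q1358_1) (q_cons (Vale.Agent.P032.Lt.q R0Q062.q1358_2) (q_cons (Vale.Agent.P032.Lt.q R0Q062.q1358_3) (q_cons (Vale.Agent.P032.Lt.q R0Q062.q1358_4) (q_cons (Vale.Agent.P032.Lt.q R0Q062.q1358_5) (q_cons (Vale.Agent.P032.Lt.q R0Q062.q1358_6) q_nil))))))))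

theorem p1359 : Pat 73 73 TBm TCm (CB.map Fm) R0Q062.P1359 R0Q062.I1359 := Vale.Agent.P032.Lt.pat_eq (E' := R0Q062.E) eB (pat_step (by decide +kernel) (q_cons (Vale.Agent.P032.Lt.q R0Q062.q1359_0) (q_cons (Vale.Agent.P032.Lt.q R0Q062.q1359_1) (q_cons (Vale.Agent.P032.Lt.q R0Q062.q1359_2) (q_cons (Vale.Agent.P032.Lt.q R0Q062.q1359_3) q_nil)))))

theorem p1360 : Pat 73 73 TBm TCm (CB.map Fm) R0Q062.P1360 R0Q062.I1360 := Vale.Agent.P032.Lt.pat_eq (E' := R0Q062.E) eB (pat_step (by decide +kernel) (q_cons (Vale.Agent.P032.Lt.q R0Q062.q1360_0) (q_cons (Vale.Agent.P032.Lt.q R0Q062.q1360_1) (q_cons (Vale.Agent.P032.Lt.q R0Q062.q1360_2) q_nil))))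

theorem p1361 : Pat 73 73 TBm TCm (CB.map Fm) R0Q062.P1361 R0Q062.I1361 := Vale.Agent.P032.Lt.pat_eq (E' := R0Q062.E) eB (pat_step (by decide +kernel) (q_cons (Vale.Agent.P032.Lt.q R0Q062.q1361_0) (q_cons (Vale.Agent.P032.Lt.q R0Q062.q1361_1) (q_cons (Vale.Agent.P032.Lt.q R0Q062.q1361_2) q_nil))))

theorem p1362 : Pat 73 73 TBm TCm (CB.map Fm) R0Q062.P1362 R0Q062.I1362 := Vale.Agent.P032.Lt.pat_eq (E' := R0Q062.E) eB (pat_step (by decide +kernel) (q_cons (Vale.Agent.P032.Lt.q R0Q062.q1362_0) (q_cons (Vale.Agent.P032.Lt.q R0Q062.q1362_1) (q_cons (Vale.Agent.P032.Lt.q R0Q062.q1362_2) q_nil))))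

theorem p1363 : Pat 73 73 TBm TCm (CB.map Fm) R0Q062.P1363 R0Q062.I1363 := Vale.Agent.P032.Lt.pat_eq (E' := R0Q062.E) eB (pat_step (by decide +kernel) (q_cons (Vale.Agent.P032.Lt.q R0Q062.q1363_0) (q_cons (Vale.Agent.P032.Lt.q R0Q062.q1363_1) q_nil)))

theorem p1364 : Pat 73 73 TBm TCm (CB.map Fm) R0Q062.P1364 R0Q062.I1364 := Vale.Agent.P032.Lt.pat_eq (E' := R0Q062.E) eB (pat_step (by decide +kernel) (q_cons (Vale.Agent.P032.Lt.q R0Q062.q1364_0) q_nil))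

theorem p1365 : Pat 73 73 TBm TCm (CB.map Fm) R0Q062.P1365 R0Q062.I1365 := Vale.Agent.P032.Lt.pat_eq (E' := R0Q062.E) eB (pat_step (by decide +kernel) (q_cons (Vale.Agent.P032.Lt.q R0Q062.q1365_0) (q_cons (Vale.Agent.P032.Lt.q R0Q062.q1365_1) (q_cons (Vale.Agent.P032.Lt.q R0Q062.q1365_2) (q_cons (Vale.Agent.P032.Lt.q R0Q062.q1365_3) q_nil)))))

theorem p1366 : Pat 73 73 TBm TCm (CB.map Fm) R0Q062.P1366 R0Q062.I1366 := Vale.Agent.P032.Lt.pat_eq (E' := R0Q062.E) eB (pat_step (by decide +kernel) (q_cons (Vale.Agent.P032.Lt.q R0Q062.q1366_0) (q_cons (Vale.Agent.P032.Lt.q R0Q062.q1366_1) (q_cons (Vale.Agent.P032.Lt.q R0Q062.q1366_2) q_nil))))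

theorem p1367 : Pat 73 73 TBm TCm (CB.map Fm) R0Q062.P1367 R0Q062.I1367 := Vale.Agent.P032.Lt.pat_eq (E' := R0Q062.E) eB (pat_step (by decide +kernel) (q_cons (Vale.Agent.P032.Lt.q R0Q062.q1367_0) (q_cons (Vale.Agent.P032.Lt.q R0Q062.q1367_1) (q_cons (Vale.Agent.P032.Lt.q R0Q062.q1367_2) q_nil))))

theorem p1368 : Pat 73 73 TBm TCm (CB.map Fm) R0Q062.P1368 R0Q062.I1368 := Vale.Agent.P032.Lt.pat_eq (E' := R0Q062.E) eB (pat_step (by decide +kernel) (q_cons (Vale.Agent.P032.Lt.q R0Q062.q1368_0) (q_cons (Vale.Agent.P032.Lt.q R0Q062.q1368_1) (q_cons (Vale.Agent.P032.Lt.q R0Q062.q1368_2) (q_cons (Vale.Agent.P032.Lt.q R0Q062.q1368_3) q_nil)))))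

theorem p1369 : Pat 73 73 TBm TCm (CB.map Fm) R0Q062.P1369 R0Q062.I1369 := Vale.Agent.P032.Lt.pat_eq (E' := R0Q062.E) eB (pat_step (by decide +kernel) (q_cons (Vale.Agent.P032.Lt.q R0Q062.q1369_0) (q_cons (Vale.Agent.P032.Lt.q R0Q062.q1369_1) (q_cons (Vale.Agent.P032.Lt.q R0Q062.q1369_2) (q_cons (Vale.Agent.P032.Lt.q R0Q062.q1369_3) (q_cons (Vale.Agent.P032.Lt.q R0Q062.q1369_4) (q_cons (Vale.Agent.P032.Lt.q R0Q062.q1369_5) (q_cons (Vale.Agent.P032.Lt.q R0Q062.q1369_6) (q_cons (Vale.Agent.P032.Lt.q R0Q062.q1369_7) (q_cons (Vale.Agent.P032.Lt.q R0Q062.q1369_8) (q_cons (Vale.Agent.P032.Lt.q R0Q062.q1369_9) (q_cons (Vale.Agent.P032.Lt.q R0Q062.q1369_10) q_nil))))))))))))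

theorem p1370 : Pat 73 73 TBm TCm (CB.map Fm) R0Q062.P1370 R0Q062.I1370 := Vale.Agent.P032.Lt.pat_eq (E' := R0Q062.E) eB (pat_step (by decide +kernel) (q_cons (Vale.Agent.P032.Lt.q R0Q062.q1370_0) (q_cons (Vale.Agent.P032.Lt.q R0Q062.q1370_1) (q_cons (Vale.Agent.P032.Lt.q R0Q062.q1370_2) (q_cons (Vale.Agent.P032.Lt.q R0Q062.q1370_3) q_nil)))))

theorem p1371 : Pat 73 73 TBm TCm (CB.map Fm) R0Q062.P1371 R0Q062.I1371 := Vale.Agent.P032.Lt.pat_eq (E' := R0Q062.E) eB (pat_step (by decide +kernel) (q_cons (Vale.Agent.P032.Lt.q R0Q062.q1371_0) (q_cons (Vale.Agent.P032.Lt.q R0Q062.q1371_1) q_nil)))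

theorem p1372 : Pat 73 73 TBm TCm (CB.map Fm) R0Q062.P1372 R0Q062.I1372 := Vale.Agent.P032.Lt.pat_eq (E' := R0Q062.E) eB (pat_step (by decide +kernel) (q_cons (Vale.Agent.P032.Lt.q R0Q062.q1372_0) (q_cons (Vale.Agent.P032.Lt.q R0Q062.q1372_1) (q_cons (Vale.Agent.P032.Lt.q R0Q062.q1372_2) (q_cons (Vale.Agent.P032.Lt.q R0Q062.q1372_3) (q_cons (Vale.Agent.P032.Lt.q R0Q062.q1372_4) (q_cons (Vale.Agent.P032.Lt.q R0Q062.q1372_5) q_nil)))))))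

theorem p1373 : Pat 73 73 TBm TCm (CB.map Fm) R0Q062.P1373 R0Q062.I1373 := Vale.Agent.P032.Lt.pat_eq (E' := R0Q062.E) eB (pat_step (by decide +kernel) (q_cons (Vale.Agent.P032.Lt.q R0Q062.q1373_0) (q_cons (Vale.Agent.P032.Lt.q R0Q062.q1373_1) (q_cons (Vale.Agent.P032.Lt.q R0Q062.q1373_2) (q_cons (Vale.Agent.P032.Lt.q R0Q062.q1373_3) (q_cons (Vale.Agent.P032.Lt.q R0Q062.q1373_4) (q_cons (Vale.Agent.P032.Lt.q R0Q062.q1373_5) (q_cons (Vale.Agent.P032.Lt.q R0Q062.q1373_6) (q_cons (Vale.Agent.P032.Lt.q R0Q062.q1373_7) (q_cons (Vale.Agent.P032.Lt.q R0Q062.q1373_8) (q_cons (Vale.Agent.P032.Lt.q R0Q062.q1373_9) (q_cons (Vale.Agent.P032.Lt.q R0Q062.q1373_10) (q_cons (Vale.Agent.P032.Lt.q R0Q062.q1373_11) (q_cons (Vale.Agent.P032.Lt.q R0Q062.q1373_12) (q_cons (Vale.Agent.P032.Lt.q R0Q062.q1373_13) (q_cons (Vale.Agent.P032.Lt.q R0Q062.q1373_14) (q_cons (Vale.Agent.P032.Lt.q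 R0Q062.q1373_15) (q_cons (Vale.Agent.P032.Lt.q R0Q062.q1373_16) (q_cons (Vale.Agent.P032.Lt.q R0Q062.q1373_17) (q_cons (Vale.Agent.P032.Lt.q R0Q062.q1373_18) (q_cons (Vale.Agent.P032.Lt.q R0Q062.q1373_19) (q_cons (Vale.Agent.P032.Lt.q R0Q062.q1373_20) (q_cons (Vale.Agent.P032.Lt.q R0Q062.q1373_21) (q_cons (Vale.Agent.P032.Lt.q R0Q062.q1373_22) (q_cons (Vale.Agent.P032.Lt.q R0Q062.q1373_23) (q_cons (Vale.Agent.P032.Lt.q R0Q062.q1373_24) (q_cons (Vale.Agent.P032.Lt.q R0Q062.q1373_25) q_nil)))))))))))))))))))))))))))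

theorem p1374 : Pat 73 73 TBm TCm (CB.map Fm) R0Q062.P1374 R0Q062.I1374 := Vale.Agent.P032.Lt.pat_eq (E' := R0Q062.E) eB (pat_step (by decide +kernel) (q_cons (Vale.Agent.P032.Lt.q R0Q062.q1374_0) (q_cons (Vale.Agent.P032.Lt.q R0Q062.q1374_1) (q_cons (Vale.Agent.P032.Lt.q R0Q062.q1374_2) (q_cons (Vale.Agent.P032.Lt.q R0Q062.q1374_3) (q_cons (Vale.Agent.P032.Lt.q R0Q062.q1374_4) (q_cons (Vale.Agent.P032.Lt.q R0Q062.q1374_5) q_nil)))))))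

theorem p1375 : Pat 73 73 TBm TCm (CB.map Fm) R0Q062.P1375 R0Q062.I1375 := Vale.Agent.P032.Lt.pat_eq (E' := R0Q062.E) eB (pat_step (by decide +kernel) (q_cons (Vale.Agent.P032.Lt.q R0Q062.q1375_0) q_nil))

theorem p1376 : Pat 73 73 TBm TCm (CB.map Fm) R0Q063.P1376 R0Q063.I1376 := Vale.Agent.P032.Lt.pat_eq (E' := R0Q063.E) eB (pat_step (by decide +kernel) (q_cons (Vale.Agent.P032.Lt.q R0Q063.q1376_0) (q_cons (Vale.Agent.P032.Lt.q R0Q063.q1376_1) (q_cons (Vale.Agent.P032.Lt.q R0Q063.q1376_2) (q_cons (Vale.Agent.P032.Lt.q R0Q063.q1376_3) (q_cons (Vale.Agent.P032.Lt.q R0Q063.q1376_4) q_nil))))))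

theorem p1377 : Pat 73 73 TBm TCm (CB.map Fm) R0Q063.P1377 R0Q063.I1377 := Vale.Agent.P032.Lt.pat_eq (E' := R0Q063.E) eB (pat_step (by decide +kernel) (q_cons (Vale.Agent.P032.Lt.q R0Q063.q1377_0) (q_cons (Vale.Agent.P032.Lt.q R0Q063.q1377_1) (q_cons (Vale.Agent.P032.Lt.q R0Q063.q1377_2) (q_cons (Vale.Agent.P032.Lt.q R0Q063.q1377_3) (q_cons (Vale.Agent.P032.Lt.q R0Q063.q1377_4) (q_cons (Vale.Agent.P032.Lt.q R0Q063.q1377_5) (q_cons (Vale.Agent.P032.Lt.q R0Q063.q1377_6) q_nil))))))))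

theorem p1378 : Pat 73 73 TBm TCm (CB.map Fm) R0Q063.P1378 R0Q063.I1378 := Vale.Agent.P032.Lt.pat_eq (E' := R0Q063.E) eB (pat_step (by decide +kernel) (q_cons (Vale.Agent.P032.Lt.q R0Q063.q1378_0) (q_cons (Vale.Agent.P032.Lt.q R0Q063.q1378_1) (q_cons (Vale.Agent.P032.Lt.q R0Q063.q1378_2) q_nil))))

theorem p1379 : Pat 73 73 TBm TCm (CB.map Fm) R0Q063.P1379 R0Q063.I1379 := Vale.Agent.P032.Lt.pat_eq (E' := R0Q063.E) eB (pat_step (by decide +kernel) (q_cons (Vale.Agent.P032.Lt.q R0Q063.q1379_0) (q_cons (Vale.Agent.P032.Lt.q R0Q063.q1379_1) (q_cons (Vale.Agent.P032.Lt.q R0Q063.q1379_2) (q_cons (Vale.Agent.P032.Lt.q R0Q063.q1379_3) (q_cons (Vale.Agent.P032.Lt.q R0Q063.q1379_4) q_nil))))))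

theorem p1380 : Pat 73 73 TBm TCm (CB.map Fm) R0Q063.P1380 R0Q063.I1380 := Vale.Agent.P032.Lt.pat_eq (E' := R0Q063.E) eB (pat_step (by decide +kernel) (q_cons (Vale.Agent.P032.Lt.q R0Q063.q1380_0) q_nil))

def C1381 : List ℕ := [0, 4, 8, 12, 16, 20, 24, 344065]
theorem p1381 : Pat 73 73 TBm TCm (C1381.map Fm) R0Q063.P1381 R0Q063.I1381 := Vale.Agent.P032.Lt.pat_eq (E' := R0Q063.E1381) (by decide +kernel) (pat_step (by decide +kernel) (q_cons (Vale.Agent.P032.Lt.q R0Q063.q1381_0) (q_cons (Vale.Agent.P032.Lt.q R0Q063.q1381_1) (q_cons (Vale.Agent.P032.Lt.q R0Q063.q1381_2) (q_cons (Vale.Agent.P032.Lt.q R0Q063.q1381_3) (q_cons (Vale.Agent.P032.Lt.q R0Q063.q1381_4) (q_cons (Vale.Agent.P032.Lt.q R0Q063.q1381_5) (q_cons (Vale.Agent.P032.Lt.q R0Q063.q1381_6) (q_cons (Vale.Agent.P032.Lt.q R0Q063.q1381_7) (q_cons (Vale.Agent.P032.Lt.q R0Q063.q1381_8) (q_cons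 (Vale.Agent.P032.Lt.q R0Q063.q1381_9) (q_cons (Vale.Agent.P032.Lt.q R0Q063.q1381_10) (q_cons (Vale.Agent.P032.Lt.q R0Q063.q1381_11) (q_cons (Vale.Agent.P032.Lt.q R0Q063.q1381_12) (q_cons (Vale.Agent.P032.Lt.q R0Q063.q1381_13) (q_cons (Vale.Agent.P032.Lt.q R0Q063.q1381_14) q_nil))))))))))))))))

theorem p1382 : Pat 73 73 TBm TCm (CB.map Fm) R0Q063.P1382 R0Q063.I1382 := Vale.Agent.P032.Lt.pat_eq (E' := R0Q063.E) eB (pat_step (by decide +kernel) (q_cons (Vale.Agent.P032.Lt.q R0Q063.q1382_0) (q_cons (Vale.Agent.P032.Lt.q R0Q063.q1382_1) (q_cons (Vale.Agent.P032.Lt.q R0Q063.q1382_2) (q_cons (Vale.Agent.P032.Lt.q R0Q063.q1382_3) (q_cons (Vale.Agent.P032.Lt.q R0Q063.q1382_4) (q_cons (Vale.Agent.P032.Lt.q R0Q063.q1382_5) (q_cons (Vale.Agent.P032.Lt.q R0Q063.q1382_6) q_nil))))))))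

theorem p1383 : Pat 73 73 TBm TCm (CB.map Fm) R0Q063.P1383 R0Q063.I1383 := Vale.Agent.P032.Lt.pat_eq (E' := R0Q063.E) eB (pat_step (by decide +kernel) (q_cons (Vale.Agent.P032.Lt.q R0Q063.q1383_0) (q_cons (Vale.Agent.P032.Lt.q R0Q063.q1383_1) (q_cons (Vale.Agent.P032.Lt.q R0Q063.q1383_2) (q_cons (Vale.Agent.P032.Lt.q R0Q063.q1383_3) (q_cons (Vale.Agent.P032.Lt.q R0Q063.q1383_4) (q_cons (Vale.Agent.P032.Lt.q R0Q063.q1383_5) (q_cons (Vale.Agent.P032.Lt.q R0Q063.q1383_6) (q_cons (Vale.Agent.P032.Lt.q R0Q063.q1383_7) (q_cons (Vale.Agent.P032.Lt.q R0Q063.q1383_8) (q_cons (Vale.Agent.P032.Lt.q R0Q063.q1383_9) (q_cons (Vale.Agent.P032.Lt.q R0Q063.q1383_10) q_nil))))))))))))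

theorem p1384 : Pat 73 73 TBm TCm (CB.map Fm) R0Q063.P1384 R0Q063.I1384 := Vale.Agent.P032.Lt.pat_eq (E' := R0Q063.E) eB (pat_step (by decide +kernel) (q_cons (Vale.Agent.P032.Lt.q R0Q063.q1384_0) (q_cons (Vale.Agent.P032.Lt.q R0Q063.q1384_1) (q_cons (Vale.Agent.P032.Lt.q R0Q063.q1384_2) (q_cons (Vale.Agent.P032.Lt.q R0Q063.q1384_3) (q_cons (Vale.Agent.P032.Lt.q R0Q063.q1384_4) q_nil))))))

theorem p1385 : Pat 73 73 TBm TCm (CB.map Fm) R0Q063.P1385 R0Q063.I1385 := Vale.Agent.P032.Lt.pat_eq (E' := R0Q063.E) eB (pat_step (by decide +kernel) (q_cons (Vale.Agent.P032.Lt.q R0Q063.q1385_0) (q_cons (Vale.Agent.P032.Lt.q R0Q063.q1385_1) (q_cons (Vale.Agent.P032.Lt.q R0Q063.q1385_2) q_nil))))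

theorem p1386 : Pat 73 73 TBm TCm (CB.map Fm) R0Q063.P1386 R0Q063.I1386 := Vale.Agent.P032.Lt.pat_eq (E' := R0Q063.E) eB (pat_step (by decide +kernel) (q_cons (Vale.Agent.P032.Lt.q R0Q063.q1386_0) (q_cons (Vale.Agent.P032.Lt.q R0Q063.q1386_1) (q_cons (Vale.Agent.P032.Lt.q R0Q063.q1386_2) q_nil))))

theorem p1387 : Pat 73 73 TBm TCm (CB.map Fm) R0Q063.P1387 R0Q063.I1387 := Vale.Agent.P032.Lt.pat_eq (E' := R0Q063.E) eB (pat_step (by decide +kernel) (q_cons (Vale.Agent.P032.Lt.q R0Q063.q1387_0) (q_cons (Vale.Agent.P032.Lt.q R0Q063.q1387_1) q_nil)))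

theorem p1388 : Pat 73 73 TBm TCm (CB.map Fm) R0Q063.P1388 R0Q063.I1388 := Vale.Agent.P032.Lt.pat_eq (E' := R0Q063.E) eB (pat_step (by decide +kernel) (q_cons (Vale.Agent.P032.Lt.q R0Q063.q1388_0) (q_cons (Vale.Agent.P032.Lt.q R0Q063.q1388_1) (q_cons (Vale.Agent.P032.Lt.q R0Q063.q1388_2) q_nil))))

theorem p1389 : Pat 73 73 TBm TCm (CB.map Fm) R0Q063.P1389 R0Q063.I1389 := Vale.Agent.P032.Lt.pat_eq (E' := R0Q063.E) eB (pat_step (by decide +kernel) (q_cons (Vale.Agent.P032.Lt.q R0Q063.q1389_0) q_nil))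

theorem p1390 : Pat 73 73 TBm TCm (CB.map Fm) R0Q063.P1390 R0Q063.I1390 := Vale.Agent.P032.Lt.pat_eq (E' := R0Q063.E) eB (pat_step (by decide +kernel) (q_cons (Vale.Agent.P032.Lt.q R0Q063.q1390_0) (q_cons (Vale.Agent.P032.Lt.q R0Q063.q1390_1) (q_cons (Vale.Agent.P032.Lt.q R0Q063.q1390_2) q_nil))))

theorem p1391 : Pat 73 73 TBm TCm (CB.map Fm) R0Q063.P1391 R0Q063.I1391 := Vale.Agent.P032.Lt.pat_eq (E' := R0Q063.E) eB (pat_step (by decide +kernel) (q_cons (Vale.Agent.P032.Lt.q R0Q063.q1391_0) (q_cons (Vale.Agent.P032.Lt.q R0Q063.q1391_1) q_nil)))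

def C1392 : List ℕ := [0, 4, 8, 12, 16, 20, 24, 349185, 475137, 737281]
theorem p1392 : Pat 73 73 TBm TCm (C1392.map Fm) R0Q063.P1392 R0Q063.I1392 := Vale.Agent.P032.Lt.pat_eq (E' := R0Q063.E1392) (by decide +kernel) (pat_step (by decide +kernel) (q_cons (Vale.Agent.P032.Lt.q R0Q063.q1392_0) (q_cons (Vale.Agent.P032.Lt.q R0Q063.q1392_1) (q_cons (Vale.Agent.P032.Lt.q R0Q063.q1392_2) (q_cons (Vale.Agent.P032.Lt.q R0Q063.q1392_3) (q_cons (Vale.Agent.P032.Lt.q R0Q063.q1392_4) (q_cons (Vale.Agent.P032.Lt.q R0Q063.q1392_5) (q_cons (Vale.Agent.P032.Lt.q R0Q063.q1392_6) q_nil))))))))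

theorem p1393 : Pat 73 73 TBm TCm (CB.map Fm) R0Q063.P1393 R0Q063.I1393 := Vale.Agent.P032.Lt.pat_eq (E' := R0Q063.E) eB (pat_step (by decide +kernel) (q_cons (Vale.Agent.P032.Lt.q R0Q063.q1393_0) (q_cons (Vale.Agent.P032.Lt.q R0Q063.q1393_1) (q_cons (Vale.Agent.P032.Lt.q R0Q063.q1393_2) (q_cons (Vale.Agent.P032.Lt.q R0Q063.q1393_3) (q_cons (Vale.Agent.P032.Lt.q R0Q063.q1393_4) (q_cons (Vale.Agent.P032.Lt.q R0Q063.q1393_5) (q_cons (Vale.Agent.P032.Lt.q R0Q063.q1393_6) (q_cons (Vale.Agent.P032.Lt.q R0Q063.q1393_7) (q_cons (Vale.Agent.P032.Lt.q R0Q063.q1393_8) (q_cons (Vale.Agent.P032.Lt.q R0Q063.q1393_9) (q_cons (Vale.Agent.P032.Lt.q R0Q063.q1393_10) (q_cons (Vale.Agent.P032.Lt.q R0Q063.q1393_11) (q_cons (Vale.Agent.P032.Lt.q R0Q063.q1393_12) (q_cons (Vale.Agent.P032.Lt.q R0Q063.q1393_13) q_nil)))))))))))))))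

theorem p1394 : Pat 73 73 TBm TCm (CB.map Fm) R0Q063.P1394 R0Q063.I1394 := Vale.Agent.P032.Lt.pat_eq (E' := R0Q063.E) eB (pat_step (by decide +kernel) (q_cons (Vale.Agent.P032.Lt.q R0Q063.q1394_0) (q_cons (Vale.Agent.P032.Lt.q R0Q063.q1394_1) (q_cons (Vale.Agent.P032.Lt.q R0Q063.q1394_2) (q_cons (Vale.Agent.P032.Lt.q R0Q063.q1394_3) (q_cons (Vale.Agent.P032.Lt.q R0Q063.q1394_4) (q_cons (Vale.Agent.P032.Lt.q R0Q063.q1394_5) (q_cons (Vale.Agent.P032.Lt.q R0Q063.q1394_6) (q_cons (Vale.Agent.P032.Lt.q R0Q063.q1394_7) (q_cons (Vale.Agent.P032.Lt.q R0Q063.q1394_8) (q_cons (Vale.Agent.P032.Lt.q R0Q063.q1394_9) (q_cons (Vale.Agent.P032.Lt.q R0Q063.q1394_10) (q_cons (Vale.Agent.P032.Lt.q R0Q063.q1394_11) (q_cons (Vale.Agent.P032.Lt.q R0Q063.q1394_12) (q_cons (Vale.Agent.P032.Lt.q R0Q063.q1394_13) (q_cons (Vale.Agent.P032.Lt.q R0Q063.q1394_14) (q_cons (Vale.Agent.P032.Lt.q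 R0Q063.q1394_15) q_nil)))))))))))))))))

theorem p1395 : Pat 73 73 TBm TCm (CB.map Fm) R0Q064.P1395 R0Q064.I1395 := Vale.Agent.P032.Lt.pat_eq (E' := R0Q064.E) eB (pat_step (by decide +kernel) (q_cons (Vale.Agent.P032.Lt.q R0Q064.q1395_0) (q_cons (Vale.Agent.P032.Lt.q R0Q064.q1395_1) (q_cons (Vale.Agent.P032.Lt.q R0Q064.q1395_2) (q_cons (Vale.Agent.P032.Lt.q R0Q064.q1395_3) q_nil)))))

theorem p1396 : Pat 73 73 TBm TCm (CB.map Fm) R0Q064.P1396 R0Q064.I1396 := Vale.Agent.P032.Lt.pat_eq (E' := R0Q064.E) eB (pat_step (by decide +kernel) (q_cons (Vale.Agent.P032.Lt.q R0Q064.q1396_0) q_nil))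

theorem p1397 : Pat 73 73 TBm TCm (CB.map Fm) R0Q064.P1397 R0Q064.I1397 := Vale.Agent.P032.Lt.pat_eq (E' := R0Q064.E) eB (pat_step (by decide +kernel) (q_cons (Vale.Agent.P032.Lt.q R0Q064.q1397_0) (q_cons (Vale.Agent.P032.Lt.q R0Q064.q1397_1) (q_cons (Vale.Agent.P032.Lt.q R0Q064.q1397_2) (q_cons (Vale.Agent.P032.Lt.q R0Q064.q1397_3) (q_cons (Vale.Agent.P032.Lt.q R0Q064.q1397_4) (q_cons (Vale.Agent.P032.Lt.q R0Q064.q1397_5) (q_cons (Vale.Agent.P032.Lt.q R0Q064.q1397_6) (q_cons (Vale.Agent.P032.Lt.q R0Q064.q1397_7) (q_cons (Vale.Agent.P032.Lt.q R0Q064.q1397_8) (q_cons (Vale.Agent.P032.Lt.q R0Q064.q1397_9) (q_cons (Vale.Agent.P032.Lt.q R0Q064.q1397_10) (q_cons (Vale.Agent.P032.Lt.q R0Q064.q1397_11) (q_cons (Vale.Agent.P032.Lt.q R0Q064.q1397_12) (q_cons (Vale.Agent.P032.Lt.q R0Q064.q1397_13) (q_cons (Vale.Agent.P032.Lt.q R0Q064.q1397_14) q_nil))))))))))))))))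

def C1398 : List ℕ := [0, 4, 8, 12, 16, 20, 24, 82945, 212993, 344065, 475137, 737281]
theorem p1398 : Pat 73 73 TBm TCm (C1398.map Fm) R0Q064.P1398 R0Q064.I1398 := Vale.Agent.P032.Lt.pat_eq (E' := R0Q064.E1398) (by decide +kernel) (pat_step (by decide +kernel) (q_cons (Vale.Agent.P032.Lt.q R0Q064.q1398_0) (q_cons (Vale.Agent.P032.Lt.q R0Q064.q1398_1) (q_cons (Vale.Agent.P032.Lt.q R0Q064.q1398_2) (q_cons (Vale.Agent.P032.Lt.q R0Q064.q1398_3) (q_cons (Vale.Agent.P032.Lt.q R0Q064.q1398_4) (q_cons (Vale.Agent.P032.Lt.q R0Q064.q1398_5) (q_cons (Vale.Agent.P032.Lt.q R0Q064.q1398_6) (q_cons (Vale.Agent.P032.Lt.q R0Q064.q1398_7) (q_cons (Vale.Agent.P032.Lt.q R0Q064.q1398_8) q_nil))))))))))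

theorem p1399 : Pat 73 73 TBm TCm (CB.map Fm) R0Q064.P1399 R0Q064.I1399 := Vale.Agent.P032.Lt.pat_eq (E' := R0Q064.E) eB (pat_step (by decide +kernel) (q_cons (Vale.Agent.P032.Lt.q R0Q064.q1399_0) (q_cons (Vale.Agent.P032.Lt.q R0Q064.q1399_1) (q_cons (Vale.Agent.P032.Lt.q R0Q064.q1399_2) (q_cons (Vale.Agent.P032.Lt.q R0Q064.q1399_3) (q_cons (Vale.Agent.P032.Lt.q R0Q064.q1399_4) (q_cons (Vale.Agent.P032.Lt.q R0Q064.q1399_5) (q_cons (Vale.Agent.P032.Lt.q R0Q064.q1399_6) (q_cons (Vale.Agent.P032.Lt.q R0Q064.q1399_7) (q_cons (Vale.Agent.P032.Lt.q R0Q064.q1399_8) (q_cons (Vale.Agent.P032.Lt.q R0Q064.q1399_9) (q_cons (Vale.Agent.P032.Lt.q R0Q064.q1399_10) (q_cons (Vale.Agent.P032.Lt.q R0Q064.q1399_11) (q_cons (Vale.Agent.P032.Lt.q R0Q064.q1399_12) (q_cons (Vale.Agent.P032.Lt.q R0Q064.q1399_13) (q_cons (Vale.Agent.P032.Lt.q R0Q064.q1399_14) (q_cons (Vale.Agent.P032.Lt.q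 R0Q064.q1399_15) (q_cons (Vale.Agent.P032.Lt.q R0Q064.q1399_16) q_nil))))))))))))))))))

theorem p1400 : Pat 73 73 TBm TCm (CB.map Fm) R0Q064.P1400 R0Q064.I1400 := Vale.Agent.P032.Lt.pat_eq (E' := R0Q064.E) eB (pat_step (by decide +kernel) (q_cons (Vale.Agent.P032.Lt.q R0Q064.q1400_0) (q_cons (Vale.Agent.P032.Lt.q R0Q064.q1400_1) (q_cons (Vale.Agent.P032.Lt.q R0Q064.q1400_2) (q_cons (Vale.Agent.P032.Lt.q R0Q064.q1400_3) (q_cons (Vale.Agent.P032.Lt.q R0Q064.q1400_4) (q_cons (Vale.Agent.P032.Lt.q R0Q064.q1400_5) (q_cons (Vale.Agent.P032.Lt.q R0Q064.q1400_6) (q_cons (Vale.Agent.P032.Lt.q R0Q064.q1400_7) q_nil)))))))))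

theorem p1401 : Pat 73 73 TBm TCm (CB.map Fm) R0Q064.P1401 R0Q064.I1401 := Vale.Agent.P032.Lt.pat_eq (E' := R0Q064.E) eB (pat_step (by decide +kernel) (q_cons (Vale.Agent.P032.Lt.q R0Q064.q1401_0) (q_cons (Vale.Agent.P032.Lt.q R0Q064.q1401_1) q_nil)))

theorem p1402 : Pat 73 73 TBm TCm (CB.map Fm) R0Q064.P1402 R0Q064.I1402 := Vale.Agent.P032.Lt.pat_eq (E' := R0Q064.E) eB (pat_step (by decide +kernel) (q_cons (Vale.Agent.P032.Lt.q R0Q064.q1402_0) (q_cons (Vale.Agent.P032.Lt.q R0Q064.q1402_1) (q_cons (Vale.Agent.P032.Lt.q R0Q064.q1402_2) q_nil))))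

def C1403 : List ℕ := [0, 4, 8, 12, 16, 20, 24, 475137, 737281]
theorem p1403 : Pat 73 73 TBm TCm (C1403.map Fm) R0Q064.P1403 R0Q064.I1403 := Vale.Agent.P032.Lt.pat_eq (E' := R0Q064.E1403) (by decide +kernel) (pat_step (by decide +kernel) (q_cons (Vale.Agent.P032.Lt.q R0Q064.q1403_0) q_nil))

def C1404 : List ℕ := [0, 4, 8, 12, 16, 20, 24, 212993, 480257, 606209, 737281]
theorem p1404 : Pat 73 73 TBm TCm (C1404.map Fm) R0Q064.P1404 R0Q064.I1404 := Vale.Agent.P032.Lt.pat_eq (E' := R0Q064.E1404) (by decide +kernel) (pat_step (by decide +kernel) (q_cons (Vale.Agent.P032.Lt.q R0Q064.q1404_0) q_nil))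

theorem p1405 : Pat 73 73 TBm TCm (CB.map Fm) R0Q064.P1405 R0Q064.I1405 := Vale.Agent.P032.Lt.pat_eq (E' := R0Q064.E) eB (pat_step (by decide +kernel) (q_cons (Vale.Agent.P032.Lt.q R0Q064.q1405_0) (q_cons (Vale.Agent.P032.Lt.q R0Q064.q1405_1) (q_cons (Vale.Agent.P032.Lt.q R0Q064.q1405_2) q_nil))))

theorem p1406 : Pat 73 73 TBm TCm (CB.map Fm) R0Q064.P1406 R0Q064.I1406 := Vale.Agent.P032.Lt.pat_eq (E' := R0Q064.E) eB (pat_step (by decide +kernel) (q_cons (Vale.Agent.P032.Lt.q R0Q064.q1406_0) q_nil))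

theorem p1407 : Pat 73 73 TBm TCm (CB.map Fm) R0Q064.P1407 R0Q064.I1407 := Vale.Agent.P032.Lt.pat_eq (E' := R0Q064.E) eB (pat_step (by decide +kernel) (q_cons (Vale.Agent.P032.Lt.q R0Q064.q1407_0) (q_cons (Vale.Agent.P032.Lt.q R0Q064.q1407_1) (q_cons (Vale.Agent.P032.Lt.q R0Q064.q1407_2) q_nil))))

def L : List (List ℕ) := [R0Q059.P1280, R0Q059.P1281, R0Q059.P1282, R0Q059.P1283, R0Q059.P1284, R0Q059.P1285, R0Q059.P1286, R0Q059.P1287, R0Q059.P1288, R0Q059.P1289, R0Q059.P1290, R0Q059.P1291, R0Q059.P1292, R0Q059.P1293, R0Q059.P1294, R0Q059.P1295, R0Q059.P1296, R0Q059.P1297, R0Q059.P1298, R0Q059.P1299, R0Q059.P1300, R0Q059.P1301, R0Q059.P1302, R0Q060.P1303, R0Q060.P1304, R0Q060.P1305, R0Q060.P1306, R0Q060.P1307, R0Q060.P1308, R0Q060.P1309, R0Q060.P1310, R0Q060.P1311, R0Q060.P1312, R0Q060.P1313, R0Q060.P1314, R0Q060.P1315, R0Q060.P1316, R0Q060.P1317,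 R0Q060.P1318, R0Q060.P1319, R0Q060.P1320, R0Q060.P1321, R0Q061.P1322, R0Q061.P1323, R0Q061.P1324, R0Q061.P1325, R0Q061.P1326, R0Q061.P1327, R0Q061.P1328, R0Q061.P1329, R0Q061.P1330, R0Q061.P1331, R0Q061.P1332, R0Q061.P1333, R0Q061.P1334, R0Q061.P1335, R0Q061.P1336, R0Q061.P1337, R0Q061.P1338, R0Q061.P1339, R0Q061.P1340, R0Q061.P1341, R0Q061.P1342, R0Q061.P1343, R0Q061.P1344, R0Q061.P1345, R0Q061.P1346, R0Q061.P1347, R0Q061.P1348, R0Q061.P1349, R0Q061.P1350, R0Q061.P1351, R0Q061.P1352, R0Q062.P1353, R0Q062.P1354, R0Q062.P1355, R0Q062.P1356, R0Q062.P1357, R0Q062.P1358, R0Q062.P1359, R0Q062.P1360, R0Q062.P1361, R0Q062.P1362, R0Q062.P1363, R0Q062.P1364, R0Q062.P1365, R0Q062.P1366, R0Q062.P1367, R0Q062.P1368, R0Q062.P1369, R0Q062.P1370, R0Q062.P1371, R0Q062.P1372, R0Q062.P1373, R0Q062.P1374, R0Q062.P1375, R0Q063.P1376, R0Q063.P1377, R0Q063.P1378, R0Q063.P1379,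 R0Q063.P1380, R0Q063.P1381, R0Q063.P1382, R0Q063.P1383, R0Q063.P1384, R0Q063.P1385, R0Q063.P1386, R0Q063.P1387, R0Q063.P1388, R0Q063.P1389, R0Q063.P1390, R0Q063.P1391, R0Q063.P1392, R0Q063.P1393, R0Q063.P1394, R0Q064.P1395, R0Q064.P1396, R0Q064.P1397, R0Q064.P1398, R0Q064.P1399, R0Q064.P1400, R0Q064.P1401, R0Q064.P1402, R0Q064.P1403, R0Q064.P1404, R0Q064.P1405, R0Q064.P1406, R0Q064.P1407]

theorem all : ∀ P ∈ L, CrtF 73 73 TBm TCm (Vale.Agent.P032.Fam.fam2 (Vale.Agent.P032.Fam.im0)) P := crtF_cons p1280 (crtF_cons p1281 (crtF_cons p1282 (crtF_cons p1283 (crtF_cons p1284 (crtF_cons p1285 (crtF_cons p1286 (crtF_cons p1287 (crtF_cons p1288 (crtF_cons p1289 (crtF_cons p1290 (crtF_cons p1291 (crtF_cons p1292 (crtF_cons p1293 (crtF_cons p1294 (crtF_cons p1295 (crtF_cons p1296 (crtF_cons p1297 (crtF_cons p1298 (crtF_cons p1299 (crtF_cons p1300 (crtF_cons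 p1301 (crtF_cons p1302 (crtF_cons p1303 (crtF_cons p1304 (crtF_cons p1305 (crtF_cons p1306 (crtF_cons p1307 (crtF_cons p1308 (crtF_cons p1309 (crtF_cons p1310 (crtF_cons p1311 (crtF_cons p1312 (crtF_cons p1313 (crtF_cons p1314 (crtF_cons p1315 (crtF_cons p1316 (crtF_cons p1317 (crtF_cons p1318 (crtF_cons p1319 (crtF_cons p1320 (crtF_cons p1321 (crtF_cons p1322 (crtF_cons p1323 (crtF_cons p1324 (crtF_cons p1325 (crtF_cons p1326 (crtF_cons p1327 (crtF_cons p1328 (crtF_cons p1329 (crtF_cons p1330 (crtF_cons p1331 (crtF_cons p1332 (crtF_cons p1333 (crtF_cons p1334 (crtF_cons p1335 (crtF_cons p1336 (crtF_cons p1337 (crtF_cons p1338 (crtF_cons p1339 (crtF_cons p1340 (crtF_cons p1341 (crtF_cons p1342 (crtF_cons p1343 (crtF_cons p1344 (crtF_cons p1345 (crtF_cons p1346 (crtF_cons p1347 (crtF_cons p1348 (crtF_cons p1349 (crtF_cons p1350 (crtF_cons p1351 (crtF_cons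 p1352 (crtF_cons p1353 (crtF_cons p1354 (crtF_cons p1355 (crtF_cons p1356 (crtF_cons p1357 (crtF_cons p1358 (crtF_cons p1359 (crtF_cons p1360 (crtF_cons p1361 (crtF_cons p1362 (crtF_cons p1363 (crtF_cons p1364 (crtF_cons p1365 (crtF_cons p1366 (crtF_cons p1367 (crtF_cons p1368 (crtF_cons p1369 (crtF_cons p1370 (crtF_cons p1371 (crtF_cons p1372 (crtF_cons p1373 (crtF_cons p1374 (crtF_cons p1375 (crtF_cons p1376 (crtF_cons p1377 (crtF_cons p1378 (crtF_cons p1379 (crtF_cons p1380 (crtF_cons p1381 (crtF_cons p1382 (crtF_cons p1383 (crtF_cons p1384 (crtF_cons p1385 (crtF_cons p1386 (crtF_cons p1387 (crtF_cons p1388 (crtF_cons p1389 (crtF_cons p1390 (crtF_cons p1391 (crtF_cons p1392 (crtF_cons p1393 (crtF_cons p1394 (crtF_cons p1395 (crtF_cons p1396 (crtF_cons p1397 (crtF_cons p1398 (crtF_cons p1399 (crtF_cons p1400 (crtF_cons p1401 (crtF_cons p1402 (crtF_cons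 p1403 (crtF_cons p1404 (crtF_cons p1405 (crtF_cons p1406 (crtF_cons p1407 crtF_nil)))))))))))))))))))))))))))))))))))))))))))))))))))))))))))))))))))))))))))))))))))))))))))))))))))))))))))))))))))))))))))))))

theorem ch : chT 73 73 TCm s0_010 L = true := by decide +kernel

end Vale.Agent.P032X.Cert.XP.B1.R0H010
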