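import Vale.Agent.P032X.H892.LtH
import Vale.Agent.P032X.H286.W73
import Vale.Agent.P032X.Cert.XP.B1.R0T
import Vale.Agent.P032X.Cert.XP.B1.R0Q065
import Vale.Agent.P032X.Cert.XP.B1.R0Q066
import Vale.Agent.P032X.Cert.XP.B1.R0Q067
import Vale.Agent.P032X.Cert.XP.B1.R0Q068
import Vale.Agent.P032X.Cert.XP.B1.R0Q069
import Vale.Agent.P032X.Cert.XP.B1.R0Q070

set_option maxRecDepth 1000000

namespace Vale.Agent.P032X.Cert.XP.B1.R0H011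

open Vale.Agent.P032.H820.K Vale.Agent.P032.H357.MK Vale.Agent.P032.H286.E Vale.Agent.P032.H61 Vale.Agent.P032X.Cert.XP.B1

noncomputable abbrev Fm : ℕ → List ℕ := Vale.Agent.P032.Fam.fam2 (Vale.Agent.P032.Fam.im0)

def CB : List ℕ := [0, 4, 8, 12, 16, 20, 24]

theorem eB : Vale.Agent.P032.Lt.eqLL (CB.map Fm) R0Q065.E = true := by decide +kernel

theorem p1408 : Pat 73 73 TBm TCm (CB.map Fm) R0Q065.P1408 [] := Vale.Agent.P032.Lt.pat_eq (E' := R0Q065.E) eB (pat_end (by decide +kernel) (Vale.Agent.P032.Lt.q R0Q065.q1408))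

theorem p1409 : Pat 73 73 TBm TCm (CB.map Fm) R0Q065.P1409 R0Q065.I1409 := Vale.Agent.P032.Lt.pat_eq (E' := R0Q065.E) eB (pat_step (by decide +kernel) (q_cons (Vale.Agent.P032.Lt.q R0Q065.q1409_0) (q_cons (Vale.Agent.P032.Lt.q R0Q065.q1409_1) (q_cons (Vale.Agent.P032.Lt.q R0Q065.q1409_2) (q_cons (Vale.Agent.P032.Lt.q R0Q065.q1409_3) q_nil)))))

theorem p1410 : Pat 73 73 TBm TCm (CB.map Fm) R0Q065.P1410 R0Q065.I1410 := Vale.Agent.P032.Lt.pat_eq (E' := R0Q065.E) eB (pat_step (by decide +kernel) (q_cons (Vale.Agent.P032.Lt.q R0Q065.q1410_0) (q_cons (Vale.Agent.P032.Lt.q R0Q065.q1410_1) (q_cons (Vale.Agent.P032.Lt.q R0Q065.q1410_2) (q_cons (Vale.Agent.P032.Lt.q R0Q065.q1410_3) (q_cons (Vale.Agent.P032.Lt.q R0Q065.q1410_4) q_nil))))))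

theorem p1411 : Pat 73 73 TBm TCm (CB.map Fm) R0Q065.P1411 R0Q065.I1411 := Vale.Agent.P032.Lt.pat_eq (E' := R0Q065.E) eB (pat_step (by decide +kernel) (q_cons (Vale.Agent.P032.Lt.q R0Q065.q1411_0) (q_cons (Vale.Agent.P032.Lt.q R0Q065.q1411_1) (q_cons (Vale.Agent.P032.Lt.q R0Q065.q1411_2) (q_cons (Vale.Agent.P032.Lt.q R0Q065.q1411_3) q_nil)))))

theorem p1412 : Pat 73 73 TBm TCm (CB.map Fm) R0Q065.P1412 R0Q065.I1412 := Vale.Agent.P032.Lt.pat_eq (E' := R0Q065.E) eB (pat_step (by decide +kernel) (q_cons (Vale.Agent.P032.Lt.q R0Q065.q1412_0) q_nil))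

theorem p1413 : Pat 73 73 TBm TCm (CB.map Fm) R0Q065.P1413 R0Q065.I1413 := Vale.Agent.P032.Lt.pat_eq (E' := R0Q065.E) eB (pat_step (by decide +kernel) (q_cons (Vale.Agent.P032.Lt.q R0Q065.q1413_0) (q_cons (Vale.Agent.P032.Lt.q R0Q065.q1413_1) q_nil)))

theorem p1414 : Pat 73 73 TBm TCm (CB.map Fm) R0Q065.P1414 R0Q065.I1414 := Vale.Agent.P032.Lt.pat_eq (E' := R0Q065.E) eB (pat_step (by decide +kernel) (q_cons (Vale.Agent.P032.Lt.q R0Q065.q1414_0) (q_cons (Vale.Agent.P032.Lt.q R0Q065.q1414_1) (q_cons (Vale.Agent.P032.Lt.q R0Q065.q1414_2) q_nil))))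

theorem p1415 : Pat 73 73 TBm TCm (CB.map Fm) R0Q065.P1415 R0Q065.I1415 := Vale.Agent.P032.Lt.pat_eq (E' := R0Q065.E) eB (pat_step (by decide +kernel) (q_cons (Vale.Agent.P032.Lt.q R0Q065.q1415_0) q_nil))

theorem p1416 : Pat 73 73 TBm TCm (CB.map Fm) R0Q065.P1416 R0Q065.I1416 := Vale.Agent.P032.Lt.pat_eq (E' := R0Q065.E) eB (pat_step (by decide +kernel) (q_cons (Vale.Agent.P032.Lt.q R0Q065.q1416_0) (q_cons (Vale.Agent.P032.Lt.q R0Q065.q1416_1) (q_cons (Vale.Agent.P032.Lt.q R0Q065.q1416_2) q_nil))))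

theorem p1417 : Pat 73 73 TBm TCm (CB.map Fm) R0Q065.P1417 R0Q065.I1417 := Vale.Agent.P032.Lt.pat_eq (E' := R0Q065.E) eB (pat_step (by decide +kernel) (q_cons (Vale.Agent.P032.Lt.q R0Q065.q1417_0) q_nil))

theorem p1418 : Pat 73 73 TBm TCm (CB.map Fm) R0Q065.P1418 R0Q065.I1418 := Vale.Agent.P032.Lt.pat_eq (E' := R0Q065.E) eB (pat_step (by decide +kernel) (q_cons (Vale.Agent.P032.Lt.q R0Q065.q1418_0) q_nil))

theorem p1419 : Pat 73 73 TBm TCm (CB.map Fm) R0Q065.P1419 R0Q065.I1419 := Vale.Agent.P032.Lt.pat_eq (E' := R0Q065.E) eB (pat_step (by decide +kernel) (q_cons (Vale.Agent.P032.Lt.q R0Q065.q1419_0) (q_cons (Vale.Agent.P032.Lt.q R0Q065.q1419_1) q_nil)))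

theorem p1420 : Pat 73 73 TBm TCm (CB.map Fm) R0Q065.P1420 R0Q065.I1420 := Vale.Agent.P032.Lt.pat_eq (E' := R0Q065.E) eB (pat_step (by decide +kernel) (q_cons (Vale.Agent.P032.Lt.q R0Q065.q1420_0) (q_cons (Vale.Agent.P032.Lt.q R0Q065.q1420_1) (q_cons (Vale.Agent.P032.Lt.q R0Q065.q1420_2) (q_cons (Vale.Agent.P032.Lt.q R0Q065.q1420_3) q_nil)))))

theorem p1421 : Pat 73 73 TBm TCm (CB.map Fm) R0Q065.P1421 R0Q065.I1421 := Vale.Agent.P032.Lt.pat_eq (E' := R0Q065.E) eB (pat_step (by decide +kernel) (q_cons (Vale.Agent.P032.Lt.q R0Q065.q1421_0) (q_cons (Vale.Agent.P032.Lt.q R0Q065.q1421_1) (q_cons (Vale.Agent.P032.Lt.q R0Q065.q1421_2) (q_cons (Vale.Agent.P032.Lt.q R0Q065.q1421_3) (q_cons (Vale.Agent.P032.Lt.q R0Q065.q1421_4) (q_cons (Vale.Agent.P032.Lt.q R0Q065.q1421_5) (q_cons (Vale.Agent.P032.Lt.q R0Q065.q1421_6) (q_cons (Vale.Agent.P032.Lt.q R0Q065.q1421_7)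 (q_cons (Vale.Agent.P032.Lt.q R0Q065.q1421_8) q_nil))))))))))

theorem p1422 : Pat 73 73 TBm TCm (CB.map Fm) R0Q065.P1422 R0Q065.I1422 := Vale.Agent.P032.Lt.pat_eq (E' := R0Q065.E) eB (pat_step (by decide +kernel) (q_cons (Vale.Agent.P032.Lt.q R0Q065.q1422_0) (q_cons (Vale.Agent.P032.Lt.q R0Q065.q1422_1) (q_cons (Vale.Agent.P032.Lt.q R0Q065.q1422_2) (q_cons (Vale.Agent.P032.Lt.q R0Q065.q1422_3) (q_cons (Vale.Agent.P032.Lt.q R0Q065.q1422_4) (q_cons (Vale.Agent.P032.Lt.q R0Q065.q1422_5) (q_cons (Vale.Agent.P032.Lt.q R0Q065.q1422_6) (q_cons (Vale.Agent.P032.Lt.q R0Q065.q1422_7) (q_cons (Vale.Agent.P032.Lt.q R0Q065.q1422_8) (q_cons (Vale.Agent.P032.Lt.q R0Q065.q1422_9) (q_cons (Vale.Agent.P032.Lt.q R0Q065.q1422_10) (q_cons (Vale.Agent.P032.Lt.q R0Q065.q1422_11) (q_cons (Vale.Agent.P032.Lt.q R0Q065.q1422_12) (q_cons (Vale.Agent.P032.Lt.q R0Q065.q1422_13)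 (q_cons (Vale.Agent.P032.Lt.q R0Q065.q1422_14) (q_cons (Vale.Agent.P032.Lt.q R0Q065.q1422_15) (q_cons (Vale.Agent.P032.Lt.q R0Q065.q1422_16) q_nil))))))))))))))))))

theorem p1423 : Pat 73 73 TBm TCm (CB.map Fm) R0Q065.P1423 R0Q065.I1423 := Vale.Agent.P032.Lt.pat_eq (E' := R0Q065.E) eB (pat_step (by decide +kernel) (q_cons (Vale.Agent.P032.Lt.q R0Q065.q1423_0) q_nil))

theorem p1424 : Pat 73 73 TBm TCm (CB.map Fm) R0Q065.P1424 R0Q065.I1424 := Vale.Agent.P032.Lt.pat_eq (E' := R0Q065.E) eB (pat_step (by decide +kernel) (q_cons (Vale.Agent.P032.Lt.q R0Q065.q1424_0) q_nil))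

def C1425 : List ℕ := [0, 4, 8, 12, 16, 20, 24, 606209, 737281]
theorem p1425 : Pat 73 73 TBm TCm (C1425.map Fm) R0Q065.P1425 R0Q065.I1425 := Vale.Agent.P032.Lt.pat_eq (E' := R0Q065.E1425) (by decide +kernel) (pat_step (by decide +kernel) (q_cons (Vale.Agent.P032.Lt.q R0Q065.q1425_0) (q_cons (Vale.Agent.P032.Lt.q R0Q065.q1425_1) (q_cons (Vale.Agent.P032.Lt.q R0Q065.q1425_2) (q_cons (Vale.Agent.P032.Lt.q R0Q065.q1425_3) (q_cons (Vale.Agent.P032.Lt.q R0Q065.q1425_4) q_nil))))))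

theorem p1426 : Pat 73 73 TBm TCm (CB.map Fm) R0Q065.P1426 R0Q065.I1426 := Vale.Agent.P032.Lt.pat_eq (E' := R0Q065.E) eB (pat_step (by decide +kernel) (q_cons (Vale.Agent.P032.Lt.q R0Q065.q1426_0) q_nil))

theorem p1427 : Pat 73 73 TBm TCm (CB.map Fm) R0Q065.P1427 R0Q065.I1427 := Vale.Agent.P032.Lt.pat_eq (E' := R0Q065.E) eB (pat_step (by decide +kernel) (q_cons (Vale.Agent.P032.Lt.q R0Q065.q1427_0) (q_cons (Vale.Agent.P032.Lt.q R0Q065.q1427_1) (q_cons (Vale.Agent.P032.Lt.q R0Q065.q1427_2) (q_cons (Vale.Agent.P032.Lt.q R0Q065.q1427_3) (q_cons (Vale.Agent.P032.Lt.q R0Q065.q1427_4) q_nil))))))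

theorem p1428 : Pat 73 73 TBm TCm (CB.map Fm) R0Q065.P1428 R0Q065.I1428 := Vale.Agent.P032.Lt.pat_eq (E' := R0Q065.E) eB (pat_step (by decide +kernel) (q_cons (Vale.Agent.P032.Lt.q R0Q065.q1428_0) (q_cons (Vale.Agent.P032.Lt.q R0Q065.q1428_1) (q_cons (Vale.Agent.P032.Lt.q R0Q065.q1428_2) (q_cons (Vale.Agent.P032.Lt.q R0Q065.q1428_3) (q_cons (Vale.Agent.P032.Lt.q R0Q065.q1428_4) (q_cons (Vale.Agent.P032.Lt.q R0Q065.q1428_5) (q_cons (Vale.Agent.P032.Lt.q R0Q065.q1428_6) (q_cons (Vale.Agent.P032.Lt.q R0Q065.q1428_7) (q_cons (Vale.Agent.P032.Lt.q R0Q065.q1428_8) (q_cons (Vale.Agent.P032.Lt.q R0Q065.q1428_9) q_nil)))))))))))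

theorem p1429 : Pat 73 73 TBm TCm (CB.map Fm) R0Q065.P1429 R0Q065.I1429 := Vale.Agent.P032.Lt.pat_eq (E' := R0Q065.E) eB (pat_step (by decide +kernel) (q_cons (Vale.Agent.P032.Lt.q R0Q065.q1429_0) (q_cons (Vale.Agent.P032.Lt.q R0Q065.q1429_1) (q_cons (Vale.Agent.P032.Lt.q R0Q065.q1429_2) (q_cons (Vale.Agent.P032.Lt.q R0Q065.q1429_3) (q_cons (Vale.Agent.P032.Lt.q R0Q065.q1429_4) q_nil))))))

def C1430 : List ℕ := [0, 4, 8, 12, 16, 20, 24, 82945]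
theorem p1430 : Pat 73 73 TBm TCm (C1430.map Fm) R0Q065.P1430 R0Q065.I1430 := Vale.Agent.P032.Lt.pat_eq (E' := R0Q065.E1430) (by decide +kernel) (pat_step (by decide +kernel) (q_cons (Vale.Agent.P032.Lt.q R0Q065.q1430_0) q_nil))

def C1431 : List ℕ := [0, 4, 8, 12, 16, 20, 24, 82945, 476161, 606209, 737281]
theorem p1431 : Pat 73 73 TBm TCm (C1431.map Fm) R0Q066.P1431 R0Q066.I1431 := Vale.Agent.P032.Lt.pat_eq (E' := R0Q066.E1431) (by decide +kernel) (pat_step (by decide +kernel) (q_cons (Vale.Agent.P032.Lt.q R0Q066.q1431_0) (q_cons (Vale.Agent.P032.Lt.q R0Q066.q1431_1) (q_cons (Vale.Agent.P032.Lt.q R0Q066.q1431_2) (q_cons (Vale.Agent.P032.Lt.q R0Q066.q1431_3) (q_cons (Vale.Agent.P032.Lt.q R0Q066.q1431_4) (q_cons (Vale.Agent.P032.Lt.q R0Q066.q1431_5) (q_cons (Vale.Agent.P032.Lt.q R0Q066.q1431_6) (q_cons (Vale.Agent.P032.Lt.q R0Q066.q1431_7) (q_cons (Vale.Agent.P032.Lt.q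 R0Q066.q1431_8) (q_cons (Vale.Agent.P032.Lt.q R0Q066.q1431_9) (q_cons (Vale.Agent.P032.Lt.q R0Q066.q1431_10) q_nil))))))))))))

theorem p1432 : Pat 73 73 TBm TCm (CB.map Fm) R0Q066.P1432 R0Q066.I1432 := Vale.Agent.P032.Lt.pat_eq (E' := R0Q066.E) eB (pat_step (by decide +kernel) (q_cons (Vale.Agent.P032.Lt.q R0Q066.q1432_0) (q_cons (Vale.Agent.P032.Lt.q R0Q066.q1432_1) (q_cons (Vale.Agent.P032.Lt.q R0Q066.q1432_2) (q_cons (Vale.Agent.P032.Lt.q R0Q066.q1432_3) (q_cons (Vale.Agent.P032.Lt.q R0Q066.q1432_4) (q_cons (Vale.Agent.P032.Lt.q R0Q066.q1432_5) (q_cons (Vale.Agent.P032.Lt.q R0Q066.q1432_6) q_nil))))))))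

theorem p1433 : Pat 73 73 TBm TCm (CB.map Fm) R0Q066.P1433 R0Q066.I1433 := Vale.Agent.P032.Lt.pat_eq (E' := R0Q066.E) eB (pat_step (by decide +kernel) (q_cons (Vale.Agent.P032.Lt.q R0Q066.q1433_0) (q_cons (Vale.Agent.P032.Lt.q R0Q066.q1433_1) (q_cons (Vale.Agent.P032.Lt.q R0Q066.q1433_2) (q_cons (Vale.Agent.P032.Lt.q R0Q066.q1433_3) (q_cons (Vale.Agent.P032.Lt.q R0Q066.q1433_4) (q_cons (Vale.Agent.P032.Lt.q R0Q066.q1433_5) (q_cons (Vale.Agent.P032.Lt.q R0Q066.q1433_6) q_nil))))))))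

theorem p1434 : Pat 73 73 TBm TCm (CB.map Fm) R0Q066.P1434 R0Q066.I1434 := Vale.Agent.P032.Lt.pat_eq (E' := R0Q066.E) eB (pat_step (by decide +kernel) (q_cons (Vale.Agent.P032.Lt.q R0Q066.q1434_0) q_nil))

def C1435 : List ℕ := [0, 4, 8, 12, 16, 20, 24, 344065, 475137, 617473, 737281]
theorem p1435 : Pat 73 73 TBm TCm (C1435.map Fm) R0Q066.P1435 R0Q066.I1435 := Vale.Agent.P032.Lt.pat_eq (E' := R0Q066.E1435) (by decide +kernel) (pat_step (by decide +kernel) (q_cons (Vale.Agent.P032.Lt.q R0Q066.q1435_0) (q_cons (Vale.Agent.P032.Lt.q R0Q066.q1435_1) (q_cons (Vale.Agent.P032.Lt.q R0Q066.q1435_2) (q_cons (Vale.Agent.P032.Lt.q R0Q066.q1435_3) (q_cons (Vale.Agent.P032.Lt.q R0Q066.q1435_4) (q_cons (Vale.Agent.P032.Lt.q R0Q066.q1435_5) (q_cons (Vale.Agent.P032.Lt.q R0Q066.q1435_6) (q_cons (Vale.Agent.P032.Lt.q R0Q066.q1435_7) (q_cons (Vale.Agent.P032.Lt.q R0Q066.q1435_8)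 q_nil))))))))))

def C1436 : List ℕ := [0, 4, 8, 12, 16, 20, 24, 617473]
theorem p1436 : Pat 73 73 TBm TCm (C1436.map Fm) R0Q066.P1436 R0Q066.I1436 := Vale.Agent.P032.Lt.pat_eq (E' := R0Q066.E1436) (by decide +kernel) (pat_step (by decide +kernel) (q_cons (Vale.Agent.P032.Lt.q R0Q066.q1436_0) (q_cons (Vale.Agent.P032.Lt.q R0Q066.q1436_1) (q_cons (Vale.Agent.P032.Lt.q R0Q066.q1436_2) (q_cons (Vale.Agent.P032.Lt.q R0Q066.q1436_3) (q_cons (Vale.Agent.P032.Lt.q R0Q066.q1436_4) (q_cons (Vale.Agent.P032.Lt.q R0Q066.q1436_5) (q_cons (Vale.Agent.P032.Lt.q R0Q066.q1436_6) (q_cons (Vale.Agent.P032.Lt.q R0Q066.q1436_7) q_nil)))))))))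

def C1437 : List ℕ := [0, 4, 8, 12, 16, 20, 24, 475137, 617473, 737281]
theorem p1437 : Pat 73 73 TBm TCm (C1437.map Fm) R0Q066.P1437 R0Q066.I1437 := Vale.Agent.P032.Lt.pat_eq (E' := R0Q066.E1437) (by decide +kernel) (pat_step (by decide +kernel) (q_cons (Vale.Agent.P032.Lt.q R0Q066.q1437_0) (q_cons (Vale.Agent.P032.Lt.q R0Q066.q1437_1) (q_cons (Vale.Agent.P032.Lt.q R0Q066.q1437_2) q_nil))))

theorem p1438 : Pat 73 73 TBm TCm (CB.map Fm) R0Q066.P1438 R0Q066.I1438 := Vale.Agent.P032.Lt.pat_eq (E' := R0Q066.E) eB (pat_step (by decide +kernel) (q_cons (Vale.Agent.P032.Lt.q R0Q066.q1438_0) q_nil))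

theorem p1439 : Pat 73 73 TBm TCm (CB.map Fm) R0Q066.P1439 R0Q066.I1439 := Vale.Agent.P032.Lt.pat_eq (E' := R0Q066.E) eB (pat_step (by decide +kernel) (q_cons (Vale.Agent.P032.Lt.q R0Q066.q1439_0) (q_cons (Vale.Agent.P032.Lt.q R0Q066.q1439_1) q_nil)))

theorem p1440 : Pat 73 73 TBm TCm (CB.map Fm) R0Q066.P1440 R0Q066.I1440 := Vale.Agent.P032.Lt.pat_eq (E' := R0Q066.E) eB (pat_step (by decide +kernel) (q_cons (Vale.Agent.P032.Lt.q R0Q066.q1440_0) q_nil))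

theorem p1441 : Pat 73 73 TBm TCm (CB.map Fm) R0Q066.P1441 R0Q066.I1441 := Vale.Agent.P032.Lt.pat_eq (E' := R0Q066.E) eB (pat_step (by decide +kernel) (q_cons (Vale.Agent.P032.Lt.q R0Q066.q1441_0) (q_cons (Vale.Agent.P032.Lt.q R0Q066.q1441_1) (q_cons (Vale.Agent.P032.Lt.q R0Q066.q1441_2) (q_cons (Vale.Agent.P032.Lt.q R0Q066.q1441_3) (q_cons (Vale.Agent.P032.Lt.q R0Q066.q1441_4) q_nil))))))

theorem p1442 : Pat 73 73 TBm TCm (CB.map Fm) R0Q066.P1442 R0Q066.I1442 := Vale.Agent.P032.Lt.pat_eq (E' := R0Q066.E) eB (pat_step (by decide +kernel) (q_cons (Vale.Agent.P032.Lt.q R0Q066.q1442_0) q_nil))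

theorem p1443 : Pat 73 73 TBm TCm (CB.map Fm) R0Q066.P1443 R0Q066.I1443 := Vale.Agent.P032.Lt.pat_eq (E' := R0Q066.E) eB (pat_step (by decide +kernel) (q_cons (Vale.Agent.P032.Lt.q R0Q066.q1443_0) (q_cons (Vale.Agent.P032.Lt.q R0Q066.q1443_1) q_nil)))

theorem p1444 : Pat 73 73 TBm TCm (CB.map Fm) R0Q066.P1444 R0Q066.I1444 := Vale.Agent.P032.Lt.pat_eq (E' := R0Q066.E) eB (pat_step (by decide +kernel) (q_cons (Vale.Agent.P032.Lt.q R0Q066.q1444_0) (q_cons (Vale.Agent.P032.Lt.q R0Q066.q1444_1) (q_cons (Vale.Agent.P032.Lt.q R0Q066.q1444_2) q_nil))))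

theorem p1445 : Pat 73 73 TBm TCm (CB.map Fm) R0Q066.P1445 R0Q066.I1445 := Vale.Agent.P032.Lt.pat_eq (E' := R0Q066.E) eB (pat_step (by decide +kernel) (q_cons (Vale.Agent.P032.Lt.q R0Q066.q1445_0) (q_cons (Vale.Agent.P032.Lt.q R0Q066.q1445_1) (q_cons (Vale.Agent.P032.Lt.q R0Q066.q1445_2) q_nil))))

theorem p1446 : Pat 73 73 TBm TCm (CB.map Fm) R0Q066.P1446 R0Q066.I1446 := Vale.Agent.P032.Lt.pat_eq (E' := R0Q066.E) eB (pat_step (by decide +kernel) (q_cons (Vale.Agent.P032.Lt.q R0Q066.q1446_0) (q_cons (Vale.Agent.P032.Lt.q R0Q066.q1446_1) (q_cons (Vale.Agent.P032.Lt.q R0Q066.q1446_2) (q_cons (Vale.Agent.P032.Lt.q R0Q066.q1446_3) q_nil)))))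

theorem p1447 : Pat 73 73 TBm TCm (CB.map Fm) R0Q066.P1447 R0Q066.I1447 := Vale.Agent.P032.Lt.pat_eq (E' := R0Q066.E) eB (pat_step (by decide +kernel) (q_cons (Vale.Agent.P032.Lt.q R0Q066.q1447_0) (q_cons (Vale.Agent.P032.Lt.q R0Q066.q1447_1) (q_cons (Vale.Agent.P032.Lt.q R0Q066.q1447_2) q_nil))))

theorem p1448 : Pat 73 73 TBm TCm (CB.map Fm) R0Q066.P1448 R0Q066.I1448 := Vale.Agent.P032.Lt.pat_eq (E' := R0Q066.E) eB (pat_step (by decide +kernel) (q_cons (Vale.Agent.P032.Lt.q R0Q066.q1448_0) (q_cons (Vale.Agent.P032.Lt.q R0Q066.q1448_1) q_nil)))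

theorem p1449 : Pat 73 73 TBm TCm (CB.map Fm) R0Q066.P1449 R0Q066.I1449 := Vale.Agent.P032.Lt.pat_eq (E' := R0Q066.E) eB (pat_step (by decide +kernel) (q_cons (Vale.Agent.P032.Lt.q R0Q066.q1449_0) (q_cons (Vale.Agent.P032.Lt.q R0Q066.q1449_1) q_nil)))

theorem p1450 : Pat 73 73 TBm TCm (CB.map Fm) R0Q066.P1450 R0Q066.I1450 := Vale.Agent.P032.Lt.pat_eq (E' := R0Q066.E) eB (pat_step (by decide +kernel) (q_cons (Vale.Agent.P032.Lt.q R0Q066.q1450_0) (q_cons (Vale.Agent.P032.Lt.q R0Q066.q1450_1) q_nil)))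

theorem p1451 : Pat 73 73 TBm TCm (CB.map Fm) R0Q067.P1451 R0Q067.I1451 := Vale.Agent.P032.Lt.pat_eq (E' := R0Q067.E) eB (pat_step (by decide +kernel) (q_cons (Vale.Agent.P032.Lt.q R0Q067.q1451_0) (q_cons (Vale.Agent.P032.Lt.q R0Q067.q1451_1) q_nil)))

theorem p1452 : Pat 73 73 TBm TCm (CB.map Fm) R0Q067.P1452 R0Q067.I1452 := Vale.Agent.P032.Lt.pat_eq (E' := R0Q067.E) eB (pat_step (by decide +kernel) (q_cons (Vale.Agent.P032.Lt.q R0Q067.q1452_0) (q_cons (Vale.Agent.P032.Lt.q R0Q067.q1452_1) q_nil)))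

theorem p1453 : Pat 73 73 TBm TCm (CB.map Fm) R0Q067.P1453 R0Q067.I1453 := Vale.Agent.P032.Lt.pat_eq (E' := R0Q067.E) eB (pat_step (by decide +kernel) (q_cons (Vale.Agent.P032.Lt.q R0Q067.q1453_0) (q_cons (Vale.Agent.P032.Lt.q R0Q067.q1453_1) (q_cons (Vale.Agent.P032.Lt.q R0Q067.q1453_2) q_nil))))

theorem p1454 : Pat 73 73 TBm TCm (CB.map Fm) R0Q067.P1454 R0Q067.I1454 := Vale.Agent.P032.Lt.pat_eq (E' := R0Q067.E) eB (pat_step (by decide +kernel) (q_cons (Vale.Agent.P032.Lt.q R0Q067.q1454_0) (q_cons (Vale.Agent.P032.Lt.q R0Q067.q1454_1) (q_cons (Vale.Agent.P032.Lt.q R0Q067.q1454_2) (q_cons (Vale.Agent.P032.Lt.q R0Q067.q1454_3) (q_cons (Vale.Agent.P032.Lt.q R0Q067.q1454_4) q_nil))))))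

theorem p1455 : Pat 73 73 TBm TCm (CB.map Fm) R0Q067.P1455 R0Q067.I1455 := Vale.Agent.P032.Lt.pat_eq (E' := R0Q067.E) eB (pat_step (by decide +kernel) (q_cons (Vale.Agent.P032.Lt.q R0Q067.q1455_0) (q_cons (Vale.Agent.P032.Lt.q R0Q067.q1455_1) (q_cons (Vale.Agent.P032.Lt.q R0Q067.q1455_2) (q_cons (Vale.Agent.P032.Lt.q R0Q067.q1455_3) (q_cons (Vale.Agent.P032.Lt.q R0Q067.q1455_4) (q_cons (Vale.Agent.P032.Lt.q R0Q067.q1455_5) (q_cons (Vale.Agent.P032.Lt.q R0Q067.q1455_6) (q_cons (Vale.Agent.P032.Lt.q R0Q067.q1455_7) (q_cons (Vale.Agent.P032.Lt.q R0Q067.q1455_8) (q_cons (Vale.Agent.P032.Lt.q R0Q067.q1455_9) (q_cons (Vale.Agent.P032.Lt.q R0Q067.q1455_10) (q_cons (Vale.Agent.P032.Lt.q R0Q067.q1455_11) (q_cons (Vale.Agent.P032.Lt.q R0Q067.q1455_12) (q_cons (Vale.Agent.P032.Lt.q R0Q067.q1455_13) (q_cons (Vale.Agent.P032.Lt.q R0Q067.q1455_14) (q_cons (Vale.Agent.P032.Lt.q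 R0Q067.q1455_15) (q_cons (Vale.Agent.P032.Lt.q R0Q067.q1455_16) (q_cons (Vale.Agent.P032.Lt.q R0Q067.q1455_17) (q_cons (Vale.Agent.P032.Lt.q R0Q067.q1455_18) q_nil))))))))))))))))))))

theorem p1456 : Pat 73 73 TBm TCm (CB.map Fm) R0Q067.P1456 R0Q067.I1456 := Vale.Agent.P032.Lt.pat_eq (E' := R0Q067.E) eB (pat_step (by decide +kernel) (q_cons (Vale.Agent.P032.Lt.q R0Q067.q1456_0) q_nil))

def C1457 : List ℕ := [0, 4, 8, 12, 16, 20, 24, 606209, 737281]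
theorem p1457 : Pat 73 73 TBm TCm (C1457.map Fm) R0Q067.P1457 R0Q067.I1457 := Vale.Agent.P032.Lt.pat_eq (E' := R0Q067.E1457) (by decide +kernel) (pat_step (by decide +kernel) (q_cons (Vale.Agent.P032.Lt.q R0Q067.q1457_0) (q_cons (Vale.Agent.P032.Lt.q R0Q067.q1457_1) (q_cons (Vale.Agent.P032.Lt.q R0Q067.q1457_2) (q_cons (Vale.Agent.P032.Lt.q R0Q067.q1457_3) (q_cons (Vale.Agent.P032.Lt.q R0Q067.q1457_4) q_nil))))))

def C1458 : List ℕ := [0, 4, 8, 12, 16, 20, 24, 475137, 606209, 737281]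
theorem p1458 : Pat 73 73 TBm TCm (C1458.map Fm) R0Q067.P1458 R0Q067.I1458 := Vale.Agent.P032.Lt.pat_eq (E' := R0Q067.E1458) (by decide +kernel) (pat_step (by decide +kernel) (q_cons (Vale.Agent.P032.Lt.q R0Q067.q1458_0) (q_cons (Vale.Agent.P032.Lt.q R0Q067.q1458_1) (q_cons (Vale.Agent.P032.Lt.q R0Q067.q1458_2) (q_cons (Vale.Agent.P032.Lt.q R0Q067.q1458_3) q_nil)))))

theorem p1459 : Pat 73 73 TBm TCm (CB.map Fm) R0Q067.P1459 R0Q067.I1459 := Vale.Agent.P032.Lt.pat_eq (E' := R0Q067.E) eB (pat_step (by decide +kernel) (q_cons (Vale.Agent.P032.Lt.q R0Q067.q1459_0) (q_cons (Vale.Agent.P032.Lt.q R0Q067.q1459_1) (q_cons (Vale.Agent.P032.Lt.q R0Q067.q1459_2) q_nil))))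

def C1460 : List ℕ := [0, 4, 8, 12, 16, 20, 24, 84993, 347137, 475137, 606209, 737281]
theorem p1460 : Pat 73 73 TBm TCm (C1460.map Fm) R0Q067.P1460 R0Q067.I1460 := Vale.Agent.P032.Lt.pat_eq (E' := R0Q067.E1460) (by decide +kernel) (pat_step (by decide +kernel) (q_cons (Vale.Agent.P032.Lt.q R0Q067.q1460_0) (q_cons (Vale.Agent.P032.Lt.q R0Q067.q1460_1) (q_cons (Vale.Agent.P032.Lt.q R0Q067.q1460_2) (q_cons (Vale.Agent.P032.Lt.q R0Q067.q1460_3) (q_cons (Vale.Agent.P032.Lt.q R0Q067.q1460_4) q_nil))))))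

def C1461 : List ℕ := [0, 4, 8, 12, 16, 20, 24, 475137, 606209, 737281]
theorem p1461 : Pat 73 73 TBm TCm (C1461.map Fm) R0Q067.P1461 R0Q067.I1461 := Vale.Agent.P032.Lt.pat_eq (E' := R0Q067.E1461) (by decide +kernel) (pat_step (by decide +kernel) (q_cons (Vale.Agent.P032.Lt.q R0Q067.q1461_0) (q_cons (Vale.Agent.P032.Lt.q R0Q067.q1461_1) (q_cons (Vale.Agent.P032.Lt.q R0Q067.q1461_2) (q_cons (Vale.Agent.P032.Lt.q R0Q067.q1461_3) (q_cons (Vale.Agent.P032.Lt.q R0Q067.q1461_4) q_nil))))))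

theorem p1462 : Pat 73 73 TBm TCm (CB.map Fm) R0Q067.P1462 R0Q067.I1462 := Vale.Agent.P032.Lt.pat_eq (E' := R0Q067.E) eB (pat_step (by decide +kernel) (q_cons (Vale.Agent.P032.Lt.q R0Q067.q1462_0) (q_cons (Vale.Agent.P032.Lt.q R0Q067.q1462_1) (q_cons (Vale.Agent.P032.Lt.q R0Q067.q1462_2) (q_cons (Vale.Agent.P032.Lt.q R0Q067.q1462_3) (q_cons (Vale.Agent.P032.Lt.q R0Q067.q1462_4) q_nil))))))

theorem p1463 : Pat 73 73 TBm TCm (CB.map Fm) R0Q067.P1463 R0Q067.I1463 := Vale.Agent.P032.Lt.pat_eq (E' := R0Q067.E) eB (pat_step (by decide +kernel) (q_cons (Vale.Agent.P032.Lt.q R0Q067.q1463_0) (q_cons (Vale.Agent.P032.Lt.q R0Q067.q1463_1) q_nil)))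

theorem p1464 : Pat 73 73 TBm TCm (CB.map Fm) R0Q067.P1464 R0Q067.I1464 := Vale.Agent.P032.Lt.pat_eq (E' := R0Q067.E) eB (pat_step (by decide +kernel) (q_cons (Vale.Agent.P032.Lt.q R0Q067.q1464_0) (q_cons (Vale.Agent.P032.Lt.q R0Q067.q1464_1) (q_cons (Vale.Agent.P032.Lt.q R0Q067.q1464_2) (q_cons (Vale.Agent.P032.Lt.q R0Q067.q1464_3) (q_cons (Vale.Agent.P032.Lt.q R0Q067.q1464_4) (q_cons (Vale.Agent.P032.Lt.q R0Q067.q1464_5) (q_cons (Vale.Agent.P032.Lt.q R0Q067.q1464_6) (q_cons (Vale.Agent.P032.Lt.q R0Q067.q1464_7) (q_cons (Vale.Agent.P032.Lt.q R0Q067.q1464_8) (q_cons (Vale.Agent.P032.Lt.q R0Q067.q1464_9) (q_cons (Vale.Agent.P032.Lt.q R0Q067.q1464_10) (q_cons (Vale.Agent.P032.Lt.q R0Q067.q1464_11) q_nil)))))))))))))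

theorem p1465 : Pat 73 73 TBm TCm (CB.map Fm) R0Q067.P1465 R0Q067.I1465 := Vale.Agent.P032.Lt.pat_eq (E' := R0Q067.E) eB (pat_step (by decide +kernel) (q_cons (Vale.Agent.P032.Lt.q R0Q067.q1465_0) (q_cons (Vale.Agent.P032.Lt.q R0Q067.q1465_1) (q_cons (Vale.Agent.P032.Lt.q R0Q067.q1465_2) (q_cons (Vale.Agent.P032.Lt.q R0Q067.q1465_3) q_nil)))))

theorem p1466 : Pat 73 73 TBm TCm (CB.map Fm) R0Q067.P1466 R0Q067.I1466 := Vale.Agent.P032.Lt.pat_eq (E' := R0Q067.E) eB (pat_step (by decide +kernel) (q_cons (Vale.Agent.P032.Lt.q R0Q067.q1466_0) (q_cons (Vale.Agent.P032.Lt.q R0Q067.q1466_1) (q_cons (Vale.Agent.P032.Lt.q R0Q067.q1466_2) q_nil))))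

theorem p1467 : Pat 73 73 TBm TCm (CB.map Fm) R0Q067.P1467 R0Q067.I1467 := Vale.Agent.P032.Lt.pat_eq (E' := R0Q067.E) eB (pat_step (by decide +kernel) (q_cons (Vale.Agent.P032.Lt.q R0Q067.q1467_0) (q_cons (Vale.Agent.P032.Lt.q R0Q067.q1467_1) (q_cons (Vale.Agent.P032.Lt.q R0Q067.q1467_2) (q_cons (Vale.Agent.P032.Lt.q R0Q067.q1467_3) (q_cons (Vale.Agent.P032.Lt.q R0Q067.q1467_4) (q_cons (Vale.Agent.P032.Lt.q R0Q067.q1467_5) (q_cons (Vale.Agent.P032.Lt.q R0Q067.q1467_6) q_nil))))))))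

theorem p1468 : Pat 73 73 TBm TCm (CB.map Fm) R0Q067.P1468 R0Q067.I1468 := Vale.Agent.P032.Lt.pat_eq (E' := R0Q067.E) eB (pat_step (by decide +kernel) (q_cons (Vale.Agent.P032.Lt.q R0Q067.q1468_0) (q_cons (Vale.Agent.P032.Lt.q R0Q067.q1468_1) (q_cons (Vale.Agent.P032.Lt.q R0Q067.q1468_2) (q_cons (Vale.Agent.P032.Lt.q R0Q067.q1468_3) (q_cons (Vale.Agent.P032.Lt.q R0Q067.q1468_4) q_nil))))))

theorem p1469 : Pat 73 73 TBm TCm (CB.map Fm) R0Q067.P1469 R0Q067.I1469 := Vale.Agent.P032.Lt.pat_eq (E' := R0Q067.E) eB (pat_step (by decide +kernel) (q_cons (Vale.Agent.P032.Lt.q R0Q067.q1469_0) (q_cons (Vale.Agent.P032.Lt.q R0Q067.q1469_1) (q_cons (Vale.Agent.P032.Lt.q R0Q067.q1469_2) (q_cons (Vale.Agent.P032.Lt.q R0Q067.q1469_3) (q_cons (Vale.Agent.P032.Lt.q R0Q067.q1469_4) q_nil))))))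

theorem p1470 : Pat 73 73 TBm TCm (CB.map Fm) R0Q067.P1470 R0Q067.I1470 := Vale.Agent.P032.Lt.pat_eq (E' := R0Q067.E) eB (pat_step (by decide +kernel) (q_cons (Vale.Agent.P032.Lt.q R0Q067.q1470_0) (q_cons (Vale.Agent.P032.Lt.q R0Q067.q1470_1) q_nil)))

theorem p1471 : Pat 73 73 TBm TCm (CB.map Fm) R0Q067.P1471 R0Q067.I1471 := Vale.Agent.P032.Lt.pat_eq (E' := R0Q067.E) eB (pat_step (by decide +kernel) (q_cons (Vale.Agent.P032.Lt.q R0Q067.q1471_0) q_nil))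

theorem p1472 : Pat 73 73 TBm TCm (CB.map Fm) R0Q067.P1472 R0Q067.I1472 := Vale.Agent.P032.Lt.pat_eq (E' := R0Q067.E) eB (pat_step (by decide +kernel) (q_cons (Vale.Agent.P032.Lt.q R0Q067.q1472_0) q_nil))

theorem p1473 : Pat 73 73 TBm TCm (CB.map Fm) R0Q067.P1473 R0Q067.I1473 := Vale.Agent.P032.Lt.pat_eq (E' := R0Q067.E) eB (pat_step (by decide +kernel) (q_cons (Vale.Agent.P032.Lt.q R0Q067.q1473_0) q_nil))

theorem p1474 : Pat 73 73 TBm TCm (CB.map Fm) R0Q067.P1474 R0Q067.I1474 := Vale.Agent.P032.Lt.pat_eq (E' := R0Q067.E) eB (pat_step (by decide +kernel) (q_cons (Vale.Agent.P032.Lt.q R0Q067.q1474_0) q_nil))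

theorem p1475 : Pat 73 73 TBm TCm (CB.map Fm) R0Q067.P1475 R0Q067.I1475 := Vale.Agent.P032.Lt.pat_eq (E' := R0Q067.E) eB (pat_step (by decide +kernel) (q_cons (Vale.Agent.P032.Lt.q R0Q067.q1475_0) q_nil))

theorem p1476 : Pat 73 73 TBm TCm (CB.map Fm) R0Q067.P1476 R0Q067.I1476 := Vale.Agent.P032.Lt.pat_eq (E' := R0Q067.E) eB (pat_step (by decide +kernel) (q_cons (Vale.Agent.P032.Lt.q R0Q067.q1476_0) (q_cons (Vale.Agent.P032.Lt.q R0Q067.q1476_1) (q_cons (Vale.Agent.P032.Lt.q R0Q067.q1476_2) (q_cons (Vale.Agent.P032.Lt.q R0Q067.q1476_3) (q_cons (Vale.Agent.P032.Lt.q R0Q067.q1476_4) (q_cons (Vale.Agent.P032.Lt.q R0Q067.q1476_5) q_nil)))))))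

theorem p1477 : Pat 73 73 TBm TCm (CB.map Fm) R0Q067.P1477 R0Q067.I1477 := Vale.Agent.P032.Lt.pat_eq (E' := R0Q067.E) eB (pat_step (by decide +kernel) (q_cons (Vale.Agent.P032.Lt.q R0Q067.q1477_0) q_nil))

theorem p1478 : Pat 73 73 TBm TCm (CB.map Fm) R0Q067.P1478 R0Q067.I1478 := Vale.Agent.P032.Lt.pat_eq (E' := R0Q067.E) eB (pat_step (by decide +kernel) (q_cons (Vale.Agent.P032.Lt.q R0Q067.q1478_0) q_nil))

theorem p1479 : Pat 73 73 TBm TCm (CB.map Fm) R0Q067.P1479 R0Q067.I1479 := Vale.Agent.P032.Lt.pat_eq (E' := R0Q067.E) eB (pat_step (by decide +kernel) (q_cons (Vale.Agent.P032.Lt.q R0Q067.q1479_0) (q_cons (Vale.Agent.P032.Lt.q R0Q067.q1479_1) (q_cons (Vale.Agent.P032.Lt.q R0Q067.q1479_2) (q_cons (Vale.Agent.P032.Lt.q R0Q067.q1479_3) q_nil)))))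

theorem p1480 : Pat 73 73 TBm TCm (CB.map Fm) R0Q067.P1480 R0Q067.I1480 := Vale.Agent.P032.Lt.pat_eq (E' := R0Q067.E) eB (pat_step (by decide +kernel) (q_cons (Vale.Agent.P032.Lt.q R0Q067.q1480_0) (q_cons (Vale.Agent.P032.Lt.q R0Q067.q1480_1) q_nil)))

theorem p1481 : Pat 73 73 TBm TCm (CB.map Fm) R0Q068.P1481 R0Q068.I1481 := Vale.Agent.P032.Lt.pat_eq (E' := R0Q068.E) eB (pat_step (by decide +kernel) (q_cons (Vale.Agent.P032.Lt.q R0Q068.q1481_0) (q_cons (Vale.Agent.P032.Lt.q R0Q068.q1481_1) (q_cons (Vale.Agent.P032.Lt.q R0Q068.q1481_2) q_nil))))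

theorem p1482 : Pat 73 73 TBm TCm (CB.map Fm) R0Q068.P1482 R0Q068.I1482 := Vale.Agent.P032.Lt.pat_eq (E' := R0Q068.E) eB (pat_step (by decide +kernel) (q_cons (Vale.Agent.P032.Lt.q R0Q068.q1482_0) (q_cons (Vale.Agent.P032.Lt.q R0Q068.q1482_1) (q_cons (Vale.Agent.P032.Lt.q R0Q068.q1482_2) (q_cons (Vale.Agent.P032.Lt.q R0Q068.q1482_3) q_nil)))))

theorem p1483 : Pat 73 73 TBm TCm (CB.map Fm) R0Q068.P1483 R0Q068.I1483 := Vale.Agent.P032.Lt.pat_eq (E' := R0Q068.E) eB (pat_step (by decide +kernel) (q_cons (Vale.Agent.P032.Lt.q R0Q068.q1483_0) (q_cons (Vale.Agent.P032.Lt.q R0Q068.q1483_1) q_nil)))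

theorem p1484 : Pat 73 73 TBm TCm (CB.map Fm) R0Q068.P1484 R0Q068.I1484 := Vale.Agent.P032.Lt.pat_eq (E' := R0Q068.E) eB (pat_step (by decide +kernel) (q_cons (Vale.Agent.P032.Lt.q R0Q068.q1484_0) (q_cons (Vale.Agent.P032.Lt.q R0Q068.q1484_1) q_nil)))

theorem p1485 : Pat 73 73 TBm TCm (CB.map Fm) R0Q068.P1485 R0Q068.I1485 := Vale.Agent.P032.Lt.pat_eq (E' := R0Q068.E) eB (pat_step (by decide +kernel) (q_cons (Vale.Agent.P032.Lt.q R0Q068.q1485_0) (q_cons (Vale.Agent.P032.Lt.q R0Q068.q1485_1) (q_cons (Vale.Agent.P032.Lt.q R0Q068.q1485_2) q_nil))))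

theorem p1486 : Pat 73 73 TBm TCm (CB.map Fm) R0Q068.P1486 R0Q068.I1486 := Vale.Agent.P032.Lt.pat_eq (E' := R0Q068.E) eB (pat_step (by decide +kernel) (q_cons (Vale.Agent.P032.Lt.q R0Q068.q1486_0) q_nil))

theorem p1487 : Pat 73 73 TBm TCm (CB.map Fm) R0Q068.P1487 R0Q068.I1487 := Vale.Agent.P032.Lt.pat_eq (E' := R0Q068.E) eB (pat_step (by decide +kernel) (q_cons (Vale.Agent.P032.Lt.q R0Q068.q1487_0) q_nil))

theorem p1488 : Pat 73 73 TBm TCm (CB.map Fm) R0Q068.P1488 R0Q068.I1488 := Vale.Agent.P032.Lt.pat_eq (E' := R0Q068.E) eB (pat_step (by decide +kernel) (q_cons (Vale.Agent.P032.Lt.q R0Q068.q1488_0) q_nil))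

theorem p1489 : Pat 73 73 TBm TCm (CB.map Fm) R0Q068.P1489 R0Q068.I1489 := Vale.Agent.P032.Lt.pat_eq (E' := R0Q068.E) eB (pat_step (by decide +kernel) (q_cons (Vale.Agent.P032.Lt.q R0Q068.q1489_0) (q_cons (Vale.Agent.P032.Lt.q R0Q068.q1489_1) (q_cons (Vale.Agent.P032.Lt.q R0Q068.q1489_2) (q_cons (Vale.Agent.P032.Lt.q R0Q068.q1489_3) (q_cons (Vale.Agent.P032.Lt.q R0Q068.q1489_4) (q_cons (Vale.Agent.P032.Lt.q R0Q068.q1489_5) (q_cons (Vale.Agent.P032.Lt.q R0Q068.q1489_6) (q_cons (Vale.Agent.P032.Lt.q R0Q068.q1489_7) (q_cons (Vale.Agent.P032.Lt.q R0Q068.q1489_8) (q_cons (Vale.Agent.P032.Lt.q R0Q068.q1489_9) q_nil)))))))))))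

theorem p1490 : Pat 73 73 TBm TCm (CB.map Fm) R0Q068.P1490 R0Q068.I1490 := Vale.Agent.P032.Lt.pat_eq (E' := R0Q068.E) eB (pat_step (by decide +kernel) (q_cons (Vale.Agent.P032.Lt.q R0Q068.q1490_0) (q_cons (Vale.Agent.P032.Lt.q R0Q068.q1490_1) (q_cons (Vale.Agent.P032.Lt.q R0Q068.q1490_2) (q_cons (Vale.Agent.P032.Lt.q R0Q068.q1490_3) q_nil)))))

theorem p1491 : Pat 73 73 TBm TCm (CB.map Fm) R0Q068.P1491 R0Q068.I1491 := Vale.Agent.P032.Lt.pat_eq (E' := R0Q068.E) eB (pat_step (by decide +kernel) (q_cons (Vale.Agent.P032.Lt.q R0Q068.q1491_0) (q_cons (Vale.Agent.P032.Lt.q R0Q068.q1491_1) (q_cons (Vale.Agent.P032.Lt.q R0Q068.q1491_2) (q_cons (Vale.Agent.P032.Lt.q R0Q068.q1491_3) (q_cons (Vale.Agent.P032.Lt.q R0Q068.q1491_4) q_nil))))))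

theorem p1492 : Pat 73 73 TBm TCm (CB.map Fm) R0Q068.P1492 R0Q068.I1492 := Vale.Agent.P032.Lt.pat_eq (E' := R0Q068.E) eB (pat_step (by decide +kernel) (q_cons (Vale.Agent.P032.Lt.q R0Q068.q1492_0) (q_cons (Vale.Agent.P032.Lt.q R0Q068.q1492_1) (q_cons (Vale.Agent.P032.Lt.q R0Q068.q1492_2) (q_cons (Vale.Agent.P032.Lt.q R0Q068.q1492_3) (q_cons (Vale.Agent.P032.Lt.q R0Q068.q1492_4) (q_cons (Vale.Agent.P032.Lt.q R0Q068.q1492_5) (q_cons (Vale.Agent.P032.Lt.q R0Q068.q1492_6) (q_cons (Vale.Agent.P032.Lt.q R0Q068.q1492_7) (q_cons (Vale.Agent.P032.Lt.q R0Q068.q1492_8) (q_cons (Vale.Agent.P032.Lt.q R0Q068.q1492_9) (q_cons (Vale.Agent.P032.Lt.q R0Q068.q1492_10) (q_cons (Vale.Agent.P032.Lt.q R0Q068.q1492_11) (q_cons (Vale.Agent.P032.Lt.q R0Q068.q1492_12) (q_cons (Vale.Agent.P032.Lt.q R0Q068.q1492_13) q_nil)))))))))))))))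

theorem p1493 : Pat 73 73 TBm TCm (CB.map Fm) R0Q068.P1493 R0Q068.I1493 := Vale.Agent.P032.Lt.pat_eq (E' := R0Q068.E) eB (pat_step (by decide +kernel) (q_cons (Vale.Agent.P032.Lt.q R0Q068.q1493_0) (q_cons (Vale.Agent.P032.Lt.q R0Q068.q1493_1) (q_cons (Vale.Agent.P032.Lt.q R0Q068.q1493_2) q_nil))))

def C1494 : List ℕ := [0, 4, 8, 12, 16, 20, 24, 476161, 606209]
theorem p1494 : Pat 73 73 TBm TCm (C1494.map Fm) R0Q068.P1494 R0Q068.I1494 := Vale.Agent.P032.Lt.pat_eq (E' := R0Q068.E1494) (by decide +kernel) (pat_step (by decide +kernel) (q_cons (Vale.Agent.P032.Lt.q R0Q068.q1494_0) (q_cons (Vale.Agent.P032.Lt.q R0Q068.q1494_1) (q_cons (Vale.Agent.P032.Lt.q R0Q068.q1494_2) q_nil))))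

def C1495 : List ℕ := [0, 4, 8, 12, 16, 20, 24, 91137, 212993, 344065, 475137, 737281]
theorem p1495 : Pat 73 73 TBm TCm (C1495.map Fm) R0Q068.P1495 R0Q068.I1495 := Vale.Agent.P032.Lt.pat_eq (E' := R0Q068.E1495) (by decide +kernel) (pat_step (by decide +kernel) (q_cons (Vale.Agent.P032.Lt.q R0Q068.q1495_0) (q_cons (Vale.Agent.P032.Lt.q R0Q068.q1495_1) (q_cons (Vale.Agent.P032.Lt.q R0Q068.q1495_2) (q_cons (Vale.Agent.P032.Lt.q R0Q068.q1495_3) (q_cons (Vale.Agent.P032.Lt.q R0Q068.q1495_4) q_nil))))))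

theorem p1496 : Pat 73 73 TBm TCm (CB.map Fm) R0Q068.P1496 R0Q068.I1496 := Vale.Agent.P032.Lt.pat_eq (E' := R0Q068.E) eB (pat_step (by decide +kernel) (q_cons (Vale.Agent.P032.Lt.q R0Q068.q1496_0) (q_cons (Vale.Agent.P032.Lt.q R0Q068.q1496_1) q_nil)))

def C1497 : List ℕ := [0, 4, 8, 12, 16, 20, 24, 609281]
theorem p1497 : Pat 73 73 TBm TCm (C1497.map Fm) R0Q068.P1497 R0Q068.I1497 := Vale.Agent.P032.Lt.pat_eq (E' := R0Q068.E1497) (by decide +kernel) (pat_step (by decide +kernel) (q_cons (Vale.Agent.P032.Lt.q R0Q068.q1497_0) (q_cons (Vale.Agent.P032.Lt.q R0Q068.q1497_1) (q_cons (Vale.Agent.P032.Lt.q R0Q068.q1497_2) (q_cons (Vale.Agent.P032.Lt.q R0Q068.q1497_3) q_nil)))))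

theorem p1498 : Pat 73 73 TBm TCm (CB.map Fm) R0Q068.P1498 R0Q068.I1498 := Vale.Agent.P032.Lt.pat_eq (E' := R0Q068.E) eB (pat_step (by decide +kernel) (q_cons (Vale.Agent.P032.Lt.q R0Q068.q1498_0) (q_cons (Vale.Agent.P032.Lt.q R0Q068.q1498_1) (q_cons (Vale.Agent.P032.Lt.q R0Q068.q1498_2) (q_cons (Vale.Agent.P032.Lt.q R0Q068.q1498_3) (q_cons (Vale.Agent.P032.Lt.q R0Q068.q1498_4) (q_cons (Vale.Agent.P032.Lt.q R0Q068.q1498_5) q_nil)))))))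

theorem p1499 : Pat 73 73 TBm TCm (CB.map Fm) R0Q068.P1499 R0Q068.I1499 := Vale.Agent.P032.Lt.pat_eq (E' := R0Q068.E) eB (pat_step (by decide +kernel) (q_cons (Vale.Agent.P032.Lt.q R0Q068.q1499_0) (q_cons (Vale.Agent.P032.Lt.q R0Q068.q1499_1) (q_cons (Vale.Agent.P032.Lt.q R0Q068.q1499_2) (q_cons (Vale.Agent.P032.Lt.q R0Q068.q1499_3) (q_cons (Vale.Agent.P032.Lt.q R0Q068.q1499_4) q_nil))))))

theorem p1500 : Pat 73 73 TBm TCm (CB.map Fm) R0Q068.P1500 R0Q068.I1500 := Vale.Agent.P032.Lt.pat_eq (E' := R0Q068.E) eB (pat_step (by decide +kernel) (q_cons (Vale.Agent.P032.Lt.q R0Q068.q1500_0) (q_cons (Vale.Agent.P032.Lt.q R0Q068.q1500_1) (q_cons (Vale.Agent.P032.Lt.q R0Q068.q1500_2) q_nil))))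

def C1501 : List ℕ := [0, 4, 8, 12, 16, 20, 24, 475137, 606209, 737281]
theorem p1501 : Pat 73 73 TBm TCm (C1501.map Fm) R0Q068.P1501 R0Q068.I1501 := Vale.Agent.P032.Lt.pat_eq (E' := R0Q068.E1501) (by decide +kernel) (pat_step (by decide +kernel) (q_cons (Vale.Agent.P032.Lt.q R0Q068.q1501_0) (q_cons (Vale.Agent.P032.Lt.q R0Q068.q1501_1) (q_cons (Vale.Agent.P032.Lt.q R0Q068.q1501_2) (q_cons (Vale.Agent.P032.Lt.q R0Q068.q1501_3) (q_cons (Vale.Agent.P032.Lt.q R0Q068.q1501_4) (q_cons (Vale.Agent.P032.Lt.q R0Q068.q1501_5) q_nil)))))))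

def C1502 : List ℕ := [0, 4, 8, 12, 16, 20, 24, 606209, 737281]
theorem p1502 : Pat 73 73 TBm TCm (C1502.map Fm) R0Q068.P1502 R0Q068.I1502 := Vale.Agent.P032.Lt.pat_eq (E' := R0Q068.E1502) (by decide +kernel) (pat_step (by decide +kernel) (q_cons (Vale.Agent.P032.Lt.q R0Q068.q1502_0) (q_cons (Vale.Agent.P032.Lt.q R0Q068.q1502_1) (q_cons (Vale.Agent.P032.Lt.q R0Q068.q1502_2) (q_cons (Vale.Agent.P032.Lt.q R0Q068.q1502_3) (q_cons (Vale.Agent.P032.Lt.q R0Q068.q1502_4) q_nil))))))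

theorem p1503 : Pat 73 73 TBm TCm (CB.map Fm) R0Q068.P1503 R0Q068.I1503 := Vale.Agent.P032.Lt.pat_eq (E' := R0Q068.E) eB (pat_step (by decide +kernel) (q_cons (Vale.Agent.P032.Lt.q R0Q068.q1503_0) (q_cons (Vale.Agent.P032.Lt.q R0Q068.q1503_1) (q_cons (Vale.Agent.P032.Lt.q R0Q068.q1503_2) (q_cons (Vale.Agent.P032.Lt.q R0Q068.q1503_3) (q_cons (Vale.Agent.P032.Lt.q R0Q068.q1503_4) (q_cons (Vale.Agent.P032.Lt.q R0Q068.q1503_5) (q_cons (Vale.Agent.P032.Lt.q R0Q068.q1503_6) (q_cons (Vale.Agent.P032.Lt.q R0Q068.q1503_7) (q_cons (Vale.Agent.P032.Lt.q R0Q068.q1503_8) (q_cons (Vale.Agent.P032.Lt.q R0Q068.q1503_9) (q_cons (Vale.Agent.P032.Lt.q R0Q068.q1503_10) (q_cons (Vale.Agent.P032.Lt.q R0Q068.q1503_11) (q_cons (Vale.Agent.P032.Lt.q R0Q068.q1503_12) q_nil))))))))))))))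

theorem p1504 : Pat 73 73 TBm TCm (CB.map Fm) R0Q068.P1504 R0Q068.I1504 := Vale.Agent.P032.Lt.pat_eq (E' := R0Q068.E) eB (pat_step (by decide +kernel) (q_cons (Vale.Agent.P032.Lt.q R0Q068.q1504_0) (q_cons (Vale.Agent.P032.Lt.q R0Q068.q1504_1) (q_cons (Vale.Agent.P032.Lt.q R0Q068.q1504_2) (q_cons (Vale.Agent.P032.Lt.q R0Q068.q1504_3) (q_cons (Vale.Agent.P032.Lt.q R0Q068.q1504_4) (q_cons (Vale.Agent.P032.Lt.q R0Q068.q1504_5) (q_cons (Vale.Agent.P032.Lt.q R0Q068.q1504_6) (q_cons (Vale.Agent.P032.Lt.q R0Q068.q1504_7) q_nil)))))))))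

theorem p1505 : Pat 73 73 TBm TCm (CB.map Fm) R0Q068.P1505 R0Q068.I1505 := Vale.Agent.P032.Lt.pat_eq (E' := R0Q068.E) eB (pat_step (by decide +kernel) (q_cons (Vale.Agent.P032.Lt.q R0Q068.q1505_0) (q_cons (Vale.Agent.P032.Lt.q R0Q068.q1505_1) (q_cons (Vale.Agent.P032.Lt.q R0Q068.q1505_2) (q_cons (Vale.Agent.P032.Lt.q R0Q068.q1505_3) (q_cons (Vale.Agent.P032.Lt.q R0Q068.q1505_4) (q_cons (Vale.Agent.P032.Lt.q R0Q068.q1505_5) (q_cons (Vale.Agent.P032.Lt.q R0Q068.q1505_6) (q_cons (Vale.Agent.P032.Lt.q R0Q068.q1505_7) q_nil)))))))))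

theorem p1506 : Pat 73 73 TBm TCm (CB.map Fm) R0Q069.P1506 R0Q069.I1506 := Vale.Agent.P032.Lt.pat_eq (E' := R0Q069.E) eB (pat_step (by decide +kernel) (q_cons (Vale.Agent.P032.Lt.q R0Q069.q1506_0) (q_cons (Vale.Agent.P032.Lt.q R0Q069.q1506_1) (q_cons (Vale.Agent.P032.Lt.q R0Q069.q1506_2) (q_cons (Vale.Agent.P032.Lt.q R0Q069.q1506_3) (q_cons (Vale.Agent.P032.Lt.q R0Q069.q1506_4) (q_cons (Vale.Agent.P032.Lt.q R0Q069.q1506_5) q_nil)))))))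

theorem p1507 : Pat 73 73 TBm TCm (CB.map Fm) R0Q069.P1507 R0Q069.I1507 := Vale.Agent.P032.Lt.pat_eq (E' := R0Q069.E) eB (pat_step (by decide +kernel) (q_cons (Vale.Agent.P032.Lt.q R0Q069.q1507_0) (q_cons (Vale.Agent.P032.Lt.q R0Q069.q1507_1) (q_cons (Vale.Agent.P032.Lt.q R0Q069.q1507_2) q_nil))))

def C1508 : List ℕ := [0, 4, 8, 12, 16, 20, 24, 344065, 354305, 475137, 616449]
theorem p1508 : Pat 73 73 TBm TCm (C1508.map Fm) R0Q069.P1508 R0Q069.I1508 := Vale.Agent.P032.Lt.pat_eq (E' := R0Q069.E1508) (by decide +kernel) (pat_step (by decide +kernel) (q_cons (Vale.Agent.P032.Lt.q R0Q069.q1508_0) (q_cons (Vale.Agent.P032.Lt.q R0Q069.q1508_1) q_nil)))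

theorem p1509 : Pat 73 73 TBm TCm (CB.map Fm) R0Q069.P1509 R0Q069.I1509 := Vale.Agent.P032.Lt.pat_eq (E' := R0Q069.E) eB (pat_step (by decide +kernel) (q_cons (Vale.Agent.P032.Lt.q R0Q069.q1509_0) (q_cons (Vale.Agent.P032.Lt.q R0Q069.q1509_1) (q_cons (Vale.Agent.P032.Lt.q R0Q069.q1509_2) (q_cons (Vale.Agent.P032.Lt.q R0Q069.q1509_3) (q_cons (Vale.Agent.P032.Lt.q R0Q069.q1509_4) (q_cons (Vale.Agent.P032.Lt.q R0Q069.q1509_5) (q_cons (Vale.Agent.P032.Lt.q R0Q069.q1509_6) (q_cons (Vale.Agent.P032.Lt.q R0Q069.q1509_7) (q_cons (Vale.Agent.P032.Lt.q R0Q069.q1509_8) (q_cons (Vale.Agent.P032.Lt.q R0Q069.q1509_9) (q_cons (Vale.Agent.P032.Lt.q R0Q069.q1509_10) (q_cons (Vale.Agent.P032.Lt.q R0Q069.q1509_11) (q_cons (Vale.Agent.P032.Lt.q R0Q069.q1509_12) (q_cons (Vale.Agent.P032.Lt.q R0Q069.q1509_13) (q_cons (Vale.Agent.P032.Lt.q R0Q069.q1509_14) (q_cons (Vale.Agent.P032.Lt.q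 R0Q069.q1509_15) (q_cons (Vale.Agent.P032.Lt.q R0Q069.q1509_16) (q_cons (Vale.Agent.P032.Lt.q R0Q069.q1509_17) (q_cons (Vale.Agent.P032.Lt.q R0Q069.q1509_18) (q_cons (Vale.Agent.P032.Lt.q R0Q069.q1509_19) (q_cons (Vale.Agent.P032.Lt.q R0Q069.q1509_20) (q_cons (Vale.Agent.P032.Lt.q R0Q069.q1509_21) (q_cons (Vale.Agent.P032.Lt.q R0Q069.q1509_22) (q_cons (Vale.Agent.P032.Lt.q R0Q069.q1509_23) (q_cons (Vale.Agent.P032.Lt.q R0Q069.q1509_24) (q_cons (Vale.Agent.P032.Lt.q R0Q069.q1509_25) (q_cons (Vale.Agent.P032.Lt.q R0Q069.q1509_26) (q_cons (Vale.Agent.P032.Lt.q R0Q069.q1509_27) q_nil)))))))))))))))))))))))))))))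

theorem p1510 : Pat 73 73 TBm TCm (CB.map Fm) R0Q069.P1510 R0Q069.I1510 := Vale.Agent.P032.Lt.pat_eq (E' := R0Q069.E) eB (pat_step (by decide +kernel) (q_cons (Vale.Agent.P032.Lt.q R0Q069.q1510_0) (q_cons (Vale.Agent.P032.Lt.q R0Q069.q1510_1) (q_cons (Vale.Agent.P032.Lt.q R0Q069.q1510_2) (q_cons (Vale.Agent.P032.Lt.q R0Q069.q1510_3) (q_cons (Vale.Agent.P032.Lt.q R0Q069.q1510_4) (q_cons (Vale.Agent.P032.Lt.q R0Q069.q1510_5) (q_cons (Vale.Agent.P032.Lt.q R0Q069.q1510_6) (q_cons (Vale.Agent.P032.Lt.q R0Q069.q1510_7) (q_cons (Vale.Agent.P032.Lt.q R0Q069.q1510_8) (q_cons (Vale.Agent.P032.Lt.q R0Q069.q1510_9) (q_cons (Vale.Agent.P032.Lt.q R0Q069.q1510_10) (q_cons (Vale.Agent.P032.Lt.q R0Q069.q1510_11) (q_cons (Vale.Agent.P032.Lt.q R0Q069.q1510_12) (q_cons (Vale.Agent.P032.Lt.q R0Q069.q1510_13) (q_cons (Vale.Agent.P032.Lt.q R0Q069.q1510_14) q_nil))))))))))))))))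

theorem p1511 : Pat 73 73 TBm TCm (CB.map Fm) R0Q069.P1511 R0Q069.I1511 := Vale.Agent.P032.Lt.pat_eq (E' := R0Q069.E) eB (pat_step (by decide +kernel) (q_cons (Vale.Agent.P032.Lt.q R0Q069.q1511_0) (q_cons (Vale.Agent.P032.Lt.q R0Q069.q1511_1) (q_cons (Vale.Agent.P032.Lt.q R0Q069.q1511_2) (q_cons (Vale.Agent.P032.Lt.q R0Q069.q1511_3) q_nil)))))

def C1512 : List ℕ := [0, 4, 8, 12, 16, 20, 24, 613377]
theorem p1512 : Pat 73 73 TBm TCm (C1512.map Fm) R0Q069.P1512 R0Q069.I1512 := Vale.Agent.P032.Lt.pat_eq (E' := R0Q069.E1512) (by decide +kernel) (pat_step (by decide +kernel) (q_cons (Vale.Agent.P032.Lt.q R0Q069.q1512_0) (q_cons (Vale.Agent.P032.Lt.q R0Q069.q1512_1) (q_cons (Vale.Agent.P032.Lt.q R0Q069.q1512_2) (q_cons (Vale.Agent.P032.Lt.q R0Q069.q1512_3) q_nil)))))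

theorem p1513 : Pat 73 73 TBm TCm (CB.map Fm) R0Q069.P1513 R0Q069.I1513 := Vale.Agent.P032.Lt.pat_eq (E' := R0Q069.E) eB (pat_step (by decide +kernel) (q_cons (Vale.Agent.P032.Lt.q R0Q069.q1513_0) (q_cons (Vale.Agent.P032.Lt.q R0Q069.q1513_1) (q_cons (Vale.Agent.P032.Lt.q R0Q069.q1513_2) (q_cons (Vale.Agent.P032.Lt.q R0Q069.q1513_3) (q_cons (Vale.Agent.P032.Lt.q R0Q069.q1513_4) (q_cons (Vale.Agent.P032.Lt.q R0Q069.q1513_5) (q_cons (Vale.Agent.P032.Lt.q R0Q069.q1513_6) (q_cons (Vale.Agent.P032.Lt.q R0Q069.q1513_7) (q_cons (Vale.Agent.P032.Lt.q R0Q069.q1513_8) (q_cons (Vale.Agent.P032.Lt.q R0Q069.q1513_9) (q_cons (Vale.Agent.P032.Lt.q R0Q069.q1513_10) (q_cons (Vale.Agent.P032.Lt.q R0Q069.q1513_11) (q_cons (Vale.Agent.P032.Lt.q R0Q069.q1513_12) (q_cons (Vale.Agent.P032.Lt.q R0Q069.q1513_13) (q_cons (Vale.Agent.P032.Lt.q R0Q069.q1513_14) (q_cons (Vale.Agent.P032.Lt.q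 R0Q069.q1513_15) (q_cons (Vale.Agent.P032.Lt.q R0Q069.q1513_16) (q_cons (Vale.Agent.P032.Lt.q R0Q069.q1513_17) (q_cons (Vale.Agent.P032.Lt.q R0Q069.q1513_18) (q_cons (Vale.Agent.P032.Lt.q R0Q069.q1513_19) (q_cons (Vale.Agent.P032.Lt.q R0Q069.q1513_20) q_nil))))))))))))))))))))))

theorem p1514 : Pat 73 73 TBm TCm (CB.map Fm) R0Q069.P1514 R0Q069.I1514 := Vale.Agent.P032.Lt.pat_eq (E' := R0Q069.E) eB (pat_step (by decide +kernel) (q_cons (Vale.Agent.P032.Lt.q R0Q069.q1514_0) q_nil))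

theorem p1515 : Pat 73 73 TBm TCm (CB.map Fm) R0Q069.P1515 R0Q069.I1515 := Vale.Agent.P032.Lt.pat_eq (E' := R0Q069.E) eB (pat_step (by decide +kernel) (q_cons (Vale.Agent.P032.Lt.q R0Q069.q1515_0) q_nil))

theorem p1516 : Pat 73 73 TBm TCm (CB.map Fm) R0Q069.P1516 R0Q069.I1516 := Vale.Agent.P032.Lt.pat_eq (E' := R0Q069.E) eB (pat_step (by decide +kernel) (q_cons (Vale.Agent.P032.Lt.q R0Q069.q1516_0) q_nil))

theorem p1517 : Pat 73 73 TBm TCm (CB.map Fm) R0Q069.P1517 R0Q069.I1517 := Vale.Agent.P032.Lt.pat_eq (E' := R0Q069.E) eB (pat_step (by decide +kernel) (q_cons (Vale.Agent.P032.Lt.q R0Q069.q1517_0) (q_cons (Vale.Agent.P032.Lt.q R0Q069.q1517_1) (q_cons (Vale.Agent.P032.Lt.q R0Q069.q1517_2) (q_cons (Vale.Agent.P032.Lt.q R0Q069.q1517_3) (q_cons (Vale.Agent.P032.Lt.q R0Q069.q1517_4) (q_cons (Vale.Agent.P032.Lt.q R0Q069.q1517_5) (q_cons (Vale.Agent.P032.Lt.q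 R0Q069.q1517_6) q_nil))))))))

theorem p1518 : Pat 73 73 TBm TCm (CB.map Fm) R0Q069.P1518 R0Q069.I1518 := Vale.Agent.P032.Lt.pat_eq (E' := R0Q069.E) eB (pat_step (by decide +kernel) (q_cons (Vale.Agent.P032.Lt.q R0Q069.q1518_0) (q_cons (Vale.Agent.P032.Lt.q R0Q069.q1518_1) (q_cons (Vale.Agent.P032.Lt.q R0Q069.q1518_2) (q_cons (Vale.Agent.P032.Lt.q R0Q069.q1518_3) (q_cons (Vale.Agent.P032.Lt.q R0Q069.q1518_4) q_nil))))))

theorem p1519 : Pat 73 73 TBm TCm (CB.map Fm) R0Q069.P1519 R0Q069.I1519 := Vale.Agent.P032.Lt.pat_eq (E' := R0Q069.E) eB (pat_step (by decide +kernel) (q_cons (Vale.Agent.P032.Lt.q R0Q069.q1519_0) q_nil))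

theorem p1520 : Pat 73 73 TBm TCm (CB.map Fm) R0Q069.P1520 R0Q069.I1520 := Vale.Agent.P032.Lt.pat_eq (E' := R0Q069.E) eB (pat_step (by decide +kernel) (q_cons (Vale.Agent.P032.Lt.q R0Q069.q1520_0) (q_cons (Vale.Agent.P032.Lt.q R0Q069.q1520_1) (q_cons (Vale.Agent.P032.Lt.q R0Q069.q1520_2) (q_cons (Vale.Agent.P032.Lt.q R0Q069.q1520_3) (q_cons (Vale.Agent.P032.Lt.q R0Q069.q1520_4) (q_cons (Vale.Agent.P032.Lt.q R0Q069.q1520_5) q_nil)))))))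

theorem p1521 : Pat 73 73 TBm TCm (CB.map Fm) R0Q069.P1521 R0Q069.I1521 := Vale.Agent.P032.Lt.pat_eq (E' := R0Q069.E) eB (pat_step (by decide +kernel) (q_cons (Vale.Agent.P032.Lt.q R0Q069.q1521_0) (q_cons (Vale.Agent.P032.Lt.q R0Q069.q1521_1) (q_cons (Vale.Agent.P032.Lt.q R0Q069.q1521_2) (q_cons (Vale.Agent.P032.Lt.q R0Q069.q1521_3) (q_cons (Vale.Agent.P032.Lt.q R0Q069.q1521_4) (q_cons (Vale.Agent.P032.Lt.q R0Q069.q1521_5) q_nil)))))))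

theorem p1522 : Pat 73 73 TBm TCm (CB.map Fm) R0Q069.P1522 R0Q069.I1522 := Vale.Agent.P032.Lt.pat_eq (E' := R0Q069.E) eB (pat_step (by decide +kernel) (q_cons (Vale.Agent.P032.Lt.q R0Q069.q1522_0) (q_cons (Vale.Agent.P032.Lt.q R0Q069.q1522_1) (q_cons (Vale.Agent.P032.Lt.q R0Q069.q1522_2) (q_cons (Vale.Agent.P032.Lt.q R0Q069.q1522_3) (q_cons (Vale.Agent.P032.Lt.q R0Q069.q1522_4) (q_cons (Vale.Agent.P032.Lt.q R0Q069.q1522_5) (q_cons (Vale.Agent.P032.Lt.q R0Q069.q1522_6) (q_cons (Vale.Agent.P032.Lt.q R0Q069.q1522_7) (q_cons (Vale.Agent.P032.Lt.q R0Q069.q1522_8) (q_cons (Vale.Agent.P032.Lt.q R0Q069.q1522_9) (q_cons (Vale.Agent.P032.Lt.q R0Q069.q1522_10) (q_cons (Vale.Agent.P032.Lt.q R0Q069.q1522_11) (q_cons (Vale.Agent.P032.Lt.q R0Q069.q1522_12) (q_cons (Vale.Agent.P032.Lt.q R0Q069.q1522_13) (q_cons (Vale.Agent.P032.Lt.q R0Q069.q1522_14) q_nil))))))))))))))))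

theorem p1523 : Pat 73 73 TBm TCm (CB.map Fm) R0Q069.P1523 R0Q069.I1523 := Vale.Agent.P032.Lt.pat_eq (E' := R0Q069.E) eB (pat_step (by decide +kernel) (q_cons (Vale.Agent.P032.Lt.q R0Q069.q1523_0) (q_cons (Vale.Agent.P032.Lt.q R0Q069.q1523_1) (q_cons (Vale.Agent.P032.Lt.q R0Q069.q1523_2) (q_cons (Vale.Agent.P032.Lt.q R0Q069.q1523_3) q_nil)))))

theorem p1524 : Pat 73 73 TBm TCm (CB.map Fm) R0Q070.P1524 R0Q070.I1524 := Vale.Agent.P032.Lt.pat_eq (E' := R0Q070.E) eB (pat_step (by decide +kernel) (q_cons (Vale.Agent.P032.Lt.q R0Q070.q1524_0) (q_cons (Vale.Agent.P032.Lt.q R0Q070.q1524_1) (q_cons (Vale.Agent.P032.Lt.q R0Q070.q1524_2) (q_cons (Vale.Agent.P032.Lt.q R0Q070.q1524_3) q_nil)))))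

theorem p1525 : Pat 73 73 TBm TCm (CB.map Fm) R0Q070.P1525 R0Q070.I1525 := Vale.Agent.P032.Lt.pat_eq (E' := R0Q070.E) eB (pat_step (by decide +kernel) (q_cons (Vale.Agent.P032.Lt.q R0Q070.q1525_0) (q_cons (Vale.Agent.P032.Lt.q R0Q070.q1525_1) q_nil)))

theorem p1526 : Pat 73 73 TBm TCm (CB.map Fm) R0Q070.P1526 R0Q070.I1526 := Vale.Agent.P032.Lt.pat_eq (E' := R0Q070.E) eB (pat_step (by decide +kernel) (q_cons (Vale.Agent.P032.Lt.q R0Q070.q1526_0) (q_cons (Vale.Agent.P032.Lt.q R0Q070.q1526_1) q_nil)))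

theorem p1527 : Pat 73 73 TBm TCm (CB.map Fm) R0Q070.P1527 R0Q070.I1527 := Vale.Agent.P032.Lt.pat_eq (E' := R0Q070.E) eB (pat_step (by decide +kernel) (q_cons (Vale.Agent.P032.Lt.q R0Q070.q1527_0) (q_cons (Vale.Agent.P032.Lt.q R0Q070.q1527_1) (q_cons (Vale.Agent.P032.Lt.q R0Q070.q1527_2) (q_cons (Vale.Agent.P032.Lt.q R0Q070.q1527_3) (q_cons (Vale.Agent.P032.Lt.q R0Q070.q1527_4) (q_cons (Vale.Agent.P032.Lt.q R0Q070.q1527_5) (q_cons (Vale.Agent.P032.Lt.q R0Q070.q1527_6) (q_cons (Vale.Agent.P032.Lt.q R0Q070.q1527_7) (q_cons (Vale.Agent.P032.Lt.q R0Q070.q1527_8) (q_cons (Vale.Agent.P032.Lt.q R0Q070.q1527_9) (q_cons (Vale.Agent.P032.Lt.q R0Q070.q1527_10) (q_cons (Vale.Agent.P032.Lt.q R0Q070.q1527_11) (q_cons (Vale.Agent.P032.Lt.q R0Q070.q1527_12) q_nil))))))))))))))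

theorem p1528 : Pat 73 73 TBm TCm (CB.map Fm) R0Q070.P1528 R0Q070.I1528 := Vale.Agent.P032.Lt.pat_eq (E' := R0Q070.E) eB (pat_step (by decide +kernel) (q_cons (Vale.Agent.P032.Lt.q R0Q070.q1528_0) (q_cons (Vale.Agent.P032.Lt.q R0Q070.q1528_1) q_nil)))

theorem p1529 : Pat 73 73 TBm TCm (CB.map Fm) R0Q070.P1529 R0Q070.I1529 := Vale.Agent.P032.Lt.pat_eq (E' := R0Q070.E) eB (pat_step (by decide +kernel) (q_cons (Vale.Agent.P032.Lt.q R0Q070.q1529_0) (q_cons (Vale.Agent.P032.Lt.q R0Q070.q1529_1) q_nil)))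

theorem p1530 : Pat 73 73 TBm TCm (CB.map Fm) R0Q070.P1530 R0Q070.I1530 := Vale.Agent.P032.Lt.pat_eq (E' := R0Q070.E) eB (pat_step (by decide +kernel) (q_cons (Vale.Agent.P032.Lt.q R0Q070.q1530_0) (q_cons (Vale.Agent.P032.Lt.q R0Q070.q1530_1) (q_cons (Vale.Agent.P032.Lt.q R0Q070.q1530_2) q_nil))))

def C1531 : List ℕ := [0, 4, 8, 12, 16, 20, 24, 475137, 611329]
theorem p1531 : Pat 73 73 TBm TCm (C1531.map Fm) R0Q070.P1531 R0Q070.I1531 := Vale.Agent.P032.Lt.pat_eq (E' := R0Q070.E1531) (by decide +kernel) (pat_step (by decide +kernel) (q_cons (Vale.Agent.P032.Lt.q R0Q070.q1531_0) (q_cons (Vale.Agent.P032.Lt.q R0Q070.q1531_1) (q_cons (Vale.Agent.P032.Lt.q R0Q070.q1531_2) (q_cons (Vale.Agent.P032.Lt.q R0Q070.q1531_3) (q_cons (Vale.Agent.P032.Lt.q R0Q070.q1531_4) q_nil))))))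

theorem p1532 : Pat 73 73 TBm TCm (CB.map Fm) R0Q070.P1532 R0Q070.I1532 := Vale.Agent.P032.Lt.pat_eq (E' := R0Q070.E) eB (pat_step (by decide +kernel) (q_cons (Vale.Agent.P032.Lt.q R0Q070.q1532_0) q_nil))

theorem p1533 : Pat 73 73 TBm TCm (CB.map Fm) R0Q070.P1533 R0Q070.I1533 := Vale.Agent.P032.Lt.pat_eq (E' := R0Q070.E) eB (pat_step (by decide +kernel) (q_cons (Vale.Agent.P032.Lt.q R0Q070.q1533_0) (q_cons (Vale.Agent.P032.Lt.q R0Q070.q1533_1) (q_cons (Vale.Agent.P032.Lt.q R0Q070.q1533_2) (q_cons (Vale.Agent.P032.Lt.q R0Q070.q1533_3) q_nil)))))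

theorem p1534 : Pat 73 73 TBm TCm (CB.map Fm) R0Q070.P1534 R0Q070.I1534 := Vale.Agent.P032.Lt.pat_eq (E' := R0Q070.E) eB (pat_step (by decide +kernel) (q_cons (Vale.Agent.P032.Lt.q R0Q070.q1534_0) (q_cons (Vale.Agent.P032.Lt.q R0Q070.q1534_1) (q_cons (Vale.Agent.P032.Lt.q R0Q070.q1534_2) (q_cons (Vale.Agent.P032.Lt.q R0Q070.q1534_3) (q_cons (Vale.Agent.P032.Lt.q R0Q070.q1534_4) (q_cons (Vale.Agent.P032.Lt.q R0Q070.q1534_5) q_nil)))))))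

theorem p1535 : Pat 73 73 TBm TCm (CB.map Fm) R0Q070.P1535 R0Q070.I1535 := Vale.Agent.P032.Lt.pat_eq (E' := R0Q070.E) eB (pat_step (by decide +kernel) (q_cons (Vale.Agent.P032.Lt.q R0Q070.q1535_0) (q_cons (Vale.Agent.P032.Lt.q R0Q070.q1535_1) (q_cons (Vale.Agent.P032.Lt.q R0Q070.q1535_2) (q_cons (Vale.Agent.P032.Lt.q R0Q070.q1535_3) q_nil)))))

def L : List (List ℕ) := [R0Q065.P1408, R0Q065.P1409, R0Q065.P1410, R0Q065.P1411, R0Q065.P1412, R0Q065.P1413, R0Q065.P1414, R0Q065.P1415, R0Q065.P1416, R0Q065.P1417, R0Q065.P1418, R0Q065.P1419, R0Q065.P1420, R0Q065.P1421, R0Q065.P1422, R0Q065.P1423, R0Q065.P1424, R0Q065.P1425, R0Q065.P1426, R0Q065.P1427, R0Q065.P1428, R0Q065.P1429, R0Q065.P1430, R0Q066.P1431, R0Q066.P1432, R0Q066.P1433, R0Q066.P1434, R0Q066.P1435, R0Q066.P1436, R0Q066.P1437, R0Q066.P1438, R0Q066.P1439, R0Q066.P1440, R0Q066.P1441, R0Q066.P1442,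 R0Q066.P1443, R0Q066.P1444, R0Q066.P1445, R0Q066.P1446, R0Q066.P1447, R0Q066.P1448, R0Q066.P1449, R0Q066.P1450, R0Q067.P1451, R0Q067.P1452, R0Q067.P1453, R0Q067.P1454, R0Q067.P1455, R0Q067.P1456, R0Q067.P1457, R0Q067.P1458, R0Q067.P1459, R0Q067.P1460, R0Q067.P1461, R0Q067.P1462, R0Q067.P1463, R0Q067.P1464, R0Q067.P1465, R0Q067.P1466, R0Q067.P1467, R0Q067.P1468, R0Q067.P1469, R0Q067.P1470, R0Q067.P1471, R0Q067.P1472, R0Q067.P1473, R0Q067.P1474, R0Q067.P1475, R0Q067.P1476, R0Q067.P1477, R0Q067.P1478, R0Q067.P1479, R0Q067.P1480, R0Q068.P1481, R0Q068.P1482, R0Q068.P1483, R0Q068.P1484, R0Q068.P1485, R0Q068.P1486, R0Q068.P1487, R0Q068.P1488, R0Q068.P1489, R0Q068.P1490, R0Q068.P1491, R0Q068.P1492, R0Q068.P1493, R0Q068.P1494, R0Q068.P1495, R0Q068.P1496, R0Q068.P1497, R0Q068.P1498, R0Q068.P1499, R0Q068.P1500, R0Q068.P1501, R0Q068.P1502, R0Q068.P1503, R0Q068.P1504,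 R0Q068.P1505, R0Q069.P1506, R0Q069.P1507, R0Q069.P1508, R0Q069.P1509, R0Q069.P1510, R0Q069.P1511, R0Q069.P1512, R0Q069.P1513, R0Q069.P1514, R0Q069.P1515, R0Q069.P1516, R0Q069.P1517, R0Q069.P1518, R0Q069.P1519, R0Q069.P1520, R0Q069.P1521, R0Q069.P1522, R0Q069.P1523, R0Q070.P1524, R0Q070.P1525, R0Q070.P1526, R0Q070.P1527, R0Q070.P1528, R0Q070.P1529, R0Q070.P1530, R0Q070.P1531, R0Q070.P1532, R0Q070.P1533, R0Q070.P1534, R0Q070.P1535]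

theorem all : ∀ P ∈ L, CrtF 73 73 TBm TCm (Vale.Agent.P032.Fam.fam2 (Vale.Agent.P032.Fam.im0)) P := crtF_cons p1408 (crtF_cons p1409 (crtF_cons p1410 (crtF_cons p1411 (crtF_cons p1412 (crtF_cons p1413 (crtF_cons p1414 (crtF_cons p1415 (crtF_cons p1416 (crtF_cons p1417 (crtF_cons p1418 (crtF_cons p1419 (crtF_cons p1420 (crtF_cons p1421 (crtF_cons p1422 (crtF_cons p1423 (crtF_cons p1424 (crtF_cons p1425 (crtF_cons p1426 (crtF_cons p1427 (crtF_cons p1428 (crtF_cons p1429 (crtF_cons p1430 (crtF_cons p1431 (crtF_cons p1432 (crtF_cons p1433 (crtF_cons p1434 (crtF_cons p1435 (crtF_cons p1436 (crtF_cons p1437 (crtF_cons p1438 (crtF_cons p1439 (crtF_cons p1440 (crtF_cons p1441 (crtF_cons p1442 (crtF_cons p1443 (crtF_cons p1444 (crtF_cons p1445 (crtF_cons p1446 (crtF_cons p1447 (crtF_cons p1448 (crtF_cons p1449 (crtF_cons p1450 (crtF_cons p1451 (crtF_cons p1452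 (crtF_cons p1453 (crtF_cons p1454 (crtF_cons p1455 (crtF_cons p1456 (crtF_cons p1457 (crtF_cons p1458 (crtF_cons p1459 (crtF_cons p1460 (crtF_cons p1461 (crtF_cons p1462 (crtF_cons p1463 (crtF_cons p1464 (crtF_cons p1465 (crtF_cons p1466 (crtF_cons p1467 (crtF_cons p1468 (crtF_cons p1469 (crtF_cons p1470 (crtF_cons p1471 (crtF_cons p1472 (crtF_cons p1473 (crtF_cons p1474 (crtF_cons p1475 (crtF_cons p1476 (crtF_cons p1477 (crtF_cons p1478 (crtF_cons p1479 (crtF_cons p1480 (crtF_cons p1481 (crtF_cons p1482 (crtF_cons p1483 (crtF_cons p1484 (crtF_cons p1485 (crtF_cons p1486 (crtF_cons p1487 (crtF_cons p1488 (crtF_cons p1489 (crtF_cons p1490 (crtF_cons p1491 (crtF_cons p1492 (crtF_cons p1493 (crtF_cons p1494 (crtF_cons p1495 (crtF_cons p1496 (crtF_cons p1497 (crtF_cons p1498 (crtF_cons p1499 (crtF_cons p1500 (crtF_cons p1501 (crtF_cons p1502 (crtF_cons p1503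 (crtF_cons p1504 (crtF_cons p1505 (crtF_cons p1506 (crtF_cons p1507 (crtF_cons p1508 (crtF_cons p1509 (crtF_cons p1510 (crtF_cons p1511 (crtF_cons p1512 (crtF_cons p1513 (crtF_cons p1514 (crtF_cons p1515 (crtF_cons p1516 (crtF_cons p1517 (crtF_cons p1518 (crtF_cons p1519 (crtF_cons p1520 (crtF_cons p1521 (crtF_cons p1522 (crtF_cons p1523 (crtF_cons p1524 (crtF_cons p1525 (crtF_cons p1526 (crtF_cons p1527 (crtF_cons p1528 (crtF_cons p1529 (crtF_cons p1530 (crtF_cons p1531 (crtF_cons p1532 (crtF_cons p1533 (crtF_cons p1534 (crtF_cons p1535 crtF_nil)))))))))))))))))))))))))))))))))))))))))))))))))))))))))))))))))))))))))))))))))))))))))))))))))))))))))))))))))))))))))))))))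

theorem ch : chT 73 73 TCm s0_011 L = true := by decide +kernel

end Vale.Agent.P032X.Cert.XP.B1.R0H011
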