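import Vale.Agent.P032X.H892.LtH
import Vale.Agent.P032X.H286.W73
import Vale.Agent.P032X.Cert.XP.B1.R0T
import Vale.Agent.P032X.Cert.XP.B1.R0Q071
import Vale.Agent.P032X.Cert.XP.B1.R0Q072
import Vale.Agent.P032X.Cert.XP.B1.R0Q073
import Vale.Agent.P032X.Cert.XP.B1.R0Q074
import Vale.Agent.P032X.Cert.XP.B1.R0Q075

set_option maxRecDepth 1000000

namespace Vale.Agent.P032X.Cert.XP.B1.R0H012

open Vale.Agent.P032.H820.K Vale.Agent.P032.H357.MK Vale.Agent.P032.H286.E Vale.Agent.P032.H61 Vale.Agent.P032X.Cert.XP.B1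

noncomputable abbrev Fm : ℕ → List ℕ := Vale.Agent.P032.Fam.fam2 (Vale.Agent.P032.Fam.im0)

def CB : List ℕ := [0, 4, 8, 12, 16, 20, 24]

theorem eB : Vale.Agent.P032.Lt.eqLL (CB.map Fm) R0Q071.E = true := by decide +kernel

theorem p1536 : Pat 73 73 TBm TCm (CB.map Fm) R0Q071.P1536 R0Q071.I1536 := Vale.Agent.P032.Lt.pat_eq (E' := R0Q071.E) eB (pat_step (by decide +kernel) (q_cons (Vale.Agent.P032.Lt.q R0Q071.q1536_0) q_nil))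

theorem p1537 : Pat 73 73 TBm TCm (CB.map Fm) R0Q071.P1537 R0Q071.I1537 := Vale.Agent.P032.Lt.pat_eq (E' := R0Q071.E) eB (pat_step (by decide +kernel) (q_cons (Vale.Agent.P032.Lt.q R0Q071.q1537_0) q_nil))

theorem p1538 : Pat 73 73 TBm TCm (CB.map Fm) R0Q071.P1538 R0Q071.I1538 := Vale.Agent.P032.Lt.pat_eq (E' := R0Q071.E) eB (pat_step (by decide +kernel) (q_cons (Vale.Agent.P032.Lt.q R0Q071.q1538_0) q_nil))

theorem p1539 : Pat 73 73 TBm TCm (CB.map Fm) R0Q071.P1539 R0Q071.I1539 := Vale.Agent.P032.Lt.pat_eq (E' := R0Q071.E) eB (pat_step (by decide +kernel) (q_cons (Vale.Agent.P032.Lt.q R0Q071.q1539_0) (q_cons (Vale.Agent.P032.Lt.q R0Q071.q1539_1) (q_cons (Vale.Agent.P032.Lt.q R0Q071.q1539_2) (q_cons (Vale.Agent.P032.Lt.q R0Q071.q1539_3) (q_cons (Vale.Agent.P032.Lt.q R0Q071.q1539_4) (q_cons (Vale.Agent.P032.Lt.q R0Q071.q1539_5) (q_cons (Vale.Agent.P032.Lt.q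 R0Q071.q1539_6) q_nil))))))))

theorem p1540 : Pat 73 73 TBm TCm (CB.map Fm) R0Q071.P1540 R0Q071.I1540 := Vale.Agent.P032.Lt.pat_eq (E' := R0Q071.E) eB (pat_step (by decide +kernel) (q_cons (Vale.Agent.P032.Lt.q R0Q071.q1540_0) (q_cons (Vale.Agent.P032.Lt.q R0Q071.q1540_1) (q_cons (Vale.Agent.P032.Lt.q R0Q071.q1540_2) (q_cons (Vale.Agent.P032.Lt.q R0Q071.q1540_3) q_nil)))))

theorem p1541 : Pat 73 73 TBm TCm (CB.map Fm) R0Q071.P1541 R0Q071.I1541 := Vale.Agent.P032.Lt.pat_eq (E' := R0Q071.E) eB (pat_step (by decide +kernel) (q_cons (Vale.Agent.P032.Lt.q R0Q071.q1541_0) (q_cons (Vale.Agent.P032.Lt.q R0Q071.q1541_1) q_nil)))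

theorem p1542 : Pat 73 73 TBm TCm (CB.map Fm) R0Q071.P1542 R0Q071.I1542 := Vale.Agent.P032.Lt.pat_eq (E' := R0Q071.E) eB (pat_step (by decide +kernel) (q_cons (Vale.Agent.P032.Lt.q R0Q071.q1542_0) (q_cons (Vale.Agent.P032.Lt.q R0Q071.q1542_1) q_nil)))

theorem p1543 : Pat 73 73 TBm TCm (CB.map Fm) R0Q071.P1543 R0Q071.I1543 := Vale.Agent.P032.Lt.pat_eq (E' := R0Q071.E) eB (pat_step (by decide +kernel) (q_cons (Vale.Agent.P032.Lt.q R0Q071.q1543_0) (q_cons (Vale.Agent.P032.Lt.q R0Q071.q1543_1) q_nil)))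

theorem p1544 : Pat 73 73 TBm TCm (CB.map Fm) R0Q071.P1544 R0Q071.I1544 := Vale.Agent.P032.Lt.pat_eq (E' := R0Q071.E) eB (pat_step (by decide +kernel) (q_cons (Vale.Agent.P032.Lt.q R0Q071.q1544_0) q_nil))

theorem p1545 : Pat 73 73 TBm TCm (CB.map Fm) R0Q071.P1545 R0Q071.I1545 := Vale.Agent.P032.Lt.pat_eq (E' := R0Q071.E) eB (pat_step (by decide +kernel) (q_cons (Vale.Agent.P032.Lt.q R0Q071.q1545_0) q_nil))

theorem p1546 : Pat 73 73 TBm TCm (CB.map Fm) R0Q071.P1546 R0Q071.I1546 := Vale.Agent.P032.Lt.pat_eq (E' := R0Q071.E) eB (pat_step (by decide +kernel) (q_cons (Vale.Agent.P032.Lt.q R0Q071.q1546_0) (q_cons (Vale.Agent.P032.Lt.q R0Q071.q1546_1) (q_cons (Vale.Agent.P032.Lt.q R0Q071.q1546_2) q_nil))))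

theorem p1547 : Pat 73 73 TBm TCm (CB.map Fm) R0Q071.P1547 R0Q071.I1547 := Vale.Agent.P032.Lt.pat_eq (E' := R0Q071.E) eB (pat_step (by decide +kernel) (q_cons (Vale.Agent.P032.Lt.q R0Q071.q1547_0) q_nil))

theorem p1548 : Pat 73 73 TBm TCm (CB.map Fm) R0Q071.P1548 R0Q071.I1548 := Vale.Agent.P032.Lt.pat_eq (E' := R0Q071.E) eB (pat_step (by decide +kernel) (q_cons (Vale.Agent.P032.Lt.q R0Q071.q1548_0) q_nil))

def C1549 : List ℕ := [0, 4, 8, 12, 16, 20, 24, 344065, 347137, 475137, 737281]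
theorem p1549 : Pat 73 73 TBm TCm (C1549.map Fm) R0Q071.P1549 R0Q071.I1549 := Vale.Agent.P032.Lt.pat_eq (E' := R0Q071.E1549) (by decide +kernel) (pat_step (by decide +kernel) (q_cons (Vale.Agent.P032.Lt.q R0Q071.q1549_0) (q_cons (Vale.Agent.P032.Lt.q R0Q071.q1549_1) (q_cons (Vale.Agent.P032.Lt.q R0Q071.q1549_2) (q_cons (Vale.Agent.P032.Lt.q R0Q071.q1549_3) (q_cons (Vale.Agent.P032.Lt.q R0Q071.q1549_4) (q_cons (Vale.Agent.P032.Lt.q R0Q071.q1549_5) (q_cons (Vale.Agent.P032.Lt.q R0Q071.q1549_6) (q_cons (Vale.Agent.P032.Lt.q R0Q071.q1549_7) (q_cons (Vale.Agent.P032.Lt.q R0Q071.q1549_8) (q_cons (Vale.Agent.P032.Lt.q R0Q071.q1549_9) (q_cons (Vale.Agent.P032.Lt.q R0Q071.q1549_10) q_nil))))))))))))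

theorem p1550 : Pat 73 73 TBm TCm (CB.map Fm) R0Q071.P1550 R0Q071.I1550 := Vale.Agent.P032.Lt.pat_eq (E' := R0Q071.E) eB (pat_step (by decide +kernel) (q_cons (Vale.Agent.P032.Lt.q R0Q071.q1550_0) (q_cons (Vale.Agent.P032.Lt.q R0Q071.q1550_1) q_nil)))

theorem p1551 : Pat 73 73 TBm TCm (CB.map Fm) R0Q071.P1551 R0Q071.I1551 := Vale.Agent.P032.Lt.pat_eq (E' := R0Q071.E) eB (pat_step (by decide +kernel) (q_cons (Vale.Agent.P032.Lt.q R0Q071.q1551_0) (q_cons (Vale.Agent.P032.Lt.q R0Q071.q1551_1) q_nil)))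

theorem p1552 : Pat 73 73 TBm TCm (CB.map Fm) R0Q071.P1552 R0Q071.I1552 := Vale.Agent.P032.Lt.pat_eq (E' := R0Q071.E) eB (pat_step (by decide +kernel) (q_cons (Vale.Agent.P032.Lt.q R0Q071.q1552_0) (q_cons (Vale.Agent.P032.Lt.q R0Q071.q1552_1) (q_cons (Vale.Agent.P032.Lt.q R0Q071.q1552_2) q_nil))))

theorem p1553 : Pat 73 73 TBm TCm (CB.map Fm) R0Q071.P1553 R0Q071.I1553 := Vale.Agent.P032.Lt.pat_eq (E' := R0Q071.E) eB (pat_step (by decide +kernel) (q_cons (Vale.Agent.P032.Lt.q R0Q071.q1553_0) (q_cons (Vale.Agent.P032.Lt.q R0Q071.q1553_1) (q_cons (Vale.Agent.P032.Lt.q R0Q071.q1553_2) (q_cons (Vale.Agent.P032.Lt.q R0Q071.q1553_3) (q_cons (Vale.Agent.P032.Lt.q R0Q071.q1553_4) (q_cons (Vale.Agent.P032.Lt.q R0Q071.q1553_5) (q_cons (Vale.Agent.P032.Lt.q R0Q071.q1553_6) (q_cons (Vale.Agent.P032.Lt.q R0Q071.q1553_7) (q_cons (Vale.Agent.P032.Lt.q R0Q071.q1553_8)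 (q_cons (Vale.Agent.P032.Lt.q R0Q071.q1553_9) q_nil)))))))))))

theorem p1554 : Pat 73 73 TBm TCm (CB.map Fm) R0Q071.P1554 R0Q071.I1554 := Vale.Agent.P032.Lt.pat_eq (E' := R0Q071.E) eB (pat_step (by decide +kernel) (q_cons (Vale.Agent.P032.Lt.q R0Q071.q1554_0) (q_cons (Vale.Agent.P032.Lt.q R0Q071.q1554_1) q_nil)))

theorem p1555 : Pat 73 73 TBm TCm (CB.map Fm) R0Q071.P1555 R0Q071.I1555 := Vale.Agent.P032.Lt.pat_eq (E' := R0Q071.E) eB (pat_step (by decide +kernel) (q_cons (Vale.Agent.P032.Lt.q R0Q071.q1555_0) (q_cons (Vale.Agent.P032.Lt.q R0Q071.q1555_1) q_nil)))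

theorem p1556 : Pat 73 73 TBm TCm (CB.map Fm) R0Q071.P1556 R0Q071.I1556 := Vale.Agent.P032.Lt.pat_eq (E' := R0Q071.E) eB (pat_step (by decide +kernel) (q_cons (Vale.Agent.P032.Lt.q R0Q071.q1556_0) q_nil))

theorem p1557 : Pat 73 73 TBm TCm (CB.map Fm) R0Q071.P1557 R0Q071.I1557 := Vale.Agent.P032.Lt.pat_eq (E' := R0Q071.E) eB (pat_step (by decide +kernel) (q_cons (Vale.Agent.P032.Lt.q R0Q071.q1557_0) (q_cons (Vale.Agent.P032.Lt.q R0Q071.q1557_1) (q_cons (Vale.Agent.P032.Lt.q R0Q071.q1557_2) (q_cons (Vale.Agent.P032.Lt.q R0Q071.q1557_3) q_nil)))))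

theorem p1558 : Pat 73 73 TBm TCm (CB.map Fm) R0Q071.P1558 R0Q071.I1558 := Vale.Agent.P032.Lt.pat_eq (E' := R0Q071.E) eB (pat_step (by decide +kernel) (q_cons (Vale.Agent.P032.Lt.q R0Q071.q1558_0) (q_cons (Vale.Agent.P032.Lt.q R0Q071.q1558_1) (q_cons (Vale.Agent.P032.Lt.q R0Q071.q1558_2) (q_cons (Vale.Agent.P032.Lt.q R0Q071.q1558_3) (q_cons (Vale.Agent.P032.Lt.q R0Q071.q1558_4) (q_cons (Vale.Agent.P032.Lt.q R0Q071.q1558_5) (q_cons (Vale.Agent.P032.Lt.q R0Q071.q1558_6) (q_cons (Vale.Agent.P032.Lt.q R0Q071.q1558_7) (q_cons (Vale.Agent.P032.Lt.q R0Q071.q1558_8) q_nil))))))))))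

theorem p1559 : Pat 73 73 TBm TCm (CB.map Fm) R0Q071.P1559 R0Q071.I1559 := Vale.Agent.P032.Lt.pat_eq (E' := R0Q071.E) eB (pat_step (by decide +kernel) (q_cons (Vale.Agent.P032.Lt.q R0Q071.q1559_0) (q_cons (Vale.Agent.P032.Lt.q R0Q071.q1559_1) (q_cons (Vale.Agent.P032.Lt.q R0Q071.q1559_2) (q_cons (Vale.Agent.P032.Lt.q R0Q071.q1559_3) (q_cons (Vale.Agent.P032.Lt.q R0Q071.q1559_4) (q_cons (Vale.Agent.P032.Lt.q R0Q071.q1559_5) (q_cons (Vale.Agent.P032.Lt.q R0Q071.q1559_6) (q_cons (Vale.Agent.P032.Lt.q R0Q071.q1559_7) (q_cons (Vale.Agent.P032.Lt.q R0Q071.q1559_8) (q_cons (Vale.Agent.P032.Lt.q R0Q071.q1559_9) (q_cons (Vale.Agent.P032.Lt.q R0Q071.q1559_10) (q_cons (Vale.Agent.P032.Lt.q R0Q071.q1559_11) (q_cons (Vale.Agent.P032.Lt.q R0Q071.q1559_12) q_nil))))))))))))))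

theorem p1560 : Pat 73 73 TBm TCm (CB.map Fm) R0Q071.P1560 R0Q071.I1560 := Vale.Agent.P032.Lt.pat_eq (E' := R0Q071.E) eB (pat_step (by decide +kernel) (q_cons (Vale.Agent.P032.Lt.q R0Q071.q1560_0) (q_cons (Vale.Agent.P032.Lt.q R0Q071.q1560_1) (q_cons (Vale.Agent.P032.Lt.q R0Q071.q1560_2) (q_cons (Vale.Agent.P032.Lt.q R0Q071.q1560_3) (q_cons (Vale.Agent.P032.Lt.q R0Q071.q1560_4) q_nil))))))

theorem p1561 : Pat 73 73 TBm TCm (CB.map Fm) R0Q071.P1561 R0Q071.I1561 := Vale.Agent.P032.Lt.pat_eq (E' := R0Q071.E) eB (pat_step (by decide +kernel) (q_cons (Vale.Agent.P032.Lt.q R0Q071.q1561_0) (q_cons (Vale.Agent.P032.Lt.q R0Q071.q1561_1) q_nil)))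

theorem p1562 : Pat 73 73 TBm TCm (CB.map Fm) R0Q071.P1562 R0Q071.I1562 := Vale.Agent.P032.Lt.pat_eq (E' := R0Q071.E) eB (pat_step (by decide +kernel) (q_cons (Vale.Agent.P032.Lt.q R0Q071.q1562_0) (q_cons (Vale.Agent.P032.Lt.q R0Q071.q1562_1) (q_cons (Vale.Agent.P032.Lt.q R0Q071.q1562_2) q_nil))))

theorem p1563 : Pat 73 73 TBm TCm (CB.map Fm) R0Q072.P1563 R0Q072.I1563 := Vale.Agent.P032.Lt.pat_eq (E' := R0Q072.E) eB (pat_step (by decide +kernel) (q_cons (Vale.Agent.P032.Lt.q R0Q072.q1563_0) (q_cons (Vale.Agent.P032.Lt.q R0Q072.q1563_1) (q_cons (Vale.Agent.P032.Lt.q R0Q072.q1563_2) (q_cons (Vale.Agent.P032.Lt.q R0Q072.q1563_3) (q_cons (Vale.Agent.P032.Lt.q R0Q072.q1563_4) (q_cons (Vale.Agent.P032.Lt.q R0Q072.q1563_5) q_nil)))))))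

theorem p1564 : Pat 73 73 TBm TCm (CB.map Fm) R0Q072.P1564 R0Q072.I1564 := Vale.Agent.P032.Lt.pat_eq (E' := R0Q072.E) eB (pat_step (by decide +kernel) (q_cons (Vale.Agent.P032.Lt.q R0Q072.q1564_0) q_nil))

theorem p1565 : Pat 73 73 TBm TCm (CB.map Fm) R0Q072.P1565 R0Q072.I1565 := Vale.Agent.P032.Lt.pat_eq (E' := R0Q072.E) eB (pat_step (by decide +kernel) (q_cons (Vale.Agent.P032.Lt.q R0Q072.q1565_0) (q_cons (Vale.Agent.P032.Lt.q R0Q072.q1565_1) (q_cons (Vale.Agent.P032.Lt.q R0Q072.q1565_2) q_nil))))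

def C1566 : List ℕ := [0, 4, 8, 12, 16, 20, 24, 347137, 737281]
theorem p1566 : Pat 73 73 TBm TCm (C1566.map Fm) R0Q072.P1566 R0Q072.I1566 := Vale.Agent.P032.Lt.pat_eq (E' := R0Q072.E1566) (by decide +kernel) (pat_step (by decide +kernel) (q_cons (Vale.Agent.P032.Lt.q R0Q072.q1566_0) (q_cons (Vale.Agent.P032.Lt.q R0Q072.q1566_1) (q_cons (Vale.Agent.P032.Lt.q R0Q072.q1566_2) q_nil))))

def C1567 : List ℕ := [0, 4, 8, 12, 16, 20, 24, 86017, 741377]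
theorem p1567 : Pat 73 73 TBm TCm (C1567.map Fm) R0Q072.P1567 R0Q072.I1567 := Vale.Agent.P032.Lt.pat_eq (E' := R0Q072.E1567) (by decide +kernel) (pat_step (by decide +kernel) (q_cons (Vale.Agent.P032.Lt.q R0Q072.q1567_0) (q_cons (Vale.Agent.P032.Lt.q R0Q072.q1567_1) (q_cons (Vale.Agent.P032.Lt.q R0Q072.q1567_2) (q_cons (Vale.Agent.P032.Lt.q R0Q072.q1567_3) q_nil)))))

theorem p1568 : Pat 73 73 TBm TCm (CB.map Fm) R0Q072.P1568 R0Q072.I1568 := Vale.Agent.P032.Lt.pat_eq (E' := R0Q072.E) eB (pat_step (by decide +kernel) (q_cons (Vale.Agent.P032.Lt.q R0Q072.q1568_0) q_nil))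

theorem p1569 : Pat 73 73 TBm TCm (CB.map Fm) R0Q072.P1569 R0Q072.I1569 := Vale.Agent.P032.Lt.pat_eq (E' := R0Q072.E) eB (pat_step (by decide +kernel) (q_cons (Vale.Agent.P032.Lt.q R0Q072.q1569_0) q_nil))

theorem p1570 : Pat 73 73 TBm TCm (CB.map Fm) R0Q072.P1570 R0Q072.I1570 := Vale.Agent.P032.Lt.pat_eq (E' := R0Q072.E) eB (pat_step (by decide +kernel) (q_cons (Vale.Agent.P032.Lt.q R0Q072.q1570_0) (q_cons (Vale.Agent.P032.Lt.q R0Q072.q1570_1) q_nil)))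

theorem p1571 : Pat 73 73 TBm TCm (CB.map Fm) R0Q072.P1571 R0Q072.I1571 := Vale.Agent.P032.Lt.pat_eq (E' := R0Q072.E) eB (pat_step (by decide +kernel) (q_cons (Vale.Agent.P032.Lt.q R0Q072.q1571_0) (q_cons (Vale.Agent.P032.Lt.q R0Q072.q1571_1) q_nil)))

theorem p1572 : Pat 73 73 TBm TCm (CB.map Fm) R0Q072.P1572 R0Q072.I1572 := Vale.Agent.P032.Lt.pat_eq (E' := R0Q072.E) eB (pat_step (by decide +kernel) (q_cons (Vale.Agent.P032.Lt.q R0Q072.q1572_0) (q_cons (Vale.Agent.P032.Lt.q R0Q072.q1572_1) q_nil)))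

theorem p1573 : Pat 73 73 TBm TCm (CB.map Fm) R0Q072.P1573 R0Q072.I1573 := Vale.Agent.P032.Lt.pat_eq (E' := R0Q072.E) eB (pat_step (by decide +kernel) (q_cons (Vale.Agent.P032.Lt.q R0Q072.q1573_0) (q_cons (Vale.Agent.P032.Lt.q R0Q072.q1573_1) q_nil)))

theorem p1574 : Pat 73 73 TBm TCm (CB.map Fm) R0Q072.P1574 R0Q072.I1574 := Vale.Agent.P032.Lt.pat_eq (E' := R0Q072.E) eB (pat_step (by decide +kernel) (q_cons (Vale.Agent.P032.Lt.q R0Q072.q1574_0) (q_cons (Vale.Agent.P032.Lt.q R0Q072.q1574_1) q_nil)))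

theorem p1575 : Pat 73 73 TBm TCm (CB.map Fm) R0Q072.P1575 R0Q072.I1575 := Vale.Agent.P032.Lt.pat_eq (E' := R0Q072.E) eB (pat_step (by decide +kernel) (q_cons (Vale.Agent.P032.Lt.q R0Q072.q1575_0) (q_cons (Vale.Agent.P032.Lt.q R0Q072.q1575_1) (q_cons (Vale.Agent.P032.Lt.q R0Q072.q1575_2) (q_cons (Vale.Agent.P032.Lt.q R0Q072.q1575_3) (q_cons (Vale.Agent.P032.Lt.q R0Q072.q1575_4) (q_cons (Vale.Agent.P032.Lt.q R0Q072.q1575_5) (q_cons (Vale.Agent.P032.Lt.q R0Q072.q1575_6) (q_cons (Vale.Agent.P032.Lt.q R0Q072.q1575_7) (q_cons (Vale.Agent.P032.Lt.q R0Q072.q1575_8) (q_cons (Vale.Agent.P032.Lt.q R0Q072.q1575_9) (q_cons (Vale.Agent.P032.Lt.q R0Q072.q1575_10) (q_cons (Vale.Agent.P032.Lt.q R0Q072.q1575_11) q_nil)))))))))))))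

theorem p1576 : Pat 73 73 TBm TCm (CB.map Fm) R0Q072.P1576 R0Q072.I1576 := Vale.Agent.P032.Lt.pat_eq (E' := R0Q072.E) eB (pat_step (by decide +kernel) (q_cons (Vale.Agent.P032.Lt.q R0Q072.q1576_0) (q_cons (Vale.Agent.P032.Lt.q R0Q072.q1576_1) (q_cons (Vale.Agent.P032.Lt.q R0Q072.q1576_2) (q_cons (Vale.Agent.P032.Lt.q R0Q072.q1576_3) (q_cons (Vale.Agent.P032.Lt.q R0Q072.q1576_4) (q_cons (Vale.Agent.P032.Lt.q R0Q072.q1576_5) (q_cons (Vale.Agent.P032.Lt.q R0Q072.q1576_6) (q_cons (Vale.Agent.P032.Lt.q R0Q072.q1576_7) (q_cons (Vale.Agent.P032.Lt.q R0Q072.q1576_8) (q_cons (Vale.Agent.P032.Lt.q R0Q072.q1576_9) (q_cons (Vale.Agent.P032.Lt.q R0Q072.q1576_10) (q_cons (Vale.Agent.P032.Lt.q R0Q072.q1576_11) q_nil)))))))))))))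

theorem p1577 : Pat 73 73 TBm TCm (CB.map Fm) R0Q072.P1577 R0Q072.I1577 := Vale.Agent.P032.Lt.pat_eq (E' := R0Q072.E) eB (pat_step (by decide +kernel) (q_cons (Vale.Agent.P032.Lt.q R0Q072.q1577_0) q_nil))

def C1578 : List ℕ := [0, 4, 8, 12, 16, 20, 24, 606209, 737281]
theorem p1578 : Pat 73 73 TBm TCm (C1578.map Fm) R0Q072.P1578 R0Q072.I1578 := Vale.Agent.P032.Lt.pat_eq (E' := R0Q072.E1578) (by decide +kernel) (pat_step (by decide +kernel) (q_cons (Vale.Agent.P032.Lt.q R0Q072.q1578_0) (q_cons (Vale.Agent.P032.Lt.q R0Q072.q1578_1) (q_cons (Vale.Agent.P032.Lt.q R0Q072.q1578_2) (q_cons (Vale.Agent.P032.Lt.q R0Q072.q1578_3) (q_cons (Vale.Agent.P032.Lt.q R0Q072.q1578_4) (q_cons (Vale.Agent.P032.Lt.q R0Q072.q1578_5) q_nil)))))))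

theorem p1579 : Pat 73 73 TBm TCm (CB.map Fm) R0Q072.P1579 R0Q072.I1579 := Vale.Agent.P032.Lt.pat_eq (E' := R0Q072.E) eB (pat_step (by decide +kernel) (q_cons (Vale.Agent.P032.Lt.q R0Q072.q1579_0) (q_cons (Vale.Agent.P032.Lt.q R0Q072.q1579_1) (q_cons (Vale.Agent.P032.Lt.q R0Q072.q1579_2) (q_cons (Vale.Agent.P032.Lt.q R0Q072.q1579_3) (q_cons (Vale.Agent.P032.Lt.q R0Q072.q1579_4) (q_cons (Vale.Agent.P032.Lt.q R0Q072.q1579_5) (q_cons (Vale.Agent.P032.Lt.q R0Q072.q1579_6) (q_cons (Vale.Agent.P032.Lt.q R0Q072.q1579_7) (q_cons (Vale.Agent.P032.Lt.q R0Q072.q1579_8) (q_cons (Vale.Agent.P032.Lt.q R0Q072.q1579_9) (q_cons (Vale.Agent.P032.Lt.q R0Q072.q1579_10) q_nil))))))))))))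

theorem p1580 : Pat 73 73 TBm TCm (CB.map Fm) R0Q072.P1580 R0Q072.I1580 := Vale.Agent.P032.Lt.pat_eq (E' := R0Q072.E) eB (pat_step (by decide +kernel) (q_cons (Vale.Agent.P032.Lt.q R0Q072.q1580_0) (q_cons (Vale.Agent.P032.Lt.q R0Q072.q1580_1) (q_cons (Vale.Agent.P032.Lt.q R0Q072.q1580_2) (q_cons (Vale.Agent.P032.Lt.q R0Q072.q1580_3) (q_cons (Vale.Agent.P032.Lt.q R0Q072.q1580_4) (q_cons (Vale.Agent.P032.Lt.q R0Q072.q1580_5) (q_cons (Vale.Agent.P032.Lt.q R0Q072.q1580_6) (q_cons (Vale.Agent.P032.Lt.q R0Q072.q1580_7) (q_cons (Vale.Agent.P032.Lt.q R0Q072.q1580_8) (q_cons (Vale.Agent.P032.Lt.q R0Q072.q1580_9) (q_cons (Vale.Agent.P032.Lt.q R0Q072.q1580_10) q_nil))))))))))))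

def C1581 : List ℕ := [0, 4, 8, 12, 16, 20, 24, 214017, 216065, 606209, 737281]
theorem p1581 : Pat 73 73 TBm TCm (C1581.map Fm) R0Q072.P1581 R0Q072.I1581 := Vale.Agent.P032.Lt.pat_eq (E' := R0Q072.E1581) (by decide +kernel) (pat_step (by decide +kernel) (q_cons (Vale.Agent.P032.Lt.q R0Q072.q1581_0) q_nil))

theorem p1582 : Pat 73 73 TBm TCm (CB.map Fm) R0Q072.P1582 R0Q072.I1582 := Vale.Agent.P032.Lt.pat_eq (E' := R0Q072.E) eB (pat_step (by decide +kernel) (q_cons (Vale.Agent.P032.Lt.q R0Q072.q1582_0) (q_cons (Vale.Agent.P032.Lt.q R0Q072.q1582_1) (q_cons (Vale.Agent.P032.Lt.q R0Q072.q1582_2) (q_cons (Vale.Agent.P032.Lt.q R0Q072.q1582_3) (q_cons (Vale.Agent.P032.Lt.q R0Q072.q1582_4) (q_cons (Vale.Agent.P032.Lt.q R0Q072.q1582_5) (q_cons (Vale.Agent.P032.Lt.q R0Q072.q1582_6) q_nil))))))))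

def C1583 : List ℕ := [0, 4, 8, 12, 16, 20, 24, 344065, 475137, 737281]
theorem p1583 : Pat 73 73 TBm TCm (C1583.map Fm) R0Q072.P1583 R0Q072.I1583 := Vale.Agent.P032.Lt.pat_eq (E' := R0Q072.E1583) (by decide +kernel) (pat_step (by decide +kernel) (q_cons (Vale.Agent.P032.Lt.q R0Q072.q1583_0) (q_cons (Vale.Agent.P032.Lt.q R0Q072.q1583_1) (q_cons (Vale.Agent.P032.Lt.q R0Q072.q1583_2) (q_cons (Vale.Agent.P032.Lt.q R0Q072.q1583_3) (q_cons (Vale.Agent.P032.Lt.q R0Q072.q1583_4) (q_cons (Vale.Agent.P032.Lt.q R0Q072.q1583_5) (q_cons (Vale.Agent.P032.Lt.q R0Q072.q1583_6) q_nil))))))))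

def C1584 : List ℕ := [0, 4, 8, 12, 16, 20, 24, 214017, 737281]
theorem p1584 : Pat 73 73 TBm TCm (C1584.map Fm) R0Q072.P1584 R0Q072.I1584 := Vale.Agent.P032.Lt.pat_eq (E' := R0Q072.E1584) (by decide +kernel) (pat_step (by decide +kernel) (q_cons (Vale.Agent.P032.Lt.q R0Q072.q1584_0) (q_cons (Vale.Agent.P032.Lt.q R0Q072.q1584_1) q_nil)))

theorem p1585 : Pat 73 73 TBm TCm (CB.map Fm) R0Q072.P1585 R0Q072.I1585 := Vale.Agent.P032.Lt.pat_eq (E' := R0Q072.E) eB (pat_step (by decide +kernel) (q_cons (Vale.Agent.P032.Lt.q R0Q072.q1585_0) (q_cons (Vale.Agent.P032.Lt.q R0Q072.q1585_1) (q_cons (Vale.Agent.P032.Lt.q R0Q072.q1585_2) (q_cons (Vale.Agent.P032.Lt.q R0Q072.q1585_3) (q_cons (Vale.Agent.P032.Lt.q R0Q072.q1585_4) (q_cons (Vale.Agent.P032.Lt.q R0Q072.q1585_5) (q_cons (Vale.Agent.P032.Lt.q R0Q072.q1585_6) (q_cons (Vale.Agent.P032.Lt.q R0Q072.q1585_7) (q_cons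 (Vale.Agent.P032.Lt.q R0Q072.q1585_8) (q_cons (Vale.Agent.P032.Lt.q R0Q072.q1585_9) (q_cons (Vale.Agent.P032.Lt.q R0Q072.q1585_10) q_nil))))))))))))

theorem p1586 : Pat 73 73 TBm TCm (CB.map Fm) R0Q072.P1586 R0Q072.I1586 := Vale.Agent.P032.Lt.pat_eq (E' := R0Q072.E) eB (pat_step (by decide +kernel) (q_cons (Vale.Agent.P032.Lt.q R0Q072.q1586_0) (q_cons (Vale.Agent.P032.Lt.q R0Q072.q1586_1) (q_cons (Vale.Agent.P032.Lt.q R0Q072.q1586_2) (q_cons (Vale.Agent.P032.Lt.q R0Q072.q1586_3) q_nil)))))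

def C1587 : List ℕ := [0, 4, 8, 12, 16, 20, 24, 606209, 737281]
theorem p1587 : Pat 73 73 TBm TCm (C1587.map Fm) R0Q072.P1587 R0Q072.I1587 := Vale.Agent.P032.Lt.pat_eq (E' := R0Q072.E1587) (by decide +kernel) (pat_step (by decide +kernel) (q_cons (Vale.Agent.P032.Lt.q R0Q072.q1587_0) q_nil))

theorem p1588 : Pat 73 73 TBm TCm (CB.map Fm) R0Q072.P1588 R0Q072.I1588 := Vale.Agent.P032.Lt.pat_eq (E' := R0Q072.E) eB (pat_step (by decide +kernel) (q_cons (Vale.Agent.P032.Lt.q R0Q072.q1588_0) (q_cons (Vale.Agent.P032.Lt.q R0Q072.q1588_1) (q_cons (Vale.Agent.P032.Lt.q R0Q072.q1588_2) q_nil))))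

theorem p1589 : Pat 73 73 TBm TCm (CB.map Fm) R0Q072.P1589 R0Q072.I1589 := Vale.Agent.P032.Lt.pat_eq (E' := R0Q072.E) eB (pat_step (by decide +kernel) (q_cons (Vale.Agent.P032.Lt.q R0Q072.q1589_0) (q_cons (Vale.Agent.P032.Lt.q R0Q072.q1589_1) (q_cons (Vale.Agent.P032.Lt.q R0Q072.q1589_2) q_nil))))

theorem p1590 : Pat 73 73 TBm TCm (CB.map Fm) R0Q072.P1590 R0Q072.I1590 := Vale.Agent.P032.Lt.pat_eq (E' := R0Q072.E) eB (pat_step (by decide +kernel) (q_cons (Vale.Agent.P032.Lt.q R0Q072.q1590_0) (q_cons (Vale.Agent.P032.Lt.q R0Q072.q1590_1) (q_cons (Vale.Agent.P032.Lt.q R0Q072.q1590_2) q_nil))))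

theorem p1591 : Pat 73 73 TBm TCm (CB.map Fm) R0Q073.P1591 R0Q073.I1591 := Vale.Agent.P032.Lt.pat_eq (E' := R0Q073.E) eB (pat_step (by decide +kernel) (q_cons (Vale.Agent.P032.Lt.q R0Q073.q1591_0) (q_cons (Vale.Agent.P032.Lt.q R0Q073.q1591_1) (q_cons (Vale.Agent.P032.Lt.q R0Q073.q1591_2) q_nil))))

theorem p1592 : Pat 73 73 TBm TCm (CB.map Fm) R0Q073.P1592 R0Q073.I1592 := Vale.Agent.P032.Lt.pat_eq (E' := R0Q073.E) eB (pat_step (by decide +kernel) (q_cons (Vale.Agent.P032.Lt.q R0Q073.q1592_0) (q_cons (Vale.Agent.P032.Lt.q R0Q073.q1592_1) (q_cons (Vale.Agent.P032.Lt.q R0Q073.q1592_2) (q_cons (Vale.Agent.P032.Lt.q R0Q073.q1592_3) q_nil)))))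

def C1593 : List ℕ := [0, 4, 8, 12, 16, 20, 24, 81921, 349185, 606209, 737281]
theorem p1593 : Pat 73 73 TBm TCm (C1593.map Fm) R0Q073.P1593 R0Q073.I1593 := Vale.Agent.P032.Lt.pat_eq (E' := R0Q073.E1593) (by decide +kernel) (pat_step (by decide +kernel) (q_cons (Vale.Agent.P032.Lt.q R0Q073.q1593_0) (q_cons (Vale.Agent.P032.Lt.q R0Q073.q1593_1) (q_cons (Vale.Agent.P032.Lt.q R0Q073.q1593_2) q_nil))))

theorem p1594 : Pat 73 73 TBm TCm (CB.map Fm) R0Q073.P1594 R0Q073.I1594 := Vale.Agent.P032.Lt.pat_eq (E' := R0Q073.E) eB (pat_step (by decide +kernel) (q_cons (Vale.Agent.P032.Lt.q R0Q073.q1594_0) (q_cons (Vale.Agent.P032.Lt.q R0Q073.q1594_1) (q_cons (Vale.Agent.P032.Lt.q R0Q073.q1594_2) (q_cons (Vale.Agent.P032.Lt.q R0Q073.q1594_3) q_nil)))))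

theorem p1595 : Pat 73 73 TBm TCm (CB.map Fm) R0Q073.P1595 R0Q073.I1595 := Vale.Agent.P032.Lt.pat_eq (E' := R0Q073.E) eB (pat_step (by decide +kernel) (q_cons (Vale.Agent.P032.Lt.q R0Q073.q1595_0) q_nil))

theorem p1596 : Pat 73 73 TBm TCm (CB.map Fm) R0Q073.P1596 R0Q073.I1596 := Vale.Agent.P032.Lt.pat_eq (E' := R0Q073.E) eB (pat_step (by decide +kernel) (q_cons (Vale.Agent.P032.Lt.q R0Q073.q1596_0) (q_cons (Vale.Agent.P032.Lt.q R0Q073.q1596_1) (q_cons (Vale.Agent.P032.Lt.q R0Q073.q1596_2) (q_cons (Vale.Agent.P032.Lt.q R0Q073.q1596_3) (q_cons (Vale.Agent.P032.Lt.q R0Q073.q1596_4) q_nil))))))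

theorem p1597 : Pat 73 73 TBm TCm (CB.map Fm) R0Q073.P1597 R0Q073.I1597 := Vale.Agent.P032.Lt.pat_eq (E' := R0Q073.E) eB (pat_step (by decide +kernel) (q_cons (Vale.Agent.P032.Lt.q R0Q073.q1597_0) q_nil))

theorem p1598 : Pat 73 73 TBm TCm (CB.map Fm) R0Q073.P1598 R0Q073.I1598 := Vale.Agent.P032.Lt.pat_eq (E' := R0Q073.E) eB (pat_step (by decide +kernel) (q_cons (Vale.Agent.P032.Lt.q R0Q073.q1598_0) (q_cons (Vale.Agent.P032.Lt.q R0Q073.q1598_1) q_nil)))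

theorem p1599 : Pat 73 73 TBm TCm (CB.map Fm) R0Q073.P1599 R0Q073.I1599 := Vale.Agent.P032.Lt.pat_eq (E' := R0Q073.E) eB (pat_step (by decide +kernel) (q_cons (Vale.Agent.P032.Lt.q R0Q073.q1599_0) (q_cons (Vale.Agent.P032.Lt.q R0Q073.q1599_1) q_nil)))

theorem p1600 : Pat 73 73 TBm TCm (CB.map Fm) R0Q073.P1600 R0Q073.I1600 := Vale.Agent.P032.Lt.pat_eq (E' := R0Q073.E) eB (pat_step (by decide +kernel) (q_cons (Vale.Agent.P032.Lt.q R0Q073.q1600_0) (q_cons (Vale.Agent.P032.Lt.q R0Q073.q1600_1) (q_cons (Vale.Agent.P032.Lt.q R0Q073.q1600_2) (q_cons (Vale.Agent.P032.Lt.q R0Q073.q1600_3) (q_cons (Vale.Agent.P032.Lt.q R0Q073.q1600_4) (q_cons (Vale.Agent.P032.Lt.q R0Q073.q1600_5) (q_cons (Vale.Agent.P032.Lt.q R0Q073.q1600_6) q_nil))))))))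

theorem p1601 : Pat 73 73 TBm TCm (CB.map Fm) R0Q073.P1601 R0Q073.I1601 := Vale.Agent.P032.Lt.pat_eq (E' := R0Q073.E) eB (pat_step (by decide +kernel) (q_cons (Vale.Agent.P032.Lt.q R0Q073.q1601_0) q_nil))

theorem p1602 : Pat 73 73 TBm TCm (CB.map Fm) R0Q073.P1602 R0Q073.I1602 := Vale.Agent.P032.Lt.pat_eq (E' := R0Q073.E) eB (pat_step (by decide +kernel) (q_cons (Vale.Agent.P032.Lt.q R0Q073.q1602_0) q_nil))

theorem p1603 : Pat 73 73 TBm TCm (CB.map Fm) R0Q073.P1603 R0Q073.I1603 := Vale.Agent.P032.Lt.pat_eq (E' := R0Q073.E) eB (pat_step (by decide +kernel) (q_cons (Vale.Agent.P032.Lt.q R0Q073.q1603_0) q_nil))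

theorem p1604 : Pat 73 73 TBm TCm (CB.map Fm) R0Q073.P1604 R0Q073.I1604 := Vale.Agent.P032.Lt.pat_eq (E' := R0Q073.E) eB (pat_step (by decide +kernel) (q_cons (Vale.Agent.P032.Lt.q R0Q073.q1604_0) (q_cons (Vale.Agent.P032.Lt.q R0Q073.q1604_1) (q_cons (Vale.Agent.P032.Lt.q R0Q073.q1604_2) (q_cons (Vale.Agent.P032.Lt.q R0Q073.q1604_3) (q_cons (Vale.Agent.P032.Lt.q R0Q073.q1604_4) (q_cons (Vale.Agent.P032.Lt.q R0Q073.q1604_5) (q_cons (Vale.Agent.P032.Lt.q R0Q073.q1604_6) (q_cons (Vale.Agent.P032.Lt.q R0Q073.q1604_7) q_nil)))))))))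

theorem p1605 : Pat 73 73 TBm TCm (CB.map Fm) R0Q073.P1605 R0Q073.I1605 := Vale.Agent.P032.Lt.pat_eq (E' := R0Q073.E) eB (pat_step (by decide +kernel) (q_cons (Vale.Agent.P032.Lt.q R0Q073.q1605_0) (q_cons (Vale.Agent.P032.Lt.q R0Q073.q1605_1) (q_cons (Vale.Agent.P032.Lt.q R0Q073.q1605_2) (q_cons (Vale.Agent.P032.Lt.q R0Q073.q1605_3) (q_cons (Vale.Agent.P032.Lt.q R0Q073.q1605_4) (q_cons (Vale.Agent.P032.Lt.q R0Q073.q1605_5) (q_cons (Vale.Agent.P032.Lt.q R0Q073.q1605_6) (q_cons (Vale.Agent.P032.Lt.q R0Q073.q1605_7) q_nil)))))))))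

theorem p1606 : Pat 73 73 TBm TCm (CB.map Fm) R0Q073.P1606 R0Q073.I1606 := Vale.Agent.P032.Lt.pat_eq (E' := R0Q073.E) eB (pat_step (by decide +kernel) (q_cons (Vale.Agent.P032.Lt.q R0Q073.q1606_0) (q_cons (Vale.Agent.P032.Lt.q R0Q073.q1606_1) (q_cons (Vale.Agent.P032.Lt.q R0Q073.q1606_2) (q_cons (Vale.Agent.P032.Lt.q R0Q073.q1606_3) (q_cons (Vale.Agent.P032.Lt.q R0Q073.q1606_4) (q_cons (Vale.Agent.P032.Lt.q R0Q073.q1606_5) (q_cons (Vale.Agent.P032.Lt.q R0Q073.q1606_6) (q_cons (Vale.Agent.P032.Lt.q R0Q073.q1606_7) (q_cons (Vale.Agent.P032.Lt.q R0Q073.q1606_8) (q_cons (Vale.Agent.P032.Lt.q R0Q073.q1606_9) q_nil)))))))))))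

theorem p1607 : Pat 73 73 TBm TCm (CB.map Fm) R0Q073.P1607 R0Q073.I1607 := Vale.Agent.P032.Lt.pat_eq (E' := R0Q073.E) eB (pat_step (by decide +kernel) (q_cons (Vale.Agent.P032.Lt.q R0Q073.q1607_0) (q_cons (Vale.Agent.P032.Lt.q R0Q073.q1607_1) (q_cons (Vale.Agent.P032.Lt.q R0Q073.q1607_2) (q_cons (Vale.Agent.P032.Lt.q R0Q073.q1607_3) (q_cons (Vale.Agent.P032.Lt.q R0Q073.q1607_4) (q_cons (Vale.Agent.P032.Lt.q R0Q073.q1607_5) (q_cons (Vale.Agent.P032.Lt.q R0Q073.q1607_6) (q_cons (Vale.Agent.P032.Lt.q R0Q073.q1607_7) (q_cons (Vale.Agent.P032.Lt.q R0Q073.q1607_8) (q_cons (Vale.Agent.P032.Lt.q R0Q073.q1607_9) (q_cons (Vale.Agent.P032.Lt.q R0Q073.q1607_10) (q_cons (Vale.Agent.P032.Lt.q R0Q073.q1607_11) (q_cons (Vale.Agent.P032.Lt.q R0Q073.q1607_12) q_nil))))))))))))))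

theorem p1608 : Pat 73 73 TBm TCm (CB.map Fm) R0Q073.P1608 R0Q073.I1608 := Vale.Agent.P032.Lt.pat_eq (E' := R0Q073.E) eB (pat_step (by decide +kernel) (q_cons (Vale.Agent.P032.Lt.q R0Q073.q1608_0) (q_cons (Vale.Agent.P032.Lt.q R0Q073.q1608_1) (q_cons (Vale.Agent.P032.Lt.q R0Q073.q1608_2) (q_cons (Vale.Agent.P032.Lt.q R0Q073.q1608_3) (q_cons (Vale.Agent.P032.Lt.q R0Q073.q1608_4) (q_cons (Vale.Agent.P032.Lt.q R0Q073.q1608_5) (q_cons (Vale.Agent.P032.Lt.q R0Q073.q1608_6) (q_cons (Vale.Agent.P032.Lt.q R0Q073.q1608_7) q_nil)))))))))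

def C1609 : List ℕ := [0, 4, 8, 12, 16, 20, 24, 82945, 216065, 347137, 475137, 609281, 611329, 737281]
theorem p1609 : Pat 73 73 TBm TCm (C1609.map Fm) R0Q073.P1609 R0Q073.I1609 := Vale.Agent.P032.Lt.pat_eq (E' := R0Q073.E1609) (by decide +kernel) (pat_step (by decide +kernel) (q_cons (Vale.Agent.P032.Lt.q R0Q073.q1609_0) q_nil))

theorem p1610 : Pat 73 73 TBm TCm (CB.map Fm) R0Q073.P1610 R0Q073.I1610 := Vale.Agent.P032.Lt.pat_eq (E' := R0Q073.E) eB (pat_step (by decide +kernel) (q_cons (Vale.Agent.P032.Lt.q R0Q073.q1610_0) (q_cons (Vale.Agent.P032.Lt.q R0Q073.q1610_1) (q_cons (Vale.Agent.P032.Lt.q R0Q073.q1610_2) (q_cons (Vale.Agent.P032.Lt.q R0Q073.q1610_3) (q_cons (Vale.Agent.P032.Lt.q R0Q073.q1610_4) (q_cons (Vale.Agent.P032.Lt.q R0Q073.q1610_5) (q_cons (Vale.Agent.P032.Lt.q R0Q073.q1610_6) (q_cons (Vale.Agent.P032.Lt.q R0Q073.q1610_7) (q_cons (Vale.Agent.P032.Lt.q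 R0Q073.q1610_8) (q_cons (Vale.Agent.P032.Lt.q R0Q073.q1610_9) (q_cons (Vale.Agent.P032.Lt.q R0Q073.q1610_10) (q_cons (Vale.Agent.P032.Lt.q R0Q073.q1610_11) (q_cons (Vale.Agent.P032.Lt.q R0Q073.q1610_12) (q_cons (Vale.Agent.P032.Lt.q R0Q073.q1610_13) (q_cons (Vale.Agent.P032.Lt.q R0Q073.q1610_14) (q_cons (Vale.Agent.P032.Lt.q R0Q073.q1610_15) (q_cons (Vale.Agent.P032.Lt.q R0Q073.q1610_16) (q_cons (Vale.Agent.P032.Lt.q R0Q073.q1610_17) (q_cons (Vale.Agent.P032.Lt.q R0Q073.q1610_18) (q_cons (Vale.Agent.P032.Lt.q R0Q073.q1610_19) (q_cons (Vale.Agent.P032.Lt.q R0Q073.q1610_20) q_nil))))))))))))))))))))))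

def C1611 : List ℕ := [0, 4, 8, 12, 16, 20, 24, 82945, 216065, 737281]
theorem p1611 : Pat 73 73 TBm TCm (C1611.map Fm) R0Q073.P1611 R0Q073.I1611 := Vale.Agent.P032.Lt.pat_eq (E' := R0Q073.E1611) (by decide +kernel) (pat_step (by decide +kernel) (q_cons (Vale.Agent.P032.Lt.q R0Q073.q1611_0) q_nil))

def C1612 : List ℕ := [0, 4, 8, 12, 16, 20, 24, 82945]
theorem p1612 : Pat 73 73 TBm TCm (C1612.map Fm) R0Q073.P1612 R0Q073.I1612 := Vale.Agent.P032.Lt.pat_eq (E' := R0Q073.E1612) (by decide +kernel) (pat_step (by decide +kernel) (q_cons (Vale.Agent.P032.Lt.q R0Q073.q1612_0) (q_cons (Vale.Agent.P032.Lt.q R0Q073.q1612_1) (q_cons (Vale.Agent.P032.Lt.q R0Q073.q1612_2) (q_cons (Vale.Agent.P032.Lt.q R0Q073.q1612_3) (q_cons (Vale.Agent.P032.Lt.q R0Q073.q1612_4) (q_cons (Vale.Agent.P032.Lt.q R0Q073.q1612_5) (q_cons (Vale.Agent.P032.Lt.q R0Q073.q1612_6) (q_cons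 (Vale.Agent.P032.Lt.q R0Q073.q1612_7) (q_cons (Vale.Agent.P032.Lt.q R0Q073.q1612_8) (q_cons (Vale.Agent.P032.Lt.q R0Q073.q1612_9) (q_cons (Vale.Agent.P032.Lt.q R0Q073.q1612_10) (q_cons (Vale.Agent.P032.Lt.q R0Q073.q1612_11) (q_cons (Vale.Agent.P032.Lt.q R0Q073.q1612_12) (q_cons (Vale.Agent.P032.Lt.q R0Q073.q1612_13) (q_cons (Vale.Agent.P032.Lt.q R0Q073.q1612_14) (q_cons (Vale.Agent.P032.Lt.q R0Q073.q1612_15) q_nil)))))))))))))))))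

def C1613 : List ℕ := [0, 4, 8, 12, 16, 20, 24, 82945, 212993, 606209, 737281]
theorem p1613 : Pat 73 73 TBm TCm (C1613.map Fm) R0Q073.P1613 R0Q073.I1613 := Vale.Agent.P032.Lt.pat_eq (E' := R0Q073.E1613) (by decide +kernel) (pat_step (by decide +kernel) (q_cons (Vale.Agent.P032.Lt.q R0Q073.q1613_0) (q_cons (Vale.Agent.P032.Lt.q R0Q073.q1613_1) (q_cons (Vale.Agent.P032.Lt.q R0Q073.q1613_2) (q_cons (Vale.Agent.P032.Lt.q R0Q073.q1613_3) (q_cons (Vale.Agent.P032.Lt.q R0Q073.q1613_4) (q_cons (Vale.Agent.P032.Lt.q R0Q073.q1613_5) (q_cons (Vale.Agent.P032.Lt.q R0Q073.q1613_6) (q_cons (Vale.Agent.P032.Lt.q R0Q073.q1613_7) (q_cons (Vale.Agent.P032.Lt.q R0Q073.q1613_8) (q_cons (Vale.Agent.P032.Lt.q R0Q073.q1613_9) (q_cons (Vale.Agent.P032.Lt.q R0Q073.q1613_10) (q_cons (Vale.Agent.P032.Lt.q R0Q073.q1613_11) q_nil)))))))))))))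

def C1614 : List ℕ := [0, 4, 8, 12, 16, 20, 24, 82945]
theorem p1614 : Pat 73 73 TBm TCm (C1614.map Fm) R0Q074.P1614 R0Q074.I1614 := Vale.Agent.P032.Lt.pat_eq (E' := R0Q074.E1614) (by decide +kernel) (pat_step (by decide +kernel) (q_cons (Vale.Agent.P032.Lt.q R0Q074.q1614_0) (q_cons (Vale.Agent.P032.Lt.q R0Q074.q1614_1) (q_cons (Vale.Agent.P032.Lt.q R0Q074.q1614_2) (q_cons (Vale.Agent.P032.Lt.q R0Q074.q1614_3) (q_cons (Vale.Agent.P032.Lt.q R0Q074.q1614_4) (q_cons (Vale.Agent.P032.Lt.q R0Q074.q1614_5) (q_cons (Vale.Agent.P032.Lt.q R0Q074.q1614_6) (q_cons (Vale.Agent.P032.Lt.q R0Q074.q1614_7) (q_cons (Vale.Agent.P032.Lt.q R0Q074.q1614_8) (q_cons (Vale.Agent.P032.Lt.q R0Q074.q1614_9) (q_cons (Vale.Agent.P032.Lt.q R0Q074.q1614_10) (q_cons (Vale.Agent.P032.Lt.q R0Q074.q1614_11) (q_cons (Vale.Agent.P032.Lt.q R0Q074.q1614_12) (q_cons (Vale.Agent.P032.Lt.q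 R0Q074.q1614_13) (q_cons (Vale.Agent.P032.Lt.q R0Q074.q1614_14) (q_cons (Vale.Agent.P032.Lt.q R0Q074.q1614_15) (q_cons (Vale.Agent.P032.Lt.q R0Q074.q1614_16) (q_cons (Vale.Agent.P032.Lt.q R0Q074.q1614_17) (q_cons (Vale.Agent.P032.Lt.q R0Q074.q1614_18) (q_cons (Vale.Agent.P032.Lt.q R0Q074.q1614_19) (q_cons (Vale.Agent.P032.Lt.q R0Q074.q1614_20) q_nil))))))))))))))))))))))

theorem p1615 : Pat 73 73 TBm TCm (CB.map Fm) R0Q074.P1615 R0Q074.I1615 := Vale.Agent.P032.Lt.pat_eq (E' := R0Q074.E) eB (pat_step (by decide +kernel) (q_cons (Vale.Agent.P032.Lt.q R0Q074.q1615_0) (q_cons (Vale.Agent.P032.Lt.q R0Q074.q1615_1) (q_cons (Vale.Agent.P032.Lt.q R0Q074.q1615_2) (q_cons (Vale.Agent.P032.Lt.q R0Q074.q1615_3) q_nil)))))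

theorem p1616 : Pat 73 73 TBm TCm (CB.map Fm) R0Q074.P1616 R0Q074.I1616 := Vale.Agent.P032.Lt.pat_eq (E' := R0Q074.E) eB (pat_step (by decide +kernel) (q_cons (Vale.Agent.P032.Lt.q R0Q074.q1616_0) (q_cons (Vale.Agent.P032.Lt.q R0Q074.q1616_1) (q_cons (Vale.Agent.P032.Lt.q R0Q074.q1616_2) (q_cons (Vale.Agent.P032.Lt.q R0Q074.q1616_3) q_nil)))))

theorem p1617 : Pat 73 73 TBm TCm (CB.map Fm) R0Q074.P1617 R0Q074.I1617 := Vale.Agent.P032.Lt.pat_eq (E' := R0Q074.E) eB (pat_step (by decide +kernel) (q_cons (Vale.Agent.P032.Lt.q R0Q074.q1617_0) q_nil))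

theorem p1618 : Pat 73 73 TBm TCm (CB.map Fm) R0Q074.P1618 R0Q074.I1618 := Vale.Agent.P032.Lt.pat_eq (E' := R0Q074.E) eB (pat_step (by decide +kernel) (q_cons (Vale.Agent.P032.Lt.q R0Q074.q1618_0) (q_cons (Vale.Agent.P032.Lt.q R0Q074.q1618_1) (q_cons (Vale.Agent.P032.Lt.q R0Q074.q1618_2) (q_cons (Vale.Agent.P032.Lt.q R0Q074.q1618_3) (q_cons (Vale.Agent.P032.Lt.q R0Q074.q1618_4) q_nil))))))

theorem p1619 : Pat 73 73 TBm TCm (CB.map Fm) R0Q074.P1619 R0Q074.I1619 := Vale.Agent.P032.Lt.pat_eq (E' := R0Q074.E) eB (pat_step (by decide +kernel) (q_cons (Vale.Agent.P032.Lt.q R0Q074.q1619_0) q_nil))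

theorem p1620 : Pat 73 73 TBm TCm (CB.map Fm) R0Q074.P1620 R0Q074.I1620 := Vale.Agent.P032.Lt.pat_eq (E' := R0Q074.E) eB (pat_step (by decide +kernel) (q_cons (Vale.Agent.P032.Lt.q R0Q074.q1620_0) (q_cons (Vale.Agent.P032.Lt.q R0Q074.q1620_1) q_nil)))

theorem p1621 : Pat 73 73 TBm TCm (CB.map Fm) R0Q074.P1621 R0Q074.I1621 := Vale.Agent.P032.Lt.pat_eq (E' := R0Q074.E) eB (pat_step (by decide +kernel) (q_cons (Vale.Agent.P032.Lt.q R0Q074.q1621_0) (q_cons (Vale.Agent.P032.Lt.q R0Q074.q1621_1) (q_cons (Vale.Agent.P032.Lt.q R0Q074.q1621_2) q_nil))))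

theorem p1622 : Pat 73 73 TBm TCm (CB.map Fm) R0Q074.P1622 R0Q074.I1622 := Vale.Agent.P032.Lt.pat_eq (E' := R0Q074.E) eB (pat_step (by decide +kernel) (q_cons (Vale.Agent.P032.Lt.q R0Q074.q1622_0) (q_cons (Vale.Agent.P032.Lt.q R0Q074.q1622_1) (q_cons (Vale.Agent.P032.Lt.q R0Q074.q1622_2) q_nil))))

theorem p1623 : Pat 73 73 TBm TCm (CB.map Fm) R0Q074.P1623 R0Q074.I1623 := Vale.Agent.P032.Lt.pat_eq (E' := R0Q074.E) eB (pat_step (by decide +kernel) (q_cons (Vale.Agent.P032.Lt.q R0Q074.q1623_0) (q_cons (Vale.Agent.P032.Lt.q R0Q074.q1623_1) (q_cons (Vale.Agent.P032.Lt.q R0Q074.q1623_2) q_nil))))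

theorem p1624 : Pat 73 73 TBm TCm (CB.map Fm) R0Q074.P1624 R0Q074.I1624 := Vale.Agent.P032.Lt.pat_eq (E' := R0Q074.E) eB (pat_step (by decide +kernel) (q_cons (Vale.Agent.P032.Lt.q R0Q074.q1624_0) (q_cons (Vale.Agent.P032.Lt.q R0Q074.q1624_1) (q_cons (Vale.Agent.P032.Lt.q R0Q074.q1624_2) (q_cons (Vale.Agent.P032.Lt.q R0Q074.q1624_3) q_nil)))))

theorem p1625 : Pat 73 73 TBm TCm (CB.map Fm) R0Q074.P1625 R0Q074.I1625 := Vale.Agent.P032.Lt.pat_eq (E' := R0Q074.E) eB (pat_step (by decide +kernel) (q_cons (Vale.Agent.P032.Lt.q R0Q074.q1625_0) (q_cons (Vale.Agent.P032.Lt.q R0Q074.q1625_1) (q_cons (Vale.Agent.P032.Lt.q R0Q074.q1625_2) (q_cons (Vale.Agent.P032.Lt.q R0Q074.q1625_3) (q_cons (Vale.Agent.P032.Lt.q R0Q074.q1625_4) q_nil))))))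

theorem p1626 : Pat 73 73 TBm TCm (CB.map Fm) R0Q074.P1626 R0Q074.I1626 := Vale.Agent.P032.Lt.pat_eq (E' := R0Q074.E) eB (pat_step (by decide +kernel) (q_cons (Vale.Agent.P032.Lt.q R0Q074.q1626_0) (q_cons (Vale.Agent.P032.Lt.q R0Q074.q1626_1) (q_cons (Vale.Agent.P032.Lt.q R0Q074.q1626_2) (q_cons (Vale.Agent.P032.Lt.q R0Q074.q1626_3) (q_cons (Vale.Agent.P032.Lt.q R0Q074.q1626_4) (q_cons (Vale.Agent.P032.Lt.q R0Q074.q1626_5) (q_cons (Vale.Agent.P032.Lt.q R0Q074.q1626_6) (q_cons (Vale.Agent.P032.Lt.q R0Q074.q1626_7) (q_cons (Vale.Agent.P032.Lt.q R0Q074.q1626_8) (q_cons (Vale.Agent.P032.Lt.q R0Q074.q1626_9) (q_cons (Vale.Agent.P032.Lt.q R0Q074.q1626_10) (q_cons (Vale.Agent.P032.Lt.q R0Q074.q1626_11) (q_cons (Vale.Agent.P032.Lt.q R0Q074.q1626_12) (q_cons (Vale.Agent.P032.Lt.q R0Q074.q1626_13) q_nil)))))))))))))))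

theorem p1627 : Pat 73 73 TBm TCm (CB.map Fm) R0Q074.P1627 R0Q074.I1627 := Vale.Agent.P032.Lt.pat_eq (E' := R0Q074.E) eB (pat_step (by decide +kernel) (q_cons (Vale.Agent.P032.Lt.q R0Q074.q1627_0) (q_cons (Vale.Agent.P032.Lt.q R0Q074.q1627_1) (q_cons (Vale.Agent.P032.Lt.q R0Q074.q1627_2) (q_cons (Vale.Agent.P032.Lt.q R0Q074.q1627_3) (q_cons (Vale.Agent.P032.Lt.q R0Q074.q1627_4) (q_cons (Vale.Agent.P032.Lt.q R0Q074.q1627_5) (q_cons (Vale.Agent.P032.Lt.q R0Q074.q1627_6) (q_cons (Vale.Agent.P032.Lt.q R0Q074.q1627_7) (q_cons (Vale.Agent.P032.Lt.q R0Q074.q1627_8) (q_cons (Vale.Agent.P032.Lt.q R0Q074.q1627_9) (q_cons (Vale.Agent.P032.Lt.q R0Q074.q1627_10) (q_cons (Vale.Agent.P032.Lt.q R0Q074.q1627_11) (q_cons (Vale.Agent.P032.Lt.q R0Q074.q1627_12) (q_cons (Vale.Agent.P032.Lt.q R0Q074.q1627_13) (q_cons (Vale.Agent.P032.Lt.q R0Q074.q1627_14) (q_cons (Vale.Agent.P032.Lt.q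 R0Q074.q1627_15) q_nil)))))))))))))))))

theorem p1628 : Pat 73 73 TBm TCm (CB.map Fm) R0Q074.P1628 R0Q074.I1628 := Vale.Agent.P032.Lt.pat_eq (E' := R0Q074.E) eB (pat_step (by decide +kernel) (q_cons (Vale.Agent.P032.Lt.q R0Q074.q1628_0) (q_cons (Vale.Agent.P032.Lt.q R0Q074.q1628_1) (q_cons (Vale.Agent.P032.Lt.q R0Q074.q1628_2) (q_cons (Vale.Agent.P032.Lt.q R0Q074.q1628_3) (q_cons (Vale.Agent.P032.Lt.q R0Q074.q1628_4) q_nil))))))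

theorem p1629 : Pat 73 73 TBm TCm (CB.map Fm) R0Q074.P1629 R0Q074.I1629 := Vale.Agent.P032.Lt.pat_eq (E' := R0Q074.E) eB (pat_step (by decide +kernel) (q_cons (Vale.Agent.P032.Lt.q R0Q074.q1629_0) (q_cons (Vale.Agent.P032.Lt.q R0Q074.q1629_1) q_nil)))

theorem p1630 : Pat 73 73 TBm TCm (CB.map Fm) R0Q074.P1630 R0Q074.I1630 := Vale.Agent.P032.Lt.pat_eq (E' := R0Q074.E) eB (pat_step (by decide +kernel) (q_cons (Vale.Agent.P032.Lt.q R0Q074.q1630_0) q_nil))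

theorem p1631 : Pat 73 73 TBm TCm (CB.map Fm) R0Q074.P1631 R0Q074.I1631 := Vale.Agent.P032.Lt.pat_eq (E' := R0Q074.E) eB (pat_step (by decide +kernel) (q_cons (Vale.Agent.P032.Lt.q R0Q074.q1631_0) (q_cons (Vale.Agent.P032.Lt.q R0Q074.q1631_1) q_nil)))

theorem p1632 : Pat 73 73 TBm TCm (CB.map Fm) R0Q074.P1632 R0Q074.I1632 := Vale.Agent.P032.Lt.pat_eq (E' := R0Q074.E) eB (pat_step (by decide +kernel) (q_cons (Vale.Agent.P032.Lt.q R0Q074.q1632_0) (q_cons (Vale.Agent.P032.Lt.q R0Q074.q1632_1) q_nil)))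

theorem p1633 : Pat 73 73 TBm TCm (CB.map Fm) R0Q074.P1633 R0Q074.I1633 := Vale.Agent.P032.Lt.pat_eq (E' := R0Q074.E) eB (pat_step (by decide +kernel) (q_cons (Vale.Agent.P032.Lt.q R0Q074.q1633_0) (q_cons (Vale.Agent.P032.Lt.q R0Q074.q1633_1) (q_cons (Vale.Agent.P032.Lt.q R0Q074.q1633_2) (q_cons (Vale.Agent.P032.Lt.q R0Q074.q1633_3) (q_cons (Vale.Agent.P032.Lt.q R0Q074.q1633_4) q_nil))))))

theorem p1634 : Pat 73 73 TBm TCm (CB.map Fm) R0Q074.P1634 R0Q074.I1634 := Vale.Agent.P032.Lt.pat_eq (E' := R0Q074.E) eB (pat_step (by decide +kernel) (q_cons (Vale.Agent.P032.Lt.q R0Q074.q1634_0) q_nil))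

theorem p1635 : Pat 73 73 TBm TCm (CB.map Fm) R0Q074.P1635 R0Q074.I1635 := Vale.Agent.P032.Lt.pat_eq (E' := R0Q074.E) eB (pat_step (by decide +kernel) (q_cons (Vale.Agent.P032.Lt.q R0Q074.q1635_0) (q_cons (Vale.Agent.P032.Lt.q R0Q074.q1635_1) (q_cons (Vale.Agent.P032.Lt.q R0Q074.q1635_2) (q_cons (Vale.Agent.P032.Lt.q R0Q074.q1635_3) (q_cons (Vale.Agent.P032.Lt.q R0Q074.q1635_4) q_nil))))))

theorem p1636 : Pat 73 73 TBm TCm (CB.map Fm) R0Q074.P1636 R0Q074.I1636 := Vale.Agent.P032.Lt.pat_eq (E' := R0Q074.E) eB (pat_step (by decide +kernel) (q_cons (Vale.Agent.P032.Lt.q R0Q074.q1636_0) (q_cons (Vale.Agent.P032.Lt.q R0Q074.q1636_1) (q_cons (Vale.Agent.P032.Lt.q R0Q074.q1636_2) (q_cons (Vale.Agent.P032.Lt.q R0Q074.q1636_3) (q_cons (Vale.Agent.P032.Lt.q R0Q074.q1636_4) (q_cons (Vale.Agent.P032.Lt.q R0Q074.q1636_5) q_nil)))))))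

theorem p1637 : Pat 73 73 TBm TCm (CB.map Fm) R0Q074.P1637 R0Q074.I1637 := Vale.Agent.P032.Lt.pat_eq (E' := R0Q074.E) eB (pat_step (by decide +kernel) (q_cons (Vale.Agent.P032.Lt.q R0Q074.q1637_0) (q_cons (Vale.Agent.P032.Lt.q R0Q074.q1637_1) q_nil)))

theorem p1638 : Pat 73 73 TBm TCm (CB.map Fm) R0Q074.P1638 R0Q074.I1638 := Vale.Agent.P032.Lt.pat_eq (E' := R0Q074.E) eB (pat_step (by decide +kernel) (q_cons (Vale.Agent.P032.Lt.q R0Q074.q1638_0) (q_cons (Vale.Agent.P032.Lt.q R0Q074.q1638_1) q_nil)))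

theorem p1639 : Pat 73 73 TBm TCm (CB.map Fm) R0Q074.P1639 R0Q074.I1639 := Vale.Agent.P032.Lt.pat_eq (E' := R0Q074.E) eB (pat_step (by decide +kernel) (q_cons (Vale.Agent.P032.Lt.q R0Q074.q1639_0) (q_cons (Vale.Agent.P032.Lt.q R0Q074.q1639_1) q_nil)))

theorem p1640 : Pat 73 73 TBm TCm (CB.map Fm) R0Q074.P1640 R0Q074.I1640 := Vale.Agent.P032.Lt.pat_eq (E' := R0Q074.E) eB (pat_step (by decide +kernel) (q_cons (Vale.Agent.P032.Lt.q R0Q074.q1640_0) (q_cons (Vale.Agent.P032.Lt.q R0Q074.q1640_1) (q_cons (Vale.Agent.P032.Lt.q R0Q074.q1640_2) (q_cons (Vale.Agent.P032.Lt.q R0Q074.q1640_3) (q_cons (Vale.Agent.P032.Lt.q R0Q074.q1640_4) (q_cons (Vale.Agent.P032.Lt.q R0Q074.q1640_5) q_nil)))))))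

theorem p1641 : Pat 73 73 TBm TCm (CB.map Fm) R0Q074.P1641 R0Q074.I1641 := Vale.Agent.P032.Lt.pat_eq (E' := R0Q074.E) eB (pat_step (by decide +kernel) (q_cons (Vale.Agent.P032.Lt.q R0Q074.q1641_0) (q_cons (Vale.Agent.P032.Lt.q R0Q074.q1641_1) (q_cons (Vale.Agent.P032.Lt.q R0Q074.q1641_2) q_nil))))

theorem p1642 : Pat 73 73 TBm TCm (CB.map Fm) R0Q074.P1642 R0Q074.I1642 := Vale.Agent.P032.Lt.pat_eq (E' := R0Q074.E) eB (pat_step (by decide +kernel) (q_cons (Vale.Agent.P032.Lt.q R0Q074.q1642_0) q_nil))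

theorem p1643 : Pat 73 73 TBm TCm (CB.map Fm) R0Q074.P1643 R0Q074.I1643 := Vale.Agent.P032.Lt.pat_eq (E' := R0Q074.E) eB (pat_step (by decide +kernel) (q_cons (Vale.Agent.P032.Lt.q R0Q074.q1643_0) (q_cons (Vale.Agent.P032.Lt.q R0Q074.q1643_1) q_nil)))

theorem p1644 : Pat 73 73 TBm TCm (CB.map Fm) R0Q074.P1644 R0Q074.I1644 := Vale.Agent.P032.Lt.pat_eq (E' := R0Q074.E) eB (pat_step (by decide +kernel) (q_cons (Vale.Agent.P032.Lt.q R0Q074.q1644_0) (q_cons (Vale.Agent.P032.Lt.q R0Q074.q1644_1) (q_cons (Vale.Agent.P032.Lt.q R0Q074.q1644_2) q_nil))))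

theorem p1645 : Pat 73 73 TBm TCm (CB.map Fm) R0Q074.P1645 R0Q074.I1645 := Vale.Agent.P032.Lt.pat_eq (E' := R0Q074.E) eB (pat_step (by decide +kernel) (q_cons (Vale.Agent.P032.Lt.q R0Q074.q1645_0) (q_cons (Vale.Agent.P032.Lt.q R0Q074.q1645_1) q_nil)))

theorem p1646 : Pat 73 73 TBm TCm (CB.map Fm) R0Q075.P1646 R0Q075.I1646 := Vale.Agent.P032.Lt.pat_eq (E' := R0Q075.E) eB (pat_step (by decide +kernel) (q_cons (Vale.Agent.P032.Lt.q R0Q075.q1646_0) (q_cons (Vale.Agent.P032.Lt.q R0Q075.q1646_1) (q_cons (Vale.Agent.P032.Lt.q R0Q075.q1646_2) q_nil))))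

theorem p1647 : Pat 73 73 TBm TCm (CB.map Fm) R0Q075.P1647 R0Q075.I1647 := Vale.Agent.P032.Lt.pat_eq (E' := R0Q075.E) eB (pat_step (by decide +kernel) (q_cons (Vale.Agent.P032.Lt.q R0Q075.q1647_0) (q_cons (Vale.Agent.P032.Lt.q R0Q075.q1647_1) (q_cons (Vale.Agent.P032.Lt.q R0Q075.q1647_2) (q_cons (Vale.Agent.P032.Lt.q R0Q075.q1647_3) (q_cons (Vale.Agent.P032.Lt.q R0Q075.q1647_4) (q_cons (Vale.Agent.P032.Lt.q R0Q075.q1647_5) (q_cons (Vale.Agent.P032.Lt.q R0Q075.q1647_6) (q_cons (Vale.Agent.P032.Lt.q R0Q075.q1647_7) (q_cons (Vale.Agent.P032.Lt.q R0Q075.q1647_8) (q_cons (Vale.Agent.P032.Lt.q R0Q075.q1647_9) q_nil)))))))))))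

theorem p1648 : Pat 73 73 TBm TCm (CB.map Fm) R0Q075.P1648 R0Q075.I1648 := Vale.Agent.P032.Lt.pat_eq (E' := R0Q075.E) eB (pat_step (by decide +kernel) (q_cons (Vale.Agent.P032.Lt.q R0Q075.q1648_0) (q_cons (Vale.Agent.P032.Lt.q R0Q075.q1648_1) (q_cons (Vale.Agent.P032.Lt.q R0Q075.q1648_2) (q_cons (Vale.Agent.P032.Lt.q R0Q075.q1648_3) q_nil)))))

theorem p1649 : Pat 73 73 TBm TCm (CB.map Fm) R0Q075.P1649 R0Q075.I1649 := Vale.Agent.P032.Lt.pat_eq (E' := R0Q075.E) eB (pat_step (by decide +kernel) (q_cons (Vale.Agent.P032.Lt.q R0Q075.q1649_0) (q_cons (Vale.Agent.P032.Lt.q R0Q075.q1649_1) q_nil)))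

theorem p1650 : Pat 73 73 TBm TCm (CB.map Fm) R0Q075.P1650 R0Q075.I1650 := Vale.Agent.P032.Lt.pat_eq (E' := R0Q075.E) eB (pat_step (by decide +kernel) (q_cons (Vale.Agent.P032.Lt.q R0Q075.q1650_0) (q_cons (Vale.Agent.P032.Lt.q R0Q075.q1650_1) (q_cons (Vale.Agent.P032.Lt.q R0Q075.q1650_2) q_nil))))

def C1651 : List ℕ := [0, 4, 8, 12, 16, 20, 24, 349185]
theorem p1651 : Pat 73 73 TBm TCm (C1651.map Fm) R0Q075.P1651 R0Q075.I1651 := Vale.Agent.P032.Lt.pat_eq (E' := R0Q075.E1651) (by decide +kernel) (pat_step (by decide +kernel) (q_cons (Vale.Agent.P032.Lt.q R0Q075.q1651_0) q_nil))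

theorem p1652 : Pat 73 73 TBm TCm (CB.map Fm) R0Q075.P1652 R0Q075.I1652 := Vale.Agent.P032.Lt.pat_eq (E' := R0Q075.E) eB (pat_step (by decide +kernel) (q_cons (Vale.Agent.P032.Lt.q R0Q075.q1652_0) (q_cons (Vale.Agent.P032.Lt.q R0Q075.q1652_1) (q_cons (Vale.Agent.P032.Lt.q R0Q075.q1652_2) (q_cons (Vale.Agent.P032.Lt.q R0Q075.q1652_3) (q_cons (Vale.Agent.P032.Lt.q R0Q075.q1652_4) (q_cons (Vale.Agent.P032.Lt.q R0Q075.q1652_5) (q_cons (Vale.Agent.P032.Lt.q R0Q075.q1652_6) (q_cons (Vale.Agent.P032.Lt.q R0Q075.q1652_7) (q_cons (Vale.Agent.P032.Lt.q R0Q075.q1652_8) (q_cons (Vale.Agent.P032.Lt.q R0Q075.q1652_9) (q_cons (Vale.Agent.P032.Lt.q R0Q075.q1652_10) q_nil))))))))))))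

def C1653 : List ℕ := [0, 4, 8, 12, 16, 20, 24, 745473]
theorem p1653 : Pat 73 73 TBm TCm (C1653.map Fm) R0Q075.P1653 R0Q075.I1653 := Vale.Agent.P032.Lt.pat_eq (E' := R0Q075.E1653) (by decide +kernel) (pat_step (by decide +kernel) (q_cons (Vale.Agent.P032.Lt.q R0Q075.q1653_0) (q_cons (Vale.Agent.P032.Lt.q R0Q075.q1653_1) (q_cons (Vale.Agent.P032.Lt.q R0Q075.q1653_2) (q_cons (Vale.Agent.P032.Lt.q R0Q075.q1653_3) (q_cons (Vale.Agent.P032.Lt.q R0Q075.q1653_4) (q_cons (Vale.Agent.P032.Lt.q R0Q075.q1653_5) (q_cons (Vale.Agent.P032.Lt.q R0Q075.q1653_6) (q_cons (Vale.Agent.P032.Lt.q R0Q075.q1653_7) (q_cons (Vale.Agent.P032.Lt.q R0Q075.q1653_8) (q_cons (Vale.Agent.P032.Lt.q R0Q075.q1653_9) (q_cons (Vale.Agent.P032.Lt.q R0Q075.q1653_10) (q_cons (Vale.Agent.P032.Lt.q R0Q075.q1653_11) (q_cons (Vale.Agent.P032.Lt.q R0Q075.q1653_12) q_nil))))))))))))))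

theorem p1654 : Pat 73 73 TBm TCm (CB.map Fm) R0Q075.P1654 R0Q075.I1654 := Vale.Agent.P032.Lt.pat_eq (E' := R0Q075.E) eB (pat_step (by decide +kernel) (q_cons (Vale.Agent.P032.Lt.q R0Q075.q1654_0) (q_cons (Vale.Agent.P032.Lt.q R0Q075.q1654_1) (q_cons (Vale.Agent.P032.Lt.q R0Q075.q1654_2) (q_cons (Vale.Agent.P032.Lt.q R0Q075.q1654_3) (q_cons (Vale.Agent.P032.Lt.q R0Q075.q1654_4) q_nil))))))

theorem p1655 : Pat 73 73 TBm TCm (CB.map Fm) R0Q075.P1655 R0Q075.I1655 := Vale.Agent.P032.Lt.pat_eq (E' := R0Q075.E) eB (pat_step (by decide +kernel) (q_cons (Vale.Agent.P032.Lt.q R0Q075.q1655_0) q_nil))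

theorem p1656 : Pat 73 73 TBm TCm (CB.map Fm) R0Q075.P1656 R0Q075.I1656 := Vale.Agent.P032.Lt.pat_eq (E' := R0Q075.E) eB (pat_step (by decide +kernel) (q_cons (Vale.Agent.P032.Lt.q R0Q075.q1656_0) q_nil))

theorem p1657 : Pat 73 73 TBm TCm (CB.map Fm) R0Q075.P1657 R0Q075.I1657 := Vale.Agent.P032.Lt.pat_eq (E' := R0Q075.E) eB (pat_step (by decide +kernel) (q_cons (Vale.Agent.P032.Lt.q R0Q075.q1657_0) q_nil))

theorem p1658 : Pat 73 73 TBm TCm (CB.map Fm) R0Q075.P1658 R0Q075.I1658 := Vale.Agent.P032.Lt.pat_eq (E' := R0Q075.E) eB (pat_step (by decide +kernel) (q_cons (Vale.Agent.P032.Lt.q R0Q075.q1658_0) (q_cons (Vale.Agent.P032.Lt.q R0Q075.q1658_1) (q_cons (Vale.Agent.P032.Lt.q R0Q075.q1658_2) q_nil))))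

theorem p1659 : Pat 73 73 TBm TCm (CB.map Fm) R0Q075.P1659 R0Q075.I1659 := Vale.Agent.P032.Lt.pat_eq (E' := R0Q075.E) eB (pat_step (by decide +kernel) (q_cons (Vale.Agent.P032.Lt.q R0Q075.q1659_0) q_nil))

theorem p1660 : Pat 73 73 TBm TCm (CB.map Fm) R0Q075.P1660 R0Q075.I1660 := Vale.Agent.P032.Lt.pat_eq (E' := R0Q075.E) eB (pat_step (by decide +kernel) (q_cons (Vale.Agent.P032.Lt.q R0Q075.q1660_0) (q_cons (Vale.Agent.P032.Lt.q R0Q075.q1660_1) q_nil)))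

def C1661 : List ℕ := [0, 4, 8, 12, 16, 20, 24, 212993, 606209, 737281]
theorem p1661 : Pat 73 73 TBm TCm (C1661.map Fm) R0Q075.P1661 R0Q075.I1661 := Vale.Agent.P032.Lt.pat_eq (E' := R0Q075.E1661) (by decide +kernel) (pat_step (by decide +kernel) (q_cons (Vale.Agent.P032.Lt.q R0Q075.q1661_0) (q_cons (Vale.Agent.P032.Lt.q R0Q075.q1661_1) q_nil)))

theorem p1662 : Pat 73 73 TBm TCm (CB.map Fm) R0Q075.P1662 R0Q075.I1662 := Vale.Agent.P032.Lt.pat_eq (E' := R0Q075.E) eB (pat_step (by decide +kernel) (q_cons (Vale.Agent.P032.Lt.q R0Q075.q1662_0) (q_cons (Vale.Agent.P032.Lt.q R0Q075.q1662_1) (q_cons (Vale.Agent.P032.Lt.q R0Q075.q1662_2) (q_cons (Vale.Agent.P032.Lt.q R0Q075.q1662_3) (q_cons (Vale.Agent.P032.Lt.q R0Q075.q1662_4) (q_cons (Vale.Agent.P032.Lt.q R0Q075.q1662_5) q_nil)))))))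

theorem p1663 : Pat 73 73 TBm TCm (CB.map Fm) R0Q075.P1663 R0Q075.I1663 := Vale.Agent.P032.Lt.pat_eq (E' := R0Q075.E) eB (pat_step (by decide +kernel) (q_cons (Vale.Agent.P032.Lt.q R0Q075.q1663_0) (q_cons (Vale.Agent.P032.Lt.q R0Q075.q1663_1) (q_cons (Vale.Agent.P032.Lt.q R0Q075.q1663_2) (q_cons (Vale.Agent.P032.Lt.q R0Q075.q1663_3) (q_cons (Vale.Agent.P032.Lt.q R0Q075.q1663_4) (q_cons (Vale.Agent.P032.Lt.q R0Q075.q1663_5) (q_cons (Vale.Agent.P032.Lt.q R0Q075.q1663_6) (q_cons (Vale.Agent.P032.Lt.q R0Q075.q1663_7) q_nil)))))))))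

def L : List (List ℕ) := [R0Q071.P1536, R0Q071.P1537, R0Q071.P1538, R0Q071.P1539, R0Q071.P1540, R0Q071.P1541, R0Q071.P1542, R0Q071.P1543, R0Q071.P1544, R0Q071.P1545, R0Q071.P1546, R0Q071.P1547, R0Q071.P1548, R0Q071.P1549, R0Q071.P1550, R0Q071.P1551, R0Q071.P1552, R0Q071.P1553, R0Q071.P1554, R0Q071.P1555, R0Q071.P1556, R0Q071.P1557, R0Q071.P1558, R0Q071.P1559, R0Q071.P1560, R0Q071.P1561, R0Q071.P1562, R0Q072.P1563, R0Q072.P1564, R0Q072.P1565, R0Q072.P1566, R0Q072.P1567, R0Q072.P1568, R0Q072.P1569, R0Q072.P1570, R0Q072.P1571, R0Q072.P1572, R0Q072.P1573, R0Q072.P1574, R0Q072.P1575, R0Q072.P1576, R0Q072.P1577, R0Q072.P1578, R0Q072.P1579, R0Q072.P1580, R0Q072.P1581, R0Q072.P1582, R0Q072.P1583, R0Q072.P1584, R0Q072.P1585, R0Q072.P1586, R0Q072.P1587, R0Q072.P1588, R0Q072.P1589, R0Q072.P1590, R0Q073.P1591, R0Q073.P1592, R0Q073.P1593, R0Q073.P1594, R0Q073.P1595,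 R0Q073.P1596, R0Q073.P1597, R0Q073.P1598, R0Q073.P1599, R0Q073.P1600, R0Q073.P1601, R0Q073.P1602, R0Q073.P1603, R0Q073.P1604, R0Q073.P1605, R0Q073.P1606, R0Q073.P1607, R0Q073.P1608, R0Q073.P1609, R0Q073.P1610, R0Q073.P1611, R0Q073.P1612, R0Q073.P1613, R0Q074.P1614, R0Q074.P1615, R0Q074.P1616, R0Q074.P1617, R0Q074.P1618, R0Q074.P1619, R0Q074.P1620, R0Q074.P1621, R0Q074.P1622, R0Q074.P1623, R0Q074.P1624, R0Q074.P1625, R0Q074.P1626, R0Q074.P1627, R0Q074.P1628, R0Q074.P1629, R0Q074.P1630, R0Q074.P1631, R0Q074.P1632, R0Q074.P1633, R0Q074.P1634, R0Q074.P1635, R0Q074.P1636, R0Q074.P1637, R0Q074.P1638, R0Q074.P1639, R0Q074.P1640, R0Q074.P1641, R0Q074.P1642, R0Q074.P1643, R0Q074.P1644, R0Q074.P1645, R0Q075.P1646, R0Q075.P1647, R0Q075.P1648, R0Q075.P1649, R0Q075.P1650, R0Q075.P1651, R0Q075.P1652, R0Q075.P1653, R0Q075.P1654, R0Q075.P1655, R0Q075.P1656, R0Q075.P1657,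 R0Q075.P1658, R0Q075.P1659, R0Q075.P1660, R0Q075.P1661, R0Q075.P1662, R0Q075.P1663]

theorem all : ∀ P ∈ L, CrtF 73 73 TBm TCm (Vale.Agent.P032.Fam.fam2 (Vale.Agent.P032.Fam.im0)) P := crtF_cons p1536 (crtF_cons p1537 (crtF_cons p1538 (crtF_cons p1539 (crtF_cons p1540 (crtF_cons p1541 (crtF_cons p1542 (crtF_cons p1543 (crtF_cons p1544 (crtF_cons p1545 (crtF_cons p1546 (crtF_cons p1547 (crtF_cons p1548 (crtF_cons p1549 (crtF_cons p1550 (crtF_cons p1551 (crtF_cons p1552 (crtF_cons p1553 (crtF_cons p1554 (crtF_cons p1555 (crtF_cons p1556 (crtF_cons p1557 (crtF_cons p1558 (crtF_cons p1559 (crtF_cons p1560 (crtF_cons p1561 (crtF_cons p1562 (crtF_cons p1563 (crtF_cons p1564 (crtF_cons p1565 (crtF_cons p1566 (crtF_cons p1567 (crtF_cons p1568 (crtF_cons p1569 (crtF_cons p1570 (crtF_cons p1571 (crtF_cons p1572 (crtF_cons p1573 (crtF_cons p1574 (crtF_cons p1575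 (crtF_cons p1576 (crtF_cons p1577 (crtF_cons p1578 (crtF_cons p1579 (crtF_cons p1580 (crtF_cons p1581 (crtF_cons p1582 (crtF_cons p1583 (crtF_cons p1584 (crtF_cons p1585 (crtF_cons p1586 (crtF_cons p1587 (crtF_cons p1588 (crtF_cons p1589 (crtF_cons p1590 (crtF_cons p1591 (crtF_cons p1592 (crtF_cons p1593 (crtF_cons p1594 (crtF_cons p1595 (crtF_cons p1596 (crtF_cons p1597 (crtF_cons p1598 (crtF_cons p1599 (crtF_cons p1600 (crtF_cons p1601 (crtF_cons p1602 (crtF_cons p1603 (crtF_cons p1604 (crtF_cons p1605 (crtF_cons p1606 (crtF_cons p1607 (crtF_cons p1608 (crtF_cons p1609 (crtF_cons p1610 (crtF_cons p1611 (crtF_cons p1612 (crtF_cons p1613 (crtF_cons p1614 (crtF_cons p1615 (crtF_cons p1616 (crtF_cons p1617 (crtF_cons p1618 (crtF_cons p1619 (crtF_cons p1620 (crtF_cons p1621 (crtF_cons p1622 (crtF_cons p1623 (crtF_cons p1624 (crtF_cons p1625 (crtF_cons p1626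 (crtF_cons p1627 (crtF_cons p1628 (crtF_cons p1629 (crtF_cons p1630 (crtF_cons p1631 (crtF_cons p1632 (crtF_cons p1633 (crtF_cons p1634 (crtF_cons p1635 (crtF_cons p1636 (crtF_cons p1637 (crtF_cons p1638 (crtF_cons p1639 (crtF_cons p1640 (crtF_cons p1641 (crtF_cons p1642 (crtF_cons p1643 (crtF_cons p1644 (crtF_cons p1645 (crtF_cons p1646 (crtF_cons p1647 (crtF_cons p1648 (crtF_cons p1649 (crtF_cons p1650 (crtF_cons p1651 (crtF_cons p1652 (crtF_cons p1653 (crtF_cons p1654 (crtF_cons p1655 (crtF_cons p1656 (crtF_cons p1657 (crtF_cons p1658 (crtF_cons p1659 (crtF_cons p1660 (crtF_cons p1661 (crtF_cons p1662 (crtF_cons p1663 crtF_nil)))))))))))))))))))))))))))))))))))))))))))))))))))))))))))))))))))))))))))))))))))))))))))))))))))))))))))))))))))))))))))))))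

theorem ch : chT 73 73 TCm s0_012 L = true := by decide +kernel

end Vale.Agent.P032X.Cert.XP.B1.R0H012
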