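import Vale.Agent.P032X.H892.LtH
import Vale.Agent.P032X.H286.W73
import Vale.Agent.P032X.Cert.XP.B1.R0T
import Vale.Agent.P032X.Cert.XP.B1.R0Q076
import Vale.Agent.P032X.Cert.XP.B1.R0Q077
import Vale.Agent.P032X.Cert.XP.B1.R0Q078
import Vale.Agent.P032X.Cert.XP.B1.R0Q079
import Vale.Agent.P032X.Cert.XP.B1.R0Q080
import Vale.Agent.P032X.Cert.XP.B1.R0Q081

set_option maxRecDepth 1000000

namespace Vale.Agent.P032X.Cert.XP.B1.R0H013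

open Vale.Agent.P032.H820.K Vale.Agent.P032.H357.MK Vale.Agent.P032.H286.E Vale.Agent.P032.H61 Vale.Agent.P032X.Cert.XP.B1

noncomputable abbrev Fm : ℕ → List ℕ := Vale.Agent.P032.Fam.fam2 (Vale.Agent.P032.Fam.im0)

def CB : List ℕ := [0, 4, 8, 12, 16, 20, 24]

theorem eB : Vale.Agent.P032.Lt.eqLL (CB.map Fm) R0Q076.E = true := by decide +kernel

theorem p1664 : Pat 73 73 TBm TCm (CB.map Fm) R0Q076.P1664 R0Q076.I1664 := Vale.Agent.P032.Lt.pat_eq (E' := R0Q076.E) eB (pat_step (by decide +kernel) (q_cons (Vale.Agent.P032.Lt.q R0Q076.q1664_0) (q_cons (Vale.Agent.P032.Lt.q R0Q076.q1664_1) (q_cons (Vale.Agent.P032.Lt.q R0Q076.q1664_2) (q_cons (Vale.Agent.P032.Lt.q R0Q076.q1664_3) (q_cons (Vale.Agent.P032.Lt.q R0Q076.q1664_4) (q_cons (Vale.Agent.P032.Lt.q R0Q076.q1664_5) (q_cons (Vale.Agent.P032.Lt.q R0Q076.q1664_6) (q_cons (Vale.Agent.P032.Lt.q R0Q076.q1664_7)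 q_nil)))))))))

theorem p1665 : Pat 73 73 TBm TCm (CB.map Fm) R0Q076.P1665 R0Q076.I1665 := Vale.Agent.P032.Lt.pat_eq (E' := R0Q076.E) eB (pat_step (by decide +kernel) (q_cons (Vale.Agent.P032.Lt.q R0Q076.q1665_0) (q_cons (Vale.Agent.P032.Lt.q R0Q076.q1665_1) (q_cons (Vale.Agent.P032.Lt.q R0Q076.q1665_2) (q_cons (Vale.Agent.P032.Lt.q R0Q076.q1665_3) (q_cons (Vale.Agent.P032.Lt.q R0Q076.q1665_4) (q_cons (Vale.Agent.P032.Lt.q R0Q076.q1665_5) (q_cons (Vale.Agent.P032.Lt.q R0Q076.q1665_6) (q_cons (Vale.Agent.P032.Lt.q R0Q076.q1665_7) (q_cons (Vale.Agent.P032.Lt.q R0Q076.q1665_8) q_nil))))))))))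

theorem p1666 : Pat 73 73 TBm TCm (CB.map Fm) R0Q076.P1666 R0Q076.I1666 := Vale.Agent.P032.Lt.pat_eq (E' := R0Q076.E) eB (pat_step (by decide +kernel) (q_cons (Vale.Agent.P032.Lt.q R0Q076.q1666_0) (q_cons (Vale.Agent.P032.Lt.q R0Q076.q1666_1) (q_cons (Vale.Agent.P032.Lt.q R0Q076.q1666_2) (q_cons (Vale.Agent.P032.Lt.q R0Q076.q1666_3) (q_cons (Vale.Agent.P032.Lt.q R0Q076.q1666_4) (q_cons (Vale.Agent.P032.Lt.q R0Q076.q1666_5) (q_cons (Vale.Agent.P032.Lt.q R0Q076.q1666_6) (q_cons (Vale.Agent.P032.Lt.q R0Q076.q1666_7) (q_cons (Vale.Agent.P032.Lt.q R0Q076.q1666_8) q_nil))))))))))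

theorem p1667 : Pat 73 73 TBm TCm (CB.map Fm) R0Q076.P1667 R0Q076.I1667 := Vale.Agent.P032.Lt.pat_eq (E' := R0Q076.E) eB (pat_step (by decide +kernel) (q_cons (Vale.Agent.P032.Lt.q R0Q076.q1667_0) q_nil))

theorem p1668 : Pat 73 73 TBm TCm (CB.map Fm) R0Q076.P1668 R0Q076.I1668 := Vale.Agent.P032.Lt.pat_eq (E' := R0Q076.E) eB (pat_step (by decide +kernel) (q_cons (Vale.Agent.P032.Lt.q R0Q076.q1668_0) (q_cons (Vale.Agent.P032.Lt.q R0Q076.q1668_1) (q_cons (Vale.Agent.P032.Lt.q R0Q076.q1668_2) (q_cons (Vale.Agent.P032.Lt.q R0Q076.q1668_3) (q_cons (Vale.Agent.P032.Lt.q R0Q076.q1668_4) (q_cons (Vale.Agent.P032.Lt.q R0Q076.q1668_5) (q_cons (Vale.Agent.P032.Lt.q R0Q076.q1668_6) (q_cons (Vale.Agent.P032.Lt.q R0Q076.q1668_7) (q_cons (Vale.Agent.P032.Lt.q R0Q076.q1668_8) (q_cons (Vale.Agent.P032.Lt.q R0Q076.q1668_9) q_nil)))))))))))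

theorem p1669 : Pat 73 73 TBm TCm (CB.map Fm) R0Q076.P1669 R0Q076.I1669 := Vale.Agent.P032.Lt.pat_eq (E' := R0Q076.E) eB (pat_step (by decide +kernel) (q_cons (Vale.Agent.P032.Lt.q R0Q076.q1669_0) q_nil))

def C1670 : List ℕ := [0, 4, 8, 12, 16, 20, 24, 83969, 86017, 344065, 475137, 606209, 741377]
theorem p1670 : Pat 73 73 TBm TCm (C1670.map Fm) R0Q076.P1670 R0Q076.I1670 := Vale.Agent.P032.Lt.pat_eq (E' := R0Q076.E1670) (by decide +kernel) (pat_step (by decide +kernel) (q_cons (Vale.Agent.P032.Lt.q R0Q076.q1670_0) q_nil))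

theorem p1671 : Pat 73 73 TBm TCm (CB.map Fm) R0Q076.P1671 R0Q076.I1671 := Vale.Agent.P032.Lt.pat_eq (E' := R0Q076.E) eB (pat_step (by decide +kernel) (q_cons (Vale.Agent.P032.Lt.q R0Q076.q1671_0) (q_cons (Vale.Agent.P032.Lt.q R0Q076.q1671_1) q_nil)))

theorem p1672 : Pat 73 73 TBm TCm (CB.map Fm) R0Q076.P1672 R0Q076.I1672 := Vale.Agent.P032.Lt.pat_eq (E' := R0Q076.E) eB (pat_step (by decide +kernel) (q_cons (Vale.Agent.P032.Lt.q R0Q076.q1672_0) (q_cons (Vale.Agent.P032.Lt.q R0Q076.q1672_1) (q_cons (Vale.Agent.P032.Lt.q R0Q076.q1672_2) (q_cons (Vale.Agent.P032.Lt.q R0Q076.q1672_3) (q_cons (Vale.Agent.P032.Lt.q R0Q076.q1672_4) (q_cons (Vale.Agent.P032.Lt.q R0Q076.q1672_5) (q_cons (Vale.Agent.P032.Lt.q R0Q076.q1672_6) (q_cons (Vale.Agent.P032.Lt.q R0Q076.q1672_7) (q_cons (Vale.Agent.P032.Lt.q R0Q076.q1672_8) (q_cons (Vale.Agent.P032.Lt.q R0Q076.q1672_9)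 (q_cons (Vale.Agent.P032.Lt.q R0Q076.q1672_10) (q_cons (Vale.Agent.P032.Lt.q R0Q076.q1672_11) q_nil)))))))))))))

theorem p1673 : Pat 73 73 TBm TCm (CB.map Fm) R0Q076.P1673 R0Q076.I1673 := Vale.Agent.P032.Lt.pat_eq (E' := R0Q076.E) eB (pat_step (by decide +kernel) (q_cons (Vale.Agent.P032.Lt.q R0Q076.q1673_0) (q_cons (Vale.Agent.P032.Lt.q R0Q076.q1673_1) q_nil)))

theorem p1674 : Pat 73 73 TBm TCm (CB.map Fm) R0Q076.P1674 R0Q076.I1674 := Vale.Agent.P032.Lt.pat_eq (E' := R0Q076.E) eB (pat_step (by decide +kernel) (q_cons (Vale.Agent.P032.Lt.q R0Q076.q1674_0) (q_cons (Vale.Agent.P032.Lt.q R0Q076.q1674_1) q_nil)))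

theorem p1675 : Pat 73 73 TBm TCm (CB.map Fm) R0Q076.P1675 R0Q076.I1675 := Vale.Agent.P032.Lt.pat_eq (E' := R0Q076.E) eB (pat_step (by decide +kernel) (q_cons (Vale.Agent.P032.Lt.q R0Q076.q1675_0) (q_cons (Vale.Agent.P032.Lt.q R0Q076.q1675_1) (q_cons (Vale.Agent.P032.Lt.q R0Q076.q1675_2) q_nil))))

theorem p1676 : Pat 73 73 TBm TCm (CB.map Fm) R0Q076.P1676 R0Q076.I1676 := Vale.Agent.P032.Lt.pat_eq (E' := R0Q076.E) eB (pat_step (by decide +kernel) (q_cons (Vale.Agent.P032.Lt.q R0Q076.q1676_0) (q_cons (Vale.Agent.P032.Lt.q R0Q076.q1676_1) (q_cons (Vale.Agent.P032.Lt.q R0Q076.q1676_2) q_nil))))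

theorem p1677 : Pat 73 73 TBm TCm (CB.map Fm) R0Q076.P1677 R0Q076.I1677 := Vale.Agent.P032.Lt.pat_eq (E' := R0Q076.E) eB (pat_step (by decide +kernel) (q_cons (Vale.Agent.P032.Lt.q R0Q076.q1677_0) (q_cons (Vale.Agent.P032.Lt.q R0Q076.q1677_1) q_nil)))

theorem p1678 : Pat 73 73 TBm TCm (CB.map Fm) R0Q076.P1678 R0Q076.I1678 := Vale.Agent.P032.Lt.pat_eq (E' := R0Q076.E) eB (pat_step (by decide +kernel) (q_cons (Vale.Agent.P032.Lt.q R0Q076.q1678_0) (q_cons (Vale.Agent.P032.Lt.q R0Q076.q1678_1) (q_cons (Vale.Agent.P032.Lt.q R0Q076.q1678_2) (q_cons (Vale.Agent.P032.Lt.q R0Q076.q1678_3) (q_cons (Vale.Agent.P032.Lt.q R0Q076.q1678_4) (q_cons (Vale.Agent.P032.Lt.q R0Q076.q1678_5) (q_cons (Vale.Agent.P032.Lt.q R0Q076.q1678_6) (q_cons (Vale.Agent.P032.Lt.q R0Q076.q1678_7) (q_cons (Vale.Agent.P032.Lt.q R0Q076.q1678_8) (q_cons (Vale.Agent.P032.Lt.q R0Q076.q1678_9)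 (q_cons (Vale.Agent.P032.Lt.q R0Q076.q1678_10) (q_cons (Vale.Agent.P032.Lt.q R0Q076.q1678_11) (q_cons (Vale.Agent.P032.Lt.q R0Q076.q1678_12) (q_cons (Vale.Agent.P032.Lt.q R0Q076.q1678_13) q_nil)))))))))))))))

theorem p1679 : Pat 73 73 TBm TCm (CB.map Fm) R0Q076.P1679 R0Q076.I1679 := Vale.Agent.P032.Lt.pat_eq (E' := R0Q076.E) eB (pat_step (by decide +kernel) (q_cons (Vale.Agent.P032.Lt.q R0Q076.q1679_0) (q_cons (Vale.Agent.P032.Lt.q R0Q076.q1679_1) (q_cons (Vale.Agent.P032.Lt.q R0Q076.q1679_2) (q_cons (Vale.Agent.P032.Lt.q R0Q076.q1679_3) (q_cons (Vale.Agent.P032.Lt.q R0Q076.q1679_4) (q_cons (Vale.Agent.P032.Lt.q R0Q076.q1679_5) (q_cons (Vale.Agent.P032.Lt.q R0Q076.q1679_6) q_nil))))))))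

theorem p1680 : Pat 73 73 TBm TCm (CB.map Fm) R0Q076.P1680 R0Q076.I1680 := Vale.Agent.P032.Lt.pat_eq (E' := R0Q076.E) eB (pat_step (by decide +kernel) (q_cons (Vale.Agent.P032.Lt.q R0Q076.q1680_0) (q_cons (Vale.Agent.P032.Lt.q R0Q076.q1680_1) (q_cons (Vale.Agent.P032.Lt.q R0Q076.q1680_2) (q_cons (Vale.Agent.P032.Lt.q R0Q076.q1680_3) q_nil)))))

theorem p1681 : Pat 73 73 TBm TCm (CB.map Fm) R0Q076.P1681 R0Q076.I1681 := Vale.Agent.P032.Lt.pat_eq (E' := R0Q076.E) eB (pat_step (by decide +kernel) (q_cons (Vale.Agent.P032.Lt.q R0Q076.q1681_0) q_nil))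

def C1682 : List ℕ := [0, 4, 8, 12, 16, 20, 24, 606209, 737281]
theorem p1682 : Pat 73 73 TBm TCm (C1682.map Fm) R0Q076.P1682 R0Q076.I1682 := Vale.Agent.P032.Lt.pat_eq (E' := R0Q076.E1682) (by decide +kernel) (pat_step (by decide +kernel) (q_cons (Vale.Agent.P032.Lt.q R0Q076.q1682_0) (q_cons (Vale.Agent.P032.Lt.q R0Q076.q1682_1) (q_cons (Vale.Agent.P032.Lt.q R0Q076.q1682_2) (q_cons (Vale.Agent.P032.Lt.q R0Q076.q1682_3) (q_cons (Vale.Agent.P032.Lt.q R0Q076.q1682_4) (q_cons (Vale.Agent.P032.Lt.q R0Q076.q1682_5) (q_cons (Vale.Agent.P032.Lt.q R0Q076.q1682_6) (q_cons (Vale.Agent.P032.Lt.q R0Q076.q1682_7) (q_cons (Vale.Agent.P032.Lt.q R0Q076.q1682_8) (q_cons (Vale.Agent.P032.Lt.q R0Q076.q1682_9) (q_cons (Vale.Agent.P032.Lt.q R0Q076.q1682_10) (q_cons (Vale.Agent.P032.Lt.q R0Q076.q1682_11) (q_cons (Vale.Agent.P032.Lt.q R0Q076.q1682_12) (q_cons (Vale.Agent.P032.Lt.q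 R0Q076.q1682_13) (q_cons (Vale.Agent.P032.Lt.q R0Q076.q1682_14) q_nil))))))))))))))))

theorem p1683 : Pat 73 73 TBm TCm (CB.map Fm) R0Q076.P1683 R0Q076.I1683 := Vale.Agent.P032.Lt.pat_eq (E' := R0Q076.E) eB (pat_step (by decide +kernel) (q_cons (Vale.Agent.P032.Lt.q R0Q076.q1683_0) (q_cons (Vale.Agent.P032.Lt.q R0Q076.q1683_1) (q_cons (Vale.Agent.P032.Lt.q R0Q076.q1683_2) (q_cons (Vale.Agent.P032.Lt.q R0Q076.q1683_3) (q_cons (Vale.Agent.P032.Lt.q R0Q076.q1683_4) (q_cons (Vale.Agent.P032.Lt.q R0Q076.q1683_5) q_nil)))))))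

theorem p1684 : Pat 73 73 TBm TCm (CB.map Fm) R0Q076.P1684 R0Q076.I1684 := Vale.Agent.P032.Lt.pat_eq (E' := R0Q076.E) eB (pat_step (by decide +kernel) (q_cons (Vale.Agent.P032.Lt.q R0Q076.q1684_0) (q_cons (Vale.Agent.P032.Lt.q R0Q076.q1684_1) q_nil)))

theorem p1685 : Pat 73 73 TBm TCm (CB.map Fm) R0Q076.P1685 R0Q076.I1685 := Vale.Agent.P032.Lt.pat_eq (E' := R0Q076.E) eB (pat_step (by decide +kernel) (q_cons (Vale.Agent.P032.Lt.q R0Q076.q1685_0) q_nil))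

theorem p1686 : Pat 73 73 TBm TCm (CB.map Fm) R0Q076.P1686 R0Q076.I1686 := Vale.Agent.P032.Lt.pat_eq (E' := R0Q076.E) eB (pat_step (by decide +kernel) (q_cons (Vale.Agent.P032.Lt.q R0Q076.q1686_0) q_nil))

theorem p1687 : Pat 73 73 TBm TCm (CB.map Fm) R0Q076.P1687 R0Q076.I1687 := Vale.Agent.P032.Lt.pat_eq (E' := R0Q076.E) eB (pat_step (by decide +kernel) (q_cons (Vale.Agent.P032.Lt.q R0Q076.q1687_0) (q_cons (Vale.Agent.P032.Lt.q R0Q076.q1687_1) (q_cons (Vale.Agent.P032.Lt.q R0Q076.q1687_2) (q_cons (Vale.Agent.P032.Lt.q R0Q076.q1687_3) (q_cons (Vale.Agent.P032.Lt.q R0Q076.q1687_4) q_nil))))))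

theorem p1688 : Pat 73 73 TBm TCm (CB.map Fm) R0Q076.P1688 R0Q076.I1688 := Vale.Agent.P032.Lt.pat_eq (E' := R0Q076.E) eB (pat_step (by decide +kernel) (q_cons (Vale.Agent.P032.Lt.q R0Q076.q1688_0) (q_cons (Vale.Agent.P032.Lt.q R0Q076.q1688_1) q_nil)))

theorem p1689 : Pat 73 73 TBm TCm (CB.map Fm) R0Q076.P1689 R0Q076.I1689 := Vale.Agent.P032.Lt.pat_eq (E' := R0Q076.E) eB (pat_step (by decide +kernel) (q_cons (Vale.Agent.P032.Lt.q R0Q076.q1689_0) (q_cons (Vale.Agent.P032.Lt.q R0Q076.q1689_1) (q_cons (Vale.Agent.P032.Lt.q R0Q076.q1689_2) (q_cons (Vale.Agent.P032.Lt.q R0Q076.q1689_3) (q_cons (Vale.Agent.P032.Lt.q R0Q076.q1689_4) q_nil))))))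

theorem p1690 : Pat 73 73 TBm TCm (CB.map Fm) R0Q076.P1690 R0Q076.I1690 := Vale.Agent.P032.Lt.pat_eq (E' := R0Q076.E) eB (pat_step (by decide +kernel) (q_cons (Vale.Agent.P032.Lt.q R0Q076.q1690_0) (q_cons (Vale.Agent.P032.Lt.q R0Q076.q1690_1) (q_cons (Vale.Agent.P032.Lt.q R0Q076.q1690_2) q_nil))))

theorem p1691 : Pat 73 73 TBm TCm (CB.map Fm) R0Q076.P1691 R0Q076.I1691 := Vale.Agent.P032.Lt.pat_eq (E' := R0Q076.E) eB (pat_step (by decide +kernel) (q_cons (Vale.Agent.P032.Lt.q R0Q076.q1691_0) (q_cons (Vale.Agent.P032.Lt.q R0Q076.q1691_1) (q_cons (Vale.Agent.P032.Lt.q R0Q076.q1691_2) (q_cons (Vale.Agent.P032.Lt.q R0Q076.q1691_3) q_nil)))))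

theorem p1692 : Pat 73 73 TBm TCm (CB.map Fm) R0Q076.P1692 R0Q076.I1692 := Vale.Agent.P032.Lt.pat_eq (E' := R0Q076.E) eB (pat_step (by decide +kernel) (q_cons (Vale.Agent.P032.Lt.q R0Q076.q1692_0) (q_cons (Vale.Agent.P032.Lt.q R0Q076.q1692_1) (q_cons (Vale.Agent.P032.Lt.q R0Q076.q1692_2) q_nil))))

theorem p1693 : Pat 73 73 TBm TCm (CB.map Fm) R0Q076.P1693 R0Q076.I1693 := Vale.Agent.P032.Lt.pat_eq (E' := R0Q076.E) eB (pat_step (by decide +kernel) (q_cons (Vale.Agent.P032.Lt.q R0Q076.q1693_0) q_nil))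

theorem p1694 : Pat 73 73 TBm TCm (CB.map Fm) R0Q076.P1694 R0Q076.I1694 := Vale.Agent.P032.Lt.pat_eq (E' := R0Q076.E) eB (pat_step (by decide +kernel) (q_cons (Vale.Agent.P032.Lt.q R0Q076.q1694_0) (q_cons (Vale.Agent.P032.Lt.q R0Q076.q1694_1) q_nil)))

theorem p1695 : Pat 73 73 TBm TCm (CB.map Fm) R0Q076.P1695 R0Q076.I1695 := Vale.Agent.P032.Lt.pat_eq (E' := R0Q076.E) eB (pat_step (by decide +kernel) (q_cons (Vale.Agent.P032.Lt.q R0Q076.q1695_0) (q_cons (Vale.Agent.P032.Lt.q R0Q076.q1695_1) (q_cons (Vale.Agent.P032.Lt.q R0Q076.q1695_2) q_nil))))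

def C1696 : List ℕ := [0, 4, 8, 12, 16, 20, 24, 82945, 216065, 606209, 737281, 741377]
theorem p1696 : Pat 73 73 TBm TCm (C1696.map Fm) R0Q076.P1696 R0Q076.I1696 := Vale.Agent.P032.Lt.pat_eq (E' := R0Q076.E1696) (by decide +kernel) (pat_step (by decide +kernel) (q_cons (Vale.Agent.P032.Lt.q R0Q076.q1696_0) q_nil))

theorem p1697 : Pat 73 73 TBm TCm (CB.map Fm) R0Q077.P1697 R0Q077.I1697 := Vale.Agent.P032.Lt.pat_eq (E' := R0Q077.E) eB (pat_step (by decide +kernel) (q_cons (Vale.Agent.P032.Lt.q R0Q077.q1697_0) (q_cons (Vale.Agent.P032.Lt.q R0Q077.q1697_1) (q_cons (Vale.Agent.P032.Lt.q R0Q077.q1697_2) (q_cons (Vale.Agent.P032.Lt.q R0Q077.q1697_3) (q_cons (Vale.Agent.P032.Lt.q R0Q077.q1697_4) (q_cons (Vale.Agent.P032.Lt.q R0Q077.q1697_5) q_nil)))))))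

def C1698 : List ℕ := [0, 4, 8, 12, 16, 20, 24, 82945, 214017, 606209, 737281]
theorem p1698 : Pat 73 73 TBm TCm (C1698.map Fm) R0Q077.P1698 R0Q077.I1698 := Vale.Agent.P032.Lt.pat_eq (E' := R0Q077.E1698) (by decide +kernel) (pat_step (by decide +kernel) (q_cons (Vale.Agent.P032.Lt.q R0Q077.q1698_0) q_nil))

def C1699 : List ℕ := [0, 4, 8, 12, 16, 20, 24, 349185, 475137, 737281]
theorem p1699 : Pat 73 73 TBm TCm (C1699.map Fm) R0Q077.P1699 R0Q077.I1699 := Vale.Agent.P032.Lt.pat_eq (E' := R0Q077.E1699) (by decide +kernel) (pat_step (by decide +kernel) (q_cons (Vale.Agent.P032.Lt.q R0Q077.q1699_0) (q_cons (Vale.Agent.P032.Lt.q R0Q077.q1699_1) (q_cons (Vale.Agent.P032.Lt.q R0Q077.q1699_2) q_nil))))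

def C1700 : List ℕ := [0, 4, 8, 12, 16, 20, 24, 81921, 212993, 344065, 480257, 606209, 737281]
theorem p1700 : Pat 73 73 TBm TCm (C1700.map Fm) R0Q077.P1700 R0Q077.I1700 := Vale.Agent.P032.Lt.pat_eq (E' := R0Q077.E1700) (by decide +kernel) (pat_step (by decide +kernel) (q_cons (Vale.Agent.P032.Lt.q R0Q077.q1700_0) (q_cons (Vale.Agent.P032.Lt.q R0Q077.q1700_1) (q_cons (Vale.Agent.P032.Lt.q R0Q077.q1700_2) (q_cons (Vale.Agent.P032.Lt.q R0Q077.q1700_3) (q_cons (Vale.Agent.P032.Lt.q R0Q077.q1700_4) (q_cons (Vale.Agent.P032.Lt.q R0Q077.q1700_5) (q_cons (Vale.Agent.P032.Lt.q R0Q077.q1700_6) q_nil))))))))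

theorem p1701 : Pat 73 73 TBm TCm (CB.map Fm) R0Q077.P1701 R0Q077.I1701 := Vale.Agent.P032.Lt.pat_eq (E' := R0Q077.E) eB (pat_step (by decide +kernel) (q_cons (Vale.Agent.P032.Lt.q R0Q077.q1701_0) (q_cons (Vale.Agent.P032.Lt.q R0Q077.q1701_1) (q_cons (Vale.Agent.P032.Lt.q R0Q077.q1701_2) (q_cons (Vale.Agent.P032.Lt.q R0Q077.q1701_3) (q_cons (Vale.Agent.P032.Lt.q R0Q077.q1701_4) q_nil))))))

theorem p1702 : Pat 73 73 TBm TCm (CB.map Fm) R0Q077.P1702 R0Q077.I1702 := Vale.Agent.P032.Lt.pat_eq (E' := R0Q077.E) eB (pat_step (by decide +kernel) (q_cons (Vale.Agent.P032.Lt.q R0Q077.q1702_0) q_nil))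

theorem p1703 : Pat 73 73 TBm TCm (CB.map Fm) R0Q077.P1703 R0Q077.I1703 := Vale.Agent.P032.Lt.pat_eq (E' := R0Q077.E) eB (pat_step (by decide +kernel) (q_cons (Vale.Agent.P032.Lt.q R0Q077.q1703_0) (q_cons (Vale.Agent.P032.Lt.q R0Q077.q1703_1) (q_cons (Vale.Agent.P032.Lt.q R0Q077.q1703_2) (q_cons (Vale.Agent.P032.Lt.q R0Q077.q1703_3) q_nil)))))

def C1704 : List ℕ := [0, 4, 8, 12, 16, 20, 24, 82945, 214017, 475137, 606209]
theorem p1704 : Pat 73 73 TBm TCm (C1704.map Fm) R0Q077.P1704 R0Q077.I1704 := Vale.Agent.P032.Lt.pat_eq (E' := R0Q077.E1704) (by decide +kernel) (pat_step (by decide +kernel) (q_cons (Vale.Agent.P032.Lt.q R0Q077.q1704_0) q_nil))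

def C1705 : List ℕ := [0, 4, 8, 12, 16, 20, 24, 84993, 737281]
theorem p1705 : Pat 73 73 TBm TCm (C1705.map Fm) R0Q077.P1705 R0Q077.I1705 := Vale.Agent.P032.Lt.pat_eq (E' := R0Q077.E1705) (by decide +kernel) (pat_step (by decide +kernel) (q_cons (Vale.Agent.P032.Lt.q R0Q077.q1705_0) (q_cons (Vale.Agent.P032.Lt.q R0Q077.q1705_1) (q_cons (Vale.Agent.P032.Lt.q R0Q077.q1705_2) (q_cons (Vale.Agent.P032.Lt.q R0Q077.q1705_3) (q_cons (Vale.Agent.P032.Lt.q R0Q077.q1705_4) (q_cons (Vale.Agent.P032.Lt.q R0Q077.q1705_5) (q_cons (Vale.Agent.P032.Lt.q R0Q077.q1705_6) q_nil))))))))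

theorem p1706 : Pat 73 73 TBm TCm (CB.map Fm) R0Q077.P1706 R0Q077.I1706 := Vale.Agent.P032.Lt.pat_eq (E' := R0Q077.E) eB (pat_step (by decide +kernel) (q_cons (Vale.Agent.P032.Lt.q R0Q077.q1706_0) (q_cons (Vale.Agent.P032.Lt.q R0Q077.q1706_1) (q_cons (Vale.Agent.P032.Lt.q R0Q077.q1706_2) (q_cons (Vale.Agent.P032.Lt.q R0Q077.q1706_3) (q_cons (Vale.Agent.P032.Lt.q R0Q077.q1706_4) q_nil))))))

theorem p1707 : Pat 73 73 TBm TCm (CB.map Fm) R0Q077.P1707 R0Q077.I1707 := Vale.Agent.P032.Lt.pat_eq (E' := R0Q077.E) eB (pat_step (by decide +kernel) (q_cons (Vale.Agent.P032.Lt.q R0Q077.q1707_0) (q_cons (Vale.Agent.P032.Lt.q R0Q077.q1707_1) (q_cons (Vale.Agent.P032.Lt.q R0Q077.q1707_2) (q_cons (Vale.Agent.P032.Lt.q R0Q077.q1707_3) (q_cons (Vale.Agent.P032.Lt.q R0Q077.q1707_4) q_nil))))))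

theorem p1708 : Pat 73 73 TBm TCm (CB.map Fm) R0Q077.P1708 R0Q077.I1708 := Vale.Agent.P032.Lt.pat_eq (E' := R0Q077.E) eB (pat_step (by decide +kernel) (q_cons (Vale.Agent.P032.Lt.q R0Q077.q1708_0) (q_cons (Vale.Agent.P032.Lt.q R0Q077.q1708_1) (q_cons (Vale.Agent.P032.Lt.q R0Q077.q1708_2) q_nil))))

theorem p1709 : Pat 73 73 TBm TCm (CB.map Fm) R0Q077.P1709 R0Q077.I1709 := Vale.Agent.P032.Lt.pat_eq (E' := R0Q077.E) eB (pat_step (by decide +kernel) (q_cons (Vale.Agent.P032.Lt.q R0Q077.q1709_0) (q_cons (Vale.Agent.P032.Lt.q R0Q077.q1709_1) (q_cons (Vale.Agent.P032.Lt.q R0Q077.q1709_2) q_nil))))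

theorem p1710 : Pat 73 73 TBm TCm (CB.map Fm) R0Q077.P1710 R0Q077.I1710 := Vale.Agent.P032.Lt.pat_eq (E' := R0Q077.E) eB (pat_step (by decide +kernel) (q_cons (Vale.Agent.P032.Lt.q R0Q077.q1710_0) (q_cons (Vale.Agent.P032.Lt.q R0Q077.q1710_1) (q_cons (Vale.Agent.P032.Lt.q R0Q077.q1710_2) (q_cons (Vale.Agent.P032.Lt.q R0Q077.q1710_3) (q_cons (Vale.Agent.P032.Lt.q R0Q077.q1710_4) (q_cons (Vale.Agent.P032.Lt.q R0Q077.q1710_5) (q_cons (Vale.Agent.P032.Lt.q R0Q077.q1710_6) (q_cons (Vale.Agent.P032.Lt.q R0Q077.q1710_7) (q_cons (Vale.Agent.P032.Lt.q R0Q077.q1710_8) q_nil))))))))))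

theorem p1711 : Pat 73 73 TBm TCm (CB.map Fm) R0Q077.P1711 R0Q077.I1711 := Vale.Agent.P032.Lt.pat_eq (E' := R0Q077.E) eB (pat_step (by decide +kernel) (q_cons (Vale.Agent.P032.Lt.q R0Q077.q1711_0) (q_cons (Vale.Agent.P032.Lt.q R0Q077.q1711_1) (q_cons (Vale.Agent.P032.Lt.q R0Q077.q1711_2) q_nil))))

theorem p1712 : Pat 73 73 TBm TCm (CB.map Fm) R0Q078.P1712 R0Q078.I1712 := Vale.Agent.P032.Lt.pat_eq (E' := R0Q078.E) eB (pat_step (by decide +kernel) (q_cons (Vale.Agent.P032.Lt.q R0Q078.q1712_0) (q_cons (Vale.Agent.P032.Lt.q R0Q078.q1712_1) (q_cons (Vale.Agent.P032.Lt.q R0Q078.q1712_2) (q_cons (Vale.Agent.P032.Lt.q R0Q078.q1712_3) (q_cons (Vale.Agent.P032.Lt.q R0Q078.q1712_4) (q_cons (Vale.Agent.P032.Lt.q R0Q078.q1712_5) (q_cons (Vale.Agent.P032.Lt.q R0Q078.q1712_6) (q_cons (Vale.Agent.P032.Lt.q R0Q078.q1712_7) (q_cons (Vale.Agent.P032.Lt.q R0Q078.q1712_8)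 (q_cons (Vale.Agent.P032.Lt.q R0Q078.q1712_9) (q_cons (Vale.Agent.P032.Lt.q R0Q078.q1712_10) (q_cons (Vale.Agent.P032.Lt.q R0Q078.q1712_11) (q_cons (Vale.Agent.P032.Lt.q R0Q078.q1712_12) (q_cons (Vale.Agent.P032.Lt.q R0Q078.q1712_13) (q_cons (Vale.Agent.P032.Lt.q R0Q078.q1712_14) (q_cons (Vale.Agent.P032.Lt.q R0Q078.q1712_15) (q_cons (Vale.Agent.P032.Lt.q R0Q078.q1712_16) (q_cons (Vale.Agent.P032.Lt.q R0Q078.q1712_17) (q_cons (Vale.Agent.P032.Lt.q R0Q078.q1712_18) (q_cons (Vale.Agent.P032.Lt.q R0Q078.q1712_19) (q_cons (Vale.Agent.P032.Lt.q R0Q078.q1712_20) (q_cons (Vale.Agent.P032.Lt.q R0Q078.q1712_21) (q_cons (Vale.Agent.P032.Lt.q R0Q078.q1712_22) (q_cons (Vale.Agent.P032.Lt.q R0Q078.q1712_23) (q_cons (Vale.Agent.P032.Lt.q R0Q078.q1712_24) (q_cons (Vale.Agent.P032.Lt.q R0Q078.q1712_25) (q_cons (Vale.Agent.P032.Lt.q R0Q078.q1712_26) (q_cons (Vale.Agent.P032.Lt.q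 R0Q078.q1712_27) (q_cons (Vale.Agent.P032.Lt.q R0Q078.q1712_28) (q_cons (Vale.Agent.P032.Lt.q R0Q078.q1712_29) (q_cons (Vale.Agent.P032.Lt.q R0Q078.q1712_30) (q_cons (Vale.Agent.P032.Lt.q R0Q078.q1712_31) (q_cons (Vale.Agent.P032.Lt.q R0Q078.q1712_32) (q_cons (Vale.Agent.P032.Lt.q R0Q078.q1712_33) (q_cons (Vale.Agent.P032.Lt.q R0Q078.q1712_34) (q_cons (Vale.Agent.P032.Lt.q R0Q078.q1712_35) (q_cons (Vale.Agent.P032.Lt.q R0Q078.q1712_36) (q_cons (Vale.Agent.P032.Lt.q R0Q078.q1712_37) (q_cons (Vale.Agent.P032.Lt.q R0Q078.q1712_38) (q_cons (Vale.Agent.P032.Lt.q R0Q078.q1712_39) (q_cons (Vale.Agent.P032.Lt.q R0Q078.q1712_40) (q_cons (Vale.Agent.P032.Lt.q R0Q078.q1712_41) (q_cons (Vale.Agent.P032.Lt.q R0Q078.q1712_42) (q_cons (Vale.Agent.P032.Lt.q R0Q078.q1712_43) (q_cons (Vale.Agent.P032.Lt.q R0Q078.q1712_44) (q_cons (Vale.Agent.P032.Lt.q R0Q078.q1712_45)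 (q_cons (Vale.Agent.P032.Lt.q R0Q078.q1712_46) (q_cons (Vale.Agent.P032.Lt.q R0Q078.q1712_47) (q_cons (Vale.Agent.P032.Lt.q R0Q078.q1712_48) (q_cons (Vale.Agent.P032.Lt.q R0Q078.q1712_49) (q_cons (Vale.Agent.P032.Lt.q R0Q078.q1712_50) (q_cons (Vale.Agent.P032.Lt.q R0Q078.q1712_51) (q_cons (Vale.Agent.P032.Lt.q R0Q078.q1712_52) (q_cons (Vale.Agent.P032.Lt.q R0Q078.q1712_53) q_nil)))))))))))))))))))))))))))))))))))))))))))))))))))))))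

theorem p1713 : Pat 73 73 TBm TCm (CB.map Fm) R0Q078.P1713 R0Q078.I1713 := Vale.Agent.P032.Lt.pat_eq (E' := R0Q078.E) eB (pat_step (by decide +kernel) (q_cons (Vale.Agent.P032.Lt.q R0Q078.q1713_0) (q_cons (Vale.Agent.P032.Lt.q R0Q078.q1713_1) (q_cons (Vale.Agent.P032.Lt.q R0Q078.q1713_2) (q_cons (Vale.Agent.P032.Lt.q R0Q078.q1713_3) (q_cons (Vale.Agent.P032.Lt.q R0Q078.q1713_4) q_nil))))))

def C1714 : List ℕ := [0, 4, 8, 12, 16, 20, 24, 81921]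
theorem p1714 : Pat 73 73 TBm TCm (C1714.map Fm) R0Q078.P1714 R0Q078.I1714 := Vale.Agent.P032.Lt.pat_eq (E' := R0Q078.E1714) (by decide +kernel) (pat_step (by decide +kernel) (q_cons (Vale.Agent.P032.Lt.q R0Q078.q1714_0) (q_cons (Vale.Agent.P032.Lt.q R0Q078.q1714_1) (q_cons (Vale.Agent.P032.Lt.q R0Q078.q1714_2) (q_cons (Vale.Agent.P032.Lt.q R0Q078.q1714_3) (q_cons (Vale.Agent.P032.Lt.q R0Q078.q1714_4) (q_cons (Vale.Agent.P032.Lt.q R0Q078.q1714_5) (q_cons (Vale.Agent.P032.Lt.q R0Q078.q1714_6) (q_cons (Vale.Agent.P032.Lt.q R0Q078.q1714_7) (q_cons (Vale.Agent.P032.Lt.q R0Q078.q1714_8) (q_cons (Vale.Agent.P032.Lt.q R0Q078.q1714_9) (q_cons (Vale.Agent.P032.Lt.q R0Q078.q1714_10) (q_cons (Vale.Agent.P032.Lt.q R0Q078.q1714_11) (q_cons (Vale.Agent.P032.Lt.q R0Q078.q1714_12) (q_cons (Vale.Agent.P032.Lt.q R0Q078.q1714_13) (q_cons (Vale.Agent.P032.Lt.q R0Q078.q1714_14)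 (q_cons (Vale.Agent.P032.Lt.q R0Q078.q1714_15) (q_cons (Vale.Agent.P032.Lt.q R0Q078.q1714_16) (q_cons (Vale.Agent.P032.Lt.q R0Q078.q1714_17) (q_cons (Vale.Agent.P032.Lt.q R0Q078.q1714_18) (q_cons (Vale.Agent.P032.Lt.q R0Q078.q1714_19) (q_cons (Vale.Agent.P032.Lt.q R0Q078.q1714_20) (q_cons (Vale.Agent.P032.Lt.q R0Q078.q1714_21) (q_cons (Vale.Agent.P032.Lt.q R0Q078.q1714_22) (q_cons (Vale.Agent.P032.Lt.q R0Q078.q1714_23) (q_cons (Vale.Agent.P032.Lt.q R0Q078.q1714_24) (q_cons (Vale.Agent.P032.Lt.q R0Q078.q1714_25) q_nil)))))))))))))))))))))))))))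

theorem p1715 : Pat 73 73 TBm TCm (CB.map Fm) R0Q078.P1715 R0Q078.I1715 := Vale.Agent.P032.Lt.pat_eq (E' := R0Q078.E) eB (pat_step (by decide +kernel) (q_cons (Vale.Agent.P032.Lt.q R0Q078.q1715_0) (q_cons (Vale.Agent.P032.Lt.q R0Q078.q1715_1) (q_cons (Vale.Agent.P032.Lt.q R0Q078.q1715_2) (q_cons (Vale.Agent.P032.Lt.q R0Q078.q1715_3) (q_cons (Vale.Agent.P032.Lt.q R0Q078.q1715_4) (q_cons (Vale.Agent.P032.Lt.q R0Q078.q1715_5) (q_cons (Vale.Agent.P032.Lt.q R0Q078.q1715_6) (q_cons (Vale.Agent.P032.Lt.q R0Q078.q1715_7) (q_cons (Vale.Agent.P032.Lt.q R0Q078.q1715_8) (q_cons (Vale.Agent.P032.Lt.q R0Q078.q1715_9) (q_cons (Vale.Agent.P032.Lt.q R0Q078.q1715_10) (q_cons (Vale.Agent.P032.Lt.q R0Q078.q1715_11) (q_cons (Vale.Agent.P032.Lt.q R0Q078.q1715_12) (q_cons (Vale.Agent.P032.Lt.q R0Q078.q1715_13) (q_cons (Vale.Agent.P032.Lt.q R0Q078.q1715_14) (q_cons (Vale.Agent.P032.Lt.q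 R0Q078.q1715_15) (q_cons (Vale.Agent.P032.Lt.q R0Q078.q1715_16) (q_cons (Vale.Agent.P032.Lt.q R0Q078.q1715_17) (q_cons (Vale.Agent.P032.Lt.q R0Q078.q1715_18) q_nil))))))))))))))))))))

theorem p1716 : Pat 73 73 TBm TCm (CB.map Fm) R0Q078.P1716 R0Q078.I1716 := Vale.Agent.P032.Lt.pat_eq (E' := R0Q078.E) eB (pat_step (by decide +kernel) (q_cons (Vale.Agent.P032.Lt.q R0Q078.q1716_0) (q_cons (Vale.Agent.P032.Lt.q R0Q078.q1716_1) (q_cons (Vale.Agent.P032.Lt.q R0Q078.q1716_2) (q_cons (Vale.Agent.P032.Lt.q R0Q078.q1716_3) (q_cons (Vale.Agent.P032.Lt.q R0Q078.q1716_4) (q_cons (Vale.Agent.P032.Lt.q R0Q078.q1716_5) (q_cons (Vale.Agent.P032.Lt.q R0Q078.q1716_6) (q_cons (Vale.Agent.P032.Lt.q R0Q078.q1716_7) (q_cons (Vale.Agent.P032.Lt.q R0Q078.q1716_8) (q_cons (Vale.Agent.P032.Lt.q R0Q078.q1716_9) (q_cons (Vale.Agent.P032.Lt.q R0Q078.q1716_10) (q_cons (Vale.Agent.P032.Lt.q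 R0Q078.q1716_11) (q_cons (Vale.Agent.P032.Lt.q R0Q078.q1716_12) (q_cons (Vale.Agent.P032.Lt.q R0Q078.q1716_13) (q_cons (Vale.Agent.P032.Lt.q R0Q078.q1716_14) (q_cons (Vale.Agent.P032.Lt.q R0Q078.q1716_15) (q_cons (Vale.Agent.P032.Lt.q R0Q078.q1716_16) (q_cons (Vale.Agent.P032.Lt.q R0Q078.q1716_17) q_nil)))))))))))))))))))

theorem p1717 : Pat 73 73 TBm TCm (CB.map Fm) R0Q078.P1717 R0Q078.I1717 := Vale.Agent.P032.Lt.pat_eq (E' := R0Q078.E) eB (pat_step (by decide +kernel) (q_cons (Vale.Agent.P032.Lt.q R0Q078.q1717_0) (q_cons (Vale.Agent.P032.Lt.q R0Q078.q1717_1) (q_cons (Vale.Agent.P032.Lt.q R0Q078.q1717_2) (q_cons (Vale.Agent.P032.Lt.q R0Q078.q1717_3) (q_cons (Vale.Agent.P032.Lt.q R0Q078.q1717_4) (q_cons (Vale.Agent.P032.Lt.q R0Q078.q1717_5) (q_cons (Vale.Agent.P032.Lt.q R0Q078.q1717_6) (q_cons (Vale.Agent.P032.Lt.q R0Q078.q1717_7) (q_cons (Vale.Agent.P032.Lt.q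 R0Q078.q1717_8) (q_cons (Vale.Agent.P032.Lt.q R0Q078.q1717_9) (q_cons (Vale.Agent.P032.Lt.q R0Q078.q1717_10) (q_cons (Vale.Agent.P032.Lt.q R0Q078.q1717_11) (q_cons (Vale.Agent.P032.Lt.q R0Q078.q1717_12) (q_cons (Vale.Agent.P032.Lt.q R0Q078.q1717_13) (q_cons (Vale.Agent.P032.Lt.q R0Q078.q1717_14) q_nil))))))))))))))))

theorem p1718 : Pat 73 73 TBm TCm (CB.map Fm) R0Q078.P1718 R0Q078.I1718 := Vale.Agent.P032.Lt.pat_eq (E' := R0Q078.E) eB (pat_step (by decide +kernel) (q_cons (Vale.Agent.P032.Lt.q R0Q078.q1718_0) (q_cons (Vale.Agent.P032.Lt.q R0Q078.q1718_1) (q_cons (Vale.Agent.P032.Lt.q R0Q078.q1718_2) (q_cons (Vale.Agent.P032.Lt.q R0Q078.q1718_3) (q_cons (Vale.Agent.P032.Lt.q R0Q078.q1718_4) (q_cons (Vale.Agent.P032.Lt.q R0Q078.q1718_5) (q_cons (Vale.Agent.P032.Lt.q R0Q078.q1718_6) q_nil))))))))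

theorem p1719 : Pat 73 73 TBm TCm (CB.map Fm) R0Q078.P1719 R0Q078.I1719 := Vale.Agent.P032.Lt.pat_eq (E' := R0Q078.E) eB (pat_step (by decide +kernel) (q_cons (Vale.Agent.P032.Lt.q R0Q078.q1719_0) (q_cons (Vale.Agent.P032.Lt.q R0Q078.q1719_1) (q_cons (Vale.Agent.P032.Lt.q R0Q078.q1719_2) (q_cons (Vale.Agent.P032.Lt.q R0Q078.q1719_3) (q_cons (Vale.Agent.P032.Lt.q R0Q078.q1719_4) (q_cons (Vale.Agent.P032.Lt.q R0Q078.q1719_5) (q_cons (Vale.Agent.P032.Lt.q R0Q078.q1719_6) (q_cons (Vale.Agent.P032.Lt.q R0Q078.q1719_7) (q_cons (Vale.Agent.P032.Lt.q R0Q078.q1719_8) q_nil))))))))))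

theorem p1720 : Pat 73 73 TBm TCm (CB.map Fm) R0Q078.P1720 R0Q078.I1720 := Vale.Agent.P032.Lt.pat_eq (E' := R0Q078.E) eB (pat_step (by decide +kernel) (q_cons (Vale.Agent.P032.Lt.q R0Q078.q1720_0) (q_cons (Vale.Agent.P032.Lt.q R0Q078.q1720_1) (q_cons (Vale.Agent.P032.Lt.q R0Q078.q1720_2) (q_cons (Vale.Agent.P032.Lt.q R0Q078.q1720_3) q_nil)))))

theorem p1721 : Pat 73 73 TBm TCm (CB.map Fm) R0Q078.P1721 R0Q078.I1721 := Vale.Agent.P032.Lt.pat_eq (E' := R0Q078.E) eB (pat_step (by decide +kernel) (q_cons (Vale.Agent.P032.Lt.q R0Q078.q1721_0) (q_cons (Vale.Agent.P032.Lt.q R0Q078.q1721_1) (q_cons (Vale.Agent.P032.Lt.q R0Q078.q1721_2) (q_cons (Vale.Agent.P032.Lt.q R0Q078.q1721_3) (q_cons (Vale.Agent.P032.Lt.q R0Q078.q1721_4) (q_cons (Vale.Agent.P032.Lt.q R0Q078.q1721_5) (q_cons (Vale.Agent.P032.Lt.q R0Q078.q1721_6) (q_cons (Vale.Agent.P032.Lt.q R0Q078.q1721_7)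 (q_cons (Vale.Agent.P032.Lt.q R0Q078.q1721_8) (q_cons (Vale.Agent.P032.Lt.q R0Q078.q1721_9) (q_cons (Vale.Agent.P032.Lt.q R0Q078.q1721_10) q_nil))))))))))))

def C1722 : List ℕ := [0, 4, 8, 12, 16, 20, 24, 91137, 220161, 222209, 353281, 475137, 615425, 617473, 737281]
theorem p1722 : Pat 73 73 TBm TCm (C1722.map Fm) R0Q079.P1722 R0Q079.I1722 := Vale.Agent.P032.Lt.pat_eq (E' := R0Q079.E1722) (by decide +kernel) (pat_step (by decide +kernel) (q_cons (Vale.Agent.P032.Lt.q R0Q079.q1722_0) q_nil))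

theorem p1723 : Pat 73 73 TBm TCm (CB.map Fm) R0Q079.P1723 R0Q079.I1723 := Vale.Agent.P032.Lt.pat_eq (E' := R0Q079.E) eB (pat_step (by decide +kernel) (q_cons (Vale.Agent.P032.Lt.q R0Q079.q1723_0) (q_cons (Vale.Agent.P032.Lt.q R0Q079.q1723_1) (q_cons (Vale.Agent.P032.Lt.q R0Q079.q1723_2) (q_cons (Vale.Agent.P032.Lt.q R0Q079.q1723_3) (q_cons (Vale.Agent.P032.Lt.q R0Q079.q1723_4) (q_cons (Vale.Agent.P032.Lt.q R0Q079.q1723_5) (q_cons (Vale.Agent.P032.Lt.q R0Q079.q1723_6) (q_cons (Vale.Agent.P032.Lt.q R0Q079.q1723_7) (q_cons (Vale.Agent.P032.Lt.q R0Q079.q1723_8) (q_cons (Vale.Agent.P032.Lt.q R0Q079.q1723_9) (q_cons (Vale.Agent.P032.Lt.q R0Q079.q1723_10) (q_cons (Vale.Agent.P032.Lt.q R0Q079.q1723_11) (q_cons (Vale.Agent.P032.Lt.q R0Q079.q1723_12) q_nil))))))))))))))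

theorem p1724 : Pat 73 73 TBm TCm (CB.map Fm) R0Q079.P1724 R0Q079.I1724 := Vale.Agent.P032.Lt.pat_eq (E' := R0Q079.E) eB (pat_step (by decide +kernel) (q_cons (Vale.Agent.P032.Lt.q R0Q079.q1724_0) q_nil))

theorem p1725 : Pat 73 73 TBm TCm (CB.map Fm) R0Q079.P1725 R0Q079.I1725 := Vale.Agent.P032.Lt.pat_eq (E' := R0Q079.E) eB (pat_step (by decide +kernel) (q_cons (Vale.Agent.P032.Lt.q R0Q079.q1725_0) q_nil))

def C1726 : List ℕ := [0, 4, 8, 12, 16, 20, 24, 84993, 475137, 737281]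
theorem p1726 : Pat 73 73 TBm TCm (C1726.map Fm) R0Q079.P1726 R0Q079.I1726 := Vale.Agent.P032.Lt.pat_eq (E' := R0Q079.E1726) (by decide +kernel) (pat_step (by decide +kernel) (q_cons (Vale.Agent.P032.Lt.q R0Q079.q1726_0) (q_cons (Vale.Agent.P032.Lt.q R0Q079.q1726_1) (q_cons (Vale.Agent.P032.Lt.q R0Q079.q1726_2) (q_cons (Vale.Agent.P032.Lt.q R0Q079.q1726_3) (q_cons (Vale.Agent.P032.Lt.q R0Q079.q1726_4) (q_cons (Vale.Agent.P032.Lt.q R0Q079.q1726_5) (q_cons (Vale.Agent.P032.Lt.q R0Q079.q1726_6) (q_cons (Vale.Agent.P032.Lt.q R0Q079.q1726_7) (q_cons (Vale.Agent.P032.Lt.q R0Q079.q1726_8) (q_cons (Vale.Agent.P032.Lt.q R0Q079.q1726_9) (q_cons (Vale.Agent.P032.Lt.q R0Q079.q1726_10) (q_cons (Vale.Agent.P032.Lt.q R0Q079.q1726_11) (q_cons (Vale.Agent.P032.Lt.q R0Q079.q1726_12) (q_cons (Vale.Agent.P032.Lt.q R0Q079.q1726_13) (q_cons (Vale.Agent.P032.Lt.q R0Q079.q1726_14)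 (q_cons (Vale.Agent.P032.Lt.q R0Q079.q1726_15) (q_cons (Vale.Agent.P032.Lt.q R0Q079.q1726_16) q_nil))))))))))))))))))

theorem p1727 : Pat 73 73 TBm TCm (CB.map Fm) R0Q079.P1727 R0Q079.I1727 := Vale.Agent.P032.Lt.pat_eq (E' := R0Q079.E) eB (pat_step (by decide +kernel) (q_cons (Vale.Agent.P032.Lt.q R0Q079.q1727_0) (q_cons (Vale.Agent.P032.Lt.q R0Q079.q1727_1) (q_cons (Vale.Agent.P032.Lt.q R0Q079.q1727_2) q_nil))))

theorem p1728 : Pat 73 73 TBm TCm (CB.map Fm) R0Q079.P1728 R0Q079.I1728 := Vale.Agent.P032.Lt.pat_eq (E' := R0Q079.E) eB (pat_step (by decide +kernel) (q_cons (Vale.Agent.P032.Lt.q R0Q079.q1728_0) q_nil))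

theorem p1729 : Pat 73 73 TBm TCm (CB.map Fm) R0Q079.P1729 R0Q079.I1729 := Vale.Agent.P032.Lt.pat_eq (E' := R0Q079.E) eB (pat_step (by decide +kernel) (q_cons (Vale.Agent.P032.Lt.q R0Q079.q1729_0) (q_cons (Vale.Agent.P032.Lt.q R0Q079.q1729_1) (q_cons (Vale.Agent.P032.Lt.q R0Q079.q1729_2) (q_cons (Vale.Agent.P032.Lt.q R0Q079.q1729_3) (q_cons (Vale.Agent.P032.Lt.q R0Q079.q1729_4) (q_cons (Vale.Agent.P032.Lt.q R0Q079.q1729_5) (q_cons (Vale.Agent.P032.Lt.q R0Q079.q1729_6) (q_cons (Vale.Agent.P032.Lt.q R0Q079.q1729_7) (q_cons (Vale.Agent.P032.Lt.q R0Q079.q1729_8) (q_cons (Vale.Agent.P032.Lt.q R0Q079.q1729_9) q_nil)))))))))))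

theorem p1730 : Pat 73 73 TBm TCm (CB.map Fm) R0Q079.P1730 R0Q079.I1730 := Vale.Agent.P032.Lt.pat_eq (E' := R0Q079.E) eB (pat_step (by decide +kernel) (q_cons (Vale.Agent.P032.Lt.q R0Q079.q1730_0) (q_cons (Vale.Agent.P032.Lt.q R0Q079.q1730_1) (q_cons (Vale.Agent.P032.Lt.q R0Q079.q1730_2) (q_cons (Vale.Agent.P032.Lt.q R0Q079.q1730_3) (q_cons (Vale.Agent.P032.Lt.q R0Q079.q1730_4) (q_cons (Vale.Agent.P032.Lt.q R0Q079.q1730_5) (q_cons (Vale.Agent.P032.Lt.q R0Q079.q1730_6) q_nil))))))))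

theorem p1731 : Pat 73 73 TBm TCm (CB.map Fm) R0Q079.P1731 R0Q079.I1731 := Vale.Agent.P032.Lt.pat_eq (E' := R0Q079.E) eB (pat_step (by decide +kernel) (q_cons (Vale.Agent.P032.Lt.q R0Q079.q1731_0) q_nil))

theorem p1732 : Pat 73 73 TBm TCm (CB.map Fm) R0Q079.P1732 R0Q079.I1732 := Vale.Agent.P032.Lt.pat_eq (E' := R0Q079.E) eB (pat_step (by decide +kernel) (q_cons (Vale.Agent.P032.Lt.q R0Q079.q1732_0) (q_cons (Vale.Agent.P032.Lt.q R0Q079.q1732_1) (q_cons (Vale.Agent.P032.Lt.q R0Q079.q1732_2) (q_cons (Vale.Agent.P032.Lt.q R0Q079.q1732_3) q_nil)))))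

theorem p1733 : Pat 73 73 TBm TCm (CB.map Fm) R0Q079.P1733 R0Q079.I1733 := Vale.Agent.P032.Lt.pat_eq (E' := R0Q079.E) eB (pat_step (by decide +kernel) (q_cons (Vale.Agent.P032.Lt.q R0Q079.q1733_0) q_nil))

theorem p1734 : Pat 73 73 TBm TCm (CB.map Fm) R0Q079.P1734 R0Q079.I1734 := Vale.Agent.P032.Lt.pat_eq (E' := R0Q079.E) eB (pat_step (by decide +kernel) (q_cons (Vale.Agent.P032.Lt.q R0Q079.q1734_0) q_nil))

theorem p1735 : Pat 73 73 TBm TCm (CB.map Fm) R0Q079.P1735 R0Q079.I1735 := Vale.Agent.P032.Lt.pat_eq (E' := R0Q079.E) eB (pat_step (by decide +kernel) (q_cons (Vale.Agent.P032.Lt.q R0Q079.q1735_0) (q_cons (Vale.Agent.P032.Lt.q R0Q079.q1735_1) (q_cons (Vale.Agent.P032.Lt.q R0Q079.q1735_2) (q_cons (Vale.Agent.P032.Lt.q R0Q079.q1735_3) (q_cons (Vale.Agent.P032.Lt.q R0Q079.q1735_4) (q_cons (Vale.Agent.P032.Lt.q R0Q079.q1735_5) q_nil)))))))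

theorem p1736 : Pat 73 73 TBm TCm (CB.map Fm) R0Q079.P1736 R0Q079.I1736 := Vale.Agent.P032.Lt.pat_eq (E' := R0Q079.E) eB (pat_step (by decide +kernel) (q_cons (Vale.Agent.P032.Lt.q R0Q079.q1736_0) (q_cons (Vale.Agent.P032.Lt.q R0Q079.q1736_1) (q_cons (Vale.Agent.P032.Lt.q R0Q079.q1736_2) (q_cons (Vale.Agent.P032.Lt.q R0Q079.q1736_3) q_nil)))))

theorem p1737 : Pat 73 73 TBm TCm (CB.map Fm) R0Q079.P1737 R0Q079.I1737 := Vale.Agent.P032.Lt.pat_eq (E' := R0Q079.E) eB (pat_step (by decide +kernel) (q_cons (Vale.Agent.P032.Lt.q R0Q079.q1737_0) (q_cons (Vale.Agent.P032.Lt.q R0Q079.q1737_1) q_nil)))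

theorem p1738 : Pat 73 73 TBm TCm (CB.map Fm) R0Q079.P1738 R0Q079.I1738 := Vale.Agent.P032.Lt.pat_eq (E' := R0Q079.E) eB (pat_step (by decide +kernel) (q_cons (Vale.Agent.P032.Lt.q R0Q079.q1738_0) q_nil))

theorem p1739 : Pat 73 73 TBm TCm (CB.map Fm) R0Q079.P1739 R0Q079.I1739 := Vale.Agent.P032.Lt.pat_eq (E' := R0Q079.E) eB (pat_step (by decide +kernel) (q_cons (Vale.Agent.P032.Lt.q R0Q079.q1739_0) (q_cons (Vale.Agent.P032.Lt.q R0Q079.q1739_1) q_nil)))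

theorem p1740 : Pat 73 73 TBm TCm (CB.map Fm) R0Q079.P1740 R0Q079.I1740 := Vale.Agent.P032.Lt.pat_eq (E' := R0Q079.E) eB (pat_step (by decide +kernel) (q_cons (Vale.Agent.P032.Lt.q R0Q079.q1740_0) (q_cons (Vale.Agent.P032.Lt.q R0Q079.q1740_1) (q_cons (Vale.Agent.P032.Lt.q R0Q079.q1740_2) q_nil))))

theorem p1741 : Pat 73 73 TBm TCm (CB.map Fm) R0Q079.P1741 R0Q079.I1741 := Vale.Agent.P032.Lt.pat_eq (E' := R0Q079.E) eB (pat_step (by decide +kernel) (q_cons (Vale.Agent.P032.Lt.q R0Q079.q1741_0) q_nil))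

theorem p1742 : Pat 73 73 TBm TCm (CB.map Fm) R0Q079.P1742 R0Q079.I1742 := Vale.Agent.P032.Lt.pat_eq (E' := R0Q079.E) eB (pat_step (by decide +kernel) (q_cons (Vale.Agent.P032.Lt.q R0Q079.q1742_0) (q_cons (Vale.Agent.P032.Lt.q R0Q079.q1742_1) (q_cons (Vale.Agent.P032.Lt.q R0Q079.q1742_2) (q_cons (Vale.Agent.P032.Lt.q R0Q079.q1742_3) q_nil)))))

theorem p1743 : Pat 73 73 TBm TCm (CB.map Fm) R0Q079.P1743 R0Q079.I1743 := Vale.Agent.P032.Lt.pat_eq (E' := R0Q079.E) eB (pat_step (by decide +kernel) (q_cons (Vale.Agent.P032.Lt.q R0Q079.q1743_0) (q_cons (Vale.Agent.P032.Lt.q R0Q079.q1743_1) q_nil)))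

theorem p1744 : Pat 73 73 TBm TCm (CB.map Fm) R0Q079.P1744 R0Q079.I1744 := Vale.Agent.P032.Lt.pat_eq (E' := R0Q079.E) eB (pat_step (by decide +kernel) (q_cons (Vale.Agent.P032.Lt.q R0Q079.q1744_0) q_nil))

theorem p1745 : Pat 73 73 TBm TCm (CB.map Fm) R0Q079.P1745 R0Q079.I1745 := Vale.Agent.P032.Lt.pat_eq (E' := R0Q079.E) eB (pat_step (by decide +kernel) (q_cons (Vale.Agent.P032.Lt.q R0Q079.q1745_0) q_nil))

theorem p1746 : Pat 73 73 TBm TCm (CB.map Fm) R0Q079.P1746 R0Q079.I1746 := Vale.Agent.P032.Lt.pat_eq (E' := R0Q079.E) eB (pat_step (by decide +kernel) (q_cons (Vale.Agent.P032.Lt.q R0Q079.q1746_0) (q_cons (Vale.Agent.P032.Lt.q R0Q079.q1746_1) (q_cons (Vale.Agent.P032.Lt.q R0Q079.q1746_2) (q_cons (Vale.Agent.P032.Lt.q R0Q079.q1746_3) (q_cons (Vale.Agent.P032.Lt.q R0Q079.q1746_4) (q_cons (Vale.Agent.P032.Lt.q R0Q079.q1746_5) q_nil)))))))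

theorem p1747 : Pat 73 73 TBm TCm (CB.map Fm) R0Q079.P1747 R0Q079.I1747 := Vale.Agent.P032.Lt.pat_eq (E' := R0Q079.E) eB (pat_step (by decide +kernel) (q_cons (Vale.Agent.P032.Lt.q R0Q079.q1747_0) (q_cons (Vale.Agent.P032.Lt.q R0Q079.q1747_1) (q_cons (Vale.Agent.P032.Lt.q R0Q079.q1747_2) (q_cons (Vale.Agent.P032.Lt.q R0Q079.q1747_3) (q_cons (Vale.Agent.P032.Lt.q R0Q079.q1747_4) (q_cons (Vale.Agent.P032.Lt.q R0Q079.q1747_5) q_nil)))))))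

theorem p1748 : Pat 73 73 TBm TCm (CB.map Fm) R0Q079.P1748 R0Q079.I1748 := Vale.Agent.P032.Lt.pat_eq (E' := R0Q079.E) eB (pat_step (by decide +kernel) (q_cons (Vale.Agent.P032.Lt.q R0Q079.q1748_0) (q_cons (Vale.Agent.P032.Lt.q R0Q079.q1748_1) (q_cons (Vale.Agent.P032.Lt.q R0Q079.q1748_2) (q_cons (Vale.Agent.P032.Lt.q R0Q079.q1748_3) (q_cons (Vale.Agent.P032.Lt.q R0Q079.q1748_4) q_nil))))))

theorem p1749 : Pat 73 73 TBm TCm (CB.map Fm) R0Q079.P1749 R0Q079.I1749 := Vale.Agent.P032.Lt.pat_eq (E' := R0Q079.E) eB (pat_step (by decide +kernel) (q_cons (Vale.Agent.P032.Lt.q R0Q079.q1749_0) (q_cons (Vale.Agent.P032.Lt.q R0Q079.q1749_1) (q_cons (Vale.Agent.P032.Lt.q R0Q079.q1749_2) (q_cons (Vale.Agent.P032.Lt.q R0Q079.q1749_3) (q_cons (Vale.Agent.P032.Lt.q R0Q079.q1749_4) q_nil))))))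

theorem p1750 : Pat 73 73 TBm TCm (CB.map Fm) R0Q080.P1750 R0Q080.I1750 := Vale.Agent.P032.Lt.pat_eq (E' := R0Q080.E) eB (pat_step (by decide +kernel) (q_cons (Vale.Agent.P032.Lt.q R0Q080.q1750_0) (q_cons (Vale.Agent.P032.Lt.q R0Q080.q1750_1) (q_cons (Vale.Agent.P032.Lt.q R0Q080.q1750_2) (q_cons (Vale.Agent.P032.Lt.q R0Q080.q1750_3) (q_cons (Vale.Agent.P032.Lt.q R0Q080.q1750_4) (q_cons (Vale.Agent.P032.Lt.q R0Q080.q1750_5) (q_cons (Vale.Agent.P032.Lt.q R0Q080.q1750_6) q_nil))))))))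

theorem p1751 : Pat 73 73 TBm TCm (CB.map Fm) R0Q080.P1751 R0Q080.I1751 := Vale.Agent.P032.Lt.pat_eq (E' := R0Q080.E) eB (pat_step (by decide +kernel) (q_cons (Vale.Agent.P032.Lt.q R0Q080.q1751_0) (q_cons (Vale.Agent.P032.Lt.q R0Q080.q1751_1) (q_cons (Vale.Agent.P032.Lt.q R0Q080.q1751_2) (q_cons (Vale.Agent.P032.Lt.q R0Q080.q1751_3) (q_cons (Vale.Agent.P032.Lt.q R0Q080.q1751_4) (q_cons (Vale.Agent.P032.Lt.q R0Q080.q1751_5) (q_cons (Vale.Agent.P032.Lt.q R0Q080.q1751_6) q_nil))))))))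

theorem p1752 : Pat 73 73 TBm TCm (CB.map Fm) R0Q080.P1752 R0Q080.I1752 := Vale.Agent.P032.Lt.pat_eq (E' := R0Q080.E) eB (pat_step (by decide +kernel) (q_cons (Vale.Agent.P032.Lt.q R0Q080.q1752_0) (q_cons (Vale.Agent.P032.Lt.q R0Q080.q1752_1) (q_cons (Vale.Agent.P032.Lt.q R0Q080.q1752_2) (q_cons (Vale.Agent.P032.Lt.q R0Q080.q1752_3) q_nil)))))

theorem p1753 : Pat 73 73 TBm TCm (CB.map Fm) R0Q080.P1753 R0Q080.I1753 := Vale.Agent.P032.Lt.pat_eq (E' := R0Q080.E) eB (pat_step (by decide +kernel) (q_cons (Vale.Agent.P032.Lt.q R0Q080.q1753_0) (q_cons (Vale.Agent.P032.Lt.q R0Q080.q1753_1) (q_cons (Vale.Agent.P032.Lt.q R0Q080.q1753_2) (q_cons (Vale.Agent.P032.Lt.q R0Q080.q1753_3) (q_cons (Vale.Agent.P032.Lt.q R0Q080.q1753_4) (q_cons (Vale.Agent.P032.Lt.q R0Q080.q1753_5) (q_cons (Vale.Agent.P032.Lt.q R0Q080.q1753_6) (q_cons (Vale.Agent.P032.Lt.q R0Q080.q1753_7)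 (q_cons (Vale.Agent.P032.Lt.q R0Q080.q1753_8) (q_cons (Vale.Agent.P032.Lt.q R0Q080.q1753_9) (q_cons (Vale.Agent.P032.Lt.q R0Q080.q1753_10) (q_cons (Vale.Agent.P032.Lt.q R0Q080.q1753_11) q_nil)))))))))))))

theorem p1754 : Pat 73 73 TBm TCm (CB.map Fm) R0Q080.P1754 R0Q080.I1754 := Vale.Agent.P032.Lt.pat_eq (E' := R0Q080.E) eB (pat_step (by decide +kernel) (q_cons (Vale.Agent.P032.Lt.q R0Q080.q1754_0) (q_cons (Vale.Agent.P032.Lt.q R0Q080.q1754_1) (q_cons (Vale.Agent.P032.Lt.q R0Q080.q1754_2) (q_cons (Vale.Agent.P032.Lt.q R0Q080.q1754_3) (q_cons (Vale.Agent.P032.Lt.q R0Q080.q1754_4) (q_cons (Vale.Agent.P032.Lt.q R0Q080.q1754_5) (q_cons (Vale.Agent.P032.Lt.q R0Q080.q1754_6) (q_cons (Vale.Agent.P032.Lt.q R0Q080.q1754_7) q_nil)))))))))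

def C1755 : List ℕ := [0, 4, 8, 12, 16, 20, 24, 606209, 737281]
theorem p1755 : Pat 73 73 TBm TCm (C1755.map Fm) R0Q080.P1755 R0Q080.I1755 := Vale.Agent.P032.Lt.pat_eq (E' := R0Q080.E1755) (by decide +kernel) (pat_step (by decide +kernel) (q_cons (Vale.Agent.P032.Lt.q R0Q080.q1755_0) (q_cons (Vale.Agent.P032.Lt.q R0Q080.q1755_1) (q_cons (Vale.Agent.P032.Lt.q R0Q080.q1755_2) (q_cons (Vale.Agent.P032.Lt.q R0Q080.q1755_3) (q_cons (Vale.Agent.P032.Lt.q R0Q080.q1755_4) (q_cons (Vale.Agent.P032.Lt.q R0Q080.q1755_5) q_nil)))))))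

def C1756 : List ℕ := [0, 4, 8, 12, 16, 20, 24, 216065, 347137, 737281]
theorem p1756 : Pat 73 73 TBm TCm (C1756.map Fm) R0Q080.P1756 R0Q080.I1756 := Vale.Agent.P032.Lt.pat_eq (E' := R0Q080.E1756) (by decide +kernel) (pat_step (by decide +kernel) (q_cons (Vale.Agent.P032.Lt.q R0Q080.q1756_0) (q_cons (Vale.Agent.P032.Lt.q R0Q080.q1756_1) (q_cons (Vale.Agent.P032.Lt.q R0Q080.q1756_2) (q_cons (Vale.Agent.P032.Lt.q R0Q080.q1756_3) (q_cons (Vale.Agent.P032.Lt.q R0Q080.q1756_4) q_nil))))))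

theorem p1757 : Pat 73 73 TBm TCm (CB.map Fm) R0Q080.P1757 R0Q080.I1757 := Vale.Agent.P032.Lt.pat_eq (E' := R0Q080.E) eB (pat_step (by decide +kernel) (q_cons (Vale.Agent.P032.Lt.q R0Q080.q1757_0) (q_cons (Vale.Agent.P032.Lt.q R0Q080.q1757_1) (q_cons (Vale.Agent.P032.Lt.q R0Q080.q1757_2) (q_cons (Vale.Agent.P032.Lt.q R0Q080.q1757_3) (q_cons (Vale.Agent.P032.Lt.q R0Q080.q1757_4) q_nil))))))

theorem p1758 : Pat 73 73 TBm TCm (CB.map Fm) R0Q080.P1758 R0Q080.I1758 := Vale.Agent.P032.Lt.pat_eq (E' := R0Q080.E) eB (pat_step (by decide +kernel) (q_cons (Vale.Agent.P032.Lt.q R0Q080.q1758_0) q_nil))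

theorem p1759 : Pat 73 73 TBm TCm (CB.map Fm) R0Q080.P1759 R0Q080.I1759 := Vale.Agent.P032.Lt.pat_eq (E' := R0Q080.E) eB (pat_step (by decide +kernel) (q_cons (Vale.Agent.P032.Lt.q R0Q080.q1759_0) (q_cons (Vale.Agent.P032.Lt.q R0Q080.q1759_1) q_nil)))

theorem p1760 : Pat 73 73 TBm TCm (CB.map Fm) R0Q080.P1760 R0Q080.I1760 := Vale.Agent.P032.Lt.pat_eq (E' := R0Q080.E) eB (pat_step (by decide +kernel) (q_cons (Vale.Agent.P032.Lt.q R0Q080.q1760_0) (q_cons (Vale.Agent.P032.Lt.q R0Q080.q1760_1) (q_cons (Vale.Agent.P032.Lt.q R0Q080.q1760_2) (q_cons (Vale.Agent.P032.Lt.q R0Q080.q1760_3) (q_cons (Vale.Agent.P032.Lt.q R0Q080.q1760_4) (q_cons (Vale.Agent.P032.Lt.q R0Q080.q1760_5) q_nil)))))))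

theorem p1761 : Pat 73 73 TBm TCm (CB.map Fm) R0Q080.P1761 R0Q080.I1761 := Vale.Agent.P032.Lt.pat_eq (E' := R0Q080.E) eB (pat_step (by decide +kernel) (q_cons (Vale.Agent.P032.Lt.q R0Q080.q1761_0) (q_cons (Vale.Agent.P032.Lt.q R0Q080.q1761_1) (q_cons (Vale.Agent.P032.Lt.q R0Q080.q1761_2) (q_cons (Vale.Agent.P032.Lt.q R0Q080.q1761_3) (q_cons (Vale.Agent.P032.Lt.q R0Q080.q1761_4) (q_cons (Vale.Agent.P032.Lt.q R0Q080.q1761_5) (q_cons (Vale.Agent.P032.Lt.q R0Q080.q1761_6) (q_cons (Vale.Agent.P032.Lt.q R0Q080.q1761_7) (q_cons (Vale.Agent.P032.Lt.q R0Q080.q1761_8) (q_cons (Vale.Agent.P032.Lt.q R0Q080.q1761_9) (q_cons (Vale.Agent.P032.Lt.q R0Q080.q1761_10) (q_cons (Vale.Agent.P032.Lt.q R0Q080.q1761_11) (q_cons (Vale.Agent.P032.Lt.q R0Q080.q1761_12) (q_cons (Vale.Agent.P032.Lt.q R0Q080.q1761_13) (q_cons (Vale.Agent.P032.Lt.q R0Q080.q1761_14) (q_cons (Vale.Agent.P032.Lt.q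 R0Q080.q1761_15) (q_cons (Vale.Agent.P032.Lt.q R0Q080.q1761_16) (q_cons (Vale.Agent.P032.Lt.q R0Q080.q1761_17) (q_cons (Vale.Agent.P032.Lt.q R0Q080.q1761_18) (q_cons (Vale.Agent.P032.Lt.q R0Q080.q1761_19) (q_cons (Vale.Agent.P032.Lt.q R0Q080.q1761_20) (q_cons (Vale.Agent.P032.Lt.q R0Q080.q1761_21) (q_cons (Vale.Agent.P032.Lt.q R0Q080.q1761_22) (q_cons (Vale.Agent.P032.Lt.q R0Q080.q1761_23) (q_cons (Vale.Agent.P032.Lt.q R0Q080.q1761_24) (q_cons (Vale.Agent.P032.Lt.q R0Q080.q1761_25) (q_cons (Vale.Agent.P032.Lt.q R0Q080.q1761_26) (q_cons (Vale.Agent.P032.Lt.q R0Q080.q1761_27) (q_cons (Vale.Agent.P032.Lt.q R0Q080.q1761_28) (q_cons (Vale.Agent.P032.Lt.q R0Q080.q1761_29) (q_cons (Vale.Agent.P032.Lt.q R0Q080.q1761_30) (q_cons (Vale.Agent.P032.Lt.q R0Q080.q1761_31) (q_cons (Vale.Agent.P032.Lt.q R0Q080.q1761_32) (q_cons (Vale.Agent.P032.Lt.q R0Q080.q1761_33)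 (q_cons (Vale.Agent.P032.Lt.q R0Q080.q1761_34) (q_cons (Vale.Agent.P032.Lt.q R0Q080.q1761_35) (q_cons (Vale.Agent.P032.Lt.q R0Q080.q1761_36) (q_cons (Vale.Agent.P032.Lt.q R0Q080.q1761_37) (q_cons (Vale.Agent.P032.Lt.q R0Q080.q1761_38) (q_cons (Vale.Agent.P032.Lt.q R0Q080.q1761_39) q_nil)))))))))))))))))))))))))))))))))))))))))

theorem p1762 : Pat 73 73 TBm TCm (CB.map Fm) R0Q080.P1762 R0Q080.I1762 := Vale.Agent.P032.Lt.pat_eq (E' := R0Q080.E) eB (pat_step (by decide +kernel) (q_cons (Vale.Agent.P032.Lt.q R0Q080.q1762_0) (q_cons (Vale.Agent.P032.Lt.q R0Q080.q1762_1) (q_cons (Vale.Agent.P032.Lt.q R0Q080.q1762_2) (q_cons (Vale.Agent.P032.Lt.q R0Q080.q1762_3) (q_cons (Vale.Agent.P032.Lt.q R0Q080.q1762_4) (q_cons (Vale.Agent.P032.Lt.q R0Q080.q1762_5) (q_cons (Vale.Agent.P032.Lt.q R0Q080.q1762_6) (q_cons (Vale.Agent.P032.Lt.q R0Q080.q1762_7) (q_cons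 (Vale.Agent.P032.Lt.q R0Q080.q1762_8) (q_cons (Vale.Agent.P032.Lt.q R0Q080.q1762_9) (q_cons (Vale.Agent.P032.Lt.q R0Q080.q1762_10) (q_cons (Vale.Agent.P032.Lt.q R0Q080.q1762_11) (q_cons (Vale.Agent.P032.Lt.q R0Q080.q1762_12) (q_cons (Vale.Agent.P032.Lt.q R0Q080.q1762_13) (q_cons (Vale.Agent.P032.Lt.q R0Q080.q1762_14) (q_cons (Vale.Agent.P032.Lt.q R0Q080.q1762_15) q_nil)))))))))))))))))

theorem p1763 : Pat 73 73 TBm TCm (CB.map Fm) R0Q080.P1763 R0Q080.I1763 := Vale.Agent.P032.Lt.pat_eq (E' := R0Q080.E) eB (pat_step (by decide +kernel) (q_cons (Vale.Agent.P032.Lt.q R0Q080.q1763_0) (q_cons (Vale.Agent.P032.Lt.q R0Q080.q1763_1) (q_cons (Vale.Agent.P032.Lt.q R0Q080.q1763_2) (q_cons (Vale.Agent.P032.Lt.q R0Q080.q1763_3) (q_cons (Vale.Agent.P032.Lt.q R0Q080.q1763_4) (q_cons (Vale.Agent.P032.Lt.q R0Q080.q1763_5) (q_cons (Vale.Agent.P032.Lt.q R0Q080.q1763_6)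 (q_cons (Vale.Agent.P032.Lt.q R0Q080.q1763_7) (q_cons (Vale.Agent.P032.Lt.q R0Q080.q1763_8) (q_cons (Vale.Agent.P032.Lt.q R0Q080.q1763_9) (q_cons (Vale.Agent.P032.Lt.q R0Q080.q1763_10) (q_cons (Vale.Agent.P032.Lt.q R0Q080.q1763_11) q_nil)))))))))))))

theorem p1764 : Pat 73 73 TBm TCm (CB.map Fm) R0Q080.P1764 R0Q080.I1764 := Vale.Agent.P032.Lt.pat_eq (E' := R0Q080.E) eB (pat_step (by decide +kernel) (q_cons (Vale.Agent.P032.Lt.q R0Q080.q1764_0) (q_cons (Vale.Agent.P032.Lt.q R0Q080.q1764_1) (q_cons (Vale.Agent.P032.Lt.q R0Q080.q1764_2) (q_cons (Vale.Agent.P032.Lt.q R0Q080.q1764_3) q_nil)))))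

theorem p1765 : Pat 73 73 TBm TCm (CB.map Fm) R0Q080.P1765 R0Q080.I1765 := Vale.Agent.P032.Lt.pat_eq (E' := R0Q080.E) eB (pat_step (by decide +kernel) (q_cons (Vale.Agent.P032.Lt.q R0Q080.q1765_0) q_nil))

theorem p1766 : Pat 73 73 TBm TCm (CB.map Fm) R0Q081.P1766 R0Q081.I1766 := Vale.Agent.P032.Lt.pat_eq (E' := R0Q081.E) eB (pat_step (by decide +kernel) (q_cons (Vale.Agent.P032.Lt.q R0Q081.q1766_0) (q_cons (Vale.Agent.P032.Lt.q R0Q081.q1766_1) (q_cons (Vale.Agent.P032.Lt.q R0Q081.q1766_2) q_nil))))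

theorem p1767 : Pat 73 73 TBm TCm (CB.map Fm) R0Q081.P1767 R0Q081.I1767 := Vale.Agent.P032.Lt.pat_eq (E' := R0Q081.E) eB (pat_step (by decide +kernel) (q_cons (Vale.Agent.P032.Lt.q R0Q081.q1767_0) q_nil))

theorem p1768 : Pat 73 73 TBm TCm (CB.map Fm) R0Q081.P1768 R0Q081.I1768 := Vale.Agent.P032.Lt.pat_eq (E' := R0Q081.E) eB (pat_step (by decide +kernel) (q_cons (Vale.Agent.P032.Lt.q R0Q081.q1768_0) q_nil))

theorem p1769 : Pat 73 73 TBm TCm (CB.map Fm) R0Q081.P1769 R0Q081.I1769 := Vale.Agent.P032.Lt.pat_eq (E' := R0Q081.E) eB (pat_step (by decide +kernel) (q_cons (Vale.Agent.P032.Lt.q R0Q081.q1769_0) (q_cons (Vale.Agent.P032.Lt.q R0Q081.q1769_1) (q_cons (Vale.Agent.P032.Lt.q R0Q081.q1769_2) (q_cons (Vale.Agent.P032.Lt.q R0Q081.q1769_3) q_nil)))))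

theorem p1770 : Pat 73 73 TBm TCm (CB.map Fm) R0Q081.P1770 R0Q081.I1770 := Vale.Agent.P032.Lt.pat_eq (E' := R0Q081.E) eB (pat_step (by decide +kernel) (q_cons (Vale.Agent.P032.Lt.q R0Q081.q1770_0) q_nil))

theorem p1771 : Pat 73 73 TBm TCm (CB.map Fm) R0Q081.P1771 R0Q081.I1771 := Vale.Agent.P032.Lt.pat_eq (E' := R0Q081.E) eB (pat_step (by decide +kernel) (q_cons (Vale.Agent.P032.Lt.q R0Q081.q1771_0) (q_cons (Vale.Agent.P032.Lt.q R0Q081.q1771_1) (q_cons (Vale.Agent.P032.Lt.q R0Q081.q1771_2) (q_cons (Vale.Agent.P032.Lt.q R0Q081.q1771_3) q_nil)))))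

theorem p1772 : Pat 73 73 TBm TCm (CB.map Fm) R0Q081.P1772 R0Q081.I1772 := Vale.Agent.P032.Lt.pat_eq (E' := R0Q081.E) eB (pat_step (by decide +kernel) (q_cons (Vale.Agent.P032.Lt.q R0Q081.q1772_0) (q_cons (Vale.Agent.P032.Lt.q R0Q081.q1772_1) (q_cons (Vale.Agent.P032.Lt.q R0Q081.q1772_2) q_nil))))

theorem p1773 : Pat 73 73 TBm TCm (CB.map Fm) R0Q081.P1773 R0Q081.I1773 := Vale.Agent.P032.Lt.pat_eq (E' := R0Q081.E) eB (pat_step (by decide +kernel) (q_cons (Vale.Agent.P032.Lt.q R0Q081.q1773_0) q_nil))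

theorem p1774 : Pat 73 73 TBm TCm (CB.map Fm) R0Q081.P1774 R0Q081.I1774 := Vale.Agent.P032.Lt.pat_eq (E' := R0Q081.E) eB (pat_step (by decide +kernel) (q_cons (Vale.Agent.P032.Lt.q R0Q081.q1774_0) (q_cons (Vale.Agent.P032.Lt.q R0Q081.q1774_1) (q_cons (Vale.Agent.P032.Lt.q R0Q081.q1774_2) q_nil))))

theorem p1775 : Pat 73 73 TBm TCm (CB.map Fm) R0Q081.P1775 R0Q081.I1775 := Vale.Agent.P032.Lt.pat_eq (E' := R0Q081.E) eB (pat_step (by decide +kernel) (q_cons (Vale.Agent.P032.Lt.q R0Q081.q1775_0) q_nil))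

theorem p1776 : Pat 73 73 TBm TCm (CB.map Fm) R0Q081.P1776 R0Q081.I1776 := Vale.Agent.P032.Lt.pat_eq (E' := R0Q081.E) eB (pat_step (by decide +kernel) (q_cons (Vale.Agent.P032.Lt.q R0Q081.q1776_0) q_nil))

def C1777 : List ℕ := [0, 4, 8, 12, 16, 20, 24, 344065, 475137, 607233, 737281]
theorem p1777 : Pat 73 73 TBm TCm (C1777.map Fm) R0Q081.P1777 R0Q081.I1777 := Vale.Agent.P032.Lt.pat_eq (E' := R0Q081.E1777) (by decide +kernel) (pat_step (by decide +kernel) (q_cons (Vale.Agent.P032.Lt.q R0Q081.q1777_0) q_nil))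

theorem p1778 : Pat 73 73 TBm TCm (CB.map Fm) R0Q081.P1778 R0Q081.I1778 := Vale.Agent.P032.Lt.pat_eq (E' := R0Q081.E) eB (pat_step (by decide +kernel) (q_cons (Vale.Agent.P032.Lt.q R0Q081.q1778_0) (q_cons (Vale.Agent.P032.Lt.q R0Q081.q1778_1) q_nil)))

theorem p1779 : Pat 73 73 TBm TCm (CB.map Fm) R0Q081.P1779 R0Q081.I1779 := Vale.Agent.P032.Lt.pat_eq (E' := R0Q081.E) eB (pat_step (by decide +kernel) (q_cons (Vale.Agent.P032.Lt.q R0Q081.q1779_0) (q_cons (Vale.Agent.P032.Lt.q R0Q081.q1779_1) q_nil)))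

theorem p1780 : Pat 73 73 TBm TCm (CB.map Fm) R0Q081.P1780 R0Q081.I1780 := Vale.Agent.P032.Lt.pat_eq (E' := R0Q081.E) eB (pat_step (by decide +kernel) (q_cons (Vale.Agent.P032.Lt.q R0Q081.q1780_0) (q_cons (Vale.Agent.P032.Lt.q R0Q081.q1780_1) (q_cons (Vale.Agent.P032.Lt.q R0Q081.q1780_2) (q_cons (Vale.Agent.P032.Lt.q R0Q081.q1780_3) (q_cons (Vale.Agent.P032.Lt.q R0Q081.q1780_4) q_nil))))))

theorem p1781 : Pat 73 73 TBm TCm (CB.map Fm) R0Q081.P1781 R0Q081.I1781 := Vale.Agent.P032.Lt.pat_eq (E' := R0Q081.E) eB (pat_step (by decide +kernel) (q_cons (Vale.Agent.P032.Lt.q R0Q081.q1781_0) (q_cons (Vale.Agent.P032.Lt.q R0Q081.q1781_1) (q_cons (Vale.Agent.P032.Lt.q R0Q081.q1781_2) (q_cons (Vale.Agent.P032.Lt.q R0Q081.q1781_3) (q_cons (Vale.Agent.P032.Lt.q R0Q081.q1781_4) (q_cons (Vale.Agent.P032.Lt.q R0Q081.q1781_5) (q_cons (Vale.Agent.P032.Lt.q R0Q081.q1781_6)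 (q_cons (Vale.Agent.P032.Lt.q R0Q081.q1781_7) (q_cons (Vale.Agent.P032.Lt.q R0Q081.q1781_8) (q_cons (Vale.Agent.P032.Lt.q R0Q081.q1781_9) (q_cons (Vale.Agent.P032.Lt.q R0Q081.q1781_10) q_nil))))))))))))

theorem p1782 : Pat 73 73 TBm TCm (CB.map Fm) R0Q081.P1782 R0Q081.I1782 := Vale.Agent.P032.Lt.pat_eq (E' := R0Q081.E) eB (pat_step (by decide +kernel) (q_cons (Vale.Agent.P032.Lt.q R0Q081.q1782_0) (q_cons (Vale.Agent.P032.Lt.q R0Q081.q1782_1) (q_cons (Vale.Agent.P032.Lt.q R0Q081.q1782_2) (q_cons (Vale.Agent.P032.Lt.q R0Q081.q1782_3) (q_cons (Vale.Agent.P032.Lt.q R0Q081.q1782_4) (q_cons (Vale.Agent.P032.Lt.q R0Q081.q1782_5) (q_cons (Vale.Agent.P032.Lt.q R0Q081.q1782_6) (q_cons (Vale.Agent.P032.Lt.q R0Q081.q1782_7) (q_cons (Vale.Agent.P032.Lt.q R0Q081.q1782_8) q_nil))))))))))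

theorem p1783 : Pat 73 73 TBm TCm (CB.map Fm) R0Q081.P1783 R0Q081.I1783 := Vale.Agent.P032.Lt.pat_eq (E' := R0Q081.E) eB (pat_step (by decide +kernel) (q_cons (Vale.Agent.P032.Lt.q R0Q081.q1783_0) (q_cons (Vale.Agent.P032.Lt.q R0Q081.q1783_1) (q_cons (Vale.Agent.P032.Lt.q R0Q081.q1783_2) (q_cons (Vale.Agent.P032.Lt.q R0Q081.q1783_3) (q_cons (Vale.Agent.P032.Lt.q R0Q081.q1783_4) (q_cons (Vale.Agent.P032.Lt.q R0Q081.q1783_5) (q_cons (Vale.Agent.P032.Lt.q R0Q081.q1783_6) (q_cons (Vale.Agent.P032.Lt.q R0Q081.q1783_7) (q_cons (Vale.Agent.P032.Lt.q R0Q081.q1783_8) (q_cons (Vale.Agent.P032.Lt.q R0Q081.q1783_9) (q_cons (Vale.Agent.P032.Lt.q R0Q081.q1783_10) (q_cons (Vale.Agent.P032.Lt.q R0Q081.q1783_11) q_nil)))))))))))))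

theorem p1784 : Pat 73 73 TBm TCm (CB.map Fm) R0Q081.P1784 R0Q081.I1784 := Vale.Agent.P032.Lt.pat_eq (E' := R0Q081.E) eB (pat_step (by decide +kernel) (q_cons (Vale.Agent.P032.Lt.q R0Q081.q1784_0) (q_cons (Vale.Agent.P032.Lt.q R0Q081.q1784_1) (q_cons (Vale.Agent.P032.Lt.q R0Q081.q1784_2) q_nil))))

theorem p1785 : Pat 73 73 TBm TCm (CB.map Fm) R0Q081.P1785 R0Q081.I1785 := Vale.Agent.P032.Lt.pat_eq (E' := R0Q081.E) eB (pat_step (by decide +kernel) (q_cons (Vale.Agent.P032.Lt.q R0Q081.q1785_0) (q_cons (Vale.Agent.P032.Lt.q R0Q081.q1785_1) (q_cons (Vale.Agent.P032.Lt.q R0Q081.q1785_2) (q_cons (Vale.Agent.P032.Lt.q R0Q081.q1785_3) q_nil)))))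

theorem p1786 : Pat 73 73 TBm TCm (CB.map Fm) R0Q081.P1786 R0Q081.I1786 := Vale.Agent.P032.Lt.pat_eq (E' := R0Q081.E) eB (pat_step (by decide +kernel) (q_cons (Vale.Agent.P032.Lt.q R0Q081.q1786_0) (q_cons (Vale.Agent.P032.Lt.q R0Q081.q1786_1) (q_cons (Vale.Agent.P032.Lt.q R0Q081.q1786_2) (q_cons (Vale.Agent.P032.Lt.q R0Q081.q1786_3) (q_cons (Vale.Agent.P032.Lt.q R0Q081.q1786_4) (q_cons (Vale.Agent.P032.Lt.q R0Q081.q1786_5) (q_cons (Vale.Agent.P032.Lt.q R0Q081.q1786_6) (q_cons (Vale.Agent.P032.Lt.q R0Q081.q1786_7) (q_cons (Vale.Agent.P032.Lt.q R0Q081.q1786_8) (q_cons (Vale.Agent.P032.Lt.q R0Q081.q1786_9) (q_cons (Vale.Agent.P032.Lt.q R0Q081.q1786_10) q_nil))))))))))))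

theorem p1787 : Pat 73 73 TBm TCm (CB.map Fm) R0Q081.P1787 R0Q081.I1787 := Vale.Agent.P032.Lt.pat_eq (E' := R0Q081.E) eB (pat_step (by decide +kernel) (q_cons (Vale.Agent.P032.Lt.q R0Q081.q1787_0) (q_cons (Vale.Agent.P032.Lt.q R0Q081.q1787_1) (q_cons (Vale.Agent.P032.Lt.q R0Q081.q1787_2) (q_cons (Vale.Agent.P032.Lt.q R0Q081.q1787_3) (q_cons (Vale.Agent.P032.Lt.q R0Q081.q1787_4) (q_cons (Vale.Agent.P032.Lt.q R0Q081.q1787_5) (q_cons (Vale.Agent.P032.Lt.q R0Q081.q1787_6) (q_cons (Vale.Agent.P032.Lt.q R0Q081.q1787_7) (q_cons (Vale.Agent.P032.Lt.q R0Q081.q1787_8) q_nil))))))))))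

theorem p1788 : Pat 73 73 TBm TCm (CB.map Fm) R0Q081.P1788 R0Q081.I1788 := Vale.Agent.P032.Lt.pat_eq (E' := R0Q081.E) eB (pat_step (by decide +kernel) (q_cons (Vale.Agent.P032.Lt.q R0Q081.q1788_0) (q_cons (Vale.Agent.P032.Lt.q R0Q081.q1788_1) (q_cons (Vale.Agent.P032.Lt.q R0Q081.q1788_2) (q_cons (Vale.Agent.P032.Lt.q R0Q081.q1788_3) (q_cons (Vale.Agent.P032.Lt.q R0Q081.q1788_4) (q_cons (Vale.Agent.P032.Lt.q R0Q081.q1788_5) (q_cons (Vale.Agent.P032.Lt.q R0Q081.q1788_6) (q_cons (Vale.Agent.P032.Lt.q R0Q081.q1788_7) (q_cons (Vale.Agent.P032.Lt.q R0Q081.q1788_8) (q_cons (Vale.Agent.P032.Lt.q R0Q081.q1788_9) (q_cons (Vale.Agent.P032.Lt.q R0Q081.q1788_10) (q_cons (Vale.Agent.P032.Lt.q R0Q081.q1788_11) (q_cons (Vale.Agent.P032.Lt.q R0Q081.q1788_12) (q_cons (Vale.Agent.P032.Lt.q R0Q081.q1788_13) (q_cons (Vale.Agent.P032.Lt.q R0Q081.q1788_14) q_nil))))))))))))))))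

theorem p1789 : Pat 73 73 TBm TCm (CB.map Fm) R0Q081.P1789 R0Q081.I1789 := Vale.Agent.P032.Lt.pat_eq (E' := R0Q081.E) eB (pat_step (by decide +kernel) (q_cons (Vale.Agent.P032.Lt.q R0Q081.q1789_0) (q_cons (Vale.Agent.P032.Lt.q R0Q081.q1789_1) (q_cons (Vale.Agent.P032.Lt.q R0Q081.q1789_2) (q_cons (Vale.Agent.P032.Lt.q R0Q081.q1789_3) (q_cons (Vale.Agent.P032.Lt.q R0Q081.q1789_4) (q_cons (Vale.Agent.P032.Lt.q R0Q081.q1789_5) (q_cons (Vale.Agent.P032.Lt.q R0Q081.q1789_6) q_nil))))))))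

theorem p1790 : Pat 73 73 TBm TCm (CB.map Fm) R0Q081.P1790 R0Q081.I1790 := Vale.Agent.P032.Lt.pat_eq (E' := R0Q081.E) eB (pat_step (by decide +kernel) (q_cons (Vale.Agent.P032.Lt.q R0Q081.q1790_0) (q_cons (Vale.Agent.P032.Lt.q R0Q081.q1790_1) (q_cons (Vale.Agent.P032.Lt.q R0Q081.q1790_2) (q_cons (Vale.Agent.P032.Lt.q R0Q081.q1790_3) (q_cons (Vale.Agent.P032.Lt.q R0Q081.q1790_4) (q_cons (Vale.Agent.P032.Lt.q R0Q081.q1790_5) (q_cons (Vale.Agent.P032.Lt.q R0Q081.q1790_6) (q_cons (Vale.Agent.P032.Lt.q R0Q081.q1790_7) (q_cons (Vale.Agent.P032.Lt.q R0Q081.q1790_8) (q_cons (Vale.Agent.P032.Lt.q R0Q081.q1790_9) (q_cons (Vale.Agent.P032.Lt.q R0Q081.q1790_10) (q_cons (Vale.Agent.P032.Lt.q R0Q081.q1790_11) (q_cons (Vale.Agent.P032.Lt.q R0Q081.q1790_12) (q_cons (Vale.Agent.P032.Lt.q R0Q081.q1790_13) (q_cons (Vale.Agent.P032.Lt.q R0Q081.q1790_14) (q_cons (Vale.Agent.P032.Lt.q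 R0Q081.q1790_15) (q_cons (Vale.Agent.P032.Lt.q R0Q081.q1790_16) (q_cons (Vale.Agent.P032.Lt.q R0Q081.q1790_17) (q_cons (Vale.Agent.P032.Lt.q R0Q081.q1790_18) (q_cons (Vale.Agent.P032.Lt.q R0Q081.q1790_19) (q_cons (Vale.Agent.P032.Lt.q R0Q081.q1790_20) q_nil))))))))))))))))))))))

theorem p1791 : Pat 73 73 TBm TCm (CB.map Fm) R0Q081.P1791 R0Q081.I1791 := Vale.Agent.P032.Lt.pat_eq (E' := R0Q081.E) eB (pat_step (by decide +kernel) (q_cons (Vale.Agent.P032.Lt.q R0Q081.q1791_0) (q_cons (Vale.Agent.P032.Lt.q R0Q081.q1791_1) (q_cons (Vale.Agent.P032.Lt.q R0Q081.q1791_2) (q_cons (Vale.Agent.P032.Lt.q R0Q081.q1791_3) (q_cons (Vale.Agent.P032.Lt.q R0Q081.q1791_4) q_nil))))))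

def L : List (List ℕ) := [R0Q076.P1664, R0Q076.P1665, R0Q076.P1666, R0Q076.P1667, R0Q076.P1668, R0Q076.P1669, R0Q076.P1670, R0Q076.P1671, R0Q076.P1672, R0Q076.P1673, R0Q076.P1674, R0Q076.P1675, R0Q076.P1676, R0Q076.P1677, R0Q076.P1678, R0Q076.P1679, R0Q076.P1680, R0Q076.P1681, R0Q076.P1682, R0Q076.P1683, R0Q076.P1684, R0Q076.P1685, R0Q076.P1686, R0Q076.P1687, R0Q076.P1688, R0Q076.P1689, R0Q076.P1690, R0Q076.P1691, R0Q076.P1692, R0Q076.P1693, R0Q076.P1694, R0Q076.P1695, R0Q076.P1696, R0Q077.P1697, R0Q077.P1698, R0Q077.P1699, R0Q077.P1700, R0Q077.P1701, R0Q077.P1702, R0Q077.P1703, R0Q077.P1704, R0Q077.P1705, R0Q077.P1706, R0Q077.P1707, R0Q077.P1708, R0Q077.P1709, R0Q077.P1710, R0Q077.P1711, R0Q078.P1712, R0Q078.P1713, R0Q078.P1714, R0Q078.P1715, R0Q078.P1716, R0Q078.P1717, R0Q078.P1718, R0Q078.P1719, R0Q078.P1720, R0Q078.P1721, R0Q079.P1722, R0Q079.P1723,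 R0Q079.P1724, R0Q079.P1725, R0Q079.P1726, R0Q079.P1727, R0Q079.P1728, R0Q079.P1729, R0Q079.P1730, R0Q079.P1731, R0Q079.P1732, R0Q079.P1733, R0Q079.P1734, R0Q079.P1735, R0Q079.P1736, R0Q079.P1737, R0Q079.P1738, R0Q079.P1739, R0Q079.P1740, R0Q079.P1741, R0Q079.P1742, R0Q079.P1743, R0Q079.P1744, R0Q079.P1745, R0Q079.P1746, R0Q079.P1747, R0Q079.P1748, R0Q079.P1749, R0Q080.P1750, R0Q080.P1751, R0Q080.P1752, R0Q080.P1753, R0Q080.P1754, R0Q080.P1755, R0Q080.P1756, R0Q080.P1757, R0Q080.P1758, R0Q080.P1759, R0Q080.P1760, R0Q080.P1761, R0Q080.P1762, R0Q080.P1763, R0Q080.P1764, R0Q080.P1765, R0Q081.P1766, R0Q081.P1767, R0Q081.P1768, R0Q081.P1769, R0Q081.P1770, R0Q081.P1771, R0Q081.P1772, R0Q081.P1773, R0Q081.P1774, R0Q081.P1775, R0Q081.P1776, R0Q081.P1777, R0Q081.P1778, R0Q081.P1779, R0Q081.P1780, R0Q081.P1781, R0Q081.P1782, R0Q081.P1783, R0Q081.P1784, R0Q081.P1785,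 R0Q081.P1786, R0Q081.P1787, R0Q081.P1788, R0Q081.P1789, R0Q081.P1790, R0Q081.P1791]

theorem all : ∀ P ∈ L, CrtF 73 73 TBm TCm (Vale.Agent.P032.Fam.fam2 (Vale.Agent.P032.Fam.im0)) P := crtF_cons p1664 (crtF_cons p1665 (crtF_cons p1666 (crtF_cons p1667 (crtF_cons p1668 (crtF_cons p1669 (crtF_cons p1670 (crtF_cons p1671 (crtF_cons p1672 (crtF_cons p1673 (crtF_cons p1674 (crtF_cons p1675 (crtF_cons p1676 (crtF_cons p1677 (crtF_cons p1678 (crtF_cons p1679 (crtF_cons p1680 (crtF_cons p1681 (crtF_cons p1682 (crtF_cons p1683 (crtF_cons p1684 (crtF_cons p1685 (crtF_cons p1686 (crtF_cons p1687 (crtF_cons p1688 (crtF_cons p1689 (crtF_cons p1690 (crtF_cons p1691 (crtF_cons p1692 (crtF_cons p1693 (crtF_cons p1694 (crtF_cons p1695 (crtF_cons p1696 (crtF_cons p1697 (crtF_cons p1698 (crtF_cons p1699 (crtF_cons p1700 (crtF_cons p1701 (crtF_cons p1702 (crtF_cons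 p1703 (crtF_cons p1704 (crtF_cons p1705 (crtF_cons p1706 (crtF_cons p1707 (crtF_cons p1708 (crtF_cons p1709 (crtF_cons p1710 (crtF_cons p1711 (crtF_cons p1712 (crtF_cons p1713 (crtF_cons p1714 (crtF_cons p1715 (crtF_cons p1716 (crtF_cons p1717 (crtF_cons p1718 (crtF_cons p1719 (crtF_cons p1720 (crtF_cons p1721 (crtF_cons p1722 (crtF_cons p1723 (crtF_cons p1724 (crtF_cons p1725 (crtF_cons p1726 (crtF_cons p1727 (crtF_cons p1728 (crtF_cons p1729 (crtF_cons p1730 (crtF_cons p1731 (crtF_cons p1732 (crtF_cons p1733 (crtF_cons p1734 (crtF_cons p1735 (crtF_cons p1736 (crtF_cons p1737 (crtF_cons p1738 (crtF_cons p1739 (crtF_cons p1740 (crtF_cons p1741 (crtF_cons p1742 (crtF_cons p1743 (crtF_cons p1744 (crtF_cons p1745 (crtF_cons p1746 (crtF_cons p1747 (crtF_cons p1748 (crtF_cons p1749 (crtF_cons p1750 (crtF_cons p1751 (crtF_cons p1752 (crtF_cons p1753 (crtF_cons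 p1754 (crtF_cons p1755 (crtF_cons p1756 (crtF_cons p1757 (crtF_cons p1758 (crtF_cons p1759 (crtF_cons p1760 (crtF_cons p1761 (crtF_cons p1762 (crtF_cons p1763 (crtF_cons p1764 (crtF_cons p1765 (crtF_cons p1766 (crtF_cons p1767 (crtF_cons p1768 (crtF_cons p1769 (crtF_cons p1770 (crtF_cons p1771 (crtF_cons p1772 (crtF_cons p1773 (crtF_cons p1774 (crtF_cons p1775 (crtF_cons p1776 (crtF_cons p1777 (crtF_cons p1778 (crtF_cons p1779 (crtF_cons p1780 (crtF_cons p1781 (crtF_cons p1782 (crtF_cons p1783 (crtF_cons p1784 (crtF_cons p1785 (crtF_cons p1786 (crtF_cons p1787 (crtF_cons p1788 (crtF_cons p1789 (crtF_cons p1790 (crtF_cons p1791 crtF_nil)))))))))))))))))))))))))))))))))))))))))))))))))))))))))))))))))))))))))))))))))))))))))))))))))))))))))))))))))))))))))))))))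

theorem ch : chT 73 73 TCm s0_013 L = true := by decide +kernel

end Vale.Agent.P032X.Cert.XP.B1.R0H013
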