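import Vale.Agent.P032X.H892.LtH
import Vale.Agent.P032X.H286.W73
import Vale.Agent.P032X.Cert.XP.B1.R0T
import Vale.Agent.P032X.Cert.XP.B1.R0Q082
import Vale.Agent.P032X.Cert.XP.B1.R0Q083
import Vale.Agent.P032X.Cert.XP.B1.R0Q084
import Vale.Agent.P032X.Cert.XP.B1.R0Q085
import Vale.Agent.P032X.Cert.XP.B1.R0Q086
import Vale.Agent.P032X.Cert.XP.B1.R0Q087
import Vale.Agent.P032X.Cert.XP.B1.R0Q088
import Vale.Agent.P032X.Cert.XP.B1.R0Q089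

set_option maxRecDepth 1000000

namespace Vale.Agent.P032X.Cert.XP.B1.R0H014

open Vale.Agent.P032.H820.K Vale.Agent.P032.H357.MK Vale.Agent.P032.H286.E Vale.Agent.P032.H61 Vale.Agent.P032X.Cert.XP.B1

noncomputable abbrev Fm : ℕ → List ℕ := Vale.Agent.P032.Fam.fam2 (Vale.Agent.P032.Fam.im0)

def CB : List ℕ := [0, 4, 8, 12, 16, 20, 24]

theorem eB : Vale.Agent.P032.Lt.eqLL (CB.map Fm) R0Q082.E = true := by decide +kernel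

theorem p1792 : Pat 73 73 TBm TCm (CB.map Fm) R0Q082.P1792 R0Q082.I1792 := Vale.Agent.P032.Lt.pat_eq (E' := R0Q082.E) eB (pat_step (by decide +kernel) (q_cons (Vale.Agent.P032.Lt.q R0Q082.q1792_0) (q_cons (Vale.Agent.P032.Lt.q R0Q082.q1792_1) (q_cons (Vale.Agent.P032.Lt.q R0Q082.q1792_2) q_nil))))

theorem p1793 : Pat 73 73 TBm TCm (CB.map Fm) R0Q082.P1793 R0Q082.I1793 := Vale.Agent.P032.Lt.pat_eq (E' := R0Q082.E) eB (pat_step (by decide +kernel) (q_cons (Vale.Agent.P032.Lt.q R0Q082.q1793_0) q_nil))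

theorem p1794 : Pat 73 73 TBm TCm (CB.map Fm) R0Q082.P1794 R0Q082.I1794 := Vale.Agent.P032.Lt.pat_eq (E' := R0Q082.E) eB (pat_step (by decide +kernel) (q_cons (Vale.Agent.P032.Lt.q R0Q082.q1794_0) (q_cons (Vale.Agent.P032.Lt.q R0Q082.q1794_1) (q_cons (Vale.Agent.P032.Lt.q R0Q082.q1794_2) (q_cons (Vale.Agent.P032.Lt.q R0Q082.q1794_3) (q_cons (Vale.Agent.P032.Lt.q R0Q082.q1794_4) (q_cons (Vale.Agent.P032.Lt.q R0Q082.q1794_5) (q_cons (Vale.Agent.P032.Lt.q R0Q082.q1794_6) (q_cons (Vale.Agent.P032.Lt.q R0Q082.q1794_7) (q_cons (Vale.Agent.P032.Lt.q R0Q082.q1794_8) (q_cons (Vale.Agent.P032.Lt.q R0Q082.q1794_9) (q_cons (Vale.Agent.P032.Lt.q R0Q082.q1794_10) (q_cons (Vale.Agent.P032.Lt.q R0Q082.q1794_11) (q_cons (Vale.Agent.P032.Lt.q R0Q082.q1794_12) (q_cons (Vale.Agent.P032.Lt.q R0Q082.q1794_13) (q_cons (Vale.Agent.P032.Lt.q R0Q082.q1794_14) (q_cons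 (Vale.Agent.P032.Lt.q R0Q082.q1794_15) (q_cons (Vale.Agent.P032.Lt.q R0Q082.q1794_16) (q_cons (Vale.Agent.P032.Lt.q R0Q082.q1794_17) (q_cons (Vale.Agent.P032.Lt.q R0Q082.q1794_18) (q_cons (Vale.Agent.P032.Lt.q R0Q082.q1794_19) (q_cons (Vale.Agent.P032.Lt.q R0Q082.q1794_20) (q_cons (Vale.Agent.P032.Lt.q R0Q082.q1794_21) (q_cons (Vale.Agent.P032.Lt.q R0Q082.q1794_22) (q_cons (Vale.Agent.P032.Lt.q R0Q082.q1794_23) (q_cons (Vale.Agent.P032.Lt.q R0Q082.q1794_24) (q_cons (Vale.Agent.P032.Lt.q R0Q082.q1794_25) (q_cons (Vale.Agent.P032.Lt.q R0Q082.q1794_26) (q_cons (Vale.Agent.P032.Lt.q R0Q082.q1794_27) (q_cons (Vale.Agent.P032.Lt.q R0Q082.q1794_28) q_nil))))))))))))))))))))))))))))))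

theorem p1795 : Pat 73 73 TBm TCm (CB.map Fm) R0Q082.P1795 R0Q082.I1795 := Vale.Agent.P032.Lt.pat_eq (E' := R0Q082.E) eB (pat_step (by decide +kernel) (q_cons (Vale.Agent.P032.Lt.q R0Q082.q1795_0) (q_cons (Vale.Agent.P032.Lt.q R0Q082.q1795_1) (q_cons (Vale.Agent.P032.Lt.q R0Q082.q1795_2) (q_cons (Vale.Agent.P032.Lt.q R0Q082.q1795_3) (q_cons (Vale.Agent.P032.Lt.q R0Q082.q1795_4) (q_cons (Vale.Agent.P032.Lt.q R0Q082.q1795_5) (q_cons (Vale.Agent.P032.Lt.q R0Q082.q1795_6) (q_cons (Vale.Agent.P032.Lt.q R0Q082.q1795_7) (q_cons (Vale.Agent.P032.Lt.q R0Q082.q1795_8) (q_cons (Vale.Agent.P032.Lt.q R0Q082.q1795_9) (q_cons (Vale.Agent.P032.Lt.q R0Q082.q1795_10) (q_cons (Vale.Agent.P032.Lt.q R0Q082.q1795_11) (q_cons (Vale.Agent.P032.Lt.q R0Q082.q1795_12) (q_cons (Vale.Agent.P032.Lt.q R0Q082.q1795_13) (q_cons (Vale.Agent.P032.Lt.q R0Q082.q1795_14) (q_cons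 (Vale.Agent.P032.Lt.q R0Q082.q1795_15) q_nil)))))))))))))))))

theorem p1796 : Pat 73 73 TBm TCm (CB.map Fm) R0Q082.P1796 R0Q082.I1796 := Vale.Agent.P032.Lt.pat_eq (E' := R0Q082.E) eB (pat_step (by decide +kernel) (q_cons (Vale.Agent.P032.Lt.q R0Q082.q1796_0) (q_cons (Vale.Agent.P032.Lt.q R0Q082.q1796_1) (q_cons (Vale.Agent.P032.Lt.q R0Q082.q1796_2) q_nil))))

def C1797 : List ℕ := [0, 4, 8, 12, 16, 20, 24, 606209]
theorem p1797 : Pat 73 73 TBm TCm (C1797.map Fm) R0Q082.P1797 R0Q082.I1797 := Vale.Agent.P032.Lt.pat_eq (E' := R0Q082.E1797) (by decide +kernel) (pat_step (by decide +kernel) (q_cons (Vale.Agent.P032.Lt.q R0Q082.q1797_0) (q_cons (Vale.Agent.P032.Lt.q R0Q082.q1797_1) q_nil)))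

theorem p1798 : Pat 73 73 TBm TCm (CB.map Fm) R0Q082.P1798 R0Q082.I1798 := Vale.Agent.P032.Lt.pat_eq (E' := R0Q082.E) eB (pat_step (by decide +kernel) (q_cons (Vale.Agent.P032.Lt.q R0Q082.q1798_0) (q_cons (Vale.Agent.P032.Lt.q R0Q082.q1798_1) (q_cons (Vale.Agent.P032.Lt.q R0Q082.q1798_2) (q_cons (Vale.Agent.P032.Lt.q R0Q082.q1798_3) (q_cons (Vale.Agent.P032.Lt.q R0Q082.q1798_4) q_nil))))))

theorem p1799 : Pat 73 73 TBm TCm (CB.map Fm) R0Q082.P1799 R0Q082.I1799 := Vale.Agent.P032.Lt.pat_eq (E' := R0Q082.E) eB (pat_step (by decide +kernel) (q_cons (Vale.Agent.P032.Lt.q R0Q082.q1799_0) (q_cons (Vale.Agent.P032.Lt.q R0Q082.q1799_1) (q_cons (Vale.Agent.P032.Lt.q R0Q082.q1799_2) (q_cons (Vale.Agent.P032.Lt.q R0Q082.q1799_3) (q_cons (Vale.Agent.P032.Lt.q R0Q082.q1799_4) q_nil))))))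

theorem p1800 : Pat 73 73 TBm TCm (CB.map Fm) R0Q082.P1800 R0Q082.I1800 := Vale.Agent.P032.Lt.pat_eq (E' := R0Q082.E) eB (pat_step (by decide +kernel) (q_cons (Vale.Agent.P032.Lt.q R0Q082.q1800_0) (q_cons (Vale.Agent.P032.Lt.q R0Q082.q1800_1) (q_cons (Vale.Agent.P032.Lt.q R0Q082.q1800_2) (q_cons (Vale.Agent.P032.Lt.q R0Q082.q1800_3) (q_cons (Vale.Agent.P032.Lt.q R0Q082.q1800_4) (q_cons (Vale.Agent.P032.Lt.q R0Q082.q1800_5) (q_cons (Vale.Agent.P032.Lt.q R0Q082.q1800_6) (q_cons (Vale.Agent.P032.Lt.q R0Q082.q1800_7) (q_cons (Vale.Agent.P032.Lt.q R0Q082.q1800_8) (q_cons (Vale.Agent.P032.Lt.q R0Q082.q1800_9) (q_cons (Vale.Agent.P032.Lt.q R0Q082.q1800_10) q_nil))))))))))))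

theorem p1801 : Pat 73 73 TBm TCm (CB.map Fm) R0Q082.P1801 R0Q082.I1801 := Vale.Agent.P032.Lt.pat_eq (E' := R0Q082.E) eB (pat_step (by decide +kernel) (q_cons (Vale.Agent.P032.Lt.q R0Q082.q1801_0) (q_cons (Vale.Agent.P032.Lt.q R0Q082.q1801_1) (q_cons (Vale.Agent.P032.Lt.q R0Q082.q1801_2) (q_cons (Vale.Agent.P032.Lt.q R0Q082.q1801_3) (q_cons (Vale.Agent.P032.Lt.q R0Q082.q1801_4) (q_cons (Vale.Agent.P032.Lt.q R0Q082.q1801_5) (q_cons (Vale.Agent.P032.Lt.q R0Q082.q1801_6) (q_cons (Vale.Agent.P032.Lt.q R0Q082.q1801_7) (q_cons (Vale.Agent.P032.Lt.q R0Q082.q1801_8) (q_cons (Vale.Agent.P032.Lt.q R0Q082.q1801_9) (q_cons (Vale.Agent.P032.Lt.q R0Q082.q1801_10) (q_cons (Vale.Agent.P032.Lt.q R0Q082.q1801_11) (q_cons (Vale.Agent.P032.Lt.q R0Q082.q1801_12) (q_cons (Vale.Agent.P032.Lt.q R0Q082.q1801_13) (q_cons (Vale.Agent.P032.Lt.q R0Q082.q1801_14) (q_cons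 (Vale.Agent.P032.Lt.q R0Q082.q1801_15) (q_cons (Vale.Agent.P032.Lt.q R0Q082.q1801_16) (q_cons (Vale.Agent.P032.Lt.q R0Q082.q1801_17) (q_cons (Vale.Agent.P032.Lt.q R0Q082.q1801_18) (q_cons (Vale.Agent.P032.Lt.q R0Q082.q1801_19) (q_cons (Vale.Agent.P032.Lt.q R0Q082.q1801_20) (q_cons (Vale.Agent.P032.Lt.q R0Q082.q1801_21) (q_cons (Vale.Agent.P032.Lt.q R0Q082.q1801_22) (q_cons (Vale.Agent.P032.Lt.q R0Q082.q1801_23) (q_cons (Vale.Agent.P032.Lt.q R0Q082.q1801_24) (q_cons (Vale.Agent.P032.Lt.q R0Q082.q1801_25) (q_cons (Vale.Agent.P032.Lt.q R0Q082.q1801_26) (q_cons (Vale.Agent.P032.Lt.q R0Q082.q1801_27) q_nil)))))))))))))))))))))))))))))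

theorem p1802 : Pat 73 73 TBm TCm (CB.map Fm) R0Q082.P1802 R0Q082.I1802 := Vale.Agent.P032.Lt.pat_eq (E' := R0Q082.E) eB (pat_step (by decide +kernel) (q_cons (Vale.Agent.P032.Lt.q R0Q082.q1802_0) (q_cons (Vale.Agent.P032.Lt.q R0Q082.q1802_1) (q_cons (Vale.Agent.P032.Lt.q R0Q082.q1802_2) (q_cons (Vale.Agent.P032.Lt.q R0Q082.q1802_3) (q_cons (Vale.Agent.P032.Lt.q R0Q082.q1802_4) (q_cons (Vale.Agent.P032.Lt.q R0Q082.q1802_5) (q_cons (Vale.Agent.P032.Lt.q R0Q082.q1802_6) (q_cons (Vale.Agent.P032.Lt.q R0Q082.q1802_7) (q_cons (Vale.Agent.P032.Lt.q R0Q082.q1802_8) (q_cons (Vale.Agent.P032.Lt.q R0Q082.q1802_9) (q_cons (Vale.Agent.P032.Lt.q R0Q082.q1802_10) (q_cons (Vale.Agent.P032.Lt.q R0Q082.q1802_11) (q_cons (Vale.Agent.P032.Lt.q R0Q082.q1802_12) (q_cons (Vale.Agent.P032.Lt.q R0Q082.q1802_13) (q_cons (Vale.Agent.P032.Lt.q R0Q082.q1802_14) (q_cons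 (Vale.Agent.P032.Lt.q R0Q082.q1802_15) (q_cons (Vale.Agent.P032.Lt.q R0Q082.q1802_16) (q_cons (Vale.Agent.P032.Lt.q R0Q082.q1802_17) (q_cons (Vale.Agent.P032.Lt.q R0Q082.q1802_18) (q_cons (Vale.Agent.P032.Lt.q R0Q082.q1802_19) (q_cons (Vale.Agent.P032.Lt.q R0Q082.q1802_20) (q_cons (Vale.Agent.P032.Lt.q R0Q082.q1802_21) (q_cons (Vale.Agent.P032.Lt.q R0Q082.q1802_22) (q_cons (Vale.Agent.P032.Lt.q R0Q082.q1802_23) (q_cons (Vale.Agent.P032.Lt.q R0Q082.q1802_24) (q_cons (Vale.Agent.P032.Lt.q R0Q082.q1802_25) (q_cons (Vale.Agent.P032.Lt.q R0Q082.q1802_26) (q_cons (Vale.Agent.P032.Lt.q R0Q082.q1802_27) (q_cons (Vale.Agent.P032.Lt.q R0Q082.q1802_28) (q_cons (Vale.Agent.P032.Lt.q R0Q082.q1802_29) (q_cons (Vale.Agent.P032.Lt.q R0Q082.q1802_30) (q_cons (Vale.Agent.P032.Lt.q R0Q082.q1802_31) q_nil)))))))))))))))))))))))))))))))))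

theorem p1803 : Pat 73 73 TBm TCm (CB.map Fm) R0Q082.P1803 R0Q082.I1803 := Vale.Agent.P032.Lt.pat_eq (E' := R0Q082.E) eB (pat_step (by decide +kernel) (q_cons (Vale.Agent.P032.Lt.q R0Q082.q1803_0) (q_cons (Vale.Agent.P032.Lt.q R0Q082.q1803_1) (q_cons (Vale.Agent.P032.Lt.q R0Q082.q1803_2) (q_cons (Vale.Agent.P032.Lt.q R0Q082.q1803_3) (q_cons (Vale.Agent.P032.Lt.q R0Q082.q1803_4) (q_cons (Vale.Agent.P032.Lt.q R0Q082.q1803_5) (q_cons (Vale.Agent.P032.Lt.q R0Q082.q1803_6) (q_cons (Vale.Agent.P032.Lt.q R0Q082.q1803_7) (q_cons (Vale.Agent.P032.Lt.q R0Q082.q1803_8) (q_cons (Vale.Agent.P032.Lt.q R0Q082.q1803_9) (q_cons (Vale.Agent.P032.Lt.q R0Q082.q1803_10) (q_cons (Vale.Agent.P032.Lt.q R0Q082.q1803_11) (q_cons (Vale.Agent.P032.Lt.q R0Q082.q1803_12) (q_cons (Vale.Agent.P032.Lt.q R0Q082.q1803_13) (q_cons (Vale.Agent.P032.Lt.q R0Q082.q1803_14) (q_cons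 (Vale.Agent.P032.Lt.q R0Q082.q1803_15) (q_cons (Vale.Agent.P032.Lt.q R0Q082.q1803_16) (q_cons (Vale.Agent.P032.Lt.q R0Q082.q1803_17) (q_cons (Vale.Agent.P032.Lt.q R0Q082.q1803_18) (q_cons (Vale.Agent.P032.Lt.q R0Q082.q1803_19) (q_cons (Vale.Agent.P032.Lt.q R0Q082.q1803_20) (q_cons (Vale.Agent.P032.Lt.q R0Q082.q1803_21) (q_cons (Vale.Agent.P032.Lt.q R0Q082.q1803_22) (q_cons (Vale.Agent.P032.Lt.q R0Q082.q1803_23) (q_cons (Vale.Agent.P032.Lt.q R0Q082.q1803_24) (q_cons (Vale.Agent.P032.Lt.q R0Q082.q1803_25) (q_cons (Vale.Agent.P032.Lt.q R0Q082.q1803_26) (q_cons (Vale.Agent.P032.Lt.q R0Q082.q1803_27) (q_cons (Vale.Agent.P032.Lt.q R0Q082.q1803_28) q_nil))))))))))))))))))))))))))))))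

theorem p1804 : Pat 73 73 TBm TCm (CB.map Fm) R0Q082.P1804 R0Q082.I1804 := Vale.Agent.P032.Lt.pat_eq (E' := R0Q082.E) eB (pat_step (by decide +kernel) (q_cons (Vale.Agent.P032.Lt.q R0Q082.q1804_0) (q_cons (Vale.Agent.P032.Lt.q R0Q082.q1804_1) (q_cons (Vale.Agent.P032.Lt.q R0Q082.q1804_2) (q_cons (Vale.Agent.P032.Lt.q R0Q082.q1804_3) (q_cons (Vale.Agent.P032.Lt.q R0Q082.q1804_4) (q_cons (Vale.Agent.P032.Lt.q R0Q082.q1804_5) (q_cons (Vale.Agent.P032.Lt.q R0Q082.q1804_6) (q_cons (Vale.Agent.P032.Lt.q R0Q082.q1804_7) (q_cons (Vale.Agent.P032.Lt.q R0Q082.q1804_8) (q_cons (Vale.Agent.P032.Lt.q R0Q082.q1804_9) (q_cons (Vale.Agent.P032.Lt.q R0Q082.q1804_10) (q_cons (Vale.Agent.P032.Lt.q R0Q082.q1804_11) (q_cons (Vale.Agent.P032.Lt.q R0Q082.q1804_12) (q_cons (Vale.Agent.P032.Lt.q R0Q082.q1804_13) (q_cons (Vale.Agent.P032.Lt.q R0Q082.q1804_14) (q_cons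 (Vale.Agent.P032.Lt.q R0Q082.q1804_15) q_nil)))))))))))))))))

theorem p1805 : Pat 73 73 TBm TCm (CB.map Fm) R0Q083.P1805 R0Q083.I1805 := Vale.Agent.P032.Lt.pat_eq (E' := R0Q083.E) eB (pat_step (by decide +kernel) (q_cons (Vale.Agent.P032.Lt.q R0Q083.q1805_0) (q_cons (Vale.Agent.P032.Lt.q R0Q083.q1805_1) (q_cons (Vale.Agent.P032.Lt.q R0Q083.q1805_2) (q_cons (Vale.Agent.P032.Lt.q R0Q083.q1805_3) (q_cons (Vale.Agent.P032.Lt.q R0Q083.q1805_4) (q_cons (Vale.Agent.P032.Lt.q R0Q083.q1805_5) (q_cons (Vale.Agent.P032.Lt.q R0Q083.q1805_6) (q_cons (Vale.Agent.P032.Lt.q R0Q083.q1805_7) (q_cons (Vale.Agent.P032.Lt.q R0Q083.q1805_8) (q_cons (Vale.Agent.P032.Lt.q R0Q083.q1805_9) (q_cons (Vale.Agent.P032.Lt.q R0Q083.q1805_10) (q_cons (Vale.Agent.P032.Lt.q R0Q083.q1805_11) (q_cons (Vale.Agent.P032.Lt.q R0Q083.q1805_12) (q_cons (Vale.Agent.P032.Lt.q R0Q083.q1805_13)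 (q_cons (Vale.Agent.P032.Lt.q R0Q083.q1805_14) (q_cons (Vale.Agent.P032.Lt.q R0Q083.q1805_15) (q_cons (Vale.Agent.P032.Lt.q R0Q083.q1805_16) (q_cons (Vale.Agent.P032.Lt.q R0Q083.q1805_17) (q_cons (Vale.Agent.P032.Lt.q R0Q083.q1805_18) (q_cons (Vale.Agent.P032.Lt.q R0Q083.q1805_19) (q_cons (Vale.Agent.P032.Lt.q R0Q083.q1805_20) (q_cons (Vale.Agent.P032.Lt.q R0Q083.q1805_21) (q_cons (Vale.Agent.P032.Lt.q R0Q083.q1805_22) (q_cons (Vale.Agent.P032.Lt.q R0Q083.q1805_23) (q_cons (Vale.Agent.P032.Lt.q R0Q083.q1805_24) (q_cons (Vale.Agent.P032.Lt.q R0Q083.q1805_25) (q_cons (Vale.Agent.P032.Lt.q R0Q083.q1805_26) (q_cons (Vale.Agent.P032.Lt.q R0Q083.q1805_27) (q_cons (Vale.Agent.P032.Lt.q R0Q083.q1805_28) (q_cons (Vale.Agent.P032.Lt.q R0Q083.q1805_29) (q_cons (Vale.Agent.P032.Lt.q R0Q083.q1805_30) (q_cons (Vale.Agent.P032.Lt.q R0Q083.q1805_31) (q_cons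 (Vale.Agent.P032.Lt.q R0Q083.q1805_32) (q_cons (Vale.Agent.P032.Lt.q R0Q083.q1805_33) (q_cons (Vale.Agent.P032.Lt.q R0Q083.q1805_34) q_nil))))))))))))))))))))))))))))))))))))

theorem p1806 : Pat 73 73 TBm TCm (CB.map Fm) R0Q083.P1806 R0Q083.I1806 := Vale.Agent.P032.Lt.pat_eq (E' := R0Q083.E) eB (pat_step (by decide +kernel) (q_cons (Vale.Agent.P032.Lt.q R0Q083.q1806_0) (q_cons (Vale.Agent.P032.Lt.q R0Q083.q1806_1) (q_cons (Vale.Agent.P032.Lt.q R0Q083.q1806_2) (q_cons (Vale.Agent.P032.Lt.q R0Q083.q1806_3) (q_cons (Vale.Agent.P032.Lt.q R0Q083.q1806_4) (q_cons (Vale.Agent.P032.Lt.q R0Q083.q1806_5) (q_cons (Vale.Agent.P032.Lt.q R0Q083.q1806_6) (q_cons (Vale.Agent.P032.Lt.q R0Q083.q1806_7) (q_cons (Vale.Agent.P032.Lt.q R0Q083.q1806_8) (q_cons (Vale.Agent.P032.Lt.q R0Q083.q1806_9) (q_cons (Vale.Agent.P032.Lt.q R0Q083.q1806_10) (q_cons (Vale.Agent.P032.Lt.q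 R0Q083.q1806_11) (q_cons (Vale.Agent.P032.Lt.q R0Q083.q1806_12) (q_cons (Vale.Agent.P032.Lt.q R0Q083.q1806_13) (q_cons (Vale.Agent.P032.Lt.q R0Q083.q1806_14) (q_cons (Vale.Agent.P032.Lt.q R0Q083.q1806_15) (q_cons (Vale.Agent.P032.Lt.q R0Q083.q1806_16) (q_cons (Vale.Agent.P032.Lt.q R0Q083.q1806_17) (q_cons (Vale.Agent.P032.Lt.q R0Q083.q1806_18) (q_cons (Vale.Agent.P032.Lt.q R0Q083.q1806_19) (q_cons (Vale.Agent.P032.Lt.q R0Q083.q1806_20) (q_cons (Vale.Agent.P032.Lt.q R0Q083.q1806_21) (q_cons (Vale.Agent.P032.Lt.q R0Q083.q1806_22) (q_cons (Vale.Agent.P032.Lt.q R0Q083.q1806_23) (q_cons (Vale.Agent.P032.Lt.q R0Q083.q1806_24) (q_cons (Vale.Agent.P032.Lt.q R0Q083.q1806_25) (q_cons (Vale.Agent.P032.Lt.q R0Q083.q1806_26) (q_cons (Vale.Agent.P032.Lt.q R0Q083.q1806_27) (q_cons (Vale.Agent.P032.Lt.q R0Q083.q1806_28) (q_cons (Vale.Agent.P032.Lt.q R0Q083.q1806_29)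 (q_cons (Vale.Agent.P032.Lt.q R0Q083.q1806_30) (q_cons (Vale.Agent.P032.Lt.q R0Q083.q1806_31) (q_cons (Vale.Agent.P032.Lt.q R0Q083.q1806_32) (q_cons (Vale.Agent.P032.Lt.q R0Q083.q1806_33) (q_cons (Vale.Agent.P032.Lt.q R0Q083.q1806_34) q_nil))))))))))))))))))))))))))))))))))))

theorem p1807 : Pat 73 73 TBm TCm (CB.map Fm) R0Q083.P1807 R0Q083.I1807 := Vale.Agent.P032.Lt.pat_eq (E' := R0Q083.E) eB (pat_step (by decide +kernel) (q_cons (Vale.Agent.P032.Lt.q R0Q083.q1807_0) (q_cons (Vale.Agent.P032.Lt.q R0Q083.q1807_1) (q_cons (Vale.Agent.P032.Lt.q R0Q083.q1807_2) (q_cons (Vale.Agent.P032.Lt.q R0Q083.q1807_3) (q_cons (Vale.Agent.P032.Lt.q R0Q083.q1807_4) (q_cons (Vale.Agent.P032.Lt.q R0Q083.q1807_5) (q_cons (Vale.Agent.P032.Lt.q R0Q083.q1807_6) (q_cons (Vale.Agent.P032.Lt.q R0Q083.q1807_7) (q_cons (Vale.Agent.P032.Lt.q R0Q083.q1807_8) (q_cons (Vale.Agent.P032.Lt.q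 R0Q083.q1807_9) (q_cons (Vale.Agent.P032.Lt.q R0Q083.q1807_10) (q_cons (Vale.Agent.P032.Lt.q R0Q083.q1807_11) (q_cons (Vale.Agent.P032.Lt.q R0Q083.q1807_12) (q_cons (Vale.Agent.P032.Lt.q R0Q083.q1807_13) (q_cons (Vale.Agent.P032.Lt.q R0Q083.q1807_14) (q_cons (Vale.Agent.P032.Lt.q R0Q083.q1807_15) (q_cons (Vale.Agent.P032.Lt.q R0Q083.q1807_16) (q_cons (Vale.Agent.P032.Lt.q R0Q083.q1807_17) (q_cons (Vale.Agent.P032.Lt.q R0Q083.q1807_18) (q_cons (Vale.Agent.P032.Lt.q R0Q083.q1807_19) (q_cons (Vale.Agent.P032.Lt.q R0Q083.q1807_20) (q_cons (Vale.Agent.P032.Lt.q R0Q083.q1807_21) (q_cons (Vale.Agent.P032.Lt.q R0Q083.q1807_22) (q_cons (Vale.Agent.P032.Lt.q R0Q083.q1807_23) (q_cons (Vale.Agent.P032.Lt.q R0Q083.q1807_24) (q_cons (Vale.Agent.P032.Lt.q R0Q083.q1807_25) (q_cons (Vale.Agent.P032.Lt.q R0Q083.q1807_26) (q_cons (Vale.Agent.P032.Lt.q R0Q083.q1807_27)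 (q_cons (Vale.Agent.P032.Lt.q R0Q083.q1807_28) (q_cons (Vale.Agent.P032.Lt.q R0Q083.q1807_29) (q_cons (Vale.Agent.P032.Lt.q R0Q083.q1807_30) (q_cons (Vale.Agent.P032.Lt.q R0Q083.q1807_31) (q_cons (Vale.Agent.P032.Lt.q R0Q083.q1807_32) (q_cons (Vale.Agent.P032.Lt.q R0Q083.q1807_33) (q_cons (Vale.Agent.P032.Lt.q R0Q083.q1807_34) (q_cons (Vale.Agent.P032.Lt.q R0Q083.q1807_35) (q_cons (Vale.Agent.P032.Lt.q R0Q083.q1807_36) (q_cons (Vale.Agent.P032.Lt.q R0Q083.q1807_37) (q_cons (Vale.Agent.P032.Lt.q R0Q083.q1807_38) (q_cons (Vale.Agent.P032.Lt.q R0Q083.q1807_39) (q_cons (Vale.Agent.P032.Lt.q R0Q083.q1807_40) (q_cons (Vale.Agent.P032.Lt.q R0Q083.q1807_41) (q_cons (Vale.Agent.P032.Lt.q R0Q083.q1807_42) (q_cons (Vale.Agent.P032.Lt.q R0Q083.q1807_43) q_nil)))))))))))))))))))))))))))))))))))))))))))))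

theorem p1808 : Pat 73 73 TBm TCm (CB.map Fm) R0Q083.P1808 R0Q083.I1808 := Vale.Agent.P032.Lt.pat_eq (E' := R0Q083.E) eB (pat_step (by decide +kernel) (q_cons (Vale.Agent.P032.Lt.q R0Q083.q1808_0) (q_cons (Vale.Agent.P032.Lt.q R0Q083.q1808_1) (q_cons (Vale.Agent.P032.Lt.q R0Q083.q1808_2) (q_cons (Vale.Agent.P032.Lt.q R0Q083.q1808_3) (q_cons (Vale.Agent.P032.Lt.q R0Q083.q1808_4) (q_cons (Vale.Agent.P032.Lt.q R0Q083.q1808_5) (q_cons (Vale.Agent.P032.Lt.q R0Q083.q1808_6) (q_cons (Vale.Agent.P032.Lt.q R0Q083.q1808_7) (q_cons (Vale.Agent.P032.Lt.q R0Q083.q1808_8) (q_cons (Vale.Agent.P032.Lt.q R0Q083.q1808_9) (q_cons (Vale.Agent.P032.Lt.q R0Q083.q1808_10) (q_cons (Vale.Agent.P032.Lt.q R0Q083.q1808_11) (q_cons (Vale.Agent.P032.Lt.q R0Q083.q1808_12) (q_cons (Vale.Agent.P032.Lt.q R0Q083.q1808_13) (q_cons (Vale.Agent.P032.Lt.q R0Q083.q1808_14) (q_cons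 (Vale.Agent.P032.Lt.q R0Q083.q1808_15) (q_cons (Vale.Agent.P032.Lt.q R0Q083.q1808_16) (q_cons (Vale.Agent.P032.Lt.q R0Q083.q1808_17) (q_cons (Vale.Agent.P032.Lt.q R0Q083.q1808_18) (q_cons (Vale.Agent.P032.Lt.q R0Q083.q1808_19) q_nil)))))))))))))))))))))

theorem p1809 : Pat 73 73 TBm TCm (CB.map Fm) R0Q083.P1809 R0Q083.I1809 := Vale.Agent.P032.Lt.pat_eq (E' := R0Q083.E) eB (pat_step (by decide +kernel) (q_cons (Vale.Agent.P032.Lt.q R0Q083.q1809_0) (q_cons (Vale.Agent.P032.Lt.q R0Q083.q1809_1) q_nil)))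

theorem p1810 : Pat 73 73 TBm TCm (CB.map Fm) R0Q083.P1810 R0Q083.I1810 := Vale.Agent.P032.Lt.pat_eq (E' := R0Q083.E) eB (pat_step (by decide +kernel) (q_cons (Vale.Agent.P032.Lt.q R0Q083.q1810_0) q_nil))

theorem p1811 : Pat 73 73 TBm TCm (CB.map Fm) R0Q083.P1811 R0Q083.I1811 := Vale.Agent.P032.Lt.pat_eq (E' := R0Q083.E) eB (pat_step (by decide +kernel) (q_cons (Vale.Agent.P032.Lt.q R0Q083.q1811_0) (q_cons (Vale.Agent.P032.Lt.q R0Q083.q1811_1) q_nil)))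

theorem p1812 : Pat 73 73 TBm TCm (CB.map Fm) R0Q083.P1812 R0Q083.I1812 := Vale.Agent.P032.Lt.pat_eq (E' := R0Q083.E) eB (pat_step (by decide +kernel) (q_cons (Vale.Agent.P032.Lt.q R0Q083.q1812_0) (q_cons (Vale.Agent.P032.Lt.q R0Q083.q1812_1) q_nil)))

theorem p1813 : Pat 73 73 TBm TCm (CB.map Fm) R0Q083.P1813 R0Q083.I1813 := Vale.Agent.P032.Lt.pat_eq (E' := R0Q083.E) eB (pat_step (by decide +kernel) (q_cons (Vale.Agent.P032.Lt.q R0Q083.q1813_0) q_nil))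

theorem p1814 : Pat 73 73 TBm TCm (CB.map Fm) R0Q083.P1814 R0Q083.I1814 := Vale.Agent.P032.Lt.pat_eq (E' := R0Q083.E) eB (pat_step (by decide +kernel) (q_cons (Vale.Agent.P032.Lt.q R0Q083.q1814_0) (q_cons (Vale.Agent.P032.Lt.q R0Q083.q1814_1) (q_cons (Vale.Agent.P032.Lt.q R0Q083.q1814_2) (q_cons (Vale.Agent.P032.Lt.q R0Q083.q1814_3) q_nil)))))

theorem p1815 : Pat 73 73 TBm TCm (CB.map Fm) R0Q084.P1815 R0Q084.I1815 := Vale.Agent.P032.Lt.pat_eq (E' := R0Q084.E) eB (pat_step (by decide +kernel) (q_cons (Vale.Agent.P032.Lt.q R0Q084.q1815_0) (q_cons (Vale.Agent.P032.Lt.q R0Q084.q1815_1) (q_cons (Vale.Agent.P032.Lt.q R0Q084.q1815_2) (q_cons (Vale.Agent.P032.Lt.q R0Q084.q1815_3) (q_cons (Vale.Agent.P032.Lt.q R0Q084.q1815_4) (q_cons (Vale.Agent.P032.Lt.q R0Q084.q1815_5) (q_cons (Vale.Agent.P032.Lt.q R0Q084.q1815_6) (q_cons (Vale.Agent.P032.Lt.q R0Q084.q1815_7)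 (q_cons (Vale.Agent.P032.Lt.q R0Q084.q1815_8) q_nil))))))))))

def C1816 : List ℕ := [0, 4, 8, 12, 16, 20, 24, 344065]
theorem p1816 : Pat 73 73 TBm TCm (C1816.map Fm) R0Q084.P1816 R0Q084.I1816 := Vale.Agent.P032.Lt.pat_eq (E' := R0Q084.E1816) (by decide +kernel) (pat_step (by decide +kernel) (q_cons (Vale.Agent.P032.Lt.q R0Q084.q1816_0) (q_cons (Vale.Agent.P032.Lt.q R0Q084.q1816_1) (q_cons (Vale.Agent.P032.Lt.q R0Q084.q1816_2) q_nil))))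

theorem p1817 : Pat 73 73 TBm TCm (CB.map Fm) R0Q084.P1817 R0Q084.I1817 := Vale.Agent.P032.Lt.pat_eq (E' := R0Q084.E) eB (pat_step (by decide +kernel) (q_cons (Vale.Agent.P032.Lt.q R0Q084.q1817_0) (q_cons (Vale.Agent.P032.Lt.q R0Q084.q1817_1) (q_cons (Vale.Agent.P032.Lt.q R0Q084.q1817_2) q_nil))))

def C1818 : List ℕ := [0, 4, 8, 12, 16, 20, 24, 81921, 82945, 475137, 737281]
theorem p1818 : Pat 73 73 TBm TCm (C1818.map Fm) R0Q084.P1818 R0Q084.I1818 := Vale.Agent.P032.Lt.pat_eq (E' := R0Q084.E1818) (by decide +kernel) (pat_step (by decide +kernel) (q_cons (Vale.Agent.P032.Lt.q R0Q084.q1818_0) (q_cons (Vale.Agent.P032.Lt.q R0Q084.q1818_1) (q_cons (Vale.Agent.P032.Lt.q R0Q084.q1818_2) (q_cons (Vale.Agent.P032.Lt.q R0Q084.q1818_3) (q_cons (Vale.Agent.P032.Lt.q R0Q084.q1818_4) (q_cons (Vale.Agent.P032.Lt.q R0Q084.q1818_5) (q_cons (Vale.Agent.P032.Lt.q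 R0Q084.q1818_6) (q_cons (Vale.Agent.P032.Lt.q R0Q084.q1818_7) (q_cons (Vale.Agent.P032.Lt.q R0Q084.q1818_8) (q_cons (Vale.Agent.P032.Lt.q R0Q084.q1818_9) (q_cons (Vale.Agent.P032.Lt.q R0Q084.q1818_10) (q_cons (Vale.Agent.P032.Lt.q R0Q084.q1818_11) (q_cons (Vale.Agent.P032.Lt.q R0Q084.q1818_12) q_nil))))))))))))))

theorem p1819 : Pat 73 73 TBm TCm (CB.map Fm) R0Q084.P1819 R0Q084.I1819 := Vale.Agent.P032.Lt.pat_eq (E' := R0Q084.E) eB (pat_step (by decide +kernel) (q_cons (Vale.Agent.P032.Lt.q R0Q084.q1819_0) (q_cons (Vale.Agent.P032.Lt.q R0Q084.q1819_1) (q_cons (Vale.Agent.P032.Lt.q R0Q084.q1819_2) (q_cons (Vale.Agent.P032.Lt.q R0Q084.q1819_3) (q_cons (Vale.Agent.P032.Lt.q R0Q084.q1819_4) (q_cons (Vale.Agent.P032.Lt.q R0Q084.q1819_5) (q_cons (Vale.Agent.P032.Lt.q R0Q084.q1819_6) (q_cons (Vale.Agent.P032.Lt.q R0Q084.q1819_7) (q_cons (Vale.Agent.P032.Lt.q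 R0Q084.q1819_8) (q_cons (Vale.Agent.P032.Lt.q R0Q084.q1819_9) (q_cons (Vale.Agent.P032.Lt.q R0Q084.q1819_10) (q_cons (Vale.Agent.P032.Lt.q R0Q084.q1819_11) (q_cons (Vale.Agent.P032.Lt.q R0Q084.q1819_12) (q_cons (Vale.Agent.P032.Lt.q R0Q084.q1819_13) (q_cons (Vale.Agent.P032.Lt.q R0Q084.q1819_14) q_nil))))))))))))))))

theorem p1820 : Pat 73 73 TBm TCm (CB.map Fm) R0Q084.P1820 R0Q084.I1820 := Vale.Agent.P032.Lt.pat_eq (E' := R0Q084.E) eB (pat_step (by decide +kernel) (q_cons (Vale.Agent.P032.Lt.q R0Q084.q1820_0) (q_cons (Vale.Agent.P032.Lt.q R0Q084.q1820_1) q_nil)))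

theorem p1821 : Pat 73 73 TBm TCm (CB.map Fm) R0Q084.P1821 R0Q084.I1821 := Vale.Agent.P032.Lt.pat_eq (E' := R0Q084.E) eB (pat_step (by decide +kernel) (q_cons (Vale.Agent.P032.Lt.q R0Q084.q1821_0) (q_cons (Vale.Agent.P032.Lt.q R0Q084.q1821_1) q_nil)))

theorem p1822 : Pat 73 73 TBm TCm (CB.map Fm) R0Q084.P1822 R0Q084.I1822 := Vale.Agent.P032.Lt.pat_eq (E' := R0Q084.E) eB (pat_step (by decide +kernel) (q_cons (Vale.Agent.P032.Lt.q R0Q084.q1822_0) q_nil))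

theorem p1823 : Pat 73 73 TBm TCm (CB.map Fm) R0Q084.P1823 R0Q084.I1823 := Vale.Agent.P032.Lt.pat_eq (E' := R0Q084.E) eB (pat_step (by decide +kernel) (q_cons (Vale.Agent.P032.Lt.q R0Q084.q1823_0) q_nil))

theorem p1824 : Pat 73 73 TBm TCm (CB.map Fm) R0Q084.P1824 R0Q084.I1824 := Vale.Agent.P032.Lt.pat_eq (E' := R0Q084.E) eB (pat_step (by decide +kernel) (q_cons (Vale.Agent.P032.Lt.q R0Q084.q1824_0) (q_cons (Vale.Agent.P032.Lt.q R0Q084.q1824_1) (q_cons (Vale.Agent.P032.Lt.q R0Q084.q1824_2) (q_cons (Vale.Agent.P032.Lt.q R0Q084.q1824_3) q_nil)))))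

def C1825 : List ℕ := [0, 4, 8, 12, 16, 20, 24, 344065, 475137, 606209]
theorem p1825 : Pat 73 73 TBm TCm (C1825.map Fm) R0Q084.P1825 R0Q084.I1825 := Vale.Agent.P032.Lt.pat_eq (E' := R0Q084.E1825) (by decide +kernel) (pat_step (by decide +kernel) (q_cons (Vale.Agent.P032.Lt.q R0Q084.q1825_0) q_nil))

theorem p1826 : Pat 73 73 TBm TCm (CB.map Fm) R0Q084.P1826 R0Q084.I1826 := Vale.Agent.P032.Lt.pat_eq (E' := R0Q084.E) eB (pat_step (by decide +kernel) (q_cons (Vale.Agent.P032.Lt.q R0Q084.q1826_0) q_nil))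

theorem p1827 : Pat 73 73 TBm TCm (CB.map Fm) R0Q084.P1827 R0Q084.I1827 := Vale.Agent.P032.Lt.pat_eq (E' := R0Q084.E) eB (pat_step (by decide +kernel) (q_cons (Vale.Agent.P032.Lt.q R0Q084.q1827_0) (q_cons (Vale.Agent.P032.Lt.q R0Q084.q1827_1) q_nil)))

theorem p1828 : Pat 73 73 TBm TCm (CB.map Fm) R0Q084.P1828 R0Q084.I1828 := Vale.Agent.P032.Lt.pat_eq (E' := R0Q084.E) eB (pat_step (by decide +kernel) (q_cons (Vale.Agent.P032.Lt.q R0Q084.q1828_0) q_nil))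

theorem p1829 : Pat 73 73 TBm TCm (CB.map Fm) R0Q084.P1829 R0Q084.I1829 := Vale.Agent.P032.Lt.pat_eq (E' := R0Q084.E) eB (pat_step (by decide +kernel) (q_cons (Vale.Agent.P032.Lt.q R0Q084.q1829_0) (q_cons (Vale.Agent.P032.Lt.q R0Q084.q1829_1) (q_cons (Vale.Agent.P032.Lt.q R0Q084.q1829_2) q_nil))))

def C1830 : List ℕ := [0, 4, 8, 12, 16, 20, 24, 222209, 353281, 606209, 737281]
theorem p1830 : Pat 73 73 TBm TCm (C1830.map Fm) R0Q084.P1830 R0Q084.I1830 := Vale.Agent.P032.Lt.pat_eq (E' := R0Q084.E1830) (by decide +kernel) (pat_step (by decide +kernel) (q_cons (Vale.Agent.P032.Lt.q R0Q084.q1830_0) q_nil))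

def C1831 : List ℕ := [0, 4, 8, 12, 16, 20, 24, 216065, 475137, 606209, 737281]
theorem p1831 : Pat 73 73 TBm TCm (C1831.map Fm) R0Q084.P1831 R0Q084.I1831 := Vale.Agent.P032.Lt.pat_eq (E' := R0Q084.E1831) (by decide +kernel) (pat_step (by decide +kernel) (q_cons (Vale.Agent.P032.Lt.q R0Q084.q1831_0) (q_cons (Vale.Agent.P032.Lt.q R0Q084.q1831_1) (q_cons (Vale.Agent.P032.Lt.q R0Q084.q1831_2) (q_cons (Vale.Agent.P032.Lt.q R0Q084.q1831_3) (q_cons (Vale.Agent.P032.Lt.q R0Q084.q1831_4) (q_cons (Vale.Agent.P032.Lt.q R0Q084.q1831_5) q_nil)))))))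

def C1832 : List ℕ := [0, 4, 8, 12, 16, 20, 24, 349185, 355329, 478209, 484353, 606209, 737281]
theorem p1832 : Pat 73 73 TBm TCm (C1832.map Fm) R0Q084.P1832 R0Q084.I1832 := Vale.Agent.P032.Lt.pat_eq (E' := R0Q084.E1832) (by decide +kernel) (pat_step (by decide +kernel) (q_cons (Vale.Agent.P032.Lt.q R0Q084.q1832_0) (q_cons (Vale.Agent.P032.Lt.q R0Q084.q1832_1) (q_cons (Vale.Agent.P032.Lt.q R0Q084.q1832_2) (q_cons (Vale.Agent.P032.Lt.q R0Q084.q1832_3) (q_cons (Vale.Agent.P032.Lt.q R0Q084.q1832_4) (q_cons (Vale.Agent.P032.Lt.q R0Q084.q1832_5) (q_cons (Vale.Agent.P032.Lt.q R0Q084.q1832_6) (q_cons (Vale.Agent.P032.Lt.q R0Q084.q1832_7) (q_cons (Vale.Agent.P032.Lt.q R0Q084.q1832_8) (q_cons (Vale.Agent.P032.Lt.q R0Q084.q1832_9) (q_cons (Vale.Agent.P032.Lt.q R0Q084.q1832_10) (q_cons (Vale.Agent.P032.Lt.q R0Q084.q1832_11) (q_cons (Vale.Agent.P032.Lt.q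 R0Q084.q1832_12) (q_cons (Vale.Agent.P032.Lt.q R0Q084.q1832_13) (q_cons (Vale.Agent.P032.Lt.q R0Q084.q1832_14) (q_cons (Vale.Agent.P032.Lt.q R0Q084.q1832_15) (q_cons (Vale.Agent.P032.Lt.q R0Q084.q1832_16) (q_cons (Vale.Agent.P032.Lt.q R0Q084.q1832_17) (q_cons (Vale.Agent.P032.Lt.q R0Q084.q1832_18) (q_cons (Vale.Agent.P032.Lt.q R0Q084.q1832_19) (q_cons (Vale.Agent.P032.Lt.q R0Q084.q1832_20) (q_cons (Vale.Agent.P032.Lt.q R0Q084.q1832_21) (q_cons (Vale.Agent.P032.Lt.q R0Q084.q1832_22) (q_cons (Vale.Agent.P032.Lt.q R0Q084.q1832_23) (q_cons (Vale.Agent.P032.Lt.q R0Q084.q1832_24) (q_cons (Vale.Agent.P032.Lt.q R0Q084.q1832_25) (q_cons (Vale.Agent.P032.Lt.q R0Q084.q1832_26) (q_cons (Vale.Agent.P032.Lt.q R0Q084.q1832_27) q_nil)))))))))))))))))))))))))))))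

def C1833 : List ℕ := [0, 4, 8, 12, 16, 20, 24, 349185, 355329, 475137, 478209, 606209, 737281]
theorem p1833 : Pat 73 73 TBm TCm (C1833.map Fm) R0Q084.P1833 R0Q084.I1833 := Vale.Agent.P032.Lt.pat_eq (E' := R0Q084.E1833) (by decide +kernel) (pat_step (by decide +kernel) (q_cons (Vale.Agent.P032.Lt.q R0Q084.q1833_0) (q_cons (Vale.Agent.P032.Lt.q R0Q084.q1833_1) (q_cons (Vale.Agent.P032.Lt.q R0Q084.q1833_2) (q_cons (Vale.Agent.P032.Lt.q R0Q084.q1833_3) (q_cons (Vale.Agent.P032.Lt.q R0Q084.q1833_4) (q_cons (Vale.Agent.P032.Lt.q R0Q084.q1833_5) (q_cons (Vale.Agent.P032.Lt.q R0Q084.q1833_6) (q_cons (Vale.Agent.P032.Lt.q R0Q084.q1833_7) q_nil)))))))))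

theorem p1834 : Pat 73 73 TBm TCm (CB.map Fm) R0Q084.P1834 R0Q084.I1834 := Vale.Agent.P032.Lt.pat_eq (E' := R0Q084.E) eB (pat_step (by decide +kernel) (q_cons (Vale.Agent.P032.Lt.q R0Q084.q1834_0) (q_cons (Vale.Agent.P032.Lt.q R0Q084.q1834_1) (q_cons (Vale.Agent.P032.Lt.q R0Q084.q1834_2) (q_cons (Vale.Agent.P032.Lt.q R0Q084.q1834_3) (q_cons (Vale.Agent.P032.Lt.q R0Q084.q1834_4) (q_cons (Vale.Agent.P032.Lt.q R0Q084.q1834_5) (q_cons (Vale.Agent.P032.Lt.q R0Q084.q1834_6) (q_cons (Vale.Agent.P032.Lt.q R0Q084.q1834_7) (q_cons (Vale.Agent.P032.Lt.q R0Q084.q1834_8) q_nil))))))))))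

def C1835 : List ℕ := [0, 4, 8, 12, 16, 20, 24, 355329, 484353, 606209, 737281]
theorem p1835 : Pat 73 73 TBm TCm (C1835.map Fm) R0Q084.P1835 R0Q084.I1835 := Vale.Agent.P032.Lt.pat_eq (E' := R0Q084.E1835) (by decide +kernel) (pat_step (by decide +kernel) (q_cons (Vale.Agent.P032.Lt.q R0Q084.q1835_0) q_nil))

def C1836 : List ℕ := [0, 4, 8, 12, 16, 20, 24, 349185, 478209, 606209, 737281]
theorem p1836 : Pat 73 73 TBm TCm (C1836.map Fm) R0Q084.P1836 R0Q084.I1836 := Vale.Agent.P032.Lt.pat_eq (E' := R0Q084.E1836) (by decide +kernel) (pat_step (by decide +kernel) (q_cons (Vale.Agent.P032.Lt.q R0Q084.q1836_0) (q_cons (Vale.Agent.P032.Lt.q R0Q084.q1836_1) q_nil)))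

def C1837 : List ℕ := [0, 4, 8, 12, 16, 20, 24, 216065, 475137]
theorem p1837 : Pat 73 73 TBm TCm (C1837.map Fm) R0Q085.P1837 R0Q085.I1837 := Vale.Agent.P032.Lt.pat_eq (E' := R0Q085.E1837) (by decide +kernel) (pat_step (by decide +kernel) (q_cons (Vale.Agent.P032.Lt.q R0Q085.q1837_0) (q_cons (Vale.Agent.P032.Lt.q R0Q085.q1837_1) (q_cons (Vale.Agent.P032.Lt.q R0Q085.q1837_2) (q_cons (Vale.Agent.P032.Lt.q R0Q085.q1837_3) (q_cons (Vale.Agent.P032.Lt.q R0Q085.q1837_4) (q_cons (Vale.Agent.P032.Lt.q R0Q085.q1837_5) q_nil)))))))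

def C1838 : List ℕ := [0, 4, 8, 12, 16, 20, 24, 478209, 606209, 737281]
theorem p1838 : Pat 73 73 TBm TCm (C1838.map Fm) R0Q085.P1838 R0Q085.I1838 := Vale.Agent.P032.Lt.pat_eq (E' := R0Q085.E1838) (by decide +kernel) (pat_step (by decide +kernel) (q_cons (Vale.Agent.P032.Lt.q R0Q085.q1838_0) (q_cons (Vale.Agent.P032.Lt.q R0Q085.q1838_1) (q_cons (Vale.Agent.P032.Lt.q R0Q085.q1838_2) (q_cons (Vale.Agent.P032.Lt.q R0Q085.q1838_3) (q_cons (Vale.Agent.P032.Lt.q R0Q085.q1838_4) q_nil))))))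

theorem p1839 : Pat 73 73 TBm TCm (CB.map Fm) R0Q085.P1839 R0Q085.I1839 := Vale.Agent.P032.Lt.pat_eq (E' := R0Q085.E) eB (pat_step (by decide +kernel) (q_cons (Vale.Agent.P032.Lt.q R0Q085.q1839_0) q_nil))

theorem p1840 : Pat 73 73 TBm TCm (CB.map Fm) R0Q085.P1840 R0Q085.I1840 := Vale.Agent.P032.Lt.pat_eq (E' := R0Q085.E) eB (pat_step (by decide +kernel) (q_cons (Vale.Agent.P032.Lt.q R0Q085.q1840_0) q_nil))

theorem p1841 : Pat 73 73 TBm TCm (CB.map Fm) R0Q085.P1841 R0Q085.I1841 := Vale.Agent.P032.Lt.pat_eq (E' := R0Q085.E) eB (pat_step (by decide +kernel) (q_cons (Vale.Agent.P032.Lt.q R0Q085.q1841_0) (q_cons (Vale.Agent.P032.Lt.q R0Q085.q1841_1) q_nil)))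

theorem p1842 : Pat 73 73 TBm TCm (CB.map Fm) R0Q085.P1842 R0Q085.I1842 := Vale.Agent.P032.Lt.pat_eq (E' := R0Q085.E) eB (pat_step (by decide +kernel) (q_cons (Vale.Agent.P032.Lt.q R0Q085.q1842_0) (q_cons (Vale.Agent.P032.Lt.q R0Q085.q1842_1) q_nil)))

def C1843 : List ℕ := [0, 4, 8, 12, 16, 20, 24, 347137, 348161, 610305, 741377]
theorem p1843 : Pat 73 73 TBm TCm (C1843.map Fm) R0Q085.P1843 R0Q085.I1843 := Vale.Agent.P032.Lt.pat_eq (E' := R0Q085.E1843) (by decide +kernel) (pat_step (by decide +kernel) (q_cons (Vale.Agent.P032.Lt.q R0Q085.q1843_0) (q_cons (Vale.Agent.P032.Lt.q R0Q085.q1843_1) (q_cons (Vale.Agent.P032.Lt.q R0Q085.q1843_2) q_nil))))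

theorem p1844 : Pat 73 73 TBm TCm (CB.map Fm) R0Q085.P1844 R0Q085.I1844 := Vale.Agent.P032.Lt.pat_eq (E' := R0Q085.E) eB (pat_step (by decide +kernel) (q_cons (Vale.Agent.P032.Lt.q R0Q085.q1844_0) (q_cons (Vale.Agent.P032.Lt.q R0Q085.q1844_1) (q_cons (Vale.Agent.P032.Lt.q R0Q085.q1844_2) (q_cons (Vale.Agent.P032.Lt.q R0Q085.q1844_3) (q_cons (Vale.Agent.P032.Lt.q R0Q085.q1844_4) (q_cons (Vale.Agent.P032.Lt.q R0Q085.q1844_5) (q_cons (Vale.Agent.P032.Lt.q R0Q085.q1844_6) (q_cons (Vale.Agent.P032.Lt.q R0Q085.q1844_7) (q_cons (Vale.Agent.P032.Lt.q R0Q085.q1844_8) (q_cons (Vale.Agent.P032.Lt.q R0Q085.q1844_9) (q_cons (Vale.Agent.P032.Lt.q R0Q085.q1844_10) (q_cons (Vale.Agent.P032.Lt.q R0Q085.q1844_11) (q_cons (Vale.Agent.P032.Lt.q R0Q085.q1844_12) (q_cons (Vale.Agent.P032.Lt.q R0Q085.q1844_13) (q_cons (Vale.Agent.P032.Lt.q R0Q085.q1844_14) q_nil))))))))))))))))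

theorem p1845 : Pat 73 73 TBm TCm (CB.map Fm) R0Q085.P1845 R0Q085.I1845 := Vale.Agent.P032.Lt.pat_eq (E' := R0Q085.E) eB (pat_step (by decide +kernel) (q_cons (Vale.Agent.P032.Lt.q R0Q085.q1845_0) (q_cons (Vale.Agent.P032.Lt.q R0Q085.q1845_1) (q_cons (Vale.Agent.P032.Lt.q R0Q085.q1845_2) q_nil))))

theorem p1846 : Pat 73 73 TBm TCm (CB.map Fm) R0Q085.P1846 R0Q085.I1846 := Vale.Agent.P032.Lt.pat_eq (E' := R0Q085.E) eB (pat_step (by decide +kernel) (q_cons (Vale.Agent.P032.Lt.q R0Q085.q1846_0) (q_cons (Vale.Agent.P032.Lt.q R0Q085.q1846_1) (q_cons (Vale.Agent.P032.Lt.q R0Q085.q1846_2) (q_cons (Vale.Agent.P032.Lt.q R0Q085.q1846_3) (q_cons (Vale.Agent.P032.Lt.q R0Q085.q1846_4) (q_cons (Vale.Agent.P032.Lt.q R0Q085.q1846_5) (q_cons (Vale.Agent.P032.Lt.q R0Q085.q1846_6) (q_cons (Vale.Agent.P032.Lt.q R0Q085.q1846_7) (q_cons (Vale.Agent.P032.Lt.q R0Q085.q1846_8)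 (q_cons (Vale.Agent.P032.Lt.q R0Q085.q1846_9) (q_cons (Vale.Agent.P032.Lt.q R0Q085.q1846_10) (q_cons (Vale.Agent.P032.Lt.q R0Q085.q1846_11) (q_cons (Vale.Agent.P032.Lt.q R0Q085.q1846_12) (q_cons (Vale.Agent.P032.Lt.q R0Q085.q1846_13) (q_cons (Vale.Agent.P032.Lt.q R0Q085.q1846_14) (q_cons (Vale.Agent.P032.Lt.q R0Q085.q1846_15) (q_cons (Vale.Agent.P032.Lt.q R0Q085.q1846_16) (q_cons (Vale.Agent.P032.Lt.q R0Q085.q1846_17) (q_cons (Vale.Agent.P032.Lt.q R0Q085.q1846_18) (q_cons (Vale.Agent.P032.Lt.q R0Q085.q1846_19) (q_cons (Vale.Agent.P032.Lt.q R0Q085.q1846_20) (q_cons (Vale.Agent.P032.Lt.q R0Q085.q1846_21) (q_cons (Vale.Agent.P032.Lt.q R0Q085.q1846_22) (q_cons (Vale.Agent.P032.Lt.q R0Q085.q1846_23) (q_cons (Vale.Agent.P032.Lt.q R0Q085.q1846_24) (q_cons (Vale.Agent.P032.Lt.q R0Q085.q1846_25) (q_cons (Vale.Agent.P032.Lt.q R0Q085.q1846_26) (q_cons (Vale.Agent.P032.Lt.q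 R0Q085.q1846_27) (q_cons (Vale.Agent.P032.Lt.q R0Q085.q1846_28) (q_cons (Vale.Agent.P032.Lt.q R0Q085.q1846_29) (q_cons (Vale.Agent.P032.Lt.q R0Q085.q1846_30) (q_cons (Vale.Agent.P032.Lt.q R0Q085.q1846_31) (q_cons (Vale.Agent.P032.Lt.q R0Q085.q1846_32) q_nil))))))))))))))))))))))))))))))))))

theorem p1847 : Pat 73 73 TBm TCm (CB.map Fm) R0Q085.P1847 R0Q085.I1847 := Vale.Agent.P032.Lt.pat_eq (E' := R0Q085.E) eB (pat_step (by decide +kernel) (q_cons (Vale.Agent.P032.Lt.q R0Q085.q1847_0) (q_cons (Vale.Agent.P032.Lt.q R0Q085.q1847_1) (q_cons (Vale.Agent.P032.Lt.q R0Q085.q1847_2) q_nil))))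

theorem p1848 : Pat 73 73 TBm TCm (CB.map Fm) R0Q085.P1848 R0Q085.I1848 := Vale.Agent.P032.Lt.pat_eq (E' := R0Q085.E) eB (pat_step (by decide +kernel) (q_cons (Vale.Agent.P032.Lt.q R0Q085.q1848_0) (q_cons (Vale.Agent.P032.Lt.q R0Q085.q1848_1) (q_cons (Vale.Agent.P032.Lt.q R0Q085.q1848_2) (q_cons (Vale.Agent.P032.Lt.q R0Q085.q1848_3) q_nil)))))

theorem p1849 : Pat 73 73 TBm TCm (CB.map Fm) R0Q085.P1849 R0Q085.I1849 := Vale.Agent.P032.Lt.pat_eq (E' := R0Q085.E) eB (pat_step (by decide +kernel) (q_cons (Vale.Agent.P032.Lt.q R0Q085.q1849_0) (q_cons (Vale.Agent.P032.Lt.q R0Q085.q1849_1) (q_cons (Vale.Agent.P032.Lt.q R0Q085.q1849_2) (q_cons (Vale.Agent.P032.Lt.q R0Q085.q1849_3) (q_cons (Vale.Agent.P032.Lt.q R0Q085.q1849_4) (q_cons (Vale.Agent.P032.Lt.q R0Q085.q1849_5) (q_cons (Vale.Agent.P032.Lt.q R0Q085.q1849_6) (q_cons (Vale.Agent.P032.Lt.q R0Q085.q1849_7)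 (q_cons (Vale.Agent.P032.Lt.q R0Q085.q1849_8) (q_cons (Vale.Agent.P032.Lt.q R0Q085.q1849_9) (q_cons (Vale.Agent.P032.Lt.q R0Q085.q1849_10) (q_cons (Vale.Agent.P032.Lt.q R0Q085.q1849_11) (q_cons (Vale.Agent.P032.Lt.q R0Q085.q1849_12) (q_cons (Vale.Agent.P032.Lt.q R0Q085.q1849_13) (q_cons (Vale.Agent.P032.Lt.q R0Q085.q1849_14) (q_cons (Vale.Agent.P032.Lt.q R0Q085.q1849_15) (q_cons (Vale.Agent.P032.Lt.q R0Q085.q1849_16) (q_cons (Vale.Agent.P032.Lt.q R0Q085.q1849_17) (q_cons (Vale.Agent.P032.Lt.q R0Q085.q1849_18) (q_cons (Vale.Agent.P032.Lt.q R0Q085.q1849_19) (q_cons (Vale.Agent.P032.Lt.q R0Q085.q1849_20) (q_cons (Vale.Agent.P032.Lt.q R0Q085.q1849_21) (q_cons (Vale.Agent.P032.Lt.q R0Q085.q1849_22) (q_cons (Vale.Agent.P032.Lt.q R0Q085.q1849_23) (q_cons (Vale.Agent.P032.Lt.q R0Q085.q1849_24) (q_cons (Vale.Agent.P032.Lt.q R0Q085.q1849_25) (q_cons (Vale.Agent.P032.Lt.q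 R0Q085.q1849_26) (q_cons (Vale.Agent.P032.Lt.q R0Q085.q1849_27) (q_cons (Vale.Agent.P032.Lt.q R0Q085.q1849_28) q_nil))))))))))))))))))))))))))))))

theorem p1850 : Pat 73 73 TBm TCm (CB.map Fm) R0Q085.P1850 R0Q085.I1850 := Vale.Agent.P032.Lt.pat_eq (E' := R0Q085.E) eB (pat_step (by decide +kernel) (q_cons (Vale.Agent.P032.Lt.q R0Q085.q1850_0) (q_cons (Vale.Agent.P032.Lt.q R0Q085.q1850_1) (q_cons (Vale.Agent.P032.Lt.q R0Q085.q1850_2) q_nil))))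

theorem p1851 : Pat 73 73 TBm TCm (CB.map Fm) R0Q085.P1851 R0Q085.I1851 := Vale.Agent.P032.Lt.pat_eq (E' := R0Q085.E) eB (pat_step (by decide +kernel) (q_cons (Vale.Agent.P032.Lt.q R0Q085.q1851_0) (q_cons (Vale.Agent.P032.Lt.q R0Q085.q1851_1) q_nil)))

theorem p1852 : Pat 73 73 TBm TCm (CB.map Fm) R0Q085.P1852 R0Q085.I1852 := Vale.Agent.P032.Lt.pat_eq (E' := R0Q085.E) eB (pat_step (by decide +kernel) (q_cons (Vale.Agent.P032.Lt.q R0Q085.q1852_0) (q_cons (Vale.Agent.P032.Lt.q R0Q085.q1852_1) (q_cons (Vale.Agent.P032.Lt.q R0Q085.q1852_2) (q_cons (Vale.Agent.P032.Lt.q R0Q085.q1852_3) (q_cons (Vale.Agent.P032.Lt.q R0Q085.q1852_4) (q_cons (Vale.Agent.P032.Lt.q R0Q085.q1852_5) (q_cons (Vale.Agent.P032.Lt.q R0Q085.q1852_6) (q_cons (Vale.Agent.P032.Lt.q R0Q085.q1852_7) (q_cons (Vale.Agent.P032.Lt.q R0Q085.q1852_8) (q_cons (Vale.Agent.P032.Lt.q R0Q085.q1852_9)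 (q_cons (Vale.Agent.P032.Lt.q R0Q085.q1852_10) (q_cons (Vale.Agent.P032.Lt.q R0Q085.q1852_11) (q_cons (Vale.Agent.P032.Lt.q R0Q085.q1852_12) q_nil))))))))))))))

theorem p1853 : Pat 73 73 TBm TCm (CB.map Fm) R0Q085.P1853 R0Q085.I1853 := Vale.Agent.P032.Lt.pat_eq (E' := R0Q085.E) eB (pat_step (by decide +kernel) (q_cons (Vale.Agent.P032.Lt.q R0Q085.q1853_0) (q_cons (Vale.Agent.P032.Lt.q R0Q085.q1853_1) (q_cons (Vale.Agent.P032.Lt.q R0Q085.q1853_2) (q_cons (Vale.Agent.P032.Lt.q R0Q085.q1853_3) (q_cons (Vale.Agent.P032.Lt.q R0Q085.q1853_4) q_nil))))))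

theorem p1854 : Pat 73 73 TBm TCm (CB.map Fm) R0Q085.P1854 R0Q085.I1854 := Vale.Agent.P032.Lt.pat_eq (E' := R0Q085.E) eB (pat_step (by decide +kernel) (q_cons (Vale.Agent.P032.Lt.q R0Q085.q1854_0) (q_cons (Vale.Agent.P032.Lt.q R0Q085.q1854_1) (q_cons (Vale.Agent.P032.Lt.q R0Q085.q1854_2) (q_cons (Vale.Agent.P032.Lt.q R0Q085.q1854_3) (q_cons (Vale.Agent.P032.Lt.q R0Q085.q1854_4) q_nil))))))

theorem p1855 : Pat 73 73 TBm TCm (CB.map Fm) R0Q085.P1855 R0Q085.I1855 := Vale.Agent.P032.Lt.pat_eq (E' := R0Q085.E) eB (pat_step (by decide +kernel) (q_cons (Vale.Agent.P032.Lt.q R0Q085.q1855_0) (q_cons (Vale.Agent.P032.Lt.q R0Q085.q1855_1) (q_cons (Vale.Agent.P032.Lt.q R0Q085.q1855_2) (q_cons (Vale.Agent.P032.Lt.q R0Q085.q1855_3) (q_cons (Vale.Agent.P032.Lt.q R0Q085.q1855_4) (q_cons (Vale.Agent.P032.Lt.q R0Q085.q1855_5) (q_cons (Vale.Agent.P032.Lt.q R0Q085.q1855_6)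 (q_cons (Vale.Agent.P032.Lt.q R0Q085.q1855_7) (q_cons (Vale.Agent.P032.Lt.q R0Q085.q1855_8) (q_cons (Vale.Agent.P032.Lt.q R0Q085.q1855_9) (q_cons (Vale.Agent.P032.Lt.q R0Q085.q1855_10) (q_cons (Vale.Agent.P032.Lt.q R0Q085.q1855_11) q_nil)))))))))))))

theorem p1856 : Pat 73 73 TBm TCm (CB.map Fm) R0Q085.P1856 R0Q085.I1856 := Vale.Agent.P032.Lt.pat_eq (E' := R0Q085.E) eB (pat_step (by decide +kernel) (q_cons (Vale.Agent.P032.Lt.q R0Q085.q1856_0) (q_cons (Vale.Agent.P032.Lt.q R0Q085.q1856_1) (q_cons (Vale.Agent.P032.Lt.q R0Q085.q1856_2) (q_cons (Vale.Agent.P032.Lt.q R0Q085.q1856_3) (q_cons (Vale.Agent.P032.Lt.q R0Q085.q1856_4) q_nil))))))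

theorem p1857 : Pat 73 73 TBm TCm (CB.map Fm) R0Q085.P1857 R0Q085.I1857 := Vale.Agent.P032.Lt.pat_eq (E' := R0Q085.E) eB (pat_step (by decide +kernel) (q_cons (Vale.Agent.P032.Lt.q R0Q085.q1857_0) (q_cons (Vale.Agent.P032.Lt.q R0Q085.q1857_1) (q_cons (Vale.Agent.P032.Lt.q R0Q085.q1857_2) (q_cons (Vale.Agent.P032.Lt.q R0Q085.q1857_3) (q_cons (Vale.Agent.P032.Lt.q R0Q085.q1857_4) (q_cons (Vale.Agent.P032.Lt.q R0Q085.q1857_5) (q_cons (Vale.Agent.P032.Lt.q R0Q085.q1857_6) (q_cons (Vale.Agent.P032.Lt.q R0Q085.q1857_7) (q_cons (Vale.Agent.P032.Lt.q R0Q085.q1857_8) q_nil))))))))))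

theorem p1858 : Pat 73 73 TBm TCm (CB.map Fm) R0Q085.P1858 R0Q085.I1858 := Vale.Agent.P032.Lt.pat_eq (E' := R0Q085.E) eB (pat_step (by decide +kernel) (q_cons (Vale.Agent.P032.Lt.q R0Q085.q1858_0) (q_cons (Vale.Agent.P032.Lt.q R0Q085.q1858_1) (q_cons (Vale.Agent.P032.Lt.q R0Q085.q1858_2) q_nil))))

def C1859 : List ℕ := [0, 4, 8, 12, 16, 20, 24, 347137, 606209, 737281]
theorem p1859 : Pat 73 73 TBm TCm (C1859.map Fm) R0Q085.P1859 R0Q085.I1859 := Vale.Agent.P032.Lt.pat_eq (E' := R0Q085.E1859) (by decide +kernel) (pat_step (by decide +kernel) (q_cons (Vale.Agent.P032.Lt.q R0Q085.q1859_0) (q_cons (Vale.Agent.P032.Lt.q R0Q085.q1859_1) (q_cons (Vale.Agent.P032.Lt.q R0Q085.q1859_2) q_nil))))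

def C1860 : List ℕ := [0, 4, 8, 12, 16, 20, 24, 349185, 737281]
theorem p1860 : Pat 73 73 TBm TCm (C1860.map Fm) R0Q086.P1860 R0Q086.I1860 := Vale.Agent.P032.Lt.pat_eq (E' := R0Q086.E1860) (by decide +kernel) (pat_step (by decide +kernel) (q_cons (Vale.Agent.P032.Lt.q R0Q086.q1860_0) (q_cons (Vale.Agent.P032.Lt.q R0Q086.q1860_1) (q_cons (Vale.Agent.P032.Lt.q R0Q086.q1860_2) (q_cons (Vale.Agent.P032.Lt.q R0Q086.q1860_3) (q_cons (Vale.Agent.P032.Lt.q R0Q086.q1860_4) (q_cons (Vale.Agent.P032.Lt.q R0Q086.q1860_5) (q_cons (Vale.Agent.P032.Lt.q R0Q086.q1860_6) (q_cons (Vale.Agent.P032.Lt.q R0Q086.q1860_7) (q_cons (Vale.Agent.P032.Lt.q R0Q086.q1860_8) (q_cons (Vale.Agent.P032.Lt.q R0Q086.q1860_9) (q_cons (Vale.Agent.P032.Lt.q R0Q086.q1860_10) q_nil))))))))))))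

def C1861 : List ℕ := [0, 4, 8, 12, 16, 20, 24, 349185, 606209, 737281]
theorem p1861 : Pat 73 73 TBm TCm (C1861.map Fm) R0Q086.P1861 R0Q086.I1861 := Vale.Agent.P032.Lt.pat_eq (E' := R0Q086.E1861) (by decide +kernel) (pat_step (by decide +kernel) (q_cons (Vale.Agent.P032.Lt.q R0Q086.q1861_0) (q_cons (Vale.Agent.P032.Lt.q R0Q086.q1861_1) (q_cons (Vale.Agent.P032.Lt.q R0Q086.q1861_2) (q_cons (Vale.Agent.P032.Lt.q R0Q086.q1861_3) (q_cons (Vale.Agent.P032.Lt.q R0Q086.q1861_4) (q_cons (Vale.Agent.P032.Lt.q R0Q086.q1861_5) (q_cons (Vale.Agent.P032.Lt.q R0Q086.q1861_6) (q_cons (Vale.Agent.P032.Lt.q R0Q086.q1861_7) q_nil)))))))))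

theorem p1862 : Pat 73 73 TBm TCm (CB.map Fm) R0Q086.P1862 R0Q086.I1862 := Vale.Agent.P032.Lt.pat_eq (E' := R0Q086.E) eB (pat_step (by decide +kernel) (q_cons (Vale.Agent.P032.Lt.q R0Q086.q1862_0) (q_cons (Vale.Agent.P032.Lt.q R0Q086.q1862_1) (q_cons (Vale.Agent.P032.Lt.q R0Q086.q1862_2) (q_cons (Vale.Agent.P032.Lt.q R0Q086.q1862_3) (q_cons (Vale.Agent.P032.Lt.q R0Q086.q1862_4) (q_cons (Vale.Agent.P032.Lt.q R0Q086.q1862_5) (q_cons (Vale.Agent.P032.Lt.q R0Q086.q1862_6) (q_cons (Vale.Agent.P032.Lt.q R0Q086.q1862_7) (q_cons (Vale.Agent.P032.Lt.q R0Q086.q1862_8) q_nil))))))))))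

theorem p1863 : Pat 73 73 TBm TCm (CB.map Fm) R0Q086.P1863 R0Q086.I1863 := Vale.Agent.P032.Lt.pat_eq (E' := R0Q086.E) eB (pat_step (by decide +kernel) (q_cons (Vale.Agent.P032.Lt.q R0Q086.q1863_0) (q_cons (Vale.Agent.P032.Lt.q R0Q086.q1863_1) (q_cons (Vale.Agent.P032.Lt.q R0Q086.q1863_2) (q_cons (Vale.Agent.P032.Lt.q R0Q086.q1863_3) (q_cons (Vale.Agent.P032.Lt.q R0Q086.q1863_4) (q_cons (Vale.Agent.P032.Lt.q R0Q086.q1863_5) (q_cons (Vale.Agent.P032.Lt.q R0Q086.q1863_6) (q_cons (Vale.Agent.P032.Lt.q R0Q086.q1863_7) (q_cons (Vale.Agent.P032.Lt.q R0Q086.q1863_8) (q_cons (Vale.Agent.P032.Lt.q R0Q086.q1863_9) (q_cons (Vale.Agent.P032.Lt.q R0Q086.q1863_10) (q_cons (Vale.Agent.P032.Lt.q R0Q086.q1863_11) (q_cons (Vale.Agent.P032.Lt.q R0Q086.q1863_12) (q_cons (Vale.Agent.P032.Lt.q R0Q086.q1863_13) (q_cons (Vale.Agent.P032.Lt.q R0Q086.q1863_14) (q_cons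 (Vale.Agent.P032.Lt.q R0Q086.q1863_15) (q_cons (Vale.Agent.P032.Lt.q R0Q086.q1863_16) (q_cons (Vale.Agent.P032.Lt.q R0Q086.q1863_17) (q_cons (Vale.Agent.P032.Lt.q R0Q086.q1863_18) (q_cons (Vale.Agent.P032.Lt.q R0Q086.q1863_19) (q_cons (Vale.Agent.P032.Lt.q R0Q086.q1863_20) (q_cons (Vale.Agent.P032.Lt.q R0Q086.q1863_21) (q_cons (Vale.Agent.P032.Lt.q R0Q086.q1863_22) (q_cons (Vale.Agent.P032.Lt.q R0Q086.q1863_23) (q_cons (Vale.Agent.P032.Lt.q R0Q086.q1863_24) (q_cons (Vale.Agent.P032.Lt.q R0Q086.q1863_25) (q_cons (Vale.Agent.P032.Lt.q R0Q086.q1863_26) (q_cons (Vale.Agent.P032.Lt.q R0Q086.q1863_27) (q_cons (Vale.Agent.P032.Lt.q R0Q086.q1863_28) (q_cons (Vale.Agent.P032.Lt.q R0Q086.q1863_29) (q_cons (Vale.Agent.P032.Lt.q R0Q086.q1863_30) (q_cons (Vale.Agent.P032.Lt.q R0Q086.q1863_31) (q_cons (Vale.Agent.P032.Lt.q R0Q086.q1863_32) (q_cons (Vale.Agent.P032.Lt.q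 R0Q086.q1863_33) (q_cons (Vale.Agent.P032.Lt.q R0Q086.q1863_34) (q_cons (Vale.Agent.P032.Lt.q R0Q086.q1863_35) (q_cons (Vale.Agent.P032.Lt.q R0Q086.q1863_36) (q_cons (Vale.Agent.P032.Lt.q R0Q086.q1863_37) (q_cons (Vale.Agent.P032.Lt.q R0Q086.q1863_38) (q_cons (Vale.Agent.P032.Lt.q R0Q086.q1863_39) (q_cons (Vale.Agent.P032.Lt.q R0Q086.q1863_40) (q_cons (Vale.Agent.P032.Lt.q R0Q086.q1863_41) (q_cons (Vale.Agent.P032.Lt.q R0Q086.q1863_42) (q_cons (Vale.Agent.P032.Lt.q R0Q086.q1863_43) (q_cons (Vale.Agent.P032.Lt.q R0Q086.q1863_44) (q_cons (Vale.Agent.P032.Lt.q R0Q086.q1863_45) (q_cons (Vale.Agent.P032.Lt.q R0Q086.q1863_46) (q_cons (Vale.Agent.P032.Lt.q R0Q086.q1863_47) (q_cons (Vale.Agent.P032.Lt.q R0Q086.q1863_48) (q_cons (Vale.Agent.P032.Lt.q R0Q086.q1863_49) (q_cons (Vale.Agent.P032.Lt.q R0Q086.q1863_50) (q_cons (Vale.Agent.P032.Lt.q R0Q086.q1863_51)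 (q_cons (Vale.Agent.P032.Lt.q R0Q086.q1863_52) (q_cons (Vale.Agent.P032.Lt.q R0Q086.q1863_53) q_nil)))))))))))))))))))))))))))))))))))))))))))))))))))))))

theorem p1864 : Pat 73 73 TBm TCm (CB.map Fm) R0Q086.P1864 R0Q086.I1864 := Vale.Agent.P032.Lt.pat_eq (E' := R0Q086.E) eB (pat_step (by decide +kernel) (q_cons (Vale.Agent.P032.Lt.q R0Q086.q1864_0) q_nil))

theorem p1865 : Pat 73 73 TBm TCm (CB.map Fm) R0Q086.P1865 R0Q086.I1865 := Vale.Agent.P032.Lt.pat_eq (E' := R0Q086.E) eB (pat_step (by decide +kernel) (q_cons (Vale.Agent.P032.Lt.q R0Q086.q1865_0) (q_cons (Vale.Agent.P032.Lt.q R0Q086.q1865_1) (q_cons (Vale.Agent.P032.Lt.q R0Q086.q1865_2) (q_cons (Vale.Agent.P032.Lt.q R0Q086.q1865_3) (q_cons (Vale.Agent.P032.Lt.q R0Q086.q1865_4) q_nil))))))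

theorem p1866 : Pat 73 73 TBm TCm (CB.map Fm) R0Q086.P1866 R0Q086.I1866 := Vale.Agent.P032.Lt.pat_eq (E' := R0Q086.E) eB (pat_step (by decide +kernel) (q_cons (Vale.Agent.P032.Lt.q R0Q086.q1866_0) q_nil))

theorem p1867 : Pat 73 73 TBm TCm (CB.map Fm) R0Q086.P1867 R0Q086.I1867 := Vale.Agent.P032.Lt.pat_eq (E' := R0Q086.E) eB (pat_step (by decide +kernel) (q_cons (Vale.Agent.P032.Lt.q R0Q086.q1867_0) q_nil))

theorem p1868 : Pat 73 73 TBm TCm (CB.map Fm) R0Q086.P1868 R0Q086.I1868 := Vale.Agent.P032.Lt.pat_eq (E' := R0Q086.E) eB (pat_step (by decide +kernel) (q_cons (Vale.Agent.P032.Lt.q R0Q086.q1868_0) (q_cons (Vale.Agent.P032.Lt.q R0Q086.q1868_1) (q_cons (Vale.Agent.P032.Lt.q R0Q086.q1868_2) (q_cons (Vale.Agent.P032.Lt.q R0Q086.q1868_3) (q_cons (Vale.Agent.P032.Lt.q R0Q086.q1868_4) (q_cons (Vale.Agent.P032.Lt.q R0Q086.q1868_5) (q_cons (Vale.Agent.P032.Lt.q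 R0Q086.q1868_6) q_nil))))))))

theorem p1869 : Pat 73 73 TBm TCm (CB.map Fm) R0Q086.P1869 R0Q086.I1869 := Vale.Agent.P032.Lt.pat_eq (E' := R0Q086.E) eB (pat_step (by decide +kernel) (q_cons (Vale.Agent.P032.Lt.q R0Q086.q1869_0) (q_cons (Vale.Agent.P032.Lt.q R0Q086.q1869_1) (q_cons (Vale.Agent.P032.Lt.q R0Q086.q1869_2) (q_cons (Vale.Agent.P032.Lt.q R0Q086.q1869_3) (q_cons (Vale.Agent.P032.Lt.q R0Q086.q1869_4) (q_cons (Vale.Agent.P032.Lt.q R0Q086.q1869_5) (q_cons (Vale.Agent.P032.Lt.q R0Q086.q1869_6) (q_cons (Vale.Agent.P032.Lt.q R0Q086.q1869_7) (q_cons (Vale.Agent.P032.Lt.q R0Q086.q1869_8) (q_cons (Vale.Agent.P032.Lt.q R0Q086.q1869_9) (q_cons (Vale.Agent.P032.Lt.q R0Q086.q1869_10) (q_cons (Vale.Agent.P032.Lt.q R0Q086.q1869_11) (q_cons (Vale.Agent.P032.Lt.q R0Q086.q1869_12) (q_cons (Vale.Agent.P032.Lt.q R0Q086.q1869_13) (q_cons (Vale.Agent.P032.Lt.q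 R0Q086.q1869_14) (q_cons (Vale.Agent.P032.Lt.q R0Q086.q1869_15) (q_cons (Vale.Agent.P032.Lt.q R0Q086.q1869_16) (q_cons (Vale.Agent.P032.Lt.q R0Q086.q1869_17) (q_cons (Vale.Agent.P032.Lt.q R0Q086.q1869_18) (q_cons (Vale.Agent.P032.Lt.q R0Q086.q1869_19) (q_cons (Vale.Agent.P032.Lt.q R0Q086.q1869_20) (q_cons (Vale.Agent.P032.Lt.q R0Q086.q1869_21) (q_cons (Vale.Agent.P032.Lt.q R0Q086.q1869_22) (q_cons (Vale.Agent.P032.Lt.q R0Q086.q1869_23) (q_cons (Vale.Agent.P032.Lt.q R0Q086.q1869_24) (q_cons (Vale.Agent.P032.Lt.q R0Q086.q1869_25) (q_cons (Vale.Agent.P032.Lt.q R0Q086.q1869_26) (q_cons (Vale.Agent.P032.Lt.q R0Q086.q1869_27) (q_cons (Vale.Agent.P032.Lt.q R0Q086.q1869_28) (q_cons (Vale.Agent.P032.Lt.q R0Q086.q1869_29) (q_cons (Vale.Agent.P032.Lt.q R0Q086.q1869_30) (q_cons (Vale.Agent.P032.Lt.q R0Q086.q1869_31) (q_cons (Vale.Agent.P032.Lt.q R0Q086.q1869_32)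 (q_cons (Vale.Agent.P032.Lt.q R0Q086.q1869_33) (q_cons (Vale.Agent.P032.Lt.q R0Q086.q1869_34) (q_cons (Vale.Agent.P032.Lt.q R0Q086.q1869_35) (q_cons (Vale.Agent.P032.Lt.q R0Q086.q1869_36) q_nil))))))))))))))))))))))))))))))))))))))

theorem p1870 : Pat 73 73 TBm TCm (CB.map Fm) R0Q086.P1870 R0Q086.I1870 := Vale.Agent.P032.Lt.pat_eq (E' := R0Q086.E) eB (pat_step (by decide +kernel) (q_cons (Vale.Agent.P032.Lt.q R0Q086.q1870_0) (q_cons (Vale.Agent.P032.Lt.q R0Q086.q1870_1) (q_cons (Vale.Agent.P032.Lt.q R0Q086.q1870_2) (q_cons (Vale.Agent.P032.Lt.q R0Q086.q1870_3) (q_cons (Vale.Agent.P032.Lt.q R0Q086.q1870_4) q_nil))))))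

theorem p1871 : Pat 73 73 TBm TCm (CB.map Fm) R0Q086.P1871 R0Q086.I1871 := Vale.Agent.P032.Lt.pat_eq (E' := R0Q086.E) eB (pat_step (by decide +kernel) (q_cons (Vale.Agent.P032.Lt.q R0Q086.q1871_0) (q_cons (Vale.Agent.P032.Lt.q R0Q086.q1871_1) (q_cons (Vale.Agent.P032.Lt.q R0Q086.q1871_2) (q_cons (Vale.Agent.P032.Lt.q R0Q086.q1871_3) (q_cons (Vale.Agent.P032.Lt.q R0Q086.q1871_4) (q_cons (Vale.Agent.P032.Lt.q R0Q086.q1871_5) (q_cons (Vale.Agent.P032.Lt.q R0Q086.q1871_6) (q_cons (Vale.Agent.P032.Lt.q R0Q086.q1871_7) (q_cons (Vale.Agent.P032.Lt.q R0Q086.q1871_8) (q_cons (Vale.Agent.P032.Lt.q R0Q086.q1871_9) (q_cons (Vale.Agent.P032.Lt.q R0Q086.q1871_10) (q_cons (Vale.Agent.P032.Lt.q R0Q086.q1871_11) (q_cons (Vale.Agent.P032.Lt.q R0Q086.q1871_12) (q_cons (Vale.Agent.P032.Lt.q R0Q086.q1871_13) (q_cons (Vale.Agent.P032.Lt.q R0Q086.q1871_14) (q_cons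 (Vale.Agent.P032.Lt.q R0Q086.q1871_15) (q_cons (Vale.Agent.P032.Lt.q R0Q086.q1871_16) (q_cons (Vale.Agent.P032.Lt.q R0Q086.q1871_17) (q_cons (Vale.Agent.P032.Lt.q R0Q086.q1871_18) (q_cons (Vale.Agent.P032.Lt.q R0Q086.q1871_19) (q_cons (Vale.Agent.P032.Lt.q R0Q086.q1871_20) (q_cons (Vale.Agent.P032.Lt.q R0Q086.q1871_21) (q_cons (Vale.Agent.P032.Lt.q R0Q086.q1871_22) (q_cons (Vale.Agent.P032.Lt.q R0Q086.q1871_23) (q_cons (Vale.Agent.P032.Lt.q R0Q086.q1871_24) q_nil))))))))))))))))))))))))))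

theorem p1872 : Pat 73 73 TBm TCm (CB.map Fm) R0Q087.P1872 R0Q087.I1872 := Vale.Agent.P032.Lt.pat_eq (E' := R0Q087.E) eB (pat_step (by decide +kernel) (q_cons (Vale.Agent.P032.Lt.q R0Q087.q1872_0) (q_cons (Vale.Agent.P032.Lt.q R0Q087.q1872_1) (q_cons (Vale.Agent.P032.Lt.q R0Q087.q1872_2) (q_cons (Vale.Agent.P032.Lt.q R0Q087.q1872_3) (q_cons (Vale.Agent.P032.Lt.q R0Q087.q1872_4) (q_cons (Vale.Agent.P032.Lt.q R0Q087.q1872_5) (q_cons (Vale.Agent.P032.Lt.q R0Q087.q1872_6) (q_cons (Vale.Agent.P032.Lt.q R0Q087.q1872_7) (q_cons (Vale.Agent.P032.Lt.q R0Q087.q1872_8) (q_cons (Vale.Agent.P032.Lt.q R0Q087.q1872_9) (q_cons (Vale.Agent.P032.Lt.q R0Q087.q1872_10) (q_cons (Vale.Agent.P032.Lt.q R0Q087.q1872_11) (q_cons (Vale.Agent.P032.Lt.q R0Q087.q1872_12) (q_cons (Vale.Agent.P032.Lt.q R0Q087.q1872_13) (q_cons (Vale.Agent.P032.Lt.q R0Q087.q1872_14) (q_cons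 (Vale.Agent.P032.Lt.q R0Q087.q1872_15) (q_cons (Vale.Agent.P032.Lt.q R0Q087.q1872_16) (q_cons (Vale.Agent.P032.Lt.q R0Q087.q1872_17) (q_cons (Vale.Agent.P032.Lt.q R0Q087.q1872_18) (q_cons (Vale.Agent.P032.Lt.q R0Q087.q1872_19) q_nil)))))))))))))))))))))

theorem p1873 : Pat 73 73 TBm TCm (CB.map Fm) R0Q087.P1873 R0Q087.I1873 := Vale.Agent.P032.Lt.pat_eq (E' := R0Q087.E) eB (pat_step (by decide +kernel) (q_cons (Vale.Agent.P032.Lt.q R0Q087.q1873_0) (q_cons (Vale.Agent.P032.Lt.q R0Q087.q1873_1) (q_cons (Vale.Agent.P032.Lt.q R0Q087.q1873_2) (q_cons (Vale.Agent.P032.Lt.q R0Q087.q1873_3) (q_cons (Vale.Agent.P032.Lt.q R0Q087.q1873_4) (q_cons (Vale.Agent.P032.Lt.q R0Q087.q1873_5) (q_cons (Vale.Agent.P032.Lt.q R0Q087.q1873_6) (q_cons (Vale.Agent.P032.Lt.q R0Q087.q1873_7) (q_cons (Vale.Agent.P032.Lt.q R0Q087.q1873_8) (q_cons (Vale.Agent.P032.Lt.q R0Q087.q1873_9)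 (q_cons (Vale.Agent.P032.Lt.q R0Q087.q1873_10) (q_cons (Vale.Agent.P032.Lt.q R0Q087.q1873_11) (q_cons (Vale.Agent.P032.Lt.q R0Q087.q1873_12) (q_cons (Vale.Agent.P032.Lt.q R0Q087.q1873_13) (q_cons (Vale.Agent.P032.Lt.q R0Q087.q1873_14) (q_cons (Vale.Agent.P032.Lt.q R0Q087.q1873_15) (q_cons (Vale.Agent.P032.Lt.q R0Q087.q1873_16) (q_cons (Vale.Agent.P032.Lt.q R0Q087.q1873_17) (q_cons (Vale.Agent.P032.Lt.q R0Q087.q1873_18) (q_cons (Vale.Agent.P032.Lt.q R0Q087.q1873_19) (q_cons (Vale.Agent.P032.Lt.q R0Q087.q1873_20) (q_cons (Vale.Agent.P032.Lt.q R0Q087.q1873_21) (q_cons (Vale.Agent.P032.Lt.q R0Q087.q1873_22) q_nil))))))))))))))))))))))))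

theorem p1874 : Pat 73 73 TBm TCm (CB.map Fm) R0Q087.P1874 R0Q087.I1874 := Vale.Agent.P032.Lt.pat_eq (E' := R0Q087.E) eB (pat_step (by decide +kernel) (q_cons (Vale.Agent.P032.Lt.q R0Q087.q1874_0) (q_cons (Vale.Agent.P032.Lt.q R0Q087.q1874_1) (q_cons (Vale.Agent.P032.Lt.q R0Q087.q1874_2) q_nil))))

theorem p1875 : Pat 73 73 TBm TCm (CB.map Fm) R0Q087.P1875 R0Q087.I1875 := Vale.Agent.P032.Lt.pat_eq (E' := R0Q087.E) eB (pat_step (by decide +kernel) (q_cons (Vale.Agent.P032.Lt.q R0Q087.q1875_0) q_nil))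

def C1876 : List ℕ := [0, 4, 8, 12, 16, 20, 24, 216065]
theorem p1876 : Pat 73 73 TBm TCm (C1876.map Fm) R0Q087.P1876 R0Q087.I1876 := Vale.Agent.P032.Lt.pat_eq (E' := R0Q087.E1876) (by decide +kernel) (pat_step (by decide +kernel) (q_cons (Vale.Agent.P032.Lt.q R0Q087.q1876_0) q_nil))

def C1877 : List ℕ := [0, 4, 8, 12, 16, 20, 24, 606209, 737281]
theorem p1877 : Pat 73 73 TBm TCm (C1877.map Fm) R0Q087.P1877 R0Q087.I1877 := Vale.Agent.P032.Lt.pat_eq (E' := R0Q087.E1877) (by decide +kernel) (pat_step (by decide +kernel) (q_cons (Vale.Agent.P032.Lt.q R0Q087.q1877_0) q_nil))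

theorem p1878 : Pat 73 73 TBm TCm (CB.map Fm) R0Q087.P1878 R0Q087.I1878 := Vale.Agent.P032.Lt.pat_eq (E' := R0Q087.E) eB (pat_step (by decide +kernel) (q_cons (Vale.Agent.P032.Lt.q R0Q087.q1878_0) q_nil))

theorem p1879 : Pat 73 73 TBm TCm (CB.map Fm) R0Q087.P1879 R0Q087.I1879 := Vale.Agent.P032.Lt.pat_eq (E' := R0Q087.E) eB (pat_step (by decide +kernel) (q_cons (Vale.Agent.P032.Lt.q R0Q087.q1879_0) (q_cons (Vale.Agent.P032.Lt.q R0Q087.q1879_1) (q_cons (Vale.Agent.P032.Lt.q R0Q087.q1879_2) (q_cons (Vale.Agent.P032.Lt.q R0Q087.q1879_3) (q_cons (Vale.Agent.P032.Lt.q R0Q087.q1879_4) (q_cons (Vale.Agent.P032.Lt.q R0Q087.q1879_5) (q_cons (Vale.Agent.P032.Lt.q R0Q087.q1879_6) q_nil))))))))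

theorem p1880 : Pat 73 73 TBm TCm (CB.map Fm) R0Q087.P1880 R0Q087.I1880 := Vale.Agent.P032.Lt.pat_eq (E' := R0Q087.E) eB (pat_step (by decide +kernel) (q_cons (Vale.Agent.P032.Lt.q R0Q087.q1880_0) q_nil))

theorem p1881 : Pat 73 73 TBm TCm (CB.map Fm) R0Q087.P1881 R0Q087.I1881 := Vale.Agent.P032.Lt.pat_eq (E' := R0Q087.E) eB (pat_step (by decide +kernel) (q_cons (Vale.Agent.P032.Lt.q R0Q087.q1881_0) (q_cons (Vale.Agent.P032.Lt.q R0Q087.q1881_1) (q_cons (Vale.Agent.P032.Lt.q R0Q087.q1881_2) (q_cons (Vale.Agent.P032.Lt.q R0Q087.q1881_3) (q_cons (Vale.Agent.P032.Lt.q R0Q087.q1881_4) (q_cons (Vale.Agent.P032.Lt.q R0Q087.q1881_5) q_nil)))))))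

theorem p1882 : Pat 73 73 TBm TCm (CB.map Fm) R0Q087.P1882 R0Q087.I1882 := Vale.Agent.P032.Lt.pat_eq (E' := R0Q087.E) eB (pat_step (by decide +kernel) (q_cons (Vale.Agent.P032.Lt.q R0Q087.q1882_0) q_nil))

theorem p1883 : Pat 73 73 TBm TCm (CB.map Fm) R0Q087.P1883 R0Q087.I1883 := Vale.Agent.P032.Lt.pat_eq (E' := R0Q087.E) eB (pat_step (by decide +kernel) (q_cons (Vale.Agent.P032.Lt.q R0Q087.q1883_0) q_nil))

theorem p1884 : Pat 73 73 TBm TCm (CB.map Fm) R0Q087.P1884 R0Q087.I1884 := Vale.Agent.P032.Lt.pat_eq (E' := R0Q087.E) eB (pat_step (by decide +kernel) (q_cons (Vale.Agent.P032.Lt.q R0Q087.q1884_0) (q_cons (Vale.Agent.P032.Lt.q R0Q087.q1884_1) (q_cons (Vale.Agent.P032.Lt.q R0Q087.q1884_2) q_nil))))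

theorem p1885 : Pat 73 73 TBm TCm (CB.map Fm) R0Q087.P1885 R0Q087.I1885 := Vale.Agent.P032.Lt.pat_eq (E' := R0Q087.E) eB (pat_step (by decide +kernel) (q_cons (Vale.Agent.P032.Lt.q R0Q087.q1885_0) (q_cons (Vale.Agent.P032.Lt.q R0Q087.q1885_1) (q_cons (Vale.Agent.P032.Lt.q R0Q087.q1885_2) (q_cons (Vale.Agent.P032.Lt.q R0Q087.q1885_3) (q_cons (Vale.Agent.P032.Lt.q R0Q087.q1885_4) (q_cons (Vale.Agent.P032.Lt.q R0Q087.q1885_5) (q_cons (Vale.Agent.P032.Lt.q R0Q087.q1885_6) (q_cons (Vale.Agent.P032.Lt.q R0Q087.q1885_7) (q_cons (Vale.Agent.P032.Lt.q R0Q087.q1885_8) q_nil))))))))))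

theorem p1886 : Pat 73 73 TBm TCm (CB.map Fm) R0Q087.P1886 R0Q087.I1886 := Vale.Agent.P032.Lt.pat_eq (E' := R0Q087.E) eB (pat_step (by decide +kernel) (q_cons (Vale.Agent.P032.Lt.q R0Q087.q1886_0) (q_cons (Vale.Agent.P032.Lt.q R0Q087.q1886_1) (q_cons (Vale.Agent.P032.Lt.q R0Q087.q1886_2) (q_cons (Vale.Agent.P032.Lt.q R0Q087.q1886_3) q_nil)))))

theorem p1887 : Pat 73 73 TBm TCm (CB.map Fm) R0Q087.P1887 R0Q087.I1887 := Vale.Agent.P032.Lt.pat_eq (E' := R0Q087.E) eB (pat_step (by decide +kernel) (q_cons (Vale.Agent.P032.Lt.q R0Q087.q1887_0) (q_cons (Vale.Agent.P032.Lt.q R0Q087.q1887_1) (q_cons (Vale.Agent.P032.Lt.q R0Q087.q1887_2) (q_cons (Vale.Agent.P032.Lt.q R0Q087.q1887_3) (q_cons (Vale.Agent.P032.Lt.q R0Q087.q1887_4) (q_cons (Vale.Agent.P032.Lt.q R0Q087.q1887_5) (q_cons (Vale.Agent.P032.Lt.q R0Q087.q1887_6) (q_cons (Vale.Agent.P032.Lt.q R0Q087.q1887_7)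 (q_cons (Vale.Agent.P032.Lt.q R0Q087.q1887_8) (q_cons (Vale.Agent.P032.Lt.q R0Q087.q1887_9) (q_cons (Vale.Agent.P032.Lt.q R0Q087.q1887_10) (q_cons (Vale.Agent.P032.Lt.q R0Q087.q1887_11) (q_cons (Vale.Agent.P032.Lt.q R0Q087.q1887_12) (q_cons (Vale.Agent.P032.Lt.q R0Q087.q1887_13) (q_cons (Vale.Agent.P032.Lt.q R0Q087.q1887_14) (q_cons (Vale.Agent.P032.Lt.q R0Q087.q1887_15) (q_cons (Vale.Agent.P032.Lt.q R0Q087.q1887_16) (q_cons (Vale.Agent.P032.Lt.q R0Q087.q1887_17) (q_cons (Vale.Agent.P032.Lt.q R0Q087.q1887_18) (q_cons (Vale.Agent.P032.Lt.q R0Q087.q1887_19) (q_cons (Vale.Agent.P032.Lt.q R0Q087.q1887_20) (q_cons (Vale.Agent.P032.Lt.q R0Q087.q1887_21) (q_cons (Vale.Agent.P032.Lt.q R0Q087.q1887_22) (q_cons (Vale.Agent.P032.Lt.q R0Q087.q1887_23) (q_cons (Vale.Agent.P032.Lt.q R0Q087.q1887_24) (q_cons (Vale.Agent.P032.Lt.q R0Q087.q1887_25) (q_cons (Vale.Agent.P032.Lt.q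 R0Q087.q1887_26) (q_cons (Vale.Agent.P032.Lt.q R0Q087.q1887_27) (q_cons (Vale.Agent.P032.Lt.q R0Q087.q1887_28) (q_cons (Vale.Agent.P032.Lt.q R0Q087.q1887_29) (q_cons (Vale.Agent.P032.Lt.q R0Q087.q1887_30) (q_cons (Vale.Agent.P032.Lt.q R0Q087.q1887_31) (q_cons (Vale.Agent.P032.Lt.q R0Q087.q1887_32) q_nil))))))))))))))))))))))))))))))))))

theorem p1888 : Pat 73 73 TBm TCm (CB.map Fm) R0Q088.P1888 R0Q088.I1888 := Vale.Agent.P032.Lt.pat_eq (E' := R0Q088.E) eB (pat_step (by decide +kernel) (q_cons (Vale.Agent.P032.Lt.q R0Q088.q1888_0) (q_cons (Vale.Agent.P032.Lt.q R0Q088.q1888_1) (q_cons (Vale.Agent.P032.Lt.q R0Q088.q1888_2) (q_cons (Vale.Agent.P032.Lt.q R0Q088.q1888_3) (q_cons (Vale.Agent.P032.Lt.q R0Q088.q1888_4) (q_cons (Vale.Agent.P032.Lt.q R0Q088.q1888_5) (q_cons (Vale.Agent.P032.Lt.q R0Q088.q1888_6) (q_cons (Vale.Agent.P032.Lt.q R0Q088.q1888_7)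 (q_cons (Vale.Agent.P032.Lt.q R0Q088.q1888_8) (q_cons (Vale.Agent.P032.Lt.q R0Q088.q1888_9) (q_cons (Vale.Agent.P032.Lt.q R0Q088.q1888_10) q_nil))))))))))))

theorem p1889 : Pat 73 73 TBm TCm (CB.map Fm) R0Q088.P1889 R0Q088.I1889 := Vale.Agent.P032.Lt.pat_eq (E' := R0Q088.E) eB (pat_step (by decide +kernel) (q_cons (Vale.Agent.P032.Lt.q R0Q088.q1889_0) (q_cons (Vale.Agent.P032.Lt.q R0Q088.q1889_1) (q_cons (Vale.Agent.P032.Lt.q R0Q088.q1889_2) (q_cons (Vale.Agent.P032.Lt.q R0Q088.q1889_3) (q_cons (Vale.Agent.P032.Lt.q R0Q088.q1889_4) (q_cons (Vale.Agent.P032.Lt.q R0Q088.q1889_5) (q_cons (Vale.Agent.P032.Lt.q R0Q088.q1889_6) (q_cons (Vale.Agent.P032.Lt.q R0Q088.q1889_7) (q_cons (Vale.Agent.P032.Lt.q R0Q088.q1889_8) (q_cons (Vale.Agent.P032.Lt.q R0Q088.q1889_9) (q_cons (Vale.Agent.P032.Lt.q R0Q088.q1889_10) q_nil))))))))))))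

theorem p1890 : Pat 73 73 TBm TCm (CB.map Fm) R0Q088.P1890 R0Q088.I1890 := Vale.Agent.P032.Lt.pat_eq (E' := R0Q088.E) eB (pat_step (by decide +kernel) (q_cons (Vale.Agent.P032.Lt.q R0Q088.q1890_0) (q_cons (Vale.Agent.P032.Lt.q R0Q088.q1890_1) (q_cons (Vale.Agent.P032.Lt.q R0Q088.q1890_2) (q_cons (Vale.Agent.P032.Lt.q R0Q088.q1890_3) (q_cons (Vale.Agent.P032.Lt.q R0Q088.q1890_4) (q_cons (Vale.Agent.P032.Lt.q R0Q088.q1890_5) (q_cons (Vale.Agent.P032.Lt.q R0Q088.q1890_6) (q_cons (Vale.Agent.P032.Lt.q R0Q088.q1890_7) (q_cons (Vale.Agent.P032.Lt.q R0Q088.q1890_8) (q_cons (Vale.Agent.P032.Lt.q R0Q088.q1890_9) q_nil)))))))))))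

theorem p1891 : Pat 73 73 TBm TCm (CB.map Fm) R0Q088.P1891 R0Q088.I1891 := Vale.Agent.P032.Lt.pat_eq (E' := R0Q088.E) eB (pat_step (by decide +kernel) (q_cons (Vale.Agent.P032.Lt.q R0Q088.q1891_0) (q_cons (Vale.Agent.P032.Lt.q R0Q088.q1891_1) (q_cons (Vale.Agent.P032.Lt.q R0Q088.q1891_2) q_nil))))

theorem p1892 : Pat 73 73 TBm TCm (CB.map Fm) R0Q088.P1892 R0Q088.I1892 := Vale.Agent.P032.Lt.pat_eq (E' := R0Q088.E) eB (pat_step (by decide +kernel) (q_cons (Vale.Agent.P032.Lt.q R0Q088.q1892_0) (q_cons (Vale.Agent.P032.Lt.q R0Q088.q1892_1) q_nil)))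

theorem p1893 : Pat 73 73 TBm TCm (CB.map Fm) R0Q088.P1893 R0Q088.I1893 := Vale.Agent.P032.Lt.pat_eq (E' := R0Q088.E) eB (pat_step (by decide +kernel) (q_cons (Vale.Agent.P032.Lt.q R0Q088.q1893_0) (q_cons (Vale.Agent.P032.Lt.q R0Q088.q1893_1) (q_cons (Vale.Agent.P032.Lt.q R0Q088.q1893_2) (q_cons (Vale.Agent.P032.Lt.q R0Q088.q1893_3) (q_cons (Vale.Agent.P032.Lt.q R0Q088.q1893_4) (q_cons (Vale.Agent.P032.Lt.q R0Q088.q1893_5) (q_cons (Vale.Agent.P032.Lt.q R0Q088.q1893_6) (q_cons (Vale.Agent.P032.Lt.q R0Q088.q1893_7) (q_cons (Vale.Agent.P032.Lt.q R0Q088.q1893_8) q_nil))))))))))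

theorem p1894 : Pat 73 73 TBm TCm (CB.map Fm) R0Q088.P1894 R0Q088.I1894 := Vale.Agent.P032.Lt.pat_eq (E' := R0Q088.E) eB (pat_step (by decide +kernel) (q_cons (Vale.Agent.P032.Lt.q R0Q088.q1894_0) (q_cons (Vale.Agent.P032.Lt.q R0Q088.q1894_1) (q_cons (Vale.Agent.P032.Lt.q R0Q088.q1894_2) (q_cons (Vale.Agent.P032.Lt.q R0Q088.q1894_3) (q_cons (Vale.Agent.P032.Lt.q R0Q088.q1894_4) (q_cons (Vale.Agent.P032.Lt.q R0Q088.q1894_5) q_nil)))))))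

theorem p1895 : Pat 73 73 TBm TCm (CB.map Fm) R0Q088.P1895 R0Q088.I1895 := Vale.Agent.P032.Lt.pat_eq (E' := R0Q088.E) eB (pat_step (by decide +kernel) (q_cons (Vale.Agent.P032.Lt.q R0Q088.q1895_0) (q_cons (Vale.Agent.P032.Lt.q R0Q088.q1895_1) (q_cons (Vale.Agent.P032.Lt.q R0Q088.q1895_2) (q_cons (Vale.Agent.P032.Lt.q R0Q088.q1895_3) (q_cons (Vale.Agent.P032.Lt.q R0Q088.q1895_4) (q_cons (Vale.Agent.P032.Lt.q R0Q088.q1895_5) q_nil)))))))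

theorem p1896 : Pat 73 73 TBm TCm (CB.map Fm) R0Q088.P1896 R0Q088.I1896 := Vale.Agent.P032.Lt.pat_eq (E' := R0Q088.E) eB (pat_step (by decide +kernel) (q_cons (Vale.Agent.P032.Lt.q R0Q088.q1896_0) q_nil))

theorem p1897 : Pat 73 73 TBm TCm (CB.map Fm) R0Q088.P1897 R0Q088.I1897 := Vale.Agent.P032.Lt.pat_eq (E' := R0Q088.E) eB (pat_step (by decide +kernel) (q_cons (Vale.Agent.P032.Lt.q R0Q088.q1897_0) q_nil))

def C1898 : List ℕ := [0, 4, 8, 12, 16, 20, 24, 214017, 475137, 607233, 737281]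
theorem p1898 : Pat 73 73 TBm TCm (C1898.map Fm) R0Q088.P1898 R0Q088.I1898 := Vale.Agent.P032.Lt.pat_eq (E' := R0Q088.E1898) (by decide +kernel) (pat_step (by decide +kernel) (q_cons (Vale.Agent.P032.Lt.q R0Q088.q1898_0) q_nil))

theorem p1899 : Pat 73 73 TBm TCm (CB.map Fm) R0Q088.P1899 R0Q088.I1899 := Vale.Agent.P032.Lt.pat_eq (E' := R0Q088.E) eB (pat_step (by decide +kernel) (q_cons (Vale.Agent.P032.Lt.q R0Q088.q1899_0) q_nil))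

theorem p1900 : Pat 73 73 TBm TCm (CB.map Fm) R0Q088.P1900 R0Q088.I1900 := Vale.Agent.P032.Lt.pat_eq (E' := R0Q088.E) eB (pat_step (by decide +kernel) (q_cons (Vale.Agent.P032.Lt.q R0Q088.q1900_0) (q_cons (Vale.Agent.P032.Lt.q R0Q088.q1900_1) (q_cons (Vale.Agent.P032.Lt.q R0Q088.q1900_2) (q_cons (Vale.Agent.P032.Lt.q R0Q088.q1900_3) (q_cons (Vale.Agent.P032.Lt.q R0Q088.q1900_4) (q_cons (Vale.Agent.P032.Lt.q R0Q088.q1900_5) q_nil)))))))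

def C1901 : List ℕ := [0, 4, 8, 12, 16, 20, 24, 222209, 353281, 606209]
theorem p1901 : Pat 73 73 TBm TCm (C1901.map Fm) R0Q088.P1901 R0Q088.I1901 := Vale.Agent.P032.Lt.pat_eq (E' := R0Q088.E1901) (by decide +kernel) (pat_step (by decide +kernel) (q_cons (Vale.Agent.P032.Lt.q R0Q088.q1901_0) q_nil))

theorem p1902 : Pat 73 73 TBm TCm (CB.map Fm) R0Q088.P1902 R0Q088.I1902 := Vale.Agent.P032.Lt.pat_eq (E' := R0Q088.E) eB (pat_step (by decide +kernel) (q_cons (Vale.Agent.P032.Lt.q R0Q088.q1902_0) q_nil))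

def C1903 : List ℕ := [0, 4, 8, 12, 16, 20, 24, 347137, 475137, 737281, 740353]
theorem p1903 : Pat 73 73 TBm TCm (C1903.map Fm) R0Q088.P1903 R0Q088.I1903 := Vale.Agent.P032.Lt.pat_eq (E' := R0Q088.E1903) (by decide +kernel) (pat_step (by decide +kernel) (q_cons (Vale.Agent.P032.Lt.q R0Q088.q1903_0) (q_cons (Vale.Agent.P032.Lt.q R0Q088.q1903_1) (q_cons (Vale.Agent.P032.Lt.q R0Q088.q1903_2) (q_cons (Vale.Agent.P032.Lt.q R0Q088.q1903_3) (q_cons (Vale.Agent.P032.Lt.q R0Q088.q1903_4) (q_cons (Vale.Agent.P032.Lt.q R0Q088.q1903_5) q_nil)))))))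

def C1904 : List ℕ := [0, 4, 8, 12, 16, 20, 24, 216065, 349185, 475137, 737281]
theorem p1904 : Pat 73 73 TBm TCm (C1904.map Fm) R0Q088.P1904 R0Q088.I1904 := Vale.Agent.P032.Lt.pat_eq (E' := R0Q088.E1904) (by decide +kernel) (pat_step (by decide +kernel) (q_cons (Vale.Agent.P032.Lt.q R0Q088.q1904_0) (q_cons (Vale.Agent.P032.Lt.q R0Q088.q1904_1) (q_cons (Vale.Agent.P032.Lt.q R0Q088.q1904_2) (q_cons (Vale.Agent.P032.Lt.q R0Q088.q1904_3) q_nil)))))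

theorem p1905 : Pat 73 73 TBm TCm (CB.map Fm) R0Q088.P1905 R0Q088.I1905 := Vale.Agent.P032.Lt.pat_eq (E' := R0Q088.E) eB (pat_step (by decide +kernel) (q_cons (Vale.Agent.P032.Lt.q R0Q088.q1905_0) (q_cons (Vale.Agent.P032.Lt.q R0Q088.q1905_1) (q_cons (Vale.Agent.P032.Lt.q R0Q088.q1905_2) (q_cons (Vale.Agent.P032.Lt.q R0Q088.q1905_3) (q_cons (Vale.Agent.P032.Lt.q R0Q088.q1905_4) (q_cons (Vale.Agent.P032.Lt.q R0Q088.q1905_5) (q_cons (Vale.Agent.P032.Lt.q R0Q088.q1905_6) (q_cons (Vale.Agent.P032.Lt.q R0Q088.q1905_7) (q_cons (Vale.Agent.P032.Lt.q R0Q088.q1905_8) (q_cons (Vale.Agent.P032.Lt.q R0Q088.q1905_9) (q_cons (Vale.Agent.P032.Lt.q R0Q088.q1905_10) (q_cons (Vale.Agent.P032.Lt.q R0Q088.q1905_11) (q_cons (Vale.Agent.P032.Lt.q R0Q088.q1905_12) (q_cons (Vale.Agent.P032.Lt.q R0Q088.q1905_13) (q_cons (Vale.Agent.P032.Lt.q R0Q088.q1905_14) (q_cons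 (Vale.Agent.P032.Lt.q R0Q088.q1905_15) (q_cons (Vale.Agent.P032.Lt.q R0Q088.q1905_16) (q_cons (Vale.Agent.P032.Lt.q R0Q088.q1905_17) (q_cons (Vale.Agent.P032.Lt.q R0Q088.q1905_18) (q_cons (Vale.Agent.P032.Lt.q R0Q088.q1905_19) (q_cons (Vale.Agent.P032.Lt.q R0Q088.q1905_20) (q_cons (Vale.Agent.P032.Lt.q R0Q088.q1905_21) q_nil)))))))))))))))))))))))

theorem p1906 : Pat 73 73 TBm TCm (CB.map Fm) R0Q088.P1906 R0Q088.I1906 := Vale.Agent.P032.Lt.pat_eq (E' := R0Q088.E) eB (pat_step (by decide +kernel) (q_cons (Vale.Agent.P032.Lt.q R0Q088.q1906_0) q_nil))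

theorem p1907 : Pat 73 73 TBm TCm (CB.map Fm) R0Q088.P1907 R0Q088.I1907 := Vale.Agent.P032.Lt.pat_eq (E' := R0Q088.E) eB (pat_step (by decide +kernel) (q_cons (Vale.Agent.P032.Lt.q R0Q088.q1907_0) q_nil))

theorem p1908 : Pat 73 73 TBm TCm (CB.map Fm) R0Q088.P1908 R0Q088.I1908 := Vale.Agent.P032.Lt.pat_eq (E' := R0Q088.E) eB (pat_step (by decide +kernel) (q_cons (Vale.Agent.P032.Lt.q R0Q088.q1908_0) (q_cons (Vale.Agent.P032.Lt.q R0Q088.q1908_1) (q_cons (Vale.Agent.P032.Lt.q R0Q088.q1908_2) (q_cons (Vale.Agent.P032.Lt.q R0Q088.q1908_3) q_nil)))))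

theorem p1909 : Pat 73 73 TBm TCm (CB.map Fm) R0Q088.P1909 R0Q088.I1909 := Vale.Agent.P032.Lt.pat_eq (E' := R0Q088.E) eB (pat_step (by decide +kernel) (q_cons (Vale.Agent.P032.Lt.q R0Q088.q1909_0) (q_cons (Vale.Agent.P032.Lt.q R0Q088.q1909_1) (q_cons (Vale.Agent.P032.Lt.q R0Q088.q1909_2) (q_cons (Vale.Agent.P032.Lt.q R0Q088.q1909_3) (q_cons (Vale.Agent.P032.Lt.q R0Q088.q1909_4) (q_cons (Vale.Agent.P032.Lt.q R0Q088.q1909_5) q_nil)))))))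

theorem p1910 : Pat 73 73 TBm TCm (CB.map Fm) R0Q088.P1910 R0Q088.I1910 := Vale.Agent.P032.Lt.pat_eq (E' := R0Q088.E) eB (pat_step (by decide +kernel) (q_cons (Vale.Agent.P032.Lt.q R0Q088.q1910_0) (q_cons (Vale.Agent.P032.Lt.q R0Q088.q1910_1) (q_cons (Vale.Agent.P032.Lt.q R0Q088.q1910_2) q_nil))))

def C1911 : List ℕ := [0, 4, 8, 12, 16, 20, 24, 212993, 606209, 737281]
theorem p1911 : Pat 73 73 TBm TCm (C1911.map Fm) R0Q088.P1911 R0Q088.I1911 := Vale.Agent.P032.Lt.pat_eq (E' := R0Q088.E1911) (by decide +kernel) (pat_step (by decide +kernel) (q_cons (Vale.Agent.P032.Lt.q R0Q088.q1911_0) (q_cons (Vale.Agent.P032.Lt.q R0Q088.q1911_1) q_nil)))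

theorem p1912 : Pat 73 73 TBm TCm (CB.map Fm) R0Q088.P1912 R0Q088.I1912 := Vale.Agent.P032.Lt.pat_eq (E' := R0Q088.E) eB (pat_step (by decide +kernel) (q_cons (Vale.Agent.P032.Lt.q R0Q088.q1912_0) q_nil))

theorem p1913 : Pat 73 73 TBm TCm (CB.map Fm) R0Q088.P1913 R0Q088.I1913 := Vale.Agent.P032.Lt.pat_eq (E' := R0Q088.E) eB (pat_step (by decide +kernel) (q_cons (Vale.Agent.P032.Lt.q R0Q088.q1913_0) (q_cons (Vale.Agent.P032.Lt.q R0Q088.q1913_1) (q_cons (Vale.Agent.P032.Lt.q R0Q088.q1913_2) (q_cons (Vale.Agent.P032.Lt.q R0Q088.q1913_3) q_nil)))))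

theorem p1914 : Pat 73 73 TBm TCm (CB.map Fm) R0Q088.P1914 R0Q088.I1914 := Vale.Agent.P032.Lt.pat_eq (E' := R0Q088.E) eB (pat_step (by decide +kernel) (q_cons (Vale.Agent.P032.Lt.q R0Q088.q1914_0) (q_cons (Vale.Agent.P032.Lt.q R0Q088.q1914_1) (q_cons (Vale.Agent.P032.Lt.q R0Q088.q1914_2) (q_cons (Vale.Agent.P032.Lt.q R0Q088.q1914_3) (q_cons (Vale.Agent.P032.Lt.q R0Q088.q1914_4) (q_cons (Vale.Agent.P032.Lt.q R0Q088.q1914_5) (q_cons (Vale.Agent.P032.Lt.q R0Q088.q1914_6) (q_cons (Vale.Agent.P032.Lt.q R0Q088.q1914_7) (q_cons (Vale.Agent.P032.Lt.q R0Q088.q1914_8) (q_cons (Vale.Agent.P032.Lt.q R0Q088.q1914_9) (q_cons (Vale.Agent.P032.Lt.q R0Q088.q1914_10) (q_cons (Vale.Agent.P032.Lt.q R0Q088.q1914_11) (q_cons (Vale.Agent.P032.Lt.q R0Q088.q1914_12) (q_cons (Vale.Agent.P032.Lt.q R0Q088.q1914_13) (q_cons (Vale.Agent.P032.Lt.q R0Q088.q1914_14) (q_cons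 (Vale.Agent.P032.Lt.q R0Q088.q1914_15) (q_cons (Vale.Agent.P032.Lt.q R0Q088.q1914_16) (q_cons (Vale.Agent.P032.Lt.q R0Q088.q1914_17) (q_cons (Vale.Agent.P032.Lt.q R0Q088.q1914_18) (q_cons (Vale.Agent.P032.Lt.q R0Q088.q1914_19) (q_cons (Vale.Agent.P032.Lt.q R0Q088.q1914_20) (q_cons (Vale.Agent.P032.Lt.q R0Q088.q1914_21) (q_cons (Vale.Agent.P032.Lt.q R0Q088.q1914_22) q_nil))))))))))))))))))))))))

theorem p1915 : Pat 73 73 TBm TCm (CB.map Fm) R0Q089.P1915 R0Q089.I1915 := Vale.Agent.P032.Lt.pat_eq (E' := R0Q089.E) eB (pat_step (by decide +kernel) (q_cons (Vale.Agent.P032.Lt.q R0Q089.q1915_0) q_nil))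

theorem p1916 : Pat 73 73 TBm TCm (CB.map Fm) R0Q089.P1916 R0Q089.I1916 := Vale.Agent.P032.Lt.pat_eq (E' := R0Q089.E) eB (pat_step (by decide +kernel) (q_cons (Vale.Agent.P032.Lt.q R0Q089.q1916_0) (q_cons (Vale.Agent.P032.Lt.q R0Q089.q1916_1) q_nil)))

theorem p1917 : Pat 73 73 TBm TCm (CB.map Fm) R0Q089.P1917 R0Q089.I1917 := Vale.Agent.P032.Lt.pat_eq (E' := R0Q089.E) eB (pat_step (by decide +kernel) (q_cons (Vale.Agent.P032.Lt.q R0Q089.q1917_0) (q_cons (Vale.Agent.P032.Lt.q R0Q089.q1917_1) q_nil)))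

theorem p1918 : Pat 73 73 TBm TCm (CB.map Fm) R0Q089.P1918 R0Q089.I1918 := Vale.Agent.P032.Lt.pat_eq (E' := R0Q089.E) eB (pat_step (by decide +kernel) (q_cons (Vale.Agent.P032.Lt.q R0Q089.q1918_0) (q_cons (Vale.Agent.P032.Lt.q R0Q089.q1918_1) (q_cons (Vale.Agent.P032.Lt.q R0Q089.q1918_2) q_nil))))

theorem p1919 : Pat 73 73 TBm TCm (CB.map Fm) R0Q089.P1919 R0Q089.I1919 := Vale.Agent.P032.Lt.pat_eq (E' := R0Q089.E) eB (pat_step (by decide +kernel) (q_cons (Vale.Agent.P032.Lt.q R0Q089.q1919_0) (q_cons (Vale.Agent.P032.Lt.q R0Q089.q1919_1) (q_cons (Vale.Agent.P032.Lt.q R0Q089.q1919_2) (q_cons (Vale.Agent.P032.Lt.q R0Q089.q1919_3) (q_cons (Vale.Agent.P032.Lt.q R0Q089.q1919_4) (q_cons (Vale.Agent.P032.Lt.q R0Q089.q1919_5) q_nil)))))))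

def L : List (List ℕ) := [R0Q082.P1792, R0Q082.P1793, R0Q082.P1794, R0Q082.P1795, R0Q082.P1796, R0Q082.P1797, R0Q082.P1798, R0Q082.P1799, R0Q082.P1800, R0Q082.P1801, R0Q082.P1802, R0Q082.P1803, R0Q082.P1804, R0Q083.P1805, R0Q083.P1806, R0Q083.P1807, R0Q083.P1808, R0Q083.P1809, R0Q083.P1810, R0Q083.P1811, R0Q083.P1812, R0Q083.P1813, R0Q083.P1814, R0Q084.P1815, R0Q084.P1816, R0Q084.P1817, R0Q084.P1818, R0Q084.P1819, R0Q084.P1820, R0Q084.P1821, R0Q084.P1822, R0Q084.P1823, R0Q084.P1824, R0Q084.P1825, R0Q084.P1826, R0Q084.P1827, R0Q084.P1828, R0Q084.P1829, R0Q084.P1830, R0Q084.P1831, R0Q084.P1832, R0Q084.P1833, R0Q084.P1834, R0Q084.P1835, R0Q084.P1836, R0Q085.P1837, R0Q085.P1838, R0Q085.P1839, R0Q085.P1840, R0Q085.P1841, R0Q085.P1842, R0Q085.P1843, R0Q085.P1844, R0Q085.P1845, R0Q085.P1846, R0Q085.P1847, R0Q085.P1848, R0Q085.P1849, R0Q085.P1850, R0Q085.P1851,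 R0Q085.P1852, R0Q085.P1853, R0Q085.P1854, R0Q085.P1855, R0Q085.P1856, R0Q085.P1857, R0Q085.P1858, R0Q085.P1859, R0Q086.P1860, R0Q086.P1861, R0Q086.P1862, R0Q086.P1863, R0Q086.P1864, R0Q086.P1865, R0Q086.P1866, R0Q086.P1867, R0Q086.P1868, R0Q086.P1869, R0Q086.P1870, R0Q086.P1871, R0Q087.P1872, R0Q087.P1873, R0Q087.P1874, R0Q087.P1875, R0Q087.P1876, R0Q087.P1877, R0Q087.P1878, R0Q087.P1879, R0Q087.P1880, R0Q087.P1881, R0Q087.P1882, R0Q087.P1883, R0Q087.P1884, R0Q087.P1885, R0Q087.P1886, R0Q087.P1887, R0Q088.P1888, R0Q088.P1889, R0Q088.P1890, R0Q088.P1891, R0Q088.P1892, R0Q088.P1893, R0Q088.P1894, R0Q088.P1895, R0Q088.P1896, R0Q088.P1897, R0Q088.P1898, R0Q088.P1899, R0Q088.P1900, R0Q088.P1901, R0Q088.P1902, R0Q088.P1903, R0Q088.P1904, R0Q088.P1905, R0Q088.P1906, R0Q088.P1907, R0Q088.P1908, R0Q088.P1909, R0Q088.P1910, R0Q088.P1911, R0Q088.P1912,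 R0Q088.P1913, R0Q088.P1914, R0Q089.P1915, R0Q089.P1916, R0Q089.P1917, R0Q089.P1918, R0Q089.P1919]

theorem all : ∀ P ∈ L, CrtF 73 73 TBm TCm (Vale.Agent.P032.Fam.fam2 (Vale.Agent.P032.Fam.im0)) P := crtF_cons p1792 (crtF_cons p1793 (crtF_cons p1794 (crtF_cons p1795 (crtF_cons p1796 (crtF_cons p1797 (crtF_cons p1798 (crtF_cons p1799 (crtF_cons p1800 (crtF_cons p1801 (crtF_cons p1802 (crtF_cons p1803 (crtF_cons p1804 (crtF_cons p1805 (crtF_cons p1806 (crtF_cons p1807 (crtF_cons p1808 (crtF_cons p1809 (crtF_cons p1810 (crtF_cons p1811 (crtF_cons p1812 (crtF_cons p1813 (crtF_cons p1814 (crtF_cons p1815 (crtF_cons p1816 (crtF_cons p1817 (crtF_cons p1818 (crtF_cons p1819 (crtF_cons p1820 (crtF_cons p1821 (crtF_cons p1822 (crtF_cons p1823 (crtF_cons p1824 (crtF_cons p1825 (crtF_cons p1826 (crtF_cons p1827 (crtF_cons p1828 (crtF_cons p1829 (crtF_cons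 p1830 (crtF_cons p1831 (crtF_cons p1832 (crtF_cons p1833 (crtF_cons p1834 (crtF_cons p1835 (crtF_cons p1836 (crtF_cons p1837 (crtF_cons p1838 (crtF_cons p1839 (crtF_cons p1840 (crtF_cons p1841 (crtF_cons p1842 (crtF_cons p1843 (crtF_cons p1844 (crtF_cons p1845 (crtF_cons p1846 (crtF_cons p1847 (crtF_cons p1848 (crtF_cons p1849 (crtF_cons p1850 (crtF_cons p1851 (crtF_cons p1852 (crtF_cons p1853 (crtF_cons p1854 (crtF_cons p1855 (crtF_cons p1856 (crtF_cons p1857 (crtF_cons p1858 (crtF_cons p1859 (crtF_cons p1860 (crtF_cons p1861 (crtF_cons p1862 (crtF_cons p1863 (crtF_cons p1864 (crtF_cons p1865 (crtF_cons p1866 (crtF_cons p1867 (crtF_cons p1868 (crtF_cons p1869 (crtF_cons p1870 (crtF_cons p1871 (crtF_cons p1872 (crtF_cons p1873 (crtF_cons p1874 (crtF_cons p1875 (crtF_cons p1876 (crtF_cons p1877 (crtF_cons p1878 (crtF_cons p1879 (crtF_cons p1880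 (crtF_cons p1881 (crtF_cons p1882 (crtF_cons p1883 (crtF_cons p1884 (crtF_cons p1885 (crtF_cons p1886 (crtF_cons p1887 (crtF_cons p1888 (crtF_cons p1889 (crtF_cons p1890 (crtF_cons p1891 (crtF_cons p1892 (crtF_cons p1893 (crtF_cons p1894 (crtF_cons p1895 (crtF_cons p1896 (crtF_cons p1897 (crtF_cons p1898 (crtF_cons p1899 (crtF_cons p1900 (crtF_cons p1901 (crtF_cons p1902 (crtF_cons p1903 (crtF_cons p1904 (crtF_cons p1905 (crtF_cons p1906 (crtF_cons p1907 (crtF_cons p1908 (crtF_cons p1909 (crtF_cons p1910 (crtF_cons p1911 (crtF_cons p1912 (crtF_cons p1913 (crtF_cons p1914 (crtF_cons p1915 (crtF_cons p1916 (crtF_cons p1917 (crtF_cons p1918 (crtF_cons p1919 crtF_nil)))))))))))))))))))))))))))))))))))))))))))))))))))))))))))))))))))))))))))))))))))))))))))))))))))))))))))))))))))))))))))))))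

theorem ch : chT 73 73 TCm s0_014 L = true := by decide +kernel

end Vale.Agent.P032X.Cert.XP.B1.R0H014
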