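import Vale.Agent.P032X.H892.LtH
import Vale.Agent.P032X.H286.W73
import Vale.Agent.P032X.Cert.XP.B1.R0T
import Vale.Agent.P032X.Cert.XP.B1.R0Q090
import Vale.Agent.P032X.Cert.XP.B1.R0Q091
import Vale.Agent.P032X.Cert.XP.B1.R0Q092
import Vale.Agent.P032X.Cert.XP.B1.R0Q093
import Vale.Agent.P032X.Cert.XP.B1.R0Q094

set_option maxRecDepth 1000000

namespace Vale.Agent.P032X.Cert.XP.B1.R0H015

open Vale.Agent.P032.H820.K Vale.Agent.P032.H357.MK Vale.Agent.P032.H286.E Vale.Agent.P032.H61 Vale.Agent.P032X.Cert.XP.B1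

noncomputable abbrev Fm : ℕ → List ℕ := Vale.Agent.P032.Fam.fam2 (Vale.Agent.P032.Fam.im0)

def CB : List ℕ := [0, 4, 8, 12, 16, 20, 24]

theorem eB : Vale.Agent.P032.Lt.eqLL (CB.map Fm) R0Q090.E = true := by decide +kernel

theorem p1920 : Pat 73 73 TBm TCm (CB.map Fm) R0Q090.P1920 R0Q090.I1920 := Vale.Agent.P032.Lt.pat_eq (E' := R0Q090.E) eB (pat_step (by decide +kernel) (q_cons (Vale.Agent.P032.Lt.q R0Q090.q1920_0) q_nil))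

theorem p1921 : Pat 73 73 TBm TCm (CB.map Fm) R0Q090.P1921 R0Q090.I1921 := Vale.Agent.P032.Lt.pat_eq (E' := R0Q090.E) eB (pat_step (by decide +kernel) (q_cons (Vale.Agent.P032.Lt.q R0Q090.q1921_0) (q_cons (Vale.Agent.P032.Lt.q R0Q090.q1921_1) (q_cons (Vale.Agent.P032.Lt.q R0Q090.q1921_2) (q_cons (Vale.Agent.P032.Lt.q R0Q090.q1921_3) (q_cons (Vale.Agent.P032.Lt.q R0Q090.q1921_4) (q_cons (Vale.Agent.P032.Lt.q R0Q090.q1921_5) q_nil)))))))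

theorem p1922 : Pat 73 73 TBm TCm (CB.map Fm) R0Q090.P1922 R0Q090.I1922 := Vale.Agent.P032.Lt.pat_eq (E' := R0Q090.E) eB (pat_step (by decide +kernel) (q_cons (Vale.Agent.P032.Lt.q R0Q090.q1922_0) q_nil))

theorem p1923 : Pat 73 73 TBm TCm (CB.map Fm) R0Q090.P1923 R0Q090.I1923 := Vale.Agent.P032.Lt.pat_eq (E' := R0Q090.E) eB (pat_step (by decide +kernel) (q_cons (Vale.Agent.P032.Lt.q R0Q090.q1923_0) q_nil))

theorem p1924 : Pat 73 73 TBm TCm (CB.map Fm) R0Q090.P1924 R0Q090.I1924 := Vale.Agent.P032.Lt.pat_eq (E' := R0Q090.E) eB (pat_step (by decide +kernel) (q_cons (Vale.Agent.P032.Lt.q R0Q090.q1924_0) (q_cons (Vale.Agent.P032.Lt.q R0Q090.q1924_1) (q_cons (Vale.Agent.P032.Lt.q R0Q090.q1924_2) (q_cons (Vale.Agent.P032.Lt.q R0Q090.q1924_3) (q_cons (Vale.Agent.P032.Lt.q R0Q090.q1924_4) q_nil))))))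

theorem p1925 : Pat 73 73 TBm TCm (CB.map Fm) R0Q090.P1925 R0Q090.I1925 := Vale.Agent.P032.Lt.pat_eq (E' := R0Q090.E) eB (pat_step (by decide +kernel) (q_cons (Vale.Agent.P032.Lt.q R0Q090.q1925_0) (q_cons (Vale.Agent.P032.Lt.q R0Q090.q1925_1) (q_cons (Vale.Agent.P032.Lt.q R0Q090.q1925_2) (q_cons (Vale.Agent.P032.Lt.q R0Q090.q1925_3) (q_cons (Vale.Agent.P032.Lt.q R0Q090.q1925_4) (q_cons (Vale.Agent.P032.Lt.q R0Q090.q1925_5) q_nil)))))))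

theorem p1926 : Pat 73 73 TBm TCm (CB.map Fm) R0Q090.P1926 R0Q090.I1926 := Vale.Agent.P032.Lt.pat_eq (E' := R0Q090.E) eB (pat_step (by decide +kernel) (q_cons (Vale.Agent.P032.Lt.q R0Q090.q1926_0) (q_cons (Vale.Agent.P032.Lt.q R0Q090.q1926_1) (q_cons (Vale.Agent.P032.Lt.q R0Q090.q1926_2) (q_cons (Vale.Agent.P032.Lt.q R0Q090.q1926_3) (q_cons (Vale.Agent.P032.Lt.q R0Q090.q1926_4) (q_cons (Vale.Agent.P032.Lt.q R0Q090.q1926_5) (q_cons (Vale.Agent.P032.Lt.q R0Q090.q1926_6) (q_cons (Vale.Agent.P032.Lt.q R0Q090.q1926_7) (q_cons (Vale.Agent.P032.Lt.q R0Q090.q1926_8) (q_cons (Vale.Agent.P032.Lt.q R0Q090.q1926_9) (q_cons (Vale.Agent.P032.Lt.q R0Q090.q1926_10) q_nil))))))))))))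

theorem p1927 : Pat 73 73 TBm TCm (CB.map Fm) R0Q090.P1927 R0Q090.I1927 := Vale.Agent.P032.Lt.pat_eq (E' := R0Q090.E) eB (pat_step (by decide +kernel) (q_cons (Vale.Agent.P032.Lt.q R0Q090.q1927_0) (q_cons (Vale.Agent.P032.Lt.q R0Q090.q1927_1) (q_cons (Vale.Agent.P032.Lt.q R0Q090.q1927_2) (q_cons (Vale.Agent.P032.Lt.q R0Q090.q1927_3) (q_cons (Vale.Agent.P032.Lt.q R0Q090.q1927_4) (q_cons (Vale.Agent.P032.Lt.q R0Q090.q1927_5) (q_cons (Vale.Agent.P032.Lt.q R0Q090.q1927_6) (q_cons (Vale.Agent.P032.Lt.q R0Q090.q1927_7) (q_cons (Vale.Agent.P032.Lt.q R0Q090.q1927_8) (q_cons (Vale.Agent.P032.Lt.q R0Q090.q1927_9) (q_cons (Vale.Agent.P032.Lt.q R0Q090.q1927_10) (q_cons (Vale.Agent.P032.Lt.q R0Q090.q1927_11) q_nil)))))))))))))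

theorem p1928 : Pat 73 73 TBm TCm (CB.map Fm) R0Q090.P1928 R0Q090.I1928 := Vale.Agent.P032.Lt.pat_eq (E' := R0Q090.E) eB (pat_step (by decide +kernel) (q_cons (Vale.Agent.P032.Lt.q R0Q090.q1928_0) q_nil))

theorem p1929 : Pat 73 73 TBm TCm (CB.map Fm) R0Q090.P1929 R0Q090.I1929 := Vale.Agent.P032.Lt.pat_eq (E' := R0Q090.E) eB (pat_step (by decide +kernel) (q_cons (Vale.Agent.P032.Lt.q R0Q090.q1929_0) (q_cons (Vale.Agent.P032.Lt.q R0Q090.q1929_1) (q_cons (Vale.Agent.P032.Lt.q R0Q090.q1929_2) (q_cons (Vale.Agent.P032.Lt.q R0Q090.q1929_3) q_nil)))))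

theorem p1930 : Pat 73 73 TBm TCm (CB.map Fm) R0Q090.P1930 R0Q090.I1930 := Vale.Agent.P032.Lt.pat_eq (E' := R0Q090.E) eB (pat_step (by decide +kernel) (q_cons (Vale.Agent.P032.Lt.q R0Q090.q1930_0) (q_cons (Vale.Agent.P032.Lt.q R0Q090.q1930_1) q_nil)))

def C1931 : List ℕ := [0, 4, 8, 12, 16, 20, 24, 475137, 615425, 737281]
theorem p1931 : Pat 73 73 TBm TCm (C1931.map Fm) R0Q090.P1931 R0Q090.I1931 := Vale.Agent.P032.Lt.pat_eq (E' := R0Q090.E1931) (by decide +kernel) (pat_step (by decide +kernel) (q_cons (Vale.Agent.P032.Lt.q R0Q090.q1931_0) q_nil))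

theorem p1932 : Pat 73 73 TBm TCm (CB.map Fm) R0Q090.P1932 R0Q090.I1932 := Vale.Agent.P032.Lt.pat_eq (E' := R0Q090.E) eB (pat_step (by decide +kernel) (q_cons (Vale.Agent.P032.Lt.q R0Q090.q1932_0) (q_cons (Vale.Agent.P032.Lt.q R0Q090.q1932_1) (q_cons (Vale.Agent.P032.Lt.q R0Q090.q1932_2) q_nil))))

def C1933 : List ℕ := [0, 4, 8, 12, 16, 20, 24, 344065, 475137, 615425, 737281]
theorem p1933 : Pat 73 73 TBm TCm (C1933.map Fm) R0Q090.P1933 R0Q090.I1933 := Vale.Agent.P032.Lt.pat_eq (E' := R0Q090.E1933) (by decide +kernel) (pat_step (by decide +kernel) (q_cons (Vale.Agent.P032.Lt.q R0Q090.q1933_0) q_nil))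

theorem p1934 : Pat 73 73 TBm TCm (CB.map Fm) R0Q090.P1934 R0Q090.I1934 := Vale.Agent.P032.Lt.pat_eq (E' := R0Q090.E) eB (pat_step (by decide +kernel) (q_cons (Vale.Agent.P032.Lt.q R0Q090.q1934_0) (q_cons (Vale.Agent.P032.Lt.q R0Q090.q1934_1) (q_cons (Vale.Agent.P032.Lt.q R0Q090.q1934_2) (q_cons (Vale.Agent.P032.Lt.q R0Q090.q1934_3) (q_cons (Vale.Agent.P032.Lt.q R0Q090.q1934_4) (q_cons (Vale.Agent.P032.Lt.q R0Q090.q1934_5) (q_cons (Vale.Agent.P032.Lt.q R0Q090.q1934_6) q_nil))))))))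

def C1935 : List ℕ := [0, 4, 8, 12, 16, 20, 24, 212993, 475137, 737281]
theorem p1935 : Pat 73 73 TBm TCm (C1935.map Fm) R0Q090.P1935 R0Q090.I1935 := Vale.Agent.P032.Lt.pat_eq (E' := R0Q090.E1935) (by decide +kernel) (pat_step (by decide +kernel) (q_cons (Vale.Agent.P032.Lt.q R0Q090.q1935_0) (q_cons (Vale.Agent.P032.Lt.q R0Q090.q1935_1) (q_cons (Vale.Agent.P032.Lt.q R0Q090.q1935_2) (q_cons (Vale.Agent.P032.Lt.q R0Q090.q1935_3) (q_cons (Vale.Agent.P032.Lt.q R0Q090.q1935_4) (q_cons (Vale.Agent.P032.Lt.q R0Q090.q1935_5) (q_cons (Vale.Agent.P032.Lt.q R0Q090.q1935_6) (q_cons (Vale.Agent.P032.Lt.q R0Q090.q1935_7) (q_cons (Vale.Agent.P032.Lt.q R0Q090.q1935_8) (q_cons (Vale.Agent.P032.Lt.q R0Q090.q1935_9) (q_cons (Vale.Agent.P032.Lt.q R0Q090.q1935_10) (q_cons (Vale.Agent.P032.Lt.q R0Q090.q1935_11) q_nil)))))))))))))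

theorem p1936 : Pat 73 73 TBm TCm (CB.map Fm) R0Q090.P1936 R0Q090.I1936 := Vale.Agent.P032.Lt.pat_eq (E' := R0Q090.E) eB (pat_step (by decide +kernel) (q_cons (Vale.Agent.P032.Lt.q R0Q090.q1936_0) q_nil))

def C1937 : List ℕ := [0, 4, 8, 12, 16, 20, 24, 606209]
theorem p1937 : Pat 73 73 TBm TCm (C1937.map Fm) R0Q090.P1937 R0Q090.I1937 := Vale.Agent.P032.Lt.pat_eq (E' := R0Q090.E1937) (by decide +kernel) (pat_step (by decide +kernel) (q_cons (Vale.Agent.P032.Lt.q R0Q090.q1937_0) (q_cons (Vale.Agent.P032.Lt.q R0Q090.q1937_1) (q_cons (Vale.Agent.P032.Lt.q R0Q090.q1937_2) (q_cons (Vale.Agent.P032.Lt.q R0Q090.q1937_3) q_nil)))))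

def C1938 : List ℕ := [0, 4, 8, 12, 16, 20, 24, 212993, 606209, 737281]
theorem p1938 : Pat 73 73 TBm TCm (C1938.map Fm) R0Q090.P1938 R0Q090.I1938 := Vale.Agent.P032.Lt.pat_eq (E' := R0Q090.E1938) (by decide +kernel) (pat_step (by decide +kernel) (q_cons (Vale.Agent.P032.Lt.q R0Q090.q1938_0) (q_cons (Vale.Agent.P032.Lt.q R0Q090.q1938_1) (q_cons (Vale.Agent.P032.Lt.q R0Q090.q1938_2) (q_cons (Vale.Agent.P032.Lt.q R0Q090.q1938_3) (q_cons (Vale.Agent.P032.Lt.q R0Q090.q1938_4) (q_cons (Vale.Agent.P032.Lt.q R0Q090.q1938_5) (q_cons (Vale.Agent.P032.Lt.q R0Q090.q1938_6) (q_cons (Vale.Agent.P032.Lt.q R0Q090.q1938_7) (q_cons (Vale.Agent.P032.Lt.q R0Q090.q1938_8) (q_cons (Vale.Agent.P032.Lt.q R0Q090.q1938_9) (q_cons (Vale.Agent.P032.Lt.q R0Q090.q1938_10) q_nil))))))))))))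

theorem p1939 : Pat 73 73 TBm TCm (CB.map Fm) R0Q090.P1939 R0Q090.I1939 := Vale.Agent.P032.Lt.pat_eq (E' := R0Q090.E) eB (pat_step (by decide +kernel) (q_cons (Vale.Agent.P032.Lt.q R0Q090.q1939_0) (q_cons (Vale.Agent.P032.Lt.q R0Q090.q1939_1) q_nil)))

theorem p1940 : Pat 73 73 TBm TCm (CB.map Fm) R0Q090.P1940 R0Q090.I1940 := Vale.Agent.P032.Lt.pat_eq (E' := R0Q090.E) eB (pat_step (by decide +kernel) (q_cons (Vale.Agent.P032.Lt.q R0Q090.q1940_0) (q_cons (Vale.Agent.P032.Lt.q R0Q090.q1940_1) (q_cons (Vale.Agent.P032.Lt.q R0Q090.q1940_2) (q_cons (Vale.Agent.P032.Lt.q R0Q090.q1940_3) (q_cons (Vale.Agent.P032.Lt.q R0Q090.q1940_4) (q_cons (Vale.Agent.P032.Lt.q R0Q090.q1940_5) q_nil)))))))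

theorem p1941 : Pat 73 73 TBm TCm (CB.map Fm) R0Q090.P1941 R0Q090.I1941 := Vale.Agent.P032.Lt.pat_eq (E' := R0Q090.E) eB (pat_step (by decide +kernel) (q_cons (Vale.Agent.P032.Lt.q R0Q090.q1941_0) (q_cons (Vale.Agent.P032.Lt.q R0Q090.q1941_1) q_nil)))

theorem p1942 : Pat 73 73 TBm TCm (CB.map Fm) R0Q090.P1942 R0Q090.I1942 := Vale.Agent.P032.Lt.pat_eq (E' := R0Q090.E) eB (pat_step (by decide +kernel) (q_cons (Vale.Agent.P032.Lt.q R0Q090.q1942_0) (q_cons (Vale.Agent.P032.Lt.q R0Q090.q1942_1) (q_cons (Vale.Agent.P032.Lt.q R0Q090.q1942_2) (q_cons (Vale.Agent.P032.Lt.q R0Q090.q1942_3) (q_cons (Vale.Agent.P032.Lt.q R0Q090.q1942_4) (q_cons (Vale.Agent.P032.Lt.q R0Q090.q1942_5) q_nil)))))))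

theorem p1943 : Pat 73 73 TBm TCm (CB.map Fm) R0Q090.P1943 R0Q090.I1943 := Vale.Agent.P032.Lt.pat_eq (E' := R0Q090.E) eB (pat_step (by decide +kernel) (q_cons (Vale.Agent.P032.Lt.q R0Q090.q1943_0) (q_cons (Vale.Agent.P032.Lt.q R0Q090.q1943_1) (q_cons (Vale.Agent.P032.Lt.q R0Q090.q1943_2) (q_cons (Vale.Agent.P032.Lt.q R0Q090.q1943_3) (q_cons (Vale.Agent.P032.Lt.q R0Q090.q1943_4) (q_cons (Vale.Agent.P032.Lt.q R0Q090.q1943_5) (q_cons (Vale.Agent.P032.Lt.q R0Q090.q1943_6) (q_cons (Vale.Agent.P032.Lt.q R0Q090.q1943_7) (q_cons (Vale.Agent.P032.Lt.q R0Q090.q1943_8) q_nil))))))))))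

theorem p1944 : Pat 73 73 TBm TCm (CB.map Fm) R0Q090.P1944 R0Q090.I1944 := Vale.Agent.P032.Lt.pat_eq (E' := R0Q090.E) eB (pat_step (by decide +kernel) (q_cons (Vale.Agent.P032.Lt.q R0Q090.q1944_0) (q_cons (Vale.Agent.P032.Lt.q R0Q090.q1944_1) (q_cons (Vale.Agent.P032.Lt.q R0Q090.q1944_2) (q_cons (Vale.Agent.P032.Lt.q R0Q090.q1944_3) (q_cons (Vale.Agent.P032.Lt.q R0Q090.q1944_4) (q_cons (Vale.Agent.P032.Lt.q R0Q090.q1944_5) (q_cons (Vale.Agent.P032.Lt.q R0Q090.q1944_6) (q_cons (Vale.Agent.P032.Lt.q R0Q090.q1944_7) (q_cons (Vale.Agent.P032.Lt.q R0Q090.q1944_8) (q_cons (Vale.Agent.P032.Lt.q R0Q090.q1944_9) (q_cons (Vale.Agent.P032.Lt.q R0Q090.q1944_10) (q_cons (Vale.Agent.P032.Lt.q R0Q090.q1944_11) (q_cons (Vale.Agent.P032.Lt.q R0Q090.q1944_12) (q_cons (Vale.Agent.P032.Lt.q R0Q090.q1944_13) (q_cons (Vale.Agent.P032.Lt.q R0Q090.q1944_14) (q_cons (Vale.Agent.P032.Lt.q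 R0Q090.q1944_15) (q_cons (Vale.Agent.P032.Lt.q R0Q090.q1944_16) (q_cons (Vale.Agent.P032.Lt.q R0Q090.q1944_17) (q_cons (Vale.Agent.P032.Lt.q R0Q090.q1944_18) (q_cons (Vale.Agent.P032.Lt.q R0Q090.q1944_19) (q_cons (Vale.Agent.P032.Lt.q R0Q090.q1944_20) (q_cons (Vale.Agent.P032.Lt.q R0Q090.q1944_21) (q_cons (Vale.Agent.P032.Lt.q R0Q090.q1944_22) (q_cons (Vale.Agent.P032.Lt.q R0Q090.q1944_23) (q_cons (Vale.Agent.P032.Lt.q R0Q090.q1944_24) (q_cons (Vale.Agent.P032.Lt.q R0Q090.q1944_25) (q_cons (Vale.Agent.P032.Lt.q R0Q090.q1944_26) q_nil))))))))))))))))))))))))))))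

theorem p1945 : Pat 73 73 TBm TCm (CB.map Fm) R0Q090.P1945 R0Q090.I1945 := Vale.Agent.P032.Lt.pat_eq (E' := R0Q090.E) eB (pat_step (by decide +kernel) (q_cons (Vale.Agent.P032.Lt.q R0Q090.q1945_0) (q_cons (Vale.Agent.P032.Lt.q R0Q090.q1945_1) (q_cons (Vale.Agent.P032.Lt.q R0Q090.q1945_2) (q_cons (Vale.Agent.P032.Lt.q R0Q090.q1945_3) (q_cons (Vale.Agent.P032.Lt.q R0Q090.q1945_4) q_nil))))))

theorem p1946 : Pat 73 73 TBm TCm (CB.map Fm) R0Q090.P1946 R0Q090.I1946 := Vale.Agent.P032.Lt.pat_eq (E' := R0Q090.E) eB (pat_step (by decide +kernel) (q_cons (Vale.Agent.P032.Lt.q R0Q090.q1946_0) (q_cons (Vale.Agent.P032.Lt.q R0Q090.q1946_1) (q_cons (Vale.Agent.P032.Lt.q R0Q090.q1946_2) (q_cons (Vale.Agent.P032.Lt.q R0Q090.q1946_3) (q_cons (Vale.Agent.P032.Lt.q R0Q090.q1946_4) (q_cons (Vale.Agent.P032.Lt.q R0Q090.q1946_5) (q_cons (Vale.Agent.P032.Lt.q R0Q090.q1946_6)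 (q_cons (Vale.Agent.P032.Lt.q R0Q090.q1946_7) (q_cons (Vale.Agent.P032.Lt.q R0Q090.q1946_8) (q_cons (Vale.Agent.P032.Lt.q R0Q090.q1946_9) q_nil)))))))))))

theorem p1947 : Pat 73 73 TBm TCm (CB.map Fm) R0Q091.P1947 R0Q091.I1947 := Vale.Agent.P032.Lt.pat_eq (E' := R0Q091.E) eB (pat_step (by decide +kernel) (q_cons (Vale.Agent.P032.Lt.q R0Q091.q1947_0) (q_cons (Vale.Agent.P032.Lt.q R0Q091.q1947_1) (q_cons (Vale.Agent.P032.Lt.q R0Q091.q1947_2) (q_cons (Vale.Agent.P032.Lt.q R0Q091.q1947_3) (q_cons (Vale.Agent.P032.Lt.q R0Q091.q1947_4) (q_cons (Vale.Agent.P032.Lt.q R0Q091.q1947_5) (q_cons (Vale.Agent.P032.Lt.q R0Q091.q1947_6) (q_cons (Vale.Agent.P032.Lt.q R0Q091.q1947_7) (q_cons (Vale.Agent.P032.Lt.q R0Q091.q1947_8) (q_cons (Vale.Agent.P032.Lt.q R0Q091.q1947_9) (q_cons (Vale.Agent.P032.Lt.q R0Q091.q1947_10) (q_cons (Vale.Agent.P032.Lt.q R0Q091.q1947_11)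 (q_cons (Vale.Agent.P032.Lt.q R0Q091.q1947_12) (q_cons (Vale.Agent.P032.Lt.q R0Q091.q1947_13) (q_cons (Vale.Agent.P032.Lt.q R0Q091.q1947_14) (q_cons (Vale.Agent.P032.Lt.q R0Q091.q1947_15) (q_cons (Vale.Agent.P032.Lt.q R0Q091.q1947_16) (q_cons (Vale.Agent.P032.Lt.q R0Q091.q1947_17) (q_cons (Vale.Agent.P032.Lt.q R0Q091.q1947_18) (q_cons (Vale.Agent.P032.Lt.q R0Q091.q1947_19) (q_cons (Vale.Agent.P032.Lt.q R0Q091.q1947_20) (q_cons (Vale.Agent.P032.Lt.q R0Q091.q1947_21) (q_cons (Vale.Agent.P032.Lt.q R0Q091.q1947_22) (q_cons (Vale.Agent.P032.Lt.q R0Q091.q1947_23) q_nil)))))))))))))))))))))))))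

theorem p1948 : Pat 73 73 TBm TCm (CB.map Fm) R0Q091.P1948 R0Q091.I1948 := Vale.Agent.P032.Lt.pat_eq (E' := R0Q091.E) eB (pat_step (by decide +kernel) (q_cons (Vale.Agent.P032.Lt.q R0Q091.q1948_0) q_nil))

def C1949 : List ℕ := [0, 4, 8, 12, 16, 20, 24, 347137, 475137, 611329, 737281]
theorem p1949 : Pat 73 73 TBm TCm (C1949.map Fm) R0Q091.P1949 R0Q091.I1949 := Vale.Agent.P032.Lt.pat_eq (E' := R0Q091.E1949) (by decide +kernel) (pat_step (by decide +kernel) (q_cons (Vale.Agent.P032.Lt.q R0Q091.q1949_0) (q_cons (Vale.Agent.P032.Lt.q R0Q091.q1949_1) (q_cons (Vale.Agent.P032.Lt.q R0Q091.q1949_2) (q_cons (Vale.Agent.P032.Lt.q R0Q091.q1949_3) (q_cons (Vale.Agent.P032.Lt.q R0Q091.q1949_4) (q_cons (Vale.Agent.P032.Lt.q R0Q091.q1949_5) (q_cons (Vale.Agent.P032.Lt.q R0Q091.q1949_6) (q_cons (Vale.Agent.P032.Lt.q R0Q091.q1949_7) (q_cons (Vale.Agent.P032.Lt.q R0Q091.q1949_8)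 (q_cons (Vale.Agent.P032.Lt.q R0Q091.q1949_9) (q_cons (Vale.Agent.P032.Lt.q R0Q091.q1949_10) (q_cons (Vale.Agent.P032.Lt.q R0Q091.q1949_11) (q_cons (Vale.Agent.P032.Lt.q R0Q091.q1949_12) (q_cons (Vale.Agent.P032.Lt.q R0Q091.q1949_13) (q_cons (Vale.Agent.P032.Lt.q R0Q091.q1949_14) (q_cons (Vale.Agent.P032.Lt.q R0Q091.q1949_15) (q_cons (Vale.Agent.P032.Lt.q R0Q091.q1949_16) (q_cons (Vale.Agent.P032.Lt.q R0Q091.q1949_17) (q_cons (Vale.Agent.P032.Lt.q R0Q091.q1949_18) (q_cons (Vale.Agent.P032.Lt.q R0Q091.q1949_19) (q_cons (Vale.Agent.P032.Lt.q R0Q091.q1949_20) (q_cons (Vale.Agent.P032.Lt.q R0Q091.q1949_21) q_nil)))))))))))))))))))))))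

def C1950 : List ℕ := [0, 4, 8, 12, 16, 20, 24, 91137, 475137, 737281]
theorem p1950 : Pat 73 73 TBm TCm (C1950.map Fm) R0Q091.P1950 R0Q091.I1950 := Vale.Agent.P032.Lt.pat_eq (E' := R0Q091.E1950) (by decide +kernel) (pat_step (by decide +kernel) (q_cons (Vale.Agent.P032.Lt.q R0Q091.q1950_0) (q_cons (Vale.Agent.P032.Lt.q R0Q091.q1950_1) (q_cons (Vale.Agent.P032.Lt.q R0Q091.q1950_2) (q_cons (Vale.Agent.P032.Lt.q R0Q091.q1950_3) q_nil)))))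

theorem p1951 : Pat 73 73 TBm TCm (CB.map Fm) R0Q091.P1951 R0Q091.I1951 := Vale.Agent.P032.Lt.pat_eq (E' := R0Q091.E) eB (pat_step (by decide +kernel) (q_cons (Vale.Agent.P032.Lt.q R0Q091.q1951_0) q_nil))

theorem p1952 : Pat 73 73 TBm TCm (CB.map Fm) R0Q091.P1952 R0Q091.I1952 := Vale.Agent.P032.Lt.pat_eq (E' := R0Q091.E) eB (pat_step (by decide +kernel) (q_cons (Vale.Agent.P032.Lt.q R0Q091.q1952_0) q_nil))

theorem p1953 : Pat 73 73 TBm TCm (CB.map Fm) R0Q091.P1953 R0Q091.I1953 := Vale.Agent.P032.Lt.pat_eq (E' := R0Q091.E) eB (pat_step (by decide +kernel) (q_cons (Vale.Agent.P032.Lt.q R0Q091.q1953_0) (q_cons (Vale.Agent.P032.Lt.q R0Q091.q1953_1) (q_cons (Vale.Agent.P032.Lt.q R0Q091.q1953_2) q_nil))))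

theorem p1954 : Pat 73 73 TBm TCm (CB.map Fm) R0Q091.P1954 R0Q091.I1954 := Vale.Agent.P032.Lt.pat_eq (E' := R0Q091.E) eB (pat_step (by decide +kernel) (q_cons (Vale.Agent.P032.Lt.q R0Q091.q1954_0) (q_cons (Vale.Agent.P032.Lt.q R0Q091.q1954_1) q_nil)))

theorem p1955 : Pat 73 73 TBm TCm (CB.map Fm) R0Q091.P1955 R0Q091.I1955 := Vale.Agent.P032.Lt.pat_eq (E' := R0Q091.E) eB (pat_step (by decide +kernel) (q_cons (Vale.Agent.P032.Lt.q R0Q091.q1955_0) (q_cons (Vale.Agent.P032.Lt.q R0Q091.q1955_1) q_nil)))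

theorem p1956 : Pat 73 73 TBm TCm (CB.map Fm) R0Q091.P1956 R0Q091.I1956 := Vale.Agent.P032.Lt.pat_eq (E' := R0Q091.E) eB (pat_step (by decide +kernel) (q_cons (Vale.Agent.P032.Lt.q R0Q091.q1956_0) (q_cons (Vale.Agent.P032.Lt.q R0Q091.q1956_1) (q_cons (Vale.Agent.P032.Lt.q R0Q091.q1956_2) (q_cons (Vale.Agent.P032.Lt.q R0Q091.q1956_3) (q_cons (Vale.Agent.P032.Lt.q R0Q091.q1956_4) q_nil))))))

theorem p1957 : Pat 73 73 TBm TCm (CB.map Fm) R0Q091.P1957 R0Q091.I1957 := Vale.Agent.P032.Lt.pat_eq (E' := R0Q091.E) eB (pat_step (by decide +kernel) (q_cons (Vale.Agent.P032.Lt.q R0Q091.q1957_0) (q_cons (Vale.Agent.P032.Lt.q R0Q091.q1957_1) (q_cons (Vale.Agent.P032.Lt.q R0Q091.q1957_2) (q_cons (Vale.Agent.P032.Lt.q R0Q091.q1957_3) (q_cons (Vale.Agent.P032.Lt.q R0Q091.q1957_4) (q_cons (Vale.Agent.P032.Lt.q R0Q091.q1957_5) (q_cons (Vale.Agent.P032.Lt.q R0Q091.q1957_6)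 (q_cons (Vale.Agent.P032.Lt.q R0Q091.q1957_7) (q_cons (Vale.Agent.P032.Lt.q R0Q091.q1957_8) (q_cons (Vale.Agent.P032.Lt.q R0Q091.q1957_9) (q_cons (Vale.Agent.P032.Lt.q R0Q091.q1957_10) (q_cons (Vale.Agent.P032.Lt.q R0Q091.q1957_11) (q_cons (Vale.Agent.P032.Lt.q R0Q091.q1957_12) q_nil))))))))))))))

theorem p1958 : Pat 73 73 TBm TCm (CB.map Fm) R0Q091.P1958 R0Q091.I1958 := Vale.Agent.P032.Lt.pat_eq (E' := R0Q091.E) eB (pat_step (by decide +kernel) (q_cons (Vale.Agent.P032.Lt.q R0Q091.q1958_0) (q_cons (Vale.Agent.P032.Lt.q R0Q091.q1958_1) q_nil)))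

theorem p1959 : Pat 73 73 TBm TCm (CB.map Fm) R0Q091.P1959 R0Q091.I1959 := Vale.Agent.P032.Lt.pat_eq (E' := R0Q091.E) eB (pat_step (by decide +kernel) (q_cons (Vale.Agent.P032.Lt.q R0Q091.q1959_0) (q_cons (Vale.Agent.P032.Lt.q R0Q091.q1959_1) (q_cons (Vale.Agent.P032.Lt.q R0Q091.q1959_2) (q_cons (Vale.Agent.P032.Lt.q R0Q091.q1959_3) (q_cons (Vale.Agent.P032.Lt.q R0Q091.q1959_4) (q_cons (Vale.Agent.P032.Lt.q R0Q091.q1959_5) q_nil)))))))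

theorem p1960 : Pat 73 73 TBm TCm (CB.map Fm) R0Q091.P1960 R0Q091.I1960 := Vale.Agent.P032.Lt.pat_eq (E' := R0Q091.E) eB (pat_step (by decide +kernel) (q_cons (Vale.Agent.P032.Lt.q R0Q091.q1960_0) (q_cons (Vale.Agent.P032.Lt.q R0Q091.q1960_1) (q_cons (Vale.Agent.P032.Lt.q R0Q091.q1960_2) q_nil))))

theorem p1961 : Pat 73 73 TBm TCm (CB.map Fm) R0Q091.P1961 R0Q091.I1961 := Vale.Agent.P032.Lt.pat_eq (E' := R0Q091.E) eB (pat_step (by decide +kernel) (q_cons (Vale.Agent.P032.Lt.q R0Q091.q1961_0) (q_cons (Vale.Agent.P032.Lt.q R0Q091.q1961_1) (q_cons (Vale.Agent.P032.Lt.q R0Q091.q1961_2) (q_cons (Vale.Agent.P032.Lt.q R0Q091.q1961_3) (q_cons (Vale.Agent.P032.Lt.q R0Q091.q1961_4) q_nil))))))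

theorem p1962 : Pat 73 73 TBm TCm (CB.map Fm) R0Q091.P1962 R0Q091.I1962 := Vale.Agent.P032.Lt.pat_eq (E' := R0Q091.E) eB (pat_step (by decide +kernel) (q_cons (Vale.Agent.P032.Lt.q R0Q091.q1962_0) (q_cons (Vale.Agent.P032.Lt.q R0Q091.q1962_1) (q_cons (Vale.Agent.P032.Lt.q R0Q091.q1962_2) (q_cons (Vale.Agent.P032.Lt.q R0Q091.q1962_3) q_nil)))))

theorem p1963 : Pat 73 73 TBm TCm (CB.map Fm) R0Q091.P1963 R0Q091.I1963 := Vale.Agent.P032.Lt.pat_eq (E' := R0Q091.E) eB (pat_step (by decide +kernel) (q_cons (Vale.Agent.P032.Lt.q R0Q091.q1963_0) (q_cons (Vale.Agent.P032.Lt.q R0Q091.q1963_1) (q_cons (Vale.Agent.P032.Lt.q R0Q091.q1963_2) q_nil))))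

theorem p1964 : Pat 73 73 TBm TCm (CB.map Fm) R0Q091.P1964 R0Q091.I1964 := Vale.Agent.P032.Lt.pat_eq (E' := R0Q091.E) eB (pat_step (by decide +kernel) (q_cons (Vale.Agent.P032.Lt.q R0Q091.q1964_0) (q_cons (Vale.Agent.P032.Lt.q R0Q091.q1964_1) (q_cons (Vale.Agent.P032.Lt.q R0Q091.q1964_2) (q_cons (Vale.Agent.P032.Lt.q R0Q091.q1964_3) (q_cons (Vale.Agent.P032.Lt.q R0Q091.q1964_4) q_nil))))))

theorem p1965 : Pat 73 73 TBm TCm (CB.map Fm) R0Q091.P1965 R0Q091.I1965 := Vale.Agent.P032.Lt.pat_eq (E' := R0Q091.E) eB (pat_step (by decide +kernel) (q_cons (Vale.Agent.P032.Lt.q R0Q091.q1965_0) q_nil))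

theorem p1966 : Pat 73 73 TBm TCm (CB.map Fm) R0Q091.P1966 R0Q091.I1966 := Vale.Agent.P032.Lt.pat_eq (E' := R0Q091.E) eB (pat_step (by decide +kernel) (q_cons (Vale.Agent.P032.Lt.q R0Q091.q1966_0) (q_cons (Vale.Agent.P032.Lt.q R0Q091.q1966_1) (q_cons (Vale.Agent.P032.Lt.q R0Q091.q1966_2) q_nil))))

theorem p1967 : Pat 73 73 TBm TCm (CB.map Fm) R0Q091.P1967 R0Q091.I1967 := Vale.Agent.P032.Lt.pat_eq (E' := R0Q091.E) eB (pat_step (by decide +kernel) (q_cons (Vale.Agent.P032.Lt.q R0Q091.q1967_0) (q_cons (Vale.Agent.P032.Lt.q R0Q091.q1967_1) q_nil)))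

theorem p1968 : Pat 73 73 TBm TCm (CB.map Fm) R0Q091.P1968 R0Q091.I1968 := Vale.Agent.P032.Lt.pat_eq (E' := R0Q091.E) eB (pat_step (by decide +kernel) (q_cons (Vale.Agent.P032.Lt.q R0Q091.q1968_0) (q_cons (Vale.Agent.P032.Lt.q R0Q091.q1968_1) q_nil)))

theorem p1969 : Pat 73 73 TBm TCm (CB.map Fm) R0Q091.P1969 R0Q091.I1969 := Vale.Agent.P032.Lt.pat_eq (E' := R0Q091.E) eB (pat_step (by decide +kernel) (q_cons (Vale.Agent.P032.Lt.q R0Q091.q1969_0) q_nil))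

theorem p1970 : Pat 73 73 TBm TCm (CB.map Fm) R0Q091.P1970 R0Q091.I1970 := Vale.Agent.P032.Lt.pat_eq (E' := R0Q091.E) eB (pat_step (by decide +kernel) (q_cons (Vale.Agent.P032.Lt.q R0Q091.q1970_0) q_nil))

theorem p1971 : Pat 73 73 TBm TCm (CB.map Fm) R0Q091.P1971 R0Q091.I1971 := Vale.Agent.P032.Lt.pat_eq (E' := R0Q091.E) eB (pat_step (by decide +kernel) (q_cons (Vale.Agent.P032.Lt.q R0Q091.q1971_0) q_nil))

theorem p1972 : Pat 73 73 TBm TCm (CB.map Fm) R0Q092.P1972 R0Q092.I1972 := Vale.Agent.P032.Lt.pat_eq (E' := R0Q092.E) eB (pat_step (by decide +kernel) (q_cons (Vale.Agent.P032.Lt.q R0Q092.q1972_0) (q_cons (Vale.Agent.P032.Lt.q R0Q092.q1972_1) (q_cons (Vale.Agent.P032.Lt.q R0Q092.q1972_2) q_nil))))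

theorem p1973 : Pat 73 73 TBm TCm (CB.map Fm) R0Q092.P1973 R0Q092.I1973 := Vale.Agent.P032.Lt.pat_eq (E' := R0Q092.E) eB (pat_step (by decide +kernel) (q_cons (Vale.Agent.P032.Lt.q R0Q092.q1973_0) (q_cons (Vale.Agent.P032.Lt.q R0Q092.q1973_1) (q_cons (Vale.Agent.P032.Lt.q R0Q092.q1973_2) (q_cons (Vale.Agent.P032.Lt.q R0Q092.q1973_3) q_nil)))))

theorem p1974 : Pat 73 73 TBm TCm (CB.map Fm) R0Q092.P1974 R0Q092.I1974 := Vale.Agent.P032.Lt.pat_eq (E' := R0Q092.E) eB (pat_step (by decide +kernel) (q_cons (Vale.Agent.P032.Lt.q R0Q092.q1974_0) (q_cons (Vale.Agent.P032.Lt.q R0Q092.q1974_1) (q_cons (Vale.Agent.P032.Lt.q R0Q092.q1974_2) q_nil))))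

theorem p1975 : Pat 73 73 TBm TCm (CB.map Fm) R0Q092.P1975 R0Q092.I1975 := Vale.Agent.P032.Lt.pat_eq (E' := R0Q092.E) eB (pat_step (by decide +kernel) (q_cons (Vale.Agent.P032.Lt.q R0Q092.q1975_0) (q_cons (Vale.Agent.P032.Lt.q R0Q092.q1975_1) q_nil)))

theorem p1976 : Pat 73 73 TBm TCm (CB.map Fm) R0Q092.P1976 R0Q092.I1976 := Vale.Agent.P032.Lt.pat_eq (E' := R0Q092.E) eB (pat_step (by decide +kernel) (q_cons (Vale.Agent.P032.Lt.q R0Q092.q1976_0) q_nil))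

theorem p1977 : Pat 73 73 TBm TCm (CB.map Fm) R0Q092.P1977 R0Q092.I1977 := Vale.Agent.P032.Lt.pat_eq (E' := R0Q092.E) eB (pat_step (by decide +kernel) (q_cons (Vale.Agent.P032.Lt.q R0Q092.q1977_0) (q_cons (Vale.Agent.P032.Lt.q R0Q092.q1977_1) q_nil)))

theorem p1978 : Pat 73 73 TBm TCm (CB.map Fm) R0Q092.P1978 R0Q092.I1978 := Vale.Agent.P032.Lt.pat_eq (E' := R0Q092.E) eB (pat_step (by decide +kernel) (q_cons (Vale.Agent.P032.Lt.q R0Q092.q1978_0) q_nil))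

theorem p1979 : Pat 73 73 TBm TCm (CB.map Fm) R0Q092.P1979 R0Q092.I1979 := Vale.Agent.P032.Lt.pat_eq (E' := R0Q092.E) eB (pat_step (by decide +kernel) (q_cons (Vale.Agent.P032.Lt.q R0Q092.q1979_0) (q_cons (Vale.Agent.P032.Lt.q R0Q092.q1979_1) (q_cons (Vale.Agent.P032.Lt.q R0Q092.q1979_2) (q_cons (Vale.Agent.P032.Lt.q R0Q092.q1979_3) (q_cons (Vale.Agent.P032.Lt.q R0Q092.q1979_4) (q_cons (Vale.Agent.P032.Lt.q R0Q092.q1979_5) (q_cons (Vale.Agent.P032.Lt.q R0Q092.q1979_6) (q_cons (Vale.Agent.P032.Lt.q R0Q092.q1979_7) q_nil)))))))))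

theorem p1980 : Pat 73 73 TBm TCm (CB.map Fm) R0Q092.P1980 R0Q092.I1980 := Vale.Agent.P032.Lt.pat_eq (E' := R0Q092.E) eB (pat_step (by decide +kernel) (q_cons (Vale.Agent.P032.Lt.q R0Q092.q1980_0) q_nil))

def C1981 : List ℕ := [0, 4, 8, 12, 16, 20, 24, 344065, 475137]
theorem p1981 : Pat 73 73 TBm TCm (C1981.map Fm) R0Q092.P1981 R0Q092.I1981 := Vale.Agent.P032.Lt.pat_eq (E' := R0Q092.E1981) (by decide +kernel) (pat_step (by decide +kernel) (q_cons (Vale.Agent.P032.Lt.q R0Q092.q1981_0) (q_cons (Vale.Agent.P032.Lt.q R0Q092.q1981_1) (q_cons (Vale.Agent.P032.Lt.q R0Q092.q1981_2) (q_cons (Vale.Agent.P032.Lt.q R0Q092.q1981_3) (q_cons (Vale.Agent.P032.Lt.q R0Q092.q1981_4) (q_cons (Vale.Agent.P032.Lt.q R0Q092.q1981_5) (q_cons (Vale.Agent.P032.Lt.q R0Q092.q1981_6) (q_cons (Vale.Agent.P032.Lt.q R0Q092.q1981_7) (q_cons (Vale.Agent.P032.Lt.q R0Q092.q1981_8) (q_cons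 (Vale.Agent.P032.Lt.q R0Q092.q1981_9) q_nil)))))))))))

theorem p1982 : Pat 73 73 TBm TCm (CB.map Fm) R0Q092.P1982 R0Q092.I1982 := Vale.Agent.P032.Lt.pat_eq (E' := R0Q092.E) eB (pat_step (by decide +kernel) (q_cons (Vale.Agent.P032.Lt.q R0Q092.q1982_0) (q_cons (Vale.Agent.P032.Lt.q R0Q092.q1982_1) (q_cons (Vale.Agent.P032.Lt.q R0Q092.q1982_2) (q_cons (Vale.Agent.P032.Lt.q R0Q092.q1982_3) (q_cons (Vale.Agent.P032.Lt.q R0Q092.q1982_4) (q_cons (Vale.Agent.P032.Lt.q R0Q092.q1982_5) (q_cons (Vale.Agent.P032.Lt.q R0Q092.q1982_6) (q_cons (Vale.Agent.P032.Lt.q R0Q092.q1982_7) (q_cons (Vale.Agent.P032.Lt.q R0Q092.q1982_8) (q_cons (Vale.Agent.P032.Lt.q R0Q092.q1982_9) (q_cons (Vale.Agent.P032.Lt.q R0Q092.q1982_10) (q_cons (Vale.Agent.P032.Lt.q R0Q092.q1982_11) (q_cons (Vale.Agent.P032.Lt.q R0Q092.q1982_12) q_nil))))))))))))))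

theorem p1983 : Pat 73 73 TBm TCm (CB.map Fm) R0Q092.P1983 R0Q092.I1983 := Vale.Agent.P032.Lt.pat_eq (E' := R0Q092.E) eB (pat_step (by decide +kernel) (q_cons (Vale.Agent.P032.Lt.q R0Q092.q1983_0) q_nil))

theorem p1984 : Pat 73 73 TBm TCm (CB.map Fm) R0Q092.P1984 R0Q092.I1984 := Vale.Agent.P032.Lt.pat_eq (E' := R0Q092.E) eB (pat_step (by decide +kernel) (q_cons (Vale.Agent.P032.Lt.q R0Q092.q1984_0) q_nil))

theorem p1985 : Pat 73 73 TBm TCm (CB.map Fm) R0Q092.P1985 R0Q092.I1985 := Vale.Agent.P032.Lt.pat_eq (E' := R0Q092.E) eB (pat_step (by decide +kernel) (q_cons (Vale.Agent.P032.Lt.q R0Q092.q1985_0) (q_cons (Vale.Agent.P032.Lt.q R0Q092.q1985_1) q_nil)))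

theorem p1986 : Pat 73 73 TBm TCm (CB.map Fm) R0Q092.P1986 R0Q092.I1986 := Vale.Agent.P032.Lt.pat_eq (E' := R0Q092.E) eB (pat_step (by decide +kernel) (q_cons (Vale.Agent.P032.Lt.q R0Q092.q1986_0) (q_cons (Vale.Agent.P032.Lt.q R0Q092.q1986_1) q_nil)))

theorem p1987 : Pat 73 73 TBm TCm (CB.map Fm) R0Q092.P1987 R0Q092.I1987 := Vale.Agent.P032.Lt.pat_eq (E' := R0Q092.E) eB (pat_step (by decide +kernel) (q_cons (Vale.Agent.P032.Lt.q R0Q092.q1987_0) q_nil))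

theorem p1988 : Pat 73 73 TBm TCm (CB.map Fm) R0Q092.P1988 R0Q092.I1988 := Vale.Agent.P032.Lt.pat_eq (E' := R0Q092.E) eB (pat_step (by decide +kernel) (q_cons (Vale.Agent.P032.Lt.q R0Q092.q1988_0) (q_cons (Vale.Agent.P032.Lt.q R0Q092.q1988_1) (q_cons (Vale.Agent.P032.Lt.q R0Q092.q1988_2) q_nil))))

theorem p1989 : Pat 73 73 TBm TCm (CB.map Fm) R0Q092.P1989 R0Q092.I1989 := Vale.Agent.P032.Lt.pat_eq (E' := R0Q092.E) eB (pat_step (by decide +kernel) (q_cons (Vale.Agent.P032.Lt.q R0Q092.q1989_0) q_nil))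

theorem p1990 : Pat 73 73 TBm TCm (CB.map Fm) R0Q092.P1990 R0Q092.I1990 := Vale.Agent.P032.Lt.pat_eq (E' := R0Q092.E) eB (pat_step (by decide +kernel) (q_cons (Vale.Agent.P032.Lt.q R0Q092.q1990_0) (q_cons (Vale.Agent.P032.Lt.q R0Q092.q1990_1) q_nil)))

theorem p1991 : Pat 73 73 TBm TCm (CB.map Fm) R0Q092.P1991 R0Q092.I1991 := Vale.Agent.P032.Lt.pat_eq (E' := R0Q092.E) eB (pat_step (by decide +kernel) (q_cons (Vale.Agent.P032.Lt.q R0Q092.q1991_0) (q_cons (Vale.Agent.P032.Lt.q R0Q092.q1991_1) (q_cons (Vale.Agent.P032.Lt.q R0Q092.q1991_2) (q_cons (Vale.Agent.P032.Lt.q R0Q092.q1991_3) (q_cons (Vale.Agent.P032.Lt.q R0Q092.q1991_4) (q_cons (Vale.Agent.P032.Lt.q R0Q092.q1991_5) (q_cons (Vale.Agent.P032.Lt.q R0Q092.q1991_6) q_nil))))))))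

theorem p1992 : Pat 73 73 TBm TCm (CB.map Fm) R0Q092.P1992 R0Q092.I1992 := Vale.Agent.P032.Lt.pat_eq (E' := R0Q092.E) eB (pat_step (by decide +kernel) (q_cons (Vale.Agent.P032.Lt.q R0Q092.q1992_0) (q_cons (Vale.Agent.P032.Lt.q R0Q092.q1992_1) (q_cons (Vale.Agent.P032.Lt.q R0Q092.q1992_2) q_nil))))

theorem p1993 : Pat 73 73 TBm TCm (CB.map Fm) R0Q092.P1993 R0Q092.I1993 := Vale.Agent.P032.Lt.pat_eq (E' := R0Q092.E) eB (pat_step (by decide +kernel) (q_cons (Vale.Agent.P032.Lt.q R0Q092.q1993_0) (q_cons (Vale.Agent.P032.Lt.q R0Q092.q1993_1) (q_cons (Vale.Agent.P032.Lt.q R0Q092.q1993_2) (q_cons (Vale.Agent.P032.Lt.q R0Q092.q1993_3) (q_cons (Vale.Agent.P032.Lt.q R0Q092.q1993_4) q_nil))))))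

def C1994 : List ℕ := [0, 4, 8, 12, 16, 20, 24, 344065, 475137, 607233, 609281, 737281, 741377]
theorem p1994 : Pat 73 73 TBm TCm (C1994.map Fm) R0Q092.P1994 R0Q092.I1994 := Vale.Agent.P032.Lt.pat_eq (E' := R0Q092.E1994) (by decide +kernel) (pat_step (by decide +kernel) (q_cons (Vale.Agent.P032.Lt.q R0Q092.q1994_0) (q_cons (Vale.Agent.P032.Lt.q R0Q092.q1994_1) q_nil)))

theorem p1995 : Pat 73 73 TBm TCm (CB.map Fm) R0Q092.P1995 R0Q092.I1995 := Vale.Agent.P032.Lt.pat_eq (E' := R0Q092.E) eB (pat_step (by decide +kernel) (q_cons (Vale.Agent.P032.Lt.q R0Q092.q1995_0) q_nil))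

theorem p1996 : Pat 73 73 TBm TCm (CB.map Fm) R0Q092.P1996 R0Q092.I1996 := Vale.Agent.P032.Lt.pat_eq (E' := R0Q092.E) eB (pat_step (by decide +kernel) (q_cons (Vale.Agent.P032.Lt.q R0Q092.q1996_0) q_nil))

theorem p1997 : Pat 73 73 TBm TCm (CB.map Fm) R0Q092.P1997 R0Q092.I1997 := Vale.Agent.P032.Lt.pat_eq (E' := R0Q092.E) eB (pat_step (by decide +kernel) (q_cons (Vale.Agent.P032.Lt.q R0Q092.q1997_0) (q_cons (Vale.Agent.P032.Lt.q R0Q092.q1997_1) q_nil)))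

theorem p1998 : Pat 73 73 TBm TCm (CB.map Fm) R0Q092.P1998 R0Q092.I1998 := Vale.Agent.P032.Lt.pat_eq (E' := R0Q092.E) eB (pat_step (by decide +kernel) (q_cons (Vale.Agent.P032.Lt.q R0Q092.q1998_0) (q_cons (Vale.Agent.P032.Lt.q R0Q092.q1998_1) q_nil)))

theorem p1999 : Pat 73 73 TBm TCm (CB.map Fm) R0Q092.P1999 R0Q092.I1999 := Vale.Agent.P032.Lt.pat_eq (E' := R0Q092.E) eB (pat_step (by decide +kernel) (q_cons (Vale.Agent.P032.Lt.q R0Q092.q1999_0) q_nil))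

theorem p2000 : Pat 73 73 TBm TCm (CB.map Fm) R0Q092.P2000 R0Q092.I2000 := Vale.Agent.P032.Lt.pat_eq (E' := R0Q092.E) eB (pat_step (by decide +kernel) (q_cons (Vale.Agent.P032.Lt.q R0Q092.q2000_0) (q_cons (Vale.Agent.P032.Lt.q R0Q092.q2000_1) (q_cons (Vale.Agent.P032.Lt.q R0Q092.q2000_2) (q_cons (Vale.Agent.P032.Lt.q R0Q092.q2000_3) (q_cons (Vale.Agent.P032.Lt.q R0Q092.q2000_4) (q_cons (Vale.Agent.P032.Lt.q R0Q092.q2000_5) q_nil)))))))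

theorem p2001 : Pat 73 73 TBm TCm (CB.map Fm) R0Q092.P2001 R0Q092.I2001 := Vale.Agent.P032.Lt.pat_eq (E' := R0Q092.E) eB (pat_step (by decide +kernel) (q_cons (Vale.Agent.P032.Lt.q R0Q092.q2001_0) q_nil))

theorem p2002 : Pat 73 73 TBm TCm (CB.map Fm) R0Q092.P2002 R0Q092.I2002 := Vale.Agent.P032.Lt.pat_eq (E' := R0Q092.E) eB (pat_step (by decide +kernel) (q_cons (Vale.Agent.P032.Lt.q R0Q092.q2002_0) q_nil))

theorem p2003 : Pat 73 73 TBm TCm (CB.map Fm) R0Q092.P2003 R0Q092.I2003 := Vale.Agent.P032.Lt.pat_eq (E' := R0Q092.E) eB (pat_step (by decide +kernel) (q_cons (Vale.Agent.P032.Lt.q R0Q092.q2003_0) q_nil))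

theorem p2004 : Pat 73 73 TBm TCm (CB.map Fm) R0Q092.P2004 R0Q092.I2004 := Vale.Agent.P032.Lt.pat_eq (E' := R0Q092.E) eB (pat_step (by decide +kernel) (q_cons (Vale.Agent.P032.Lt.q R0Q092.q2004_0) (q_cons (Vale.Agent.P032.Lt.q R0Q092.q2004_1) (q_cons (Vale.Agent.P032.Lt.q R0Q092.q2004_2) (q_cons (Vale.Agent.P032.Lt.q R0Q092.q2004_3) (q_cons (Vale.Agent.P032.Lt.q R0Q092.q2004_4) q_nil))))))

def C2005 : List ℕ := [0, 4, 8, 12, 16, 20, 24, 475137, 737281]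
theorem p2005 : Pat 73 73 TBm TCm (C2005.map Fm) R0Q092.P2005 R0Q092.I2005 := Vale.Agent.P032.Lt.pat_eq (E' := R0Q092.E2005) (by decide +kernel) (pat_step (by decide +kernel) (q_cons (Vale.Agent.P032.Lt.q R0Q092.q2005_0) (q_cons (Vale.Agent.P032.Lt.q R0Q092.q2005_1) q_nil)))

def C2006 : List ℕ := [0, 4, 8, 12, 16, 20, 24, 349185, 475137, 737281]
theorem p2006 : Pat 73 73 TBm TCm (C2006.map Fm) R0Q093.P2006 R0Q093.I2006 := Vale.Agent.P032.Lt.pat_eq (E' := R0Q093.E2006) (by decide +kernel) (pat_step (by decide +kernel) (q_cons (Vale.Agent.P032.Lt.q R0Q093.q2006_0) (q_cons (Vale.Agent.P032.Lt.q R0Q093.q2006_1) (q_cons (Vale.Agent.P032.Lt.q R0Q093.q2006_2) q_nil))))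

theorem p2007 : Pat 73 73 TBm TCm (CB.map Fm) R0Q093.P2007 R0Q093.I2007 := Vale.Agent.P032.Lt.pat_eq (E' := R0Q093.E) eB (pat_step (by decide +kernel) (q_cons (Vale.Agent.P032.Lt.q R0Q093.q2007_0) (q_cons (Vale.Agent.P032.Lt.q R0Q093.q2007_1) (q_cons (Vale.Agent.P032.Lt.q R0Q093.q2007_2) (q_cons (Vale.Agent.P032.Lt.q R0Q093.q2007_3) (q_cons (Vale.Agent.P032.Lt.q R0Q093.q2007_4) (q_cons (Vale.Agent.P032.Lt.q R0Q093.q2007_5) (q_cons (Vale.Agent.P032.Lt.q R0Q093.q2007_6) (q_cons (Vale.Agent.P032.Lt.q R0Q093.q2007_7) q_nil)))))))))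

theorem p2008 : Pat 73 73 TBm TCm (CB.map Fm) R0Q093.P2008 R0Q093.I2008 := Vale.Agent.P032.Lt.pat_eq (E' := R0Q093.E) eB (pat_step (by decide +kernel) (q_cons (Vale.Agent.P032.Lt.q R0Q093.q2008_0) (q_cons (Vale.Agent.P032.Lt.q R0Q093.q2008_1) (q_cons (Vale.Agent.P032.Lt.q R0Q093.q2008_2) (q_cons (Vale.Agent.P032.Lt.q R0Q093.q2008_3) (q_cons (Vale.Agent.P032.Lt.q R0Q093.q2008_4) q_nil))))))

theorem p2009 : Pat 73 73 TBm TCm (CB.map Fm) R0Q093.P2009 R0Q093.I2009 := Vale.Agent.P032.Lt.pat_eq (E' := R0Q093.E) eB (pat_step (by decide +kernel) (q_cons (Vale.Agent.P032.Lt.q R0Q093.q2009_0) (q_cons (Vale.Agent.P032.Lt.q R0Q093.q2009_1) q_nil)))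

theorem p2010 : Pat 73 73 TBm TCm (CB.map Fm) R0Q093.P2010 R0Q093.I2010 := Vale.Agent.P032.Lt.pat_eq (E' := R0Q093.E) eB (pat_step (by decide +kernel) (q_cons (Vale.Agent.P032.Lt.q R0Q093.q2010_0) (q_cons (Vale.Agent.P032.Lt.q R0Q093.q2010_1) (q_cons (Vale.Agent.P032.Lt.q R0Q093.q2010_2) (q_cons (Vale.Agent.P032.Lt.q R0Q093.q2010_3) (q_cons (Vale.Agent.P032.Lt.q R0Q093.q2010_4) (q_cons (Vale.Agent.P032.Lt.q R0Q093.q2010_5) (q_cons (Vale.Agent.P032.Lt.q R0Q093.q2010_6) q_nil))))))))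

theorem p2011 : Pat 73 73 TBm TCm (CB.map Fm) R0Q093.P2011 R0Q093.I2011 := Vale.Agent.P032.Lt.pat_eq (E' := R0Q093.E) eB (pat_step (by decide +kernel) (q_cons (Vale.Agent.P032.Lt.q R0Q093.q2011_0) (q_cons (Vale.Agent.P032.Lt.q R0Q093.q2011_1) (q_cons (Vale.Agent.P032.Lt.q R0Q093.q2011_2) (q_cons (Vale.Agent.P032.Lt.q R0Q093.q2011_3) (q_cons (Vale.Agent.P032.Lt.q R0Q093.q2011_4) q_nil))))))

theorem p2012 : Pat 73 73 TBm TCm (CB.map Fm) R0Q093.P2012 R0Q093.I2012 := Vale.Agent.P032.Lt.pat_eq (E' := R0Q093.E) eB (pat_step (by decide +kernel) (q_cons (Vale.Agent.P032.Lt.q R0Q093.q2012_0) (q_cons (Vale.Agent.P032.Lt.q R0Q093.q2012_1) (q_cons (Vale.Agent.P032.Lt.q R0Q093.q2012_2) (q_cons (Vale.Agent.P032.Lt.q R0Q093.q2012_3) (q_cons (Vale.Agent.P032.Lt.q R0Q093.q2012_4) (q_cons (Vale.Agent.P032.Lt.q R0Q093.q2012_5) (q_cons (Vale.Agent.P032.Lt.q R0Q093.q2012_6)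 (q_cons (Vale.Agent.P032.Lt.q R0Q093.q2012_7) (q_cons (Vale.Agent.P032.Lt.q R0Q093.q2012_8) (q_cons (Vale.Agent.P032.Lt.q R0Q093.q2012_9) q_nil)))))))))))

theorem p2013 : Pat 73 73 TBm TCm (CB.map Fm) R0Q093.P2013 R0Q093.I2013 := Vale.Agent.P032.Lt.pat_eq (E' := R0Q093.E) eB (pat_step (by decide +kernel) (q_cons (Vale.Agent.P032.Lt.q R0Q093.q2013_0) (q_cons (Vale.Agent.P032.Lt.q R0Q093.q2013_1) q_nil)))

def C2014 : List ℕ := [0, 4, 8, 12, 16, 20, 24, 737281]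
theorem p2014 : Pat 73 73 TBm TCm (C2014.map Fm) R0Q093.P2014 R0Q093.I2014 := Vale.Agent.P032.Lt.pat_eq (E' := R0Q093.E2014) (by decide +kernel) (pat_step (by decide +kernel) (q_cons (Vale.Agent.P032.Lt.q R0Q093.q2014_0) (q_cons (Vale.Agent.P032.Lt.q R0Q093.q2014_1) (q_cons (Vale.Agent.P032.Lt.q R0Q093.q2014_2) (q_cons (Vale.Agent.P032.Lt.q R0Q093.q2014_3) q_nil)))))

theorem p2015 : Pat 73 73 TBm TCm (CB.map Fm) R0Q093.P2015 R0Q093.I2015 := Vale.Agent.P032.Lt.pat_eq (E' := R0Q093.E) eB (pat_step (by decide +kernel) (q_cons (Vale.Agent.P032.Lt.q R0Q093.q2015_0) q_nil))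

def C2016 : List ℕ := [0, 4, 8, 12, 16, 20, 24, 216065, 737281]
theorem p2016 : Pat 73 73 TBm TCm (C2016.map Fm) R0Q093.P2016 R0Q093.I2016 := Vale.Agent.P032.Lt.pat_eq (E' := R0Q093.E2016) (by decide +kernel) (pat_step (by decide +kernel) (q_cons (Vale.Agent.P032.Lt.q R0Q093.q2016_0) (q_cons (Vale.Agent.P032.Lt.q R0Q093.q2016_1) (q_cons (Vale.Agent.P032.Lt.q R0Q093.q2016_2) (q_cons (Vale.Agent.P032.Lt.q R0Q093.q2016_3) (q_cons (Vale.Agent.P032.Lt.q R0Q093.q2016_4) (q_cons (Vale.Agent.P032.Lt.q R0Q093.q2016_5) q_nil)))))))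

theorem p2017 : Pat 73 73 TBm TCm (CB.map Fm) R0Q093.P2017 R0Q093.I2017 := Vale.Agent.P032.Lt.pat_eq (E' := R0Q093.E) eB (pat_step (by decide +kernel) (q_cons (Vale.Agent.P032.Lt.q R0Q093.q2017_0) (q_cons (Vale.Agent.P032.Lt.q R0Q093.q2017_1) (q_cons (Vale.Agent.P032.Lt.q R0Q093.q2017_2) (q_cons (Vale.Agent.P032.Lt.q R0Q093.q2017_3) (q_cons (Vale.Agent.P032.Lt.q R0Q093.q2017_4) (q_cons (Vale.Agent.P032.Lt.q R0Q093.q2017_5) (q_cons (Vale.Agent.P032.Lt.q R0Q093.q2017_6) (q_cons (Vale.Agent.P032.Lt.q R0Q093.q2017_7) (q_cons (Vale.Agent.P032.Lt.q R0Q093.q2017_8) (q_cons (Vale.Agent.P032.Lt.q R0Q093.q2017_9) (q_cons (Vale.Agent.P032.Lt.q R0Q093.q2017_10) (q_cons (Vale.Agent.P032.Lt.q R0Q093.q2017_11) (q_cons (Vale.Agent.P032.Lt.q R0Q093.q2017_12) (q_cons (Vale.Agent.P032.Lt.q R0Q093.q2017_13) (q_cons (Vale.Agent.P032.Lt.q R0Q093.q2017_14) (q_cons (Vale.Agent.P032.Lt.q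 R0Q093.q2017_15) (q_cons (Vale.Agent.P032.Lt.q R0Q093.q2017_16) (q_cons (Vale.Agent.P032.Lt.q R0Q093.q2017_17) (q_cons (Vale.Agent.P032.Lt.q R0Q093.q2017_18) q_nil))))))))))))))))))))

theorem p2018 : Pat 73 73 TBm TCm (CB.map Fm) R0Q093.P2018 R0Q093.I2018 := Vale.Agent.P032.Lt.pat_eq (E' := R0Q093.E) eB (pat_step (by decide +kernel) (q_cons (Vale.Agent.P032.Lt.q R0Q093.q2018_0) q_nil))

theorem p2019 : Pat 73 73 TBm TCm (CB.map Fm) R0Q093.P2019 R0Q093.I2019 := Vale.Agent.P032.Lt.pat_eq (E' := R0Q093.E) eB (pat_step (by decide +kernel) (q_cons (Vale.Agent.P032.Lt.q R0Q093.q2019_0) (q_cons (Vale.Agent.P032.Lt.q R0Q093.q2019_1) (q_cons (Vale.Agent.P032.Lt.q R0Q093.q2019_2) (q_cons (Vale.Agent.P032.Lt.q R0Q093.q2019_3) (q_cons (Vale.Agent.P032.Lt.q R0Q093.q2019_4) (q_cons (Vale.Agent.P032.Lt.q R0Q093.q2019_5) (q_cons (Vale.Agent.P032.Lt.q R0Q093.q2019_6)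 q_nil))))))))

theorem p2020 : Pat 73 73 TBm TCm (CB.map Fm) R0Q093.P2020 R0Q093.I2020 := Vale.Agent.P032.Lt.pat_eq (E' := R0Q093.E) eB (pat_step (by decide +kernel) (q_cons (Vale.Agent.P032.Lt.q R0Q093.q2020_0) (q_cons (Vale.Agent.P032.Lt.q R0Q093.q2020_1) (q_cons (Vale.Agent.P032.Lt.q R0Q093.q2020_2) (q_cons (Vale.Agent.P032.Lt.q R0Q093.q2020_3) (q_cons (Vale.Agent.P032.Lt.q R0Q093.q2020_4) (q_cons (Vale.Agent.P032.Lt.q R0Q093.q2020_5) q_nil)))))))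

theorem p2021 : Pat 73 73 TBm TCm (CB.map Fm) R0Q093.P2021 R0Q093.I2021 := Vale.Agent.P032.Lt.pat_eq (E' := R0Q093.E) eB (pat_step (by decide +kernel) (q_cons (Vale.Agent.P032.Lt.q R0Q093.q2021_0) q_nil))

theorem p2022 : Pat 73 73 TBm TCm (CB.map Fm) R0Q093.P2022 R0Q093.I2022 := Vale.Agent.P032.Lt.pat_eq (E' := R0Q093.E) eB (pat_step (by decide +kernel) (q_cons (Vale.Agent.P032.Lt.q R0Q093.q2022_0) (q_cons (Vale.Agent.P032.Lt.q R0Q093.q2022_1) q_nil)))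

theorem p2023 : Pat 73 73 TBm TCm (CB.map Fm) R0Q093.P2023 R0Q093.I2023 := Vale.Agent.P032.Lt.pat_eq (E' := R0Q093.E) eB (pat_step (by decide +kernel) (q_cons (Vale.Agent.P032.Lt.q R0Q093.q2023_0) q_nil))

theorem p2024 : Pat 73 73 TBm TCm (CB.map Fm) R0Q093.P2024 R0Q093.I2024 := Vale.Agent.P032.Lt.pat_eq (E' := R0Q093.E) eB (pat_step (by decide +kernel) (q_cons (Vale.Agent.P032.Lt.q R0Q093.q2024_0) (q_cons (Vale.Agent.P032.Lt.q R0Q093.q2024_1) (q_cons (Vale.Agent.P032.Lt.q R0Q093.q2024_2) (q_cons (Vale.Agent.P032.Lt.q R0Q093.q2024_3) q_nil)))))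

theorem p2025 : Pat 73 73 TBm TCm (CB.map Fm) R0Q093.P2025 R0Q093.I2025 := Vale.Agent.P032.Lt.pat_eq (E' := R0Q093.E) eB (pat_step (by decide +kernel) (q_cons (Vale.Agent.P032.Lt.q R0Q093.q2025_0) (q_cons (Vale.Agent.P032.Lt.q R0Q093.q2025_1) q_nil)))

theorem p2026 : Pat 73 73 TBm TCm (CB.map Fm) R0Q093.P2026 R0Q093.I2026 := Vale.Agent.P032.Lt.pat_eq (E' := R0Q093.E) eB (pat_step (by decide +kernel) (q_cons (Vale.Agent.P032.Lt.q R0Q093.q2026_0) (q_cons (Vale.Agent.P032.Lt.q R0Q093.q2026_1) (q_cons (Vale.Agent.P032.Lt.q R0Q093.q2026_2) (q_cons (Vale.Agent.P032.Lt.q R0Q093.q2026_3) q_nil)))))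

theorem p2027 : Pat 73 73 TBm TCm (CB.map Fm) R0Q093.P2027 R0Q093.I2027 := Vale.Agent.P032.Lt.pat_eq (E' := R0Q093.E) eB (pat_step (by decide +kernel) (q_cons (Vale.Agent.P032.Lt.q R0Q093.q2027_0) q_nil))

theorem p2028 : Pat 73 73 TBm TCm (CB.map Fm) R0Q093.P2028 R0Q093.I2028 := Vale.Agent.P032.Lt.pat_eq (E' := R0Q093.E) eB (pat_step (by decide +kernel) (q_cons (Vale.Agent.P032.Lt.q R0Q093.q2028_0) (q_cons (Vale.Agent.P032.Lt.q R0Q093.q2028_1) (q_cons (Vale.Agent.P032.Lt.q R0Q093.q2028_2) (q_cons (Vale.Agent.P032.Lt.q R0Q093.q2028_3) (q_cons (Vale.Agent.P032.Lt.q R0Q093.q2028_4) (q_cons (Vale.Agent.P032.Lt.q R0Q093.q2028_5) (q_cons (Vale.Agent.P032.Lt.q R0Q093.q2028_6) (q_cons (Vale.Agent.P032.Lt.q R0Q093.q2028_7) (q_cons (Vale.Agent.P032.Lt.q R0Q093.q2028_8) (q_cons (Vale.Agent.P032.Lt.q R0Q093.q2028_9) (q_cons (Vale.Agent.P032.Lt.q R0Q093.q2028_10)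 (q_cons (Vale.Agent.P032.Lt.q R0Q093.q2028_11) (q_cons (Vale.Agent.P032.Lt.q R0Q093.q2028_12) (q_cons (Vale.Agent.P032.Lt.q R0Q093.q2028_13) (q_cons (Vale.Agent.P032.Lt.q R0Q093.q2028_14) (q_cons (Vale.Agent.P032.Lt.q R0Q093.q2028_15) (q_cons (Vale.Agent.P032.Lt.q R0Q093.q2028_16) (q_cons (Vale.Agent.P032.Lt.q R0Q093.q2028_17) (q_cons (Vale.Agent.P032.Lt.q R0Q093.q2028_18) (q_cons (Vale.Agent.P032.Lt.q R0Q093.q2028_19) (q_cons (Vale.Agent.P032.Lt.q R0Q093.q2028_20) (q_cons (Vale.Agent.P032.Lt.q R0Q093.q2028_21) (q_cons (Vale.Agent.P032.Lt.q R0Q093.q2028_22) (q_cons (Vale.Agent.P032.Lt.q R0Q093.q2028_23) (q_cons (Vale.Agent.P032.Lt.q R0Q093.q2028_24) q_nil))))))))))))))))))))))))))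

theorem p2029 : Pat 73 73 TBm TCm (CB.map Fm) R0Q093.P2029 R0Q093.I2029 := Vale.Agent.P032.Lt.pat_eq (E' := R0Q093.E) eB (pat_step (by decide +kernel) (q_cons (Vale.Agent.P032.Lt.q R0Q093.q2029_0) (q_cons (Vale.Agent.P032.Lt.q R0Q093.q2029_1) (q_cons (Vale.Agent.P032.Lt.q R0Q093.q2029_2) (q_cons (Vale.Agent.P032.Lt.q R0Q093.q2029_3) (q_cons (Vale.Agent.P032.Lt.q R0Q093.q2029_4) (q_cons (Vale.Agent.P032.Lt.q R0Q093.q2029_5) (q_cons (Vale.Agent.P032.Lt.q R0Q093.q2029_6) (q_cons (Vale.Agent.P032.Lt.q R0Q093.q2029_7) q_nil)))))))))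

def C2030 : List ℕ := [0, 4, 8, 12, 16, 20, 24, 212993, 475137, 617473, 737281]
theorem p2030 : Pat 73 73 TBm TCm (C2030.map Fm) R0Q093.P2030 R0Q093.I2030 := Vale.Agent.P032.Lt.pat_eq (E' := R0Q093.E2030) (by decide +kernel) (pat_step (by decide +kernel) (q_cons (Vale.Agent.P032.Lt.q R0Q093.q2030_0) (q_cons (Vale.Agent.P032.Lt.q R0Q093.q2030_1) q_nil)))

def C2031 : List ℕ := [0, 4, 8, 12, 16, 20, 24, 475137, 617473, 737281]
theorem p2031 : Pat 73 73 TBm TCm (C2031.map Fm) R0Q093.P2031 R0Q093.I2031 := Vale.Agent.P032.Lt.pat_eq (E' := R0Q093.E2031) (by decide +kernel) (pat_step (by decide +kernel) (q_cons (Vale.Agent.P032.Lt.q R0Q093.q2031_0) (q_cons (Vale.Agent.P032.Lt.q R0Q093.q2031_1) (q_cons (Vale.Agent.P032.Lt.q R0Q093.q2031_2) q_nil))))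

def C2032 : List ℕ := [0, 4, 8, 12, 16, 20, 24, 617473, 737281]
theorem p2032 : Pat 73 73 TBm TCm (C2032.map Fm) R0Q093.P2032 R0Q093.I2032 := Vale.Agent.P032.Lt.pat_eq (E' := R0Q093.E2032) (by decide +kernel) (pat_step (by decide +kernel) (q_cons (Vale.Agent.P032.Lt.q R0Q093.q2032_0) (q_cons (Vale.Agent.P032.Lt.q R0Q093.q2032_1) (q_cons (Vale.Agent.P032.Lt.q R0Q093.q2032_2) (q_cons (Vale.Agent.P032.Lt.q R0Q093.q2032_3) q_nil)))))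

theorem p2033 : Pat 73 73 TBm TCm (CB.map Fm) R0Q093.P2033 R0Q093.I2033 := Vale.Agent.P032.Lt.pat_eq (E' := R0Q093.E) eB (pat_step (by decide +kernel) (q_cons (Vale.Agent.P032.Lt.q R0Q093.q2033_0) (q_cons (Vale.Agent.P032.Lt.q R0Q093.q2033_1) (q_cons (Vale.Agent.P032.Lt.q R0Q093.q2033_2) (q_cons (Vale.Agent.P032.Lt.q R0Q093.q2033_3) q_nil)))))

theorem p2034 : Pat 73 73 TBm TCm (CB.map Fm) R0Q094.P2034 R0Q094.I2034 := Vale.Agent.P032.Lt.pat_eq (E' := R0Q094.E) eB (pat_step (by decide +kernel) (q_cons (Vale.Agent.P032.Lt.q R0Q094.q2034_0) (q_cons (Vale.Agent.P032.Lt.q R0Q094.q2034_1) (q_cons (Vale.Agent.P032.Lt.q R0Q094.q2034_2) (q_cons (Vale.Agent.P032.Lt.q R0Q094.q2034_3) q_nil)))))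

theorem p2035 : Pat 73 73 TBm TCm (CB.map Fm) R0Q094.P2035 R0Q094.I2035 := Vale.Agent.P032.Lt.pat_eq (E' := R0Q094.E) eB (pat_step (by decide +kernel) (q_cons (Vale.Agent.P032.Lt.q R0Q094.q2035_0) (q_cons (Vale.Agent.P032.Lt.q R0Q094.q2035_1) (q_cons (Vale.Agent.P032.Lt.q R0Q094.q2035_2) q_nil))))

theorem p2036 : Pat 73 73 TBm TCm (CB.map Fm) R0Q094.P2036 R0Q094.I2036 := Vale.Agent.P032.Lt.pat_eq (E' := R0Q094.E) eB (pat_step (by decide +kernel) (q_cons (Vale.Agent.P032.Lt.q R0Q094.q2036_0) (q_cons (Vale.Agent.P032.Lt.q R0Q094.q2036_1) q_nil)))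

theorem p2037 : Pat 73 73 TBm TCm (CB.map Fm) R0Q094.P2037 R0Q094.I2037 := Vale.Agent.P032.Lt.pat_eq (E' := R0Q094.E) eB (pat_step (by decide +kernel) (q_cons (Vale.Agent.P032.Lt.q R0Q094.q2037_0) (q_cons (Vale.Agent.P032.Lt.q R0Q094.q2037_1) (q_cons (Vale.Agent.P032.Lt.q R0Q094.q2037_2) (q_cons (Vale.Agent.P032.Lt.q R0Q094.q2037_3) (q_cons (Vale.Agent.P032.Lt.q R0Q094.q2037_4) (q_cons (Vale.Agent.P032.Lt.q R0Q094.q2037_5) (q_cons (Vale.Agent.P032.Lt.q R0Q094.q2037_6) q_nil))))))))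

def C2038 : List ℕ := [0, 4, 8, 12, 16, 20, 24, 212993, 475137, 737281]
theorem p2038 : Pat 73 73 TBm TCm (C2038.map Fm) R0Q094.P2038 R0Q094.I2038 := Vale.Agent.P032.Lt.pat_eq (E' := R0Q094.E2038) (by decide +kernel) (pat_step (by decide +kernel) (q_cons (Vale.Agent.P032.Lt.q R0Q094.q2038_0) (q_cons (Vale.Agent.P032.Lt.q R0Q094.q2038_1) (q_cons (Vale.Agent.P032.Lt.q R0Q094.q2038_2) (q_cons (Vale.Agent.P032.Lt.q R0Q094.q2038_3) (q_cons (Vale.Agent.P032.Lt.q R0Q094.q2038_4) q_nil))))))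

theorem p2039 : Pat 73 73 TBm TCm (CB.map Fm) R0Q094.P2039 R0Q094.I2039 := Vale.Agent.P032.Lt.pat_eq (E' := R0Q094.E) eB (pat_step (by decide +kernel) (q_cons (Vale.Agent.P032.Lt.q R0Q094.q2039_0) (q_cons (Vale.Agent.P032.Lt.q R0Q094.q2039_1) (q_cons (Vale.Agent.P032.Lt.q R0Q094.q2039_2) (q_cons (Vale.Agent.P032.Lt.q R0Q094.q2039_3) (q_cons (Vale.Agent.P032.Lt.q R0Q094.q2039_4) (q_cons (Vale.Agent.P032.Lt.q R0Q094.q2039_5) (q_cons (Vale.Agent.P032.Lt.q R0Q094.q2039_6) (q_cons (Vale.Agent.P032.Lt.q R0Q094.q2039_7) (q_cons (Vale.Agent.P032.Lt.q R0Q094.q2039_8) (q_cons (Vale.Agent.P032.Lt.q R0Q094.q2039_9) (q_cons (Vale.Agent.P032.Lt.q R0Q094.q2039_10) (q_cons (Vale.Agent.P032.Lt.q R0Q094.q2039_11) (q_cons (Vale.Agent.P032.Lt.q R0Q094.q2039_12) (q_cons (Vale.Agent.P032.Lt.q R0Q094.q2039_13) (q_cons (Vale.Agent.P032.Lt.q R0Q094.q2039_14) (q_cons (Vale.Agent.P032.Lt.q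 R0Q094.q2039_15) (q_cons (Vale.Agent.P032.Lt.q R0Q094.q2039_16) (q_cons (Vale.Agent.P032.Lt.q R0Q094.q2039_17) (q_cons (Vale.Agent.P032.Lt.q R0Q094.q2039_18) (q_cons (Vale.Agent.P032.Lt.q R0Q094.q2039_19) (q_cons (Vale.Agent.P032.Lt.q R0Q094.q2039_20) (q_cons (Vale.Agent.P032.Lt.q R0Q094.q2039_21) (q_cons (Vale.Agent.P032.Lt.q R0Q094.q2039_22) (q_cons (Vale.Agent.P032.Lt.q R0Q094.q2039_23) (q_cons (Vale.Agent.P032.Lt.q R0Q094.q2039_24) (q_cons (Vale.Agent.P032.Lt.q R0Q094.q2039_25) (q_cons (Vale.Agent.P032.Lt.q R0Q094.q2039_26) (q_cons (Vale.Agent.P032.Lt.q R0Q094.q2039_27) (q_cons (Vale.Agent.P032.Lt.q R0Q094.q2039_28) q_nil))))))))))))))))))))))))))))))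

theorem p2040 : Pat 73 73 TBm TCm (CB.map Fm) R0Q094.P2040 R0Q094.I2040 := Vale.Agent.P032.Lt.pat_eq (E' := R0Q094.E) eB (pat_step (by decide +kernel) (q_cons (Vale.Agent.P032.Lt.q R0Q094.q2040_0) q_nil))

theorem p2041 : Pat 73 73 TBm TCm (CB.map Fm) R0Q094.P2041 R0Q094.I2041 := Vale.Agent.P032.Lt.pat_eq (E' := R0Q094.E) eB (pat_step (by decide +kernel) (q_cons (Vale.Agent.P032.Lt.q R0Q094.q2041_0) (q_cons (Vale.Agent.P032.Lt.q R0Q094.q2041_1) (q_cons (Vale.Agent.P032.Lt.q R0Q094.q2041_2) (q_cons (Vale.Agent.P032.Lt.q R0Q094.q2041_3) (q_cons (Vale.Agent.P032.Lt.q R0Q094.q2041_4) (q_cons (Vale.Agent.P032.Lt.q R0Q094.q2041_5) (q_cons (Vale.Agent.P032.Lt.q R0Q094.q2041_6) (q_cons (Vale.Agent.P032.Lt.q R0Q094.q2041_7) q_nil)))))))))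

theorem p2042 : Pat 73 73 TBm TCm (CB.map Fm) R0Q094.P2042 R0Q094.I2042 := Vale.Agent.P032.Lt.pat_eq (E' := R0Q094.E) eB (pat_step (by decide +kernel) (q_cons (Vale.Agent.P032.Lt.q R0Q094.q2042_0) (q_cons (Vale.Agent.P032.Lt.q R0Q094.q2042_1) (q_cons (Vale.Agent.P032.Lt.q R0Q094.q2042_2) (q_cons (Vale.Agent.P032.Lt.q R0Q094.q2042_3) q_nil)))))

theorem p2043 : Pat 73 73 TBm TCm (CB.map Fm) R0Q094.P2043 R0Q094.I2043 := Vale.Agent.P032.Lt.pat_eq (E' := R0Q094.E) eB (pat_step (by decide +kernel) (q_cons (Vale.Agent.P032.Lt.q R0Q094.q2043_0) (q_cons (Vale.Agent.P032.Lt.q R0Q094.q2043_1) (q_cons (Vale.Agent.P032.Lt.q R0Q094.q2043_2) (q_cons (Vale.Agent.P032.Lt.q R0Q094.q2043_3) (q_cons (Vale.Agent.P032.Lt.q R0Q094.q2043_4) q_nil))))))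

theorem p2044 : Pat 73 73 TBm TCm (CB.map Fm) R0Q094.P2044 R0Q094.I2044 := Vale.Agent.P032.Lt.pat_eq (E' := R0Q094.E) eB (pat_step (by decide +kernel) (q_cons (Vale.Agent.P032.Lt.q R0Q094.q2044_0) (q_cons (Vale.Agent.P032.Lt.q R0Q094.q2044_1) (q_cons (Vale.Agent.P032.Lt.q R0Q094.q2044_2) (q_cons (Vale.Agent.P032.Lt.q R0Q094.q2044_3) q_nil)))))

theorem p2045 : Pat 73 73 TBm TCm (CB.map Fm) R0Q094.P2045 R0Q094.I2045 := Vale.Agent.P032.Lt.pat_eq (E' := R0Q094.E) eB (pat_step (by decide +kernel) (q_cons (Vale.Agent.P032.Lt.q R0Q094.q2045_0) (q_cons (Vale.Agent.P032.Lt.q R0Q094.q2045_1) q_nil)))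

theorem p2046 : Pat 73 73 TBm TCm (CB.map Fm) R0Q094.P2046 R0Q094.I2046 := Vale.Agent.P032.Lt.pat_eq (E' := R0Q094.E) eB (pat_step (by decide +kernel) (q_cons (Vale.Agent.P032.Lt.q R0Q094.q2046_0) (q_cons (Vale.Agent.P032.Lt.q R0Q094.q2046_1) (q_cons (Vale.Agent.P032.Lt.q R0Q094.q2046_2) (q_cons (Vale.Agent.P032.Lt.q R0Q094.q2046_3) (q_cons (Vale.Agent.P032.Lt.q R0Q094.q2046_4) q_nil))))))

theorem p2047 : Pat 73 73 TBm TCm (CB.map Fm) R0Q094.P2047 R0Q094.I2047 := Vale.Agent.P032.Lt.pat_eq (E' := R0Q094.E) eB (pat_step (by decide +kernel) (q_cons (Vale.Agent.P032.Lt.q R0Q094.q2047_0) (q_cons (Vale.Agent.P032.Lt.q R0Q094.q2047_1) (q_cons (Vale.Agent.P032.Lt.q R0Q094.q2047_2) (q_cons (Vale.Agent.P032.Lt.q R0Q094.q2047_3) (q_cons (Vale.Agent.P032.Lt.q R0Q094.q2047_4) (q_cons (Vale.Agent.P032.Lt.q R0Q094.q2047_5) (q_cons (Vale.Agent.P032.Lt.q R0Q094.q2047_6)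 (q_cons (Vale.Agent.P032.Lt.q R0Q094.q2047_7) (q_cons (Vale.Agent.P032.Lt.q R0Q094.q2047_8) (q_cons (Vale.Agent.P032.Lt.q R0Q094.q2047_9) (q_cons (Vale.Agent.P032.Lt.q R0Q094.q2047_10) (q_cons (Vale.Agent.P032.Lt.q R0Q094.q2047_11) (q_cons (Vale.Agent.P032.Lt.q R0Q094.q2047_12) (q_cons (Vale.Agent.P032.Lt.q R0Q094.q2047_13) (q_cons (Vale.Agent.P032.Lt.q R0Q094.q2047_14) q_nil))))))))))))))))

def L : List (List ℕ) := [R0Q090.P1920, R0Q090.P1921, R0Q090.P1922, R0Q090.P1923, R0Q090.P1924, R0Q090.P1925, R0Q090.P1926, R0Q090.P1927, R0Q090.P1928, R0Q090.P1929, R0Q090.P1930, R0Q090.P1931, R0Q090.P1932, R0Q090.P1933, R0Q090.P1934, R0Q090.P1935, R0Q090.P1936, R0Q090.P1937, R0Q090.P1938, R0Q090.P1939, R0Q090.P1940, R0Q090.P1941, R0Q090.P1942, R0Q090.P1943, R0Q090.P1944, R0Q090.P1945, R0Q090.P1946, R0Q091.P1947, R0Q091.P1948, R0Q091.P1949, R0Q091.P1950, R0Q091.P1951,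 R0Q091.P1952, R0Q091.P1953, R0Q091.P1954, R0Q091.P1955, R0Q091.P1956, R0Q091.P1957, R0Q091.P1958, R0Q091.P1959, R0Q091.P1960, R0Q091.P1961, R0Q091.P1962, R0Q091.P1963, R0Q091.P1964, R0Q091.P1965, R0Q091.P1966, R0Q091.P1967, R0Q091.P1968, R0Q091.P1969, R0Q091.P1970, R0Q091.P1971, R0Q092.P1972, R0Q092.P1973, R0Q092.P1974, R0Q092.P1975, R0Q092.P1976, R0Q092.P1977, R0Q092.P1978, R0Q092.P1979, R0Q092.P1980, R0Q092.P1981, R0Q092.P1982, R0Q092.P1983, R0Q092.P1984, R0Q092.P1985, R0Q092.P1986, R0Q092.P1987, R0Q092.P1988, R0Q092.P1989, R0Q092.P1990, R0Q092.P1991, R0Q092.P1992, R0Q092.P1993, R0Q092.P1994, R0Q092.P1995, R0Q092.P1996, R0Q092.P1997, R0Q092.P1998, R0Q092.P1999, R0Q092.P2000, R0Q092.P2001, R0Q092.P2002, R0Q092.P2003, R0Q092.P2004, R0Q092.P2005, R0Q093.P2006, R0Q093.P2007, R0Q093.P2008, R0Q093.P2009, R0Q093.P2010, R0Q093.P2011, R0Q093.P2012, R0Q093.P2013,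 R0Q093.P2014, R0Q093.P2015, R0Q093.P2016, R0Q093.P2017, R0Q093.P2018, R0Q093.P2019, R0Q093.P2020, R0Q093.P2021, R0Q093.P2022, R0Q093.P2023, R0Q093.P2024, R0Q093.P2025, R0Q093.P2026, R0Q093.P2027, R0Q093.P2028, R0Q093.P2029, R0Q093.P2030, R0Q093.P2031, R0Q093.P2032, R0Q093.P2033, R0Q094.P2034, R0Q094.P2035, R0Q094.P2036, R0Q094.P2037, R0Q094.P2038, R0Q094.P2039, R0Q094.P2040, R0Q094.P2041, R0Q094.P2042, R0Q094.P2043, R0Q094.P2044, R0Q094.P2045, R0Q094.P2046, R0Q094.P2047]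

theorem all : ∀ P ∈ L, CrtF 73 73 TBm TCm (Vale.Agent.P032.Fam.fam2 (Vale.Agent.P032.Fam.im0)) P := crtF_cons p1920 (crtF_cons p1921 (crtF_cons p1922 (crtF_cons p1923 (crtF_cons p1924 (crtF_cons p1925 (crtF_cons p1926 (crtF_cons p1927 (crtF_cons p1928 (crtF_cons p1929 (crtF_cons p1930 (crtF_cons p1931 (crtF_cons p1932 (crtF_cons p1933 (crtF_cons p1934 (crtF_cons p1935 (crtF_cons p1936 (crtF_cons p1937 (crtF_cons p1938 (crtF_cons p1939 (crtF_cons p1940 (crtF_cons p1941 (crtF_cons p1942 (crtF_cons p1943 (crtF_cons p1944 (crtF_cons p1945 (crtF_cons p1946 (crtF_cons p1947 (crtF_cons p1948 (crtF_cons p1949 (crtF_cons p1950 (crtF_cons p1951 (crtF_cons p1952 (crtF_cons p1953 (crtF_cons p1954 (crtF_cons p1955 (crtF_cons p1956 (crtF_cons p1957 (crtF_cons p1958 (crtF_cons p1959 (crtF_cons p1960 (crtF_cons p1961 (crtF_cons p1962 (crtF_cons p1963 (crtF_cons p1964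 (crtF_cons p1965 (crtF_cons p1966 (crtF_cons p1967 (crtF_cons p1968 (crtF_cons p1969 (crtF_cons p1970 (crtF_cons p1971 (crtF_cons p1972 (crtF_cons p1973 (crtF_cons p1974 (crtF_cons p1975 (crtF_cons p1976 (crtF_cons p1977 (crtF_cons p1978 (crtF_cons p1979 (crtF_cons p1980 (crtF_cons p1981 (crtF_cons p1982 (crtF_cons p1983 (crtF_cons p1984 (crtF_cons p1985 (crtF_cons p1986 (crtF_cons p1987 (crtF_cons p1988 (crtF_cons p1989 (crtF_cons p1990 (crtF_cons p1991 (crtF_cons p1992 (crtF_cons p1993 (crtF_cons p1994 (crtF_cons p1995 (crtF_cons p1996 (crtF_cons p1997 (crtF_cons p1998 (crtF_cons p1999 (crtF_cons p2000 (crtF_cons p2001 (crtF_cons p2002 (crtF_cons p2003 (crtF_cons p2004 (crtF_cons p2005 (crtF_cons p2006 (crtF_cons p2007 (crtF_cons p2008 (crtF_cons p2009 (crtF_cons p2010 (crtF_cons p2011 (crtF_cons p2012 (crtF_cons p2013 (crtF_cons p2014 (crtF_cons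 p2015 (crtF_cons p2016 (crtF_cons p2017 (crtF_cons p2018 (crtF_cons p2019 (crtF_cons p2020 (crtF_cons p2021 (crtF_cons p2022 (crtF_cons p2023 (crtF_cons p2024 (crtF_cons p2025 (crtF_cons p2026 (crtF_cons p2027 (crtF_cons p2028 (crtF_cons p2029 (crtF_cons p2030 (crtF_cons p2031 (crtF_cons p2032 (crtF_cons p2033 (crtF_cons p2034 (crtF_cons p2035 (crtF_cons p2036 (crtF_cons p2037 (crtF_cons p2038 (crtF_cons p2039 (crtF_cons p2040 (crtF_cons p2041 (crtF_cons p2042 (crtF_cons p2043 (crtF_cons p2044 (crtF_cons p2045 (crtF_cons p2046 (crtF_cons p2047 crtF_nil)))))))))))))))))))))))))))))))))))))))))))))))))))))))))))))))))))))))))))))))))))))))))))))))))))))))))))))))))))))))))))))))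

theorem ch : chT 73 73 TCm s0_015 L = true := by decide +kernel

end Vale.Agent.P032X.Cert.XP.B1.R0H015
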