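import Vale.Agent.P032X.H892.LtH
import Vale.Agent.P032X.H286.W73
import Vale.Agent.P032X.Cert.XP.B1.R0T
import Vale.Agent.P032X.Cert.XP.B1.R0Q095
import Vale.Agent.P032X.Cert.XP.B1.R0Q096
import Vale.Agent.P032X.Cert.XP.B1.R0Q097
import Vale.Agent.P032X.Cert.XP.B1.R0Q098
import Vale.Agent.P032X.Cert.XP.B1.R0Q099
import Vale.Agent.P032X.Cert.XP.B1.R0Q100
import Vale.Agent.P032X.Cert.XP.B1.R0Q101
import Vale.Agent.P032X.Cert.XP.B1.R0Q102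

set_option maxRecDepth 1000000

namespace Vale.Agent.P032X.Cert.XP.B1.R0H016

open Vale.Agent.P032.H820.K Vale.Agent.P032.H357.MK Vale.Agent.P032.H286.E Vale.Agent.P032.H61 Vale.Agent.P032X.Cert.XP.B1

noncomputable abbrev Fm : ℕ → List ℕ := Vale.Agent.P032.Fam.fam2 (Vale.Agent.P032.Fam.im0)

def CB : List ℕ := [0, 4, 8, 12, 16, 20, 24]

theorem eB : Vale.Agent.P032.Lt.eqLL (CB.map Fm) R0Q095.E = true := by decide +kernel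

theorem p2048 : Pat 73 73 TBm TCm (CB.map Fm) R0Q095.P2048 R0Q095.I2048 := Vale.Agent.P032.Lt.pat_eq (E' := R0Q095.E) eB (pat_step (by decide +kernel) (q_cons (Vale.Agent.P032.Lt.q R0Q095.q2048_0) (q_cons (Vale.Agent.P032.Lt.q R0Q095.q2048_1) (q_cons (Vale.Agent.P032.Lt.q R0Q095.q2048_2) (q_cons (Vale.Agent.P032.Lt.q R0Q095.q2048_3) (q_cons (Vale.Agent.P032.Lt.q R0Q095.q2048_4) (q_cons (Vale.Agent.P032.Lt.q R0Q095.q2048_5) (q_cons (Vale.Agent.P032.Lt.q R0Q095.q2048_6) q_nil))))))))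

theorem p2049 : Pat 73 73 TBm TCm (CB.map Fm) R0Q095.P2049 R0Q095.I2049 := Vale.Agent.P032.Lt.pat_eq (E' := R0Q095.E) eB (pat_step (by decide +kernel) (q_cons (Vale.Agent.P032.Lt.q R0Q095.q2049_0) (q_cons (Vale.Agent.P032.Lt.q R0Q095.q2049_1) (q_cons (Vale.Agent.P032.Lt.q R0Q095.q2049_2) q_nil))))

theorem p2050 : Pat 73 73 TBm TCm (CB.map Fm) R0Q095.P2050 R0Q095.I2050 := Vale.Agent.P032.Lt.pat_eq (E' := R0Q095.E) eB (pat_step (by decide +kernel) (q_cons (Vale.Agent.P032.Lt.q R0Q095.q2050_0) (q_cons (Vale.Agent.P032.Lt.q R0Q095.q2050_1) (q_cons (Vale.Agent.P032.Lt.q R0Q095.q2050_2) (q_cons (Vale.Agent.P032.Lt.q R0Q095.q2050_3) q_nil)))))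

theorem p2051 : Pat 73 73 TBm TCm (CB.map Fm) R0Q095.P2051 R0Q095.I2051 := Vale.Agent.P032.Lt.pat_eq (E' := R0Q095.E) eB (pat_step (by decide +kernel) (q_cons (Vale.Agent.P032.Lt.q R0Q095.q2051_0) (q_cons (Vale.Agent.P032.Lt.q R0Q095.q2051_1) (q_cons (Vale.Agent.P032.Lt.q R0Q095.q2051_2) (q_cons (Vale.Agent.P032.Lt.q R0Q095.q2051_3) (q_cons (Vale.Agent.P032.Lt.q R0Q095.q2051_4) (q_cons (Vale.Agent.P032.Lt.q R0Q095.q2051_5) (q_cons (Vale.Agent.P032.Lt.q R0Q095.q2051_6) (q_cons (Vale.Agent.P032.Lt.q R0Q095.q2051_7) (q_cons (Vale.Agent.P032.Lt.q R0Q095.q2051_8) (q_cons (Vale.Agent.P032.Lt.q R0Q095.q2051_9) q_nil)))))))))))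

theorem p2052 : Pat 73 73 TBm TCm (CB.map Fm) R0Q095.P2052 R0Q095.I2052 := Vale.Agent.P032.Lt.pat_eq (E' := R0Q095.E) eB (pat_step (by decide +kernel) (q_cons (Vale.Agent.P032.Lt.q R0Q095.q2052_0) (q_cons (Vale.Agent.P032.Lt.q R0Q095.q2052_1) (q_cons (Vale.Agent.P032.Lt.q R0Q095.q2052_2) (q_cons (Vale.Agent.P032.Lt.q R0Q095.q2052_3) (q_cons (Vale.Agent.P032.Lt.q R0Q095.q2052_4) (q_cons (Vale.Agent.P032.Lt.q R0Q095.q2052_5) (q_cons (Vale.Agent.P032.Lt.q R0Q095.q2052_6) (q_cons (Vale.Agent.P032.Lt.q R0Q095.q2052_7) (q_cons (Vale.Agent.P032.Lt.q R0Q095.q2052_8) (q_cons (Vale.Agent.P032.Lt.q R0Q095.q2052_9) (q_cons (Vale.Agent.P032.Lt.q R0Q095.q2052_10) (q_cons (Vale.Agent.P032.Lt.q R0Q095.q2052_11) (q_cons (Vale.Agent.P032.Lt.q R0Q095.q2052_12) (q_cons (Vale.Agent.P032.Lt.q R0Q095.q2052_13) (q_cons (Vale.Agent.P032.Lt.q R0Q095.q2052_14) (q_cons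 (Vale.Agent.P032.Lt.q R0Q095.q2052_15) (q_cons (Vale.Agent.P032.Lt.q R0Q095.q2052_16) (q_cons (Vale.Agent.P032.Lt.q R0Q095.q2052_17) (q_cons (Vale.Agent.P032.Lt.q R0Q095.q2052_18) (q_cons (Vale.Agent.P032.Lt.q R0Q095.q2052_19) (q_cons (Vale.Agent.P032.Lt.q R0Q095.q2052_20) (q_cons (Vale.Agent.P032.Lt.q R0Q095.q2052_21) q_nil)))))))))))))))))))))))

theorem p2053 : Pat 73 73 TBm TCm (CB.map Fm) R0Q095.P2053 R0Q095.I2053 := Vale.Agent.P032.Lt.pat_eq (E' := R0Q095.E) eB (pat_step (by decide +kernel) (q_cons (Vale.Agent.P032.Lt.q R0Q095.q2053_0) (q_cons (Vale.Agent.P032.Lt.q R0Q095.q2053_1) (q_cons (Vale.Agent.P032.Lt.q R0Q095.q2053_2) (q_cons (Vale.Agent.P032.Lt.q R0Q095.q2053_3) (q_cons (Vale.Agent.P032.Lt.q R0Q095.q2053_4) q_nil))))))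

theorem p2054 : Pat 73 73 TBm TCm (CB.map Fm) R0Q095.P2054 R0Q095.I2054 := Vale.Agent.P032.Lt.pat_eq (E' := R0Q095.E) eB (pat_step (by decide +kernel) (q_cons (Vale.Agent.P032.Lt.q R0Q095.q2054_0) (q_cons (Vale.Agent.P032.Lt.q R0Q095.q2054_1) (q_cons (Vale.Agent.P032.Lt.q R0Q095.q2054_2) (q_cons (Vale.Agent.P032.Lt.q R0Q095.q2054_3) (q_cons (Vale.Agent.P032.Lt.q R0Q095.q2054_4) (q_cons (Vale.Agent.P032.Lt.q R0Q095.q2054_5) (q_cons (Vale.Agent.P032.Lt.q R0Q095.q2054_6) (q_cons (Vale.Agent.P032.Lt.q R0Q095.q2054_7) (q_cons (Vale.Agent.P032.Lt.q R0Q095.q2054_8) (q_cons (Vale.Agent.P032.Lt.q R0Q095.q2054_9) (q_cons (Vale.Agent.P032.Lt.q R0Q095.q2054_10) (q_cons (Vale.Agent.P032.Lt.q R0Q095.q2054_11) (q_cons (Vale.Agent.P032.Lt.q R0Q095.q2054_12) (q_cons (Vale.Agent.P032.Lt.q R0Q095.q2054_13) (q_cons (Vale.Agent.P032.Lt.q R0Q095.q2054_14) (q_cons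 (Vale.Agent.P032.Lt.q R0Q095.q2054_15) q_nil)))))))))))))))))

theorem p2055 : Pat 73 73 TBm TCm (CB.map Fm) R0Q095.P2055 R0Q095.I2055 := Vale.Agent.P032.Lt.pat_eq (E' := R0Q095.E) eB (pat_step (by decide +kernel) (q_cons (Vale.Agent.P032.Lt.q R0Q095.q2055_0) (q_cons (Vale.Agent.P032.Lt.q R0Q095.q2055_1) (q_cons (Vale.Agent.P032.Lt.q R0Q095.q2055_2) (q_cons (Vale.Agent.P032.Lt.q R0Q095.q2055_3) (q_cons (Vale.Agent.P032.Lt.q R0Q095.q2055_4) (q_cons (Vale.Agent.P032.Lt.q R0Q095.q2055_5) (q_cons (Vale.Agent.P032.Lt.q R0Q095.q2055_6) (q_cons (Vale.Agent.P032.Lt.q R0Q095.q2055_7) (q_cons (Vale.Agent.P032.Lt.q R0Q095.q2055_8) (q_cons (Vale.Agent.P032.Lt.q R0Q095.q2055_9) (q_cons (Vale.Agent.P032.Lt.q R0Q095.q2055_10) (q_cons (Vale.Agent.P032.Lt.q R0Q095.q2055_11) (q_cons (Vale.Agent.P032.Lt.q R0Q095.q2055_12) (q_cons (Vale.Agent.P032.Lt.q R0Q095.q2055_13)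 (q_cons (Vale.Agent.P032.Lt.q R0Q095.q2055_14) (q_cons (Vale.Agent.P032.Lt.q R0Q095.q2055_15) (q_cons (Vale.Agent.P032.Lt.q R0Q095.q2055_16) (q_cons (Vale.Agent.P032.Lt.q R0Q095.q2055_17) (q_cons (Vale.Agent.P032.Lt.q R0Q095.q2055_18) (q_cons (Vale.Agent.P032.Lt.q R0Q095.q2055_19) (q_cons (Vale.Agent.P032.Lt.q R0Q095.q2055_20) (q_cons (Vale.Agent.P032.Lt.q R0Q095.q2055_21) (q_cons (Vale.Agent.P032.Lt.q R0Q095.q2055_22) (q_cons (Vale.Agent.P032.Lt.q R0Q095.q2055_23) (q_cons (Vale.Agent.P032.Lt.q R0Q095.q2055_24) (q_cons (Vale.Agent.P032.Lt.q R0Q095.q2055_25) (q_cons (Vale.Agent.P032.Lt.q R0Q095.q2055_26) (q_cons (Vale.Agent.P032.Lt.q R0Q095.q2055_27) (q_cons (Vale.Agent.P032.Lt.q R0Q095.q2055_28) (q_cons (Vale.Agent.P032.Lt.q R0Q095.q2055_29) (q_cons (Vale.Agent.P032.Lt.q R0Q095.q2055_30) (q_cons (Vale.Agent.P032.Lt.q R0Q095.q2055_31) (q_cons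 (Vale.Agent.P032.Lt.q R0Q095.q2055_32) (q_cons (Vale.Agent.P032.Lt.q R0Q095.q2055_33) (q_cons (Vale.Agent.P032.Lt.q R0Q095.q2055_34) (q_cons (Vale.Agent.P032.Lt.q R0Q095.q2055_35) (q_cons (Vale.Agent.P032.Lt.q R0Q095.q2055_36) (q_cons (Vale.Agent.P032.Lt.q R0Q095.q2055_37) (q_cons (Vale.Agent.P032.Lt.q R0Q095.q2055_38) (q_cons (Vale.Agent.P032.Lt.q R0Q095.q2055_39) (q_cons (Vale.Agent.P032.Lt.q R0Q095.q2055_40) (q_cons (Vale.Agent.P032.Lt.q R0Q095.q2055_41) (q_cons (Vale.Agent.P032.Lt.q R0Q095.q2055_42) (q_cons (Vale.Agent.P032.Lt.q R0Q095.q2055_43) (q_cons (Vale.Agent.P032.Lt.q R0Q095.q2055_44) (q_cons (Vale.Agent.P032.Lt.q R0Q095.q2055_45) (q_cons (Vale.Agent.P032.Lt.q R0Q095.q2055_46) (q_cons (Vale.Agent.P032.Lt.q R0Q095.q2055_47) (q_cons (Vale.Agent.P032.Lt.q R0Q095.q2055_48) (q_cons (Vale.Agent.P032.Lt.q R0Q095.q2055_49) (q_cons (Vale.Agent.P032.Lt.q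 R0Q095.q2055_50) (q_cons (Vale.Agent.P032.Lt.q R0Q095.q2055_51) (q_cons (Vale.Agent.P032.Lt.q R0Q095.q2055_52) (q_cons (Vale.Agent.P032.Lt.q R0Q095.q2055_53) (q_cons (Vale.Agent.P032.Lt.q R0Q095.q2055_54) (q_cons (Vale.Agent.P032.Lt.q R0Q095.q2055_55) (q_cons (Vale.Agent.P032.Lt.q R0Q095.q2055_56) (q_cons (Vale.Agent.P032.Lt.q R0Q095.q2055_57) (q_cons (Vale.Agent.P032.Lt.q R0Q095.q2055_58) q_nil))))))))))))))))))))))))))))))))))))))))))))))))))))))))))))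

theorem p2056 : Pat 73 73 TBm TCm (CB.map Fm) R0Q095.P2056 R0Q095.I2056 := Vale.Agent.P032.Lt.pat_eq (E' := R0Q095.E) eB (pat_step (by decide +kernel) (q_cons (Vale.Agent.P032.Lt.q R0Q095.q2056_0) (q_cons (Vale.Agent.P032.Lt.q R0Q095.q2056_1) (q_cons (Vale.Agent.P032.Lt.q R0Q095.q2056_2) (q_cons (Vale.Agent.P032.Lt.q R0Q095.q2056_3) (q_cons (Vale.Agent.P032.Lt.q R0Q095.q2056_4) (q_cons (Vale.Agent.P032.Lt.q R0Q095.q2056_5) (q_cons (Vale.Agent.P032.Lt.q R0Q095.q2056_6) (q_cons (Vale.Agent.P032.Lt.q R0Q095.q2056_7) (q_cons (Vale.Agent.P032.Lt.q R0Q095.q2056_8) (q_cons (Vale.Agent.P032.Lt.q R0Q095.q2056_9) q_nil)))))))))))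

theorem p2057 : Pat 73 73 TBm TCm (CB.map Fm) R0Q095.P2057 R0Q095.I2057 := Vale.Agent.P032.Lt.pat_eq (E' := R0Q095.E) eB (pat_step (by decide +kernel) (q_cons (Vale.Agent.P032.Lt.q R0Q095.q2057_0) (q_cons (Vale.Agent.P032.Lt.q R0Q095.q2057_1) (q_cons (Vale.Agent.P032.Lt.q R0Q095.q2057_2) q_nil))))

theorem p2058 : Pat 73 73 TBm TCm (CB.map Fm) R0Q095.P2058 R0Q095.I2058 := Vale.Agent.P032.Lt.pat_eq (E' := R0Q095.E) eB (pat_step (by decide +kernel) (q_cons (Vale.Agent.P032.Lt.q R0Q095.q2058_0) (q_cons (Vale.Agent.P032.Lt.q R0Q095.q2058_1) (q_cons (Vale.Agent.P032.Lt.q R0Q095.q2058_2) (q_cons (Vale.Agent.P032.Lt.q R0Q095.q2058_3) (q_cons (Vale.Agent.P032.Lt.q R0Q095.q2058_4) q_nil))))))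

theorem p2059 : Pat 73 73 TBm TCm (CB.map Fm) R0Q095.P2059 R0Q095.I2059 := Vale.Agent.P032.Lt.pat_eq (E' := R0Q095.E) eB (pat_step (by decide +kernel) (q_cons (Vale.Agent.P032.Lt.q R0Q095.q2059_0) (q_cons (Vale.Agent.P032.Lt.q R0Q095.q2059_1) q_nil)))

theorem p2060 : Pat 73 73 TBm TCm (CB.map Fm) R0Q095.P2060 R0Q095.I2060 := Vale.Agent.P032.Lt.pat_eq (E' := R0Q095.E) eB (pat_step (by decide +kernel) (q_cons (Vale.Agent.P032.Lt.q R0Q095.q2060_0) (q_cons (Vale.Agent.P032.Lt.q R0Q095.q2060_1) (q_cons (Vale.Agent.P032.Lt.q R0Q095.q2060_2) (q_cons (Vale.Agent.P032.Lt.q R0Q095.q2060_3) q_nil)))))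

theorem p2061 : Pat 73 73 TBm TCm (CB.map Fm) R0Q095.P2061 R0Q095.I2061 := Vale.Agent.P032.Lt.pat_eq (E' := R0Q095.E) eB (pat_step (by decide +kernel) (q_cons (Vale.Agent.P032.Lt.q R0Q095.q2061_0) (q_cons (Vale.Agent.P032.Lt.q R0Q095.q2061_1) (q_cons (Vale.Agent.P032.Lt.q R0Q095.q2061_2) (q_cons (Vale.Agent.P032.Lt.q R0Q095.q2061_3) (q_cons (Vale.Agent.P032.Lt.q R0Q095.q2061_4) (q_cons (Vale.Agent.P032.Lt.q R0Q095.q2061_5) (q_cons (Vale.Agent.P032.Lt.q R0Q095.q2061_6) (q_cons (Vale.Agent.P032.Lt.q R0Q095.q2061_7) (q_cons (Vale.Agent.P032.Lt.q R0Q095.q2061_8) (q_cons (Vale.Agent.P032.Lt.q R0Q095.q2061_9) (q_cons (Vale.Agent.P032.Lt.q R0Q095.q2061_10) (q_cons (Vale.Agent.P032.Lt.q R0Q095.q2061_11) (q_cons (Vale.Agent.P032.Lt.q R0Q095.q2061_12) (q_cons (Vale.Agent.P032.Lt.q R0Q095.q2061_13) (q_cons (Vale.Agent.P032.Lt.q R0Q095.q2061_14) (q_cons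 (Vale.Agent.P032.Lt.q R0Q095.q2061_15) q_nil)))))))))))))))))

theorem p2062 : Pat 73 73 TBm TCm (CB.map Fm) R0Q095.P2062 R0Q095.I2062 := Vale.Agent.P032.Lt.pat_eq (E' := R0Q095.E) eB (pat_step (by decide +kernel) (q_cons (Vale.Agent.P032.Lt.q R0Q095.q2062_0) (q_cons (Vale.Agent.P032.Lt.q R0Q095.q2062_1) (q_cons (Vale.Agent.P032.Lt.q R0Q095.q2062_2) (q_cons (Vale.Agent.P032.Lt.q R0Q095.q2062_3) (q_cons (Vale.Agent.P032.Lt.q R0Q095.q2062_4) (q_cons (Vale.Agent.P032.Lt.q R0Q095.q2062_5) (q_cons (Vale.Agent.P032.Lt.q R0Q095.q2062_6) (q_cons (Vale.Agent.P032.Lt.q R0Q095.q2062_7) (q_cons (Vale.Agent.P032.Lt.q R0Q095.q2062_8) (q_cons (Vale.Agent.P032.Lt.q R0Q095.q2062_9) (q_cons (Vale.Agent.P032.Lt.q R0Q095.q2062_10) (q_cons (Vale.Agent.P032.Lt.q R0Q095.q2062_11) (q_cons (Vale.Agent.P032.Lt.q R0Q095.q2062_12) (q_cons (Vale.Agent.P032.Lt.q R0Q095.q2062_13)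 (q_cons (Vale.Agent.P032.Lt.q R0Q095.q2062_14) (q_cons (Vale.Agent.P032.Lt.q R0Q095.q2062_15) (q_cons (Vale.Agent.P032.Lt.q R0Q095.q2062_16) (q_cons (Vale.Agent.P032.Lt.q R0Q095.q2062_17) (q_cons (Vale.Agent.P032.Lt.q R0Q095.q2062_18) (q_cons (Vale.Agent.P032.Lt.q R0Q095.q2062_19) (q_cons (Vale.Agent.P032.Lt.q R0Q095.q2062_20) (q_cons (Vale.Agent.P032.Lt.q R0Q095.q2062_21) (q_cons (Vale.Agent.P032.Lt.q R0Q095.q2062_22) (q_cons (Vale.Agent.P032.Lt.q R0Q095.q2062_23) (q_cons (Vale.Agent.P032.Lt.q R0Q095.q2062_24) (q_cons (Vale.Agent.P032.Lt.q R0Q095.q2062_25) (q_cons (Vale.Agent.P032.Lt.q R0Q095.q2062_26) (q_cons (Vale.Agent.P032.Lt.q R0Q095.q2062_27) (q_cons (Vale.Agent.P032.Lt.q R0Q095.q2062_28) (q_cons (Vale.Agent.P032.Lt.q R0Q095.q2062_29) (q_cons (Vale.Agent.P032.Lt.q R0Q095.q2062_30) (q_cons (Vale.Agent.P032.Lt.q R0Q095.q2062_31) (q_cons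 (Vale.Agent.P032.Lt.q R0Q095.q2062_32) (q_cons (Vale.Agent.P032.Lt.q R0Q095.q2062_33) (q_cons (Vale.Agent.P032.Lt.q R0Q095.q2062_34) (q_cons (Vale.Agent.P032.Lt.q R0Q095.q2062_35) q_nil)))))))))))))))))))))))))))))))))))))

theorem p2063 : Pat 73 73 TBm TCm (CB.map Fm) R0Q095.P2063 R0Q095.I2063 := Vale.Agent.P032.Lt.pat_eq (E' := R0Q095.E) eB (pat_step (by decide +kernel) (q_cons (Vale.Agent.P032.Lt.q R0Q095.q2063_0) (q_cons (Vale.Agent.P032.Lt.q R0Q095.q2063_1) (q_cons (Vale.Agent.P032.Lt.q R0Q095.q2063_2) (q_cons (Vale.Agent.P032.Lt.q R0Q095.q2063_3) (q_cons (Vale.Agent.P032.Lt.q R0Q095.q2063_4) (q_cons (Vale.Agent.P032.Lt.q R0Q095.q2063_5) (q_cons (Vale.Agent.P032.Lt.q R0Q095.q2063_6) (q_cons (Vale.Agent.P032.Lt.q R0Q095.q2063_7) (q_cons (Vale.Agent.P032.Lt.q R0Q095.q2063_8) (q_cons (Vale.Agent.P032.Lt.q R0Q095.q2063_9) (q_cons (Vale.Agent.P032.Lt.q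 R0Q095.q2063_10) (q_cons (Vale.Agent.P032.Lt.q R0Q095.q2063_11) (q_cons (Vale.Agent.P032.Lt.q R0Q095.q2063_12) (q_cons (Vale.Agent.P032.Lt.q R0Q095.q2063_13) (q_cons (Vale.Agent.P032.Lt.q R0Q095.q2063_14) (q_cons (Vale.Agent.P032.Lt.q R0Q095.q2063_15) q_nil)))))))))))))))))

theorem p2064 : Pat 73 73 TBm TCm (CB.map Fm) R0Q096.P2064 R0Q096.I2064 := Vale.Agent.P032.Lt.pat_eq (E' := R0Q096.E) eB (pat_step (by decide +kernel) (q_cons (Vale.Agent.P032.Lt.q R0Q096.q2064_0) (q_cons (Vale.Agent.P032.Lt.q R0Q096.q2064_1) (q_cons (Vale.Agent.P032.Lt.q R0Q096.q2064_2) (q_cons (Vale.Agent.P032.Lt.q R0Q096.q2064_3) (q_cons (Vale.Agent.P032.Lt.q R0Q096.q2064_4) (q_cons (Vale.Agent.P032.Lt.q R0Q096.q2064_5) (q_cons (Vale.Agent.P032.Lt.q R0Q096.q2064_6) (q_cons (Vale.Agent.P032.Lt.q R0Q096.q2064_7) (q_cons (Vale.Agent.P032.Lt.q R0Q096.q2064_8) (q_cons (Vale.Agent.P032.Lt.q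 R0Q096.q2064_9) (q_cons (Vale.Agent.P032.Lt.q R0Q096.q2064_10) (q_cons (Vale.Agent.P032.Lt.q R0Q096.q2064_11) (q_cons (Vale.Agent.P032.Lt.q R0Q096.q2064_12) (q_cons (Vale.Agent.P032.Lt.q R0Q096.q2064_13) (q_cons (Vale.Agent.P032.Lt.q R0Q096.q2064_14) (q_cons (Vale.Agent.P032.Lt.q R0Q096.q2064_15) (q_cons (Vale.Agent.P032.Lt.q R0Q096.q2064_16) (q_cons (Vale.Agent.P032.Lt.q R0Q096.q2064_17) (q_cons (Vale.Agent.P032.Lt.q R0Q096.q2064_18) (q_cons (Vale.Agent.P032.Lt.q R0Q096.q2064_19) (q_cons (Vale.Agent.P032.Lt.q R0Q096.q2064_20) (q_cons (Vale.Agent.P032.Lt.q R0Q096.q2064_21) q_nil)))))))))))))))))))))))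

theorem p2065 : Pat 73 73 TBm TCm (CB.map Fm) R0Q096.P2065 R0Q096.I2065 := Vale.Agent.P032.Lt.pat_eq (E' := R0Q096.E) eB (pat_step (by decide +kernel) (q_cons (Vale.Agent.P032.Lt.q R0Q096.q2065_0) (q_cons (Vale.Agent.P032.Lt.q R0Q096.q2065_1) (q_cons (Vale.Agent.P032.Lt.q R0Q096.q2065_2) (q_cons (Vale.Agent.P032.Lt.q R0Q096.q2065_3) q_nil)))))

theorem p2066 : Pat 73 73 TBm TCm (CB.map Fm) R0Q096.P2066 R0Q096.I2066 := Vale.Agent.P032.Lt.pat_eq (E' := R0Q096.E) eB (pat_step (by decide +kernel) (q_cons (Vale.Agent.P032.Lt.q R0Q096.q2066_0) (q_cons (Vale.Agent.P032.Lt.q R0Q096.q2066_1) (q_cons (Vale.Agent.P032.Lt.q R0Q096.q2066_2) q_nil))))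

theorem p2067 : Pat 73 73 TBm TCm (CB.map Fm) R0Q096.P2067 R0Q096.I2067 := Vale.Agent.P032.Lt.pat_eq (E' := R0Q096.E) eB (pat_step (by decide +kernel) (q_cons (Vale.Agent.P032.Lt.q R0Q096.q2067_0) (q_cons (Vale.Agent.P032.Lt.q R0Q096.q2067_1) (q_cons (Vale.Agent.P032.Lt.q R0Q096.q2067_2) (q_cons (Vale.Agent.P032.Lt.q R0Q096.q2067_3) (q_cons (Vale.Agent.P032.Lt.q R0Q096.q2067_4) (q_cons (Vale.Agent.P032.Lt.q R0Q096.q2067_5) (q_cons (Vale.Agent.P032.Lt.q R0Q096.q2067_6) (q_cons (Vale.Agent.P032.Lt.q R0Q096.q2067_7) (q_cons (Vale.Agent.P032.Lt.q R0Q096.q2067_8) (q_cons (Vale.Agent.P032.Lt.q R0Q096.q2067_9) (q_cons (Vale.Agent.P032.Lt.q R0Q096.q2067_10) (q_cons (Vale.Agent.P032.Lt.q R0Q096.q2067_11) (q_cons (Vale.Agent.P032.Lt.q R0Q096.q2067_12) (q_cons (Vale.Agent.P032.Lt.q R0Q096.q2067_13) (q_cons (Vale.Agent.P032.Lt.q R0Q096.q2067_14) (q_cons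 (Vale.Agent.P032.Lt.q R0Q096.q2067_15) (q_cons (Vale.Agent.P032.Lt.q R0Q096.q2067_16) (q_cons (Vale.Agent.P032.Lt.q R0Q096.q2067_17) (q_cons (Vale.Agent.P032.Lt.q R0Q096.q2067_18) (q_cons (Vale.Agent.P032.Lt.q R0Q096.q2067_19) (q_cons (Vale.Agent.P032.Lt.q R0Q096.q2067_20) (q_cons (Vale.Agent.P032.Lt.q R0Q096.q2067_21) (q_cons (Vale.Agent.P032.Lt.q R0Q096.q2067_22) (q_cons (Vale.Agent.P032.Lt.q R0Q096.q2067_23) q_nil)))))))))))))))))))))))))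

theorem p2068 : Pat 73 73 TBm TCm (CB.map Fm) R0Q096.P2068 R0Q096.I2068 := Vale.Agent.P032.Lt.pat_eq (E' := R0Q096.E) eB (pat_step (by decide +kernel) (q_cons (Vale.Agent.P032.Lt.q R0Q096.q2068_0) (q_cons (Vale.Agent.P032.Lt.q R0Q096.q2068_1) (q_cons (Vale.Agent.P032.Lt.q R0Q096.q2068_2) (q_cons (Vale.Agent.P032.Lt.q R0Q096.q2068_3) q_nil)))))

theorem p2069 : Pat 73 73 TBm TCm (CB.map Fm) R0Q096.P2069 R0Q096.I2069 := Vale.Agent.P032.Lt.pat_eq (E' := R0Q096.E) eB (pat_step (by decide +kernel) (q_cons (Vale.Agent.P032.Lt.q R0Q096.q2069_0) (q_cons (Vale.Agent.P032.Lt.q R0Q096.q2069_1) (q_cons (Vale.Agent.P032.Lt.q R0Q096.q2069_2) (q_cons (Vale.Agent.P032.Lt.q R0Q096.q2069_3) (q_cons (Vale.Agent.P032.Lt.q R0Q096.q2069_4) (q_cons (Vale.Agent.P032.Lt.q R0Q096.q2069_5) (q_cons (Vale.Agent.P032.Lt.q R0Q096.q2069_6) (q_cons (Vale.Agent.P032.Lt.q R0Q096.q2069_7)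 (q_cons (Vale.Agent.P032.Lt.q R0Q096.q2069_8) (q_cons (Vale.Agent.P032.Lt.q R0Q096.q2069_9) (q_cons (Vale.Agent.P032.Lt.q R0Q096.q2069_10) (q_cons (Vale.Agent.P032.Lt.q R0Q096.q2069_11) (q_cons (Vale.Agent.P032.Lt.q R0Q096.q2069_12) (q_cons (Vale.Agent.P032.Lt.q R0Q096.q2069_13) (q_cons (Vale.Agent.P032.Lt.q R0Q096.q2069_14) (q_cons (Vale.Agent.P032.Lt.q R0Q096.q2069_15) (q_cons (Vale.Agent.P032.Lt.q R0Q096.q2069_16) (q_cons (Vale.Agent.P032.Lt.q R0Q096.q2069_17) q_nil)))))))))))))))))))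

theorem p2070 : Pat 73 73 TBm TCm (CB.map Fm) R0Q096.P2070 R0Q096.I2070 := Vale.Agent.P032.Lt.pat_eq (E' := R0Q096.E) eB (pat_step (by decide +kernel) (q_cons (Vale.Agent.P032.Lt.q R0Q096.q2070_0) (q_cons (Vale.Agent.P032.Lt.q R0Q096.q2070_1) (q_cons (Vale.Agent.P032.Lt.q R0Q096.q2070_2) (q_cons (Vale.Agent.P032.Lt.q R0Q096.q2070_3) (q_cons (Vale.Agent.P032.Lt.q R0Q096.q2070_4) (q_cons (Vale.Agent.P032.Lt.q R0Q096.q2070_5) (q_cons (Vale.Agent.P032.Lt.q R0Q096.q2070_6) (q_cons (Vale.Agent.P032.Lt.q R0Q096.q2070_7) (q_cons (Vale.Agent.P032.Lt.q R0Q096.q2070_8) (q_cons (Vale.Agent.P032.Lt.q R0Q096.q2070_9) (q_cons (Vale.Agent.P032.Lt.q R0Q096.q2070_10) (q_cons (Vale.Agent.P032.Lt.q R0Q096.q2070_11) (q_cons (Vale.Agent.P032.Lt.q R0Q096.q2070_12) (q_cons (Vale.Agent.P032.Lt.q R0Q096.q2070_13) (q_cons (Vale.Agent.P032.Lt.q R0Q096.q2070_14) (q_cons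 (Vale.Agent.P032.Lt.q R0Q096.q2070_15) (q_cons (Vale.Agent.P032.Lt.q R0Q096.q2070_16) (q_cons (Vale.Agent.P032.Lt.q R0Q096.q2070_17) (q_cons (Vale.Agent.P032.Lt.q R0Q096.q2070_18) (q_cons (Vale.Agent.P032.Lt.q R0Q096.q2070_19) (q_cons (Vale.Agent.P032.Lt.q R0Q096.q2070_20) (q_cons (Vale.Agent.P032.Lt.q R0Q096.q2070_21) (q_cons (Vale.Agent.P032.Lt.q R0Q096.q2070_22) (q_cons (Vale.Agent.P032.Lt.q R0Q096.q2070_23) (q_cons (Vale.Agent.P032.Lt.q R0Q096.q2070_24) (q_cons (Vale.Agent.P032.Lt.q R0Q096.q2070_25) (q_cons (Vale.Agent.P032.Lt.q R0Q096.q2070_26) (q_cons (Vale.Agent.P032.Lt.q R0Q096.q2070_27) (q_cons (Vale.Agent.P032.Lt.q R0Q096.q2070_28) (q_cons (Vale.Agent.P032.Lt.q R0Q096.q2070_29) (q_cons (Vale.Agent.P032.Lt.q R0Q096.q2070_30) (q_cons (Vale.Agent.P032.Lt.q R0Q096.q2070_31) (q_cons (Vale.Agent.P032.Lt.q R0Q096.q2070_32) (q_cons (Vale.Agent.P032.Lt.q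 R0Q096.q2070_33) (q_cons (Vale.Agent.P032.Lt.q R0Q096.q2070_34) (q_cons (Vale.Agent.P032.Lt.q R0Q096.q2070_35) (q_cons (Vale.Agent.P032.Lt.q R0Q096.q2070_36) (q_cons (Vale.Agent.P032.Lt.q R0Q096.q2070_37) (q_cons (Vale.Agent.P032.Lt.q R0Q096.q2070_38) (q_cons (Vale.Agent.P032.Lt.q R0Q096.q2070_39) (q_cons (Vale.Agent.P032.Lt.q R0Q096.q2070_40) (q_cons (Vale.Agent.P032.Lt.q R0Q096.q2070_41) (q_cons (Vale.Agent.P032.Lt.q R0Q096.q2070_42) (q_cons (Vale.Agent.P032.Lt.q R0Q096.q2070_43) (q_cons (Vale.Agent.P032.Lt.q R0Q096.q2070_44) (q_cons (Vale.Agent.P032.Lt.q R0Q096.q2070_45) (q_cons (Vale.Agent.P032.Lt.q R0Q096.q2070_46) (q_cons (Vale.Agent.P032.Lt.q R0Q096.q2070_47) (q_cons (Vale.Agent.P032.Lt.q R0Q096.q2070_48) (q_cons (Vale.Agent.P032.Lt.q R0Q096.q2070_49) (q_cons (Vale.Agent.P032.Lt.q R0Q096.q2070_50) (q_cons (Vale.Agent.P032.Lt.q R0Q096.q2070_51)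 (q_cons (Vale.Agent.P032.Lt.q R0Q096.q2070_52) (q_cons (Vale.Agent.P032.Lt.q R0Q096.q2070_53) (q_cons (Vale.Agent.P032.Lt.q R0Q096.q2070_54) (q_cons (Vale.Agent.P032.Lt.q R0Q096.q2070_55) (q_cons (Vale.Agent.P032.Lt.q R0Q096.q2070_56) (q_cons (Vale.Agent.P032.Lt.q R0Q096.q2070_57) (q_cons (Vale.Agent.P032.Lt.q R0Q096.q2070_58) (q_cons (Vale.Agent.P032.Lt.q R0Q096.q2070_59) (q_cons (Vale.Agent.P032.Lt.q R0Q096.q2070_60) (q_cons (Vale.Agent.P032.Lt.q R0Q096.q2070_61) (q_cons (Vale.Agent.P032.Lt.q R0Q096.q2070_62) (q_cons (Vale.Agent.P032.Lt.q R0Q096.q2070_63) (q_cons (Vale.Agent.P032.Lt.q R0Q096.q2070_64) (q_cons (Vale.Agent.P032.Lt.q R0Q096.q2070_65) (q_cons (Vale.Agent.P032.Lt.q R0Q096.q2070_66) (q_cons (Vale.Agent.P032.Lt.q R0Q096.q2070_67) (q_cons (Vale.Agent.P032.Lt.q R0Q096.q2070_68) (q_cons (Vale.Agent.P032.Lt.q R0Q096.q2070_69) (q_cons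 (Vale.Agent.P032.Lt.q R0Q096.q2070_70) (q_cons (Vale.Agent.P032.Lt.q R0Q096.q2070_71) (q_cons (Vale.Agent.P032.Lt.q R0Q096.q2070_72) (q_cons (Vale.Agent.P032.Lt.q R0Q096.q2070_73) (q_cons (Vale.Agent.P032.Lt.q R0Q096.q2070_74) (q_cons (Vale.Agent.P032.Lt.q R0Q096.q2070_75) (q_cons (Vale.Agent.P032.Lt.q R0Q096.q2070_76) (q_cons (Vale.Agent.P032.Lt.q R0Q096.q2070_77) (q_cons (Vale.Agent.P032.Lt.q R0Q096.q2070_78) (q_cons (Vale.Agent.P032.Lt.q R0Q096.q2070_79) (q_cons (Vale.Agent.P032.Lt.q R0Q096.q2070_80) (q_cons (Vale.Agent.P032.Lt.q R0Q096.q2070_81) (q_cons (Vale.Agent.P032.Lt.q R0Q096.q2070_82) (q_cons (Vale.Agent.P032.Lt.q R0Q096.q2070_83) (q_cons (Vale.Agent.P032.Lt.q R0Q096.q2070_84) (q_cons (Vale.Agent.P032.Lt.q R0Q096.q2070_85) (q_cons (Vale.Agent.P032.Lt.q R0Q096.q2070_86) (q_cons (Vale.Agent.P032.Lt.q R0Q096.q2070_87) (q_cons (Vale.Agent.P032.Lt.q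 R0Q096.q2070_88) (q_cons (Vale.Agent.P032.Lt.q R0Q096.q2070_89) (q_cons (Vale.Agent.P032.Lt.q R0Q096.q2070_90) (q_cons (Vale.Agent.P032.Lt.q R0Q096.q2070_91) (q_cons (Vale.Agent.P032.Lt.q R0Q096.q2070_92) (q_cons (Vale.Agent.P032.Lt.q R0Q096.q2070_93) (q_cons (Vale.Agent.P032.Lt.q R0Q096.q2070_94) (q_cons (Vale.Agent.P032.Lt.q R0Q096.q2070_95) (q_cons (Vale.Agent.P032.Lt.q R0Q096.q2070_96) (q_cons (Vale.Agent.P032.Lt.q R0Q096.q2070_97) (q_cons (Vale.Agent.P032.Lt.q R0Q096.q2070_98) (q_cons (Vale.Agent.P032.Lt.q R0Q096.q2070_99) (q_cons (Vale.Agent.P032.Lt.q R0Q096.q2070_100) (q_cons (Vale.Agent.P032.Lt.q R0Q096.q2070_101) (q_cons (Vale.Agent.P032.Lt.q R0Q096.q2070_102) (q_cons (Vale.Agent.P032.Lt.q R0Q096.q2070_103) (q_cons (Vale.Agent.P032.Lt.q R0Q096.q2070_104) (q_cons (Vale.Agent.P032.Lt.q R0Q096.q2070_105) (q_cons (Vale.Agent.P032.Lt.q R0Q096.q2070_106)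 (q_cons (Vale.Agent.P032.Lt.q R0Q096.q2070_107) (q_cons (Vale.Agent.P032.Lt.q R0Q096.q2070_108) (q_cons (Vale.Agent.P032.Lt.q R0Q096.q2070_109) (q_cons (Vale.Agent.P032.Lt.q R0Q096.q2070_110) (q_cons (Vale.Agent.P032.Lt.q R0Q096.q2070_111) (q_cons (Vale.Agent.P032.Lt.q R0Q096.q2070_112) (q_cons (Vale.Agent.P032.Lt.q R0Q096.q2070_113) (q_cons (Vale.Agent.P032.Lt.q R0Q096.q2070_114) (q_cons (Vale.Agent.P032.Lt.q R0Q096.q2070_115) (q_cons (Vale.Agent.P032.Lt.q R0Q096.q2070_116) (q_cons (Vale.Agent.P032.Lt.q R0Q096.q2070_117) (q_cons (Vale.Agent.P032.Lt.q R0Q096.q2070_118) (q_cons (Vale.Agent.P032.Lt.q R0Q096.q2070_119) (q_cons (Vale.Agent.P032.Lt.q R0Q096.q2070_120) (q_cons (Vale.Agent.P032.Lt.q R0Q096.q2070_121) (q_cons (Vale.Agent.P032.Lt.q R0Q096.q2070_122) (q_cons (Vale.Agent.P032.Lt.q R0Q096.q2070_123) (q_cons (Vale.Agent.P032.Lt.q R0Q096.q2070_124)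 (q_cons (Vale.Agent.P032.Lt.q R0Q096.q2070_125) (q_cons (Vale.Agent.P032.Lt.q R0Q096.q2070_126) (q_cons (Vale.Agent.P032.Lt.q R0Q096.q2070_127) (q_cons (Vale.Agent.P032.Lt.q R0Q096.q2070_128) (q_cons (Vale.Agent.P032.Lt.q R0Q096.q2070_129) (q_cons (Vale.Agent.P032.Lt.q R0Q096.q2070_130) (q_cons (Vale.Agent.P032.Lt.q R0Q096.q2070_131) (q_cons (Vale.Agent.P032.Lt.q R0Q096.q2070_132) (q_cons (Vale.Agent.P032.Lt.q R0Q096.q2070_133) (q_cons (Vale.Agent.P032.Lt.q R0Q096.q2070_134) (q_cons (Vale.Agent.P032.Lt.q R0Q096.q2070_135) (q_cons (Vale.Agent.P032.Lt.q R0Q096.q2070_136) (q_cons (Vale.Agent.P032.Lt.q R0Q096.q2070_137) (q_cons (Vale.Agent.P032.Lt.q R0Q096.q2070_138) (q_cons (Vale.Agent.P032.Lt.q R0Q096.q2070_139) (q_cons (Vale.Agent.P032.Lt.q R0Q096.q2070_140) (q_cons (Vale.Agent.P032.Lt.q R0Q096.q2070_141) (q_cons (Vale.Agent.P032.Lt.q R0Q096.q2070_142)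 (q_cons (Vale.Agent.P032.Lt.q R0Q096.q2070_143) (q_cons (Vale.Agent.P032.Lt.q R0Q096.q2070_144) (q_cons (Vale.Agent.P032.Lt.q R0Q096.q2070_145) (q_cons (Vale.Agent.P032.Lt.q R0Q096.q2070_146) (q_cons (Vale.Agent.P032.Lt.q R0Q096.q2070_147) (q_cons (Vale.Agent.P032.Lt.q R0Q096.q2070_148) (q_cons (Vale.Agent.P032.Lt.q R0Q096.q2070_149) (q_cons (Vale.Agent.P032.Lt.q R0Q096.q2070_150) (q_cons (Vale.Agent.P032.Lt.q R0Q096.q2070_151) (q_cons (Vale.Agent.P032.Lt.q R0Q096.q2070_152) (q_cons (Vale.Agent.P032.Lt.q R0Q096.q2070_153) (q_cons (Vale.Agent.P032.Lt.q R0Q096.q2070_154) (q_cons (Vale.Agent.P032.Lt.q R0Q096.q2070_155) (q_cons (Vale.Agent.P032.Lt.q R0Q096.q2070_156) (q_cons (Vale.Agent.P032.Lt.q R0Q096.q2070_157) (q_cons (Vale.Agent.P032.Lt.q R0Q096.q2070_158) q_nil))))))))))))))))))))))))))))))))))))))))))))))))))))))))))))))))))))))))))))))))))))))))))))))))))))))))))))))))))))))))))))))))))))))))))))))))))))))))))))))))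

theorem p2071 : Pat 73 73 TBm TCm (CB.map Fm) R0Q096.P2071 R0Q096.I2071 := Vale.Agent.P032.Lt.pat_eq (E' := R0Q096.E) eB (pat_step (by decide +kernel) (q_cons (Vale.Agent.P032.Lt.q R0Q096.q2071_0) (q_cons (Vale.Agent.P032.Lt.q R0Q096.q2071_1) (q_cons (Vale.Agent.P032.Lt.q R0Q096.q2071_2) (q_cons (Vale.Agent.P032.Lt.q R0Q096.q2071_3) q_nil)))))

theorem p2072 : Pat 73 73 TBm TCm (CB.map Fm) R0Q097.P2072 R0Q097.I2072 := Vale.Agent.P032.Lt.pat_eq (E' := R0Q097.E) eB (pat_step (by decide +kernel) (q_cons (Vale.Agent.P032.Lt.q R0Q097.q2072_0) (q_cons (Vale.Agent.P032.Lt.q R0Q097.q2072_1) (q_cons (Vale.Agent.P032.Lt.q R0Q097.q2072_2) (q_cons (Vale.Agent.P032.Lt.q R0Q097.q2072_3) (q_cons (Vale.Agent.P032.Lt.q R0Q097.q2072_4) (q_cons (Vale.Agent.P032.Lt.q R0Q097.q2072_5) (q_cons (Vale.Agent.P032.Lt.q R0Q097.q2072_6) (q_cons (Vale.Agent.P032.Lt.q R0Q097.q2072_7)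 (q_cons (Vale.Agent.P032.Lt.q R0Q097.q2072_8) (q_cons (Vale.Agent.P032.Lt.q R0Q097.q2072_9) (q_cons (Vale.Agent.P032.Lt.q R0Q097.q2072_10) (q_cons (Vale.Agent.P032.Lt.q R0Q097.q2072_11) (q_cons (Vale.Agent.P032.Lt.q R0Q097.q2072_12) (q_cons (Vale.Agent.P032.Lt.q R0Q097.q2072_13) (q_cons (Vale.Agent.P032.Lt.q R0Q097.q2072_14) (q_cons (Vale.Agent.P032.Lt.q R0Q097.q2072_15) (q_cons (Vale.Agent.P032.Lt.q R0Q097.q2072_16) (q_cons (Vale.Agent.P032.Lt.q R0Q097.q2072_17) (q_cons (Vale.Agent.P032.Lt.q R0Q097.q2072_18) (q_cons (Vale.Agent.P032.Lt.q R0Q097.q2072_19) (q_cons (Vale.Agent.P032.Lt.q R0Q097.q2072_20) (q_cons (Vale.Agent.P032.Lt.q R0Q097.q2072_21) (q_cons (Vale.Agent.P032.Lt.q R0Q097.q2072_22) (q_cons (Vale.Agent.P032.Lt.q R0Q097.q2072_23) (q_cons (Vale.Agent.P032.Lt.q R0Q097.q2072_24) (q_cons (Vale.Agent.P032.Lt.q R0Q097.q2072_25) (q_cons (Vale.Agent.P032.Lt.q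 R0Q097.q2072_26) (q_cons (Vale.Agent.P032.Lt.q R0Q097.q2072_27) (q_cons (Vale.Agent.P032.Lt.q R0Q097.q2072_28) (q_cons (Vale.Agent.P032.Lt.q R0Q097.q2072_29) (q_cons (Vale.Agent.P032.Lt.q R0Q097.q2072_30) (q_cons (Vale.Agent.P032.Lt.q R0Q097.q2072_31) (q_cons (Vale.Agent.P032.Lt.q R0Q097.q2072_32) (q_cons (Vale.Agent.P032.Lt.q R0Q097.q2072_33) (q_cons (Vale.Agent.P032.Lt.q R0Q097.q2072_34) (q_cons (Vale.Agent.P032.Lt.q R0Q097.q2072_35) (q_cons (Vale.Agent.P032.Lt.q R0Q097.q2072_36) (q_cons (Vale.Agent.P032.Lt.q R0Q097.q2072_37) (q_cons (Vale.Agent.P032.Lt.q R0Q097.q2072_38) q_nil))))))))))))))))))))))))))))))))))))))))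

theorem p2073 : Pat 73 73 TBm TCm (CB.map Fm) R0Q097.P2073 R0Q097.I2073 := Vale.Agent.P032.Lt.pat_eq (E' := R0Q097.E) eB (pat_step (by decide +kernel) (q_cons (Vale.Agent.P032.Lt.q R0Q097.q2073_0) (q_cons (Vale.Agent.P032.Lt.q R0Q097.q2073_1) (q_cons (Vale.Agent.P032.Lt.q R0Q097.q2073_2) (q_cons (Vale.Agent.P032.Lt.q R0Q097.q2073_3) q_nil)))))

def C2074 : List ℕ := [0, 4, 8, 12, 16, 20, 24, 81921, 222209, 475137, 606209]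
theorem p2074 : Pat 73 73 TBm TCm (C2074.map Fm) R0Q097.P2074 R0Q097.I2074 := Vale.Agent.P032.Lt.pat_eq (E' := R0Q097.E2074) (by decide +kernel) (pat_step (by decide +kernel) (q_cons (Vale.Agent.P032.Lt.q R0Q097.q2074_0) (q_cons (Vale.Agent.P032.Lt.q R0Q097.q2074_1) (q_cons (Vale.Agent.P032.Lt.q R0Q097.q2074_2) q_nil))))

theorem p2075 : Pat 73 73 TBm TCm (CB.map Fm) R0Q097.P2075 R0Q097.I2075 := Vale.Agent.P032.Lt.pat_eq (E' := R0Q097.E) eB (pat_step (by decide +kernel) (q_cons (Vale.Agent.P032.Lt.q R0Q097.q2075_0) (q_cons (Vale.Agent.P032.Lt.q R0Q097.q2075_1) (q_cons (Vale.Agent.P032.Lt.q R0Q097.q2075_2) q_nil))))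

def C2076 : List ℕ := [0, 4, 8, 12, 16, 20, 24, 344065, 475137, 485377]
theorem p2076 : Pat 73 73 TBm TCm (C2076.map Fm) R0Q097.P2076 R0Q097.I2076 := Vale.Agent.P032.Lt.pat_eq (E' := R0Q097.E2076) (by decide +kernel) (pat_step (by decide +kernel) (q_cons (Vale.Agent.P032.Lt.q R0Q097.q2076_0) (q_cons (Vale.Agent.P032.Lt.q R0Q097.q2076_1) q_nil)))

theorem p2077 : Pat 73 73 TBm TCm (CB.map Fm) R0Q097.P2077 R0Q097.I2077 := Vale.Agent.P032.Lt.pat_eq (E' := R0Q097.E) eB (pat_step (by decide +kernel) (q_cons (Vale.Agent.P032.Lt.q R0Q097.q2077_0) (q_cons (Vale.Agent.P032.Lt.q R0Q097.q2077_1) (q_cons (Vale.Agent.P032.Lt.q R0Q097.q2077_2) q_nil))))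

theorem p2078 : Pat 73 73 TBm TCm (CB.map Fm) R0Q097.P2078 R0Q097.I2078 := Vale.Agent.P032.Lt.pat_eq (E' := R0Q097.E) eB (pat_step (by decide +kernel) (q_cons (Vale.Agent.P032.Lt.q R0Q097.q2078_0) (q_cons (Vale.Agent.P032.Lt.q R0Q097.q2078_1) q_nil)))

theorem p2079 : Pat 73 73 TBm TCm (CB.map Fm) R0Q097.P2079 R0Q097.I2079 := Vale.Agent.P032.Lt.pat_eq (E' := R0Q097.E) eB (pat_step (by decide +kernel) (q_cons (Vale.Agent.P032.Lt.q R0Q097.q2079_0) (q_cons (Vale.Agent.P032.Lt.q R0Q097.q2079_1) (q_cons (Vale.Agent.P032.Lt.q R0Q097.q2079_2) (q_cons (Vale.Agent.P032.Lt.q R0Q097.q2079_3) (q_cons (Vale.Agent.P032.Lt.q R0Q097.q2079_4) q_nil))))))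

theorem p2080 : Pat 73 73 TBm TCm (CB.map Fm) R0Q097.P2080 R0Q097.I2080 := Vale.Agent.P032.Lt.pat_eq (E' := R0Q097.E) eB (pat_step (by decide +kernel) (q_cons (Vale.Agent.P032.Lt.q R0Q097.q2080_0) (q_cons (Vale.Agent.P032.Lt.q R0Q097.q2080_1) q_nil)))

theorem p2081 : Pat 73 73 TBm TCm (CB.map Fm) R0Q097.P2081 R0Q097.I2081 := Vale.Agent.P032.Lt.pat_eq (E' := R0Q097.E) eB (pat_step (by decide +kernel) (q_cons (Vale.Agent.P032.Lt.q R0Q097.q2081_0) (q_cons (Vale.Agent.P032.Lt.q R0Q097.q2081_1) (q_cons (Vale.Agent.P032.Lt.q R0Q097.q2081_2) (q_cons (Vale.Agent.P032.Lt.q R0Q097.q2081_3) (q_cons (Vale.Agent.P032.Lt.q R0Q097.q2081_4) (q_cons (Vale.Agent.P032.Lt.q R0Q097.q2081_5) (q_cons (Vale.Agent.P032.Lt.q R0Q097.q2081_6) (q_cons (Vale.Agent.P032.Lt.q R0Q097.q2081_7) (q_cons (Vale.Agent.P032.Lt.q R0Q097.q2081_8) (q_cons (Vale.Agent.P032.Lt.q R0Q097.q2081_9)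 (q_cons (Vale.Agent.P032.Lt.q R0Q097.q2081_10) (q_cons (Vale.Agent.P032.Lt.q R0Q097.q2081_11) (q_cons (Vale.Agent.P032.Lt.q R0Q097.q2081_12) q_nil))))))))))))))

theorem p2082 : Pat 73 73 TBm TCm (CB.map Fm) R0Q097.P2082 R0Q097.I2082 := Vale.Agent.P032.Lt.pat_eq (E' := R0Q097.E) eB (pat_step (by decide +kernel) (q_cons (Vale.Agent.P032.Lt.q R0Q097.q2082_0) (q_cons (Vale.Agent.P032.Lt.q R0Q097.q2082_1) (q_cons (Vale.Agent.P032.Lt.q R0Q097.q2082_2) (q_cons (Vale.Agent.P032.Lt.q R0Q097.q2082_3) (q_cons (Vale.Agent.P032.Lt.q R0Q097.q2082_4) (q_cons (Vale.Agent.P032.Lt.q R0Q097.q2082_5) (q_cons (Vale.Agent.P032.Lt.q R0Q097.q2082_6) q_nil))))))))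

def C2083 : List ℕ := [0, 4, 8, 12, 16, 20, 24, 344065, 475137]
theorem p2083 : Pat 73 73 TBm TCm (C2083.map Fm) R0Q097.P2083 R0Q097.I2083 := Vale.Agent.P032.Lt.pat_eq (E' := R0Q097.E2083) (by decide +kernel) (pat_step (by decide +kernel) (q_cons (Vale.Agent.P032.Lt.q R0Q097.q2083_0) (q_cons (Vale.Agent.P032.Lt.q R0Q097.q2083_1) (q_cons (Vale.Agent.P032.Lt.q R0Q097.q2083_2) (q_cons (Vale.Agent.P032.Lt.q R0Q097.q2083_3) (q_cons (Vale.Agent.P032.Lt.q R0Q097.q2083_4) (q_cons (Vale.Agent.P032.Lt.q R0Q097.q2083_5) (q_cons (Vale.Agent.P032.Lt.q R0Q097.q2083_6) (q_cons (Vale.Agent.P032.Lt.q R0Q097.q2083_7) (q_cons (Vale.Agent.P032.Lt.q R0Q097.q2083_8) (q_cons (Vale.Agent.P032.Lt.q R0Q097.q2083_9) (q_cons (Vale.Agent.P032.Lt.q R0Q097.q2083_10) (q_cons (Vale.Agent.P032.Lt.q R0Q097.q2083_11) q_nil)))))))))))))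

def C2084 : List ℕ := [0, 4, 8, 12, 16, 20, 24, 84993, 347137, 737281]
theorem p2084 : Pat 73 73 TBm TCm (C2084.map Fm) R0Q097.P2084 R0Q097.I2084 := Vale.Agent.P032.Lt.pat_eq (E' := R0Q097.E2084) (by decide +kernel) (pat_step (by decide +kernel) (q_cons (Vale.Agent.P032.Lt.q R0Q097.q2084_0) (q_cons (Vale.Agent.P032.Lt.q R0Q097.q2084_1) (q_cons (Vale.Agent.P032.Lt.q R0Q097.q2084_2) (q_cons (Vale.Agent.P032.Lt.q R0Q097.q2084_3) q_nil)))))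

theorem p2085 : Pat 73 73 TBm TCm (CB.map Fm) R0Q097.P2085 R0Q097.I2085 := Vale.Agent.P032.Lt.pat_eq (E' := R0Q097.E) eB (pat_step (by decide +kernel) (q_cons (Vale.Agent.P032.Lt.q R0Q097.q2085_0) (q_cons (Vale.Agent.P032.Lt.q R0Q097.q2085_1) (q_cons (Vale.Agent.P032.Lt.q R0Q097.q2085_2) q_nil))))

theorem p2086 : Pat 73 73 TBm TCm (CB.map Fm) R0Q097.P2086 R0Q097.I2086 := Vale.Agent.P032.Lt.pat_eq (E' := R0Q097.E) eB (pat_step (by decide +kernel) (q_cons (Vale.Agent.P032.Lt.q R0Q097.q2086_0) q_nil))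

theorem p2087 : Pat 73 73 TBm TCm (CB.map Fm) R0Q097.P2087 R0Q097.I2087 := Vale.Agent.P032.Lt.pat_eq (E' := R0Q097.E) eB (pat_step (by decide +kernel) (q_cons (Vale.Agent.P032.Lt.q R0Q097.q2087_0) q_nil))

theorem p2088 : Pat 73 73 TBm TCm (CB.map Fm) R0Q097.P2088 R0Q097.I2088 := Vale.Agent.P032.Lt.pat_eq (E' := R0Q097.E) eB (pat_step (by decide +kernel) (q_cons (Vale.Agent.P032.Lt.q R0Q097.q2088_0) q_nil))

theorem p2089 : Pat 73 73 TBm TCm (CB.map Fm) R0Q097.P2089 R0Q097.I2089 := Vale.Agent.P032.Lt.pat_eq (E' := R0Q097.E) eB (pat_step (by decide +kernel) (q_cons (Vale.Agent.P032.Lt.q R0Q097.q2089_0) (q_cons (Vale.Agent.P032.Lt.q R0Q097.q2089_1) (q_cons (Vale.Agent.P032.Lt.q R0Q097.q2089_2) (q_cons (Vale.Agent.P032.Lt.q R0Q097.q2089_3) (q_cons (Vale.Agent.P032.Lt.q R0Q097.q2089_4) (q_cons (Vale.Agent.P032.Lt.q R0Q097.q2089_5) (q_cons (Vale.Agent.P032.Lt.q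 R0Q097.q2089_6) (q_cons (Vale.Agent.P032.Lt.q R0Q097.q2089_7) q_nil)))))))))

def C2090 : List ℕ := [0, 4, 8, 12, 16, 20, 24, 737281]
theorem p2090 : Pat 73 73 TBm TCm (C2090.map Fm) R0Q097.P2090 R0Q097.I2090 := Vale.Agent.P032.Lt.pat_eq (E' := R0Q097.E2090) (by decide +kernel) (pat_step (by decide +kernel) (q_cons (Vale.Agent.P032.Lt.q R0Q097.q2090_0) q_nil))

theorem p2091 : Pat 73 73 TBm TCm (CB.map Fm) R0Q097.P2091 R0Q097.I2091 := Vale.Agent.P032.Lt.pat_eq (E' := R0Q097.E) eB (pat_step (by decide +kernel) (q_cons (Vale.Agent.P032.Lt.q R0Q097.q2091_0) (q_cons (Vale.Agent.P032.Lt.q R0Q097.q2091_1) (q_cons (Vale.Agent.P032.Lt.q R0Q097.q2091_2) (q_cons (Vale.Agent.P032.Lt.q R0Q097.q2091_3) (q_cons (Vale.Agent.P032.Lt.q R0Q097.q2091_4) (q_cons (Vale.Agent.P032.Lt.q R0Q097.q2091_5) (q_cons (Vale.Agent.P032.Lt.q R0Q097.q2091_6) q_nil))))))))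

theorem p2092 : Pat 73 73 TBm TCm (CB.map Fm) R0Q098.P2092 R0Q098.I2092 := Vale.Agent.P032.Lt.pat_eq (E' := R0Q098.E) eB (pat_step (by decide +kernel) (q_cons (Vale.Agent.P032.Lt.q R0Q098.q2092_0) q_nil))

theorem p2093 : Pat 73 73 TBm TCm (CB.map Fm) R0Q098.P2093 R0Q098.I2093 := Vale.Agent.P032.Lt.pat_eq (E' := R0Q098.E) eB (pat_step (by decide +kernel) (q_cons (Vale.Agent.P032.Lt.q R0Q098.q2093_0) q_nil))

theorem p2094 : Pat 73 73 TBm TCm (CB.map Fm) R0Q098.P2094 R0Q098.I2094 := Vale.Agent.P032.Lt.pat_eq (E' := R0Q098.E) eB (pat_step (by decide +kernel) (q_cons (Vale.Agent.P032.Lt.q R0Q098.q2094_0) (q_cons (Vale.Agent.P032.Lt.q R0Q098.q2094_1) (q_cons (Vale.Agent.P032.Lt.q R0Q098.q2094_2) (q_cons (Vale.Agent.P032.Lt.q R0Q098.q2094_3) (q_cons (Vale.Agent.P032.Lt.q R0Q098.q2094_4) (q_cons (Vale.Agent.P032.Lt.q R0Q098.q2094_5) (q_cons (Vale.Agent.P032.Lt.q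 R0Q098.q2094_6) (q_cons (Vale.Agent.P032.Lt.q R0Q098.q2094_7) (q_cons (Vale.Agent.P032.Lt.q R0Q098.q2094_8) q_nil))))))))))

theorem p2095 : Pat 73 73 TBm TCm (CB.map Fm) R0Q099.P2095 R0Q099.I2095 := Vale.Agent.P032.Lt.pat_eq (E' := R0Q099.E) eB (pat_step (by decide +kernel) (q_cons (Vale.Agent.P032.Lt.q R0Q099.q2095_0) (q_cons (Vale.Agent.P032.Lt.q R0Q099.q2095_1) (q_cons (Vale.Agent.P032.Lt.q R0Q099.q2095_2) (q_cons (Vale.Agent.P032.Lt.q R0Q099.q2095_3) (q_cons (Vale.Agent.P032.Lt.q R0Q099.q2095_4) (q_cons (Vale.Agent.P032.Lt.q R0Q099.q2095_5) (q_cons (Vale.Agent.P032.Lt.q R0Q099.q2095_6) (q_cons (Vale.Agent.P032.Lt.q R0Q099.q2095_7) (q_cons (Vale.Agent.P032.Lt.q R0Q099.q2095_8) (q_cons (Vale.Agent.P032.Lt.q R0Q099.q2095_9) (q_cons (Vale.Agent.P032.Lt.q R0Q099.q2095_10) (q_cons (Vale.Agent.P032.Lt.q R0Q099.q2095_11) (q_cons (Vale.Agent.P032.Lt.q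 R0Q099.q2095_12) (q_cons (Vale.Agent.P032.Lt.q R0Q099.q2095_13) (q_cons (Vale.Agent.P032.Lt.q R0Q099.q2095_14) (q_cons (Vale.Agent.P032.Lt.q R0Q099.q2095_15) (q_cons (Vale.Agent.P032.Lt.q R0Q099.q2095_16) (q_cons (Vale.Agent.P032.Lt.q R0Q099.q2095_17) q_nil)))))))))))))))))))

theorem p2096 : Pat 73 73 TBm TCm (CB.map Fm) R0Q099.P2096 R0Q099.I2096 := Vale.Agent.P032.Lt.pat_eq (E' := R0Q099.E) eB (pat_step (by decide +kernel) (q_cons (Vale.Agent.P032.Lt.q R0Q099.q2096_0) (q_cons (Vale.Agent.P032.Lt.q R0Q099.q2096_1) (q_cons (Vale.Agent.P032.Lt.q R0Q099.q2096_2) q_nil))))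

theorem p2097 : Pat 73 73 TBm TCm (CB.map Fm) R0Q099.P2097 R0Q099.I2097 := Vale.Agent.P032.Lt.pat_eq (E' := R0Q099.E) eB (pat_step (by decide +kernel) (q_cons (Vale.Agent.P032.Lt.q R0Q099.q2097_0) (q_cons (Vale.Agent.P032.Lt.q R0Q099.q2097_1) q_nil)))

def C2098 : List ℕ := [0, 4, 8, 12, 16, 20, 24, 84993, 212993, 214017, 347137, 478209, 606209, 737281]
theorem p2098 : Pat 73 73 TBm TCm (C2098.map Fm) R0Q099.P2098 R0Q099.I2098 := Vale.Agent.P032.Lt.pat_eq (E' := R0Q099.E2098) (by decide +kernel) (pat_step (by decide +kernel) (q_cons (Vale.Agent.P032.Lt.q R0Q099.q2098_0) (q_cons (Vale.Agent.P032.Lt.q R0Q099.q2098_1) (q_cons (Vale.Agent.P032.Lt.q R0Q099.q2098_2) (q_cons (Vale.Agent.P032.Lt.q R0Q099.q2098_3) q_nil)))))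

theorem p2099 : Pat 73 73 TBm TCm (CB.map Fm) R0Q099.P2099 R0Q099.I2099 := Vale.Agent.P032.Lt.pat_eq (E' := R0Q099.E) eB (pat_step (by decide +kernel) (q_cons (Vale.Agent.P032.Lt.q R0Q099.q2099_0) q_nil))

theorem p2100 : Pat 73 73 TBm TCm (CB.map Fm) R0Q099.P2100 R0Q099.I2100 := Vale.Agent.P032.Lt.pat_eq (E' := R0Q099.E) eB (pat_step (by decide +kernel) (q_cons (Vale.Agent.P032.Lt.q R0Q099.q2100_0) (q_cons (Vale.Agent.P032.Lt.q R0Q099.q2100_1) (q_cons (Vale.Agent.P032.Lt.q R0Q099.q2100_2) (q_cons (Vale.Agent.P032.Lt.q R0Q099.q2100_3) (q_cons (Vale.Agent.P032.Lt.q R0Q099.q2100_4) (q_cons (Vale.Agent.P032.Lt.q R0Q099.q2100_5) (q_cons (Vale.Agent.P032.Lt.q R0Q099.q2100_6) (q_cons (Vale.Agent.P032.Lt.q R0Q099.q2100_7) (q_cons (Vale.Agent.P032.Lt.q R0Q099.q2100_8) q_nil))))))))))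

theorem p2101 : Pat 73 73 TBm TCm (CB.map Fm) R0Q099.P2101 R0Q099.I2101 := Vale.Agent.P032.Lt.pat_eq (E' := R0Q099.E) eB (pat_step (by decide +kernel) (q_cons (Vale.Agent.P032.Lt.q R0Q099.q2101_0) (q_cons (Vale.Agent.P032.Lt.q R0Q099.q2101_1) (q_cons (Vale.Agent.P032.Lt.q R0Q099.q2101_2) q_nil))))

theorem p2102 : Pat 73 73 TBm TCm (CB.map Fm) R0Q099.P2102 R0Q099.I2102 := Vale.Agent.P032.Lt.pat_eq (E' := R0Q099.E) eB (pat_step (by decide +kernel) (q_cons (Vale.Agent.P032.Lt.q R0Q099.q2102_0) (q_cons (Vale.Agent.P032.Lt.q R0Q099.q2102_1) (q_cons (Vale.Agent.P032.Lt.q R0Q099.q2102_2) q_nil))))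

theorem p2103 : Pat 73 73 TBm TCm (CB.map Fm) R0Q099.P2103 R0Q099.I2103 := Vale.Agent.P032.Lt.pat_eq (E' := R0Q099.E) eB (pat_step (by decide +kernel) (q_cons (Vale.Agent.P032.Lt.q R0Q099.q2103_0) (q_cons (Vale.Agent.P032.Lt.q R0Q099.q2103_1) q_nil)))

def C2104 : List ℕ := [0, 4, 8, 12, 16, 20, 24, 475137, 486401]
theorem p2104 : Pat 73 73 TBm TCm (C2104.map Fm) R0Q099.P2104 R0Q099.I2104 := Vale.Agent.P032.Lt.pat_eq (E' := R0Q099.E2104) (by decide +kernel) (pat_step (by decide +kernel) (q_cons (Vale.Agent.P032.Lt.q R0Q099.q2104_0) q_nil))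

theorem p2105 : Pat 73 73 TBm TCm (CB.map Fm) R0Q099.P2105 R0Q099.I2105 := Vale.Agent.P032.Lt.pat_eq (E' := R0Q099.E) eB (pat_step (by decide +kernel) (q_cons (Vale.Agent.P032.Lt.q R0Q099.q2105_0) q_nil))

theorem p2106 : Pat 73 73 TBm TCm (CB.map Fm) R0Q099.P2106 R0Q099.I2106 := Vale.Agent.P032.Lt.pat_eq (E' := R0Q099.E) eB (pat_step (by decide +kernel) (q_cons (Vale.Agent.P032.Lt.q R0Q099.q2106_0) q_nil))

theorem p2107 : Pat 73 73 TBm TCm (CB.map Fm) R0Q099.P2107 R0Q099.I2107 := Vale.Agent.P032.Lt.pat_eq (E' := R0Q099.E) eB (pat_step (by decide +kernel) (q_cons (Vale.Agent.P032.Lt.q R0Q099.q2107_0) q_nil))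

theorem p2108 : Pat 73 73 TBm TCm (CB.map Fm) R0Q099.P2108 R0Q099.I2108 := Vale.Agent.P032.Lt.pat_eq (E' := R0Q099.E) eB (pat_step (by decide +kernel) (q_cons (Vale.Agent.P032.Lt.q R0Q099.q2108_0) q_nil))

theorem p2109 : Pat 73 73 TBm TCm (CB.map Fm) R0Q099.P2109 R0Q099.I2109 := Vale.Agent.P032.Lt.pat_eq (E' := R0Q099.E) eB (pat_step (by decide +kernel) (q_cons (Vale.Agent.P032.Lt.q R0Q099.q2109_0) q_nil))

theorem p2110 : Pat 73 73 TBm TCm (CB.map Fm) R0Q099.P2110 R0Q099.I2110 := Vale.Agent.P032.Lt.pat_eq (E' := R0Q099.E) eB (pat_step (by decide +kernel) (q_cons (Vale.Agent.P032.Lt.q R0Q099.q2110_0) (q_cons (Vale.Agent.P032.Lt.q R0Q099.q2110_1) (q_cons (Vale.Agent.P032.Lt.q R0Q099.q2110_2) (q_cons (Vale.Agent.P032.Lt.q R0Q099.q2110_3) (q_cons (Vale.Agent.P032.Lt.q R0Q099.q2110_4) (q_cons (Vale.Agent.P032.Lt.q R0Q099.q2110_5) (q_cons (Vale.Agent.P032.Lt.q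 R0Q099.q2110_6) (q_cons (Vale.Agent.P032.Lt.q R0Q099.q2110_7) (q_cons (Vale.Agent.P032.Lt.q R0Q099.q2110_8) (q_cons (Vale.Agent.P032.Lt.q R0Q099.q2110_9) q_nil)))))))))))

theorem p2111 : Pat 73 73 TBm TCm (CB.map Fm) R0Q099.P2111 R0Q099.I2111 := Vale.Agent.P032.Lt.pat_eq (E' := R0Q099.E) eB (pat_step (by decide +kernel) (q_cons (Vale.Agent.P032.Lt.q R0Q099.q2111_0) (q_cons (Vale.Agent.P032.Lt.q R0Q099.q2111_1) q_nil)))

theorem p2112 : Pat 73 73 TBm TCm (CB.map Fm) R0Q099.P2112 R0Q099.I2112 := Vale.Agent.P032.Lt.pat_eq (E' := R0Q099.E) eB (pat_step (by decide +kernel) (q_cons (Vale.Agent.P032.Lt.q R0Q099.q2112_0) q_nil))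

theorem p2113 : Pat 73 73 TBm TCm (CB.map Fm) R0Q099.P2113 R0Q099.I2113 := Vale.Agent.P032.Lt.pat_eq (E' := R0Q099.E) eB (pat_step (by decide +kernel) (q_cons (Vale.Agent.P032.Lt.q R0Q099.q2113_0) (q_cons (Vale.Agent.P032.Lt.q R0Q099.q2113_1) (q_cons (Vale.Agent.P032.Lt.q R0Q099.q2113_2) (q_cons (Vale.Agent.P032.Lt.q R0Q099.q2113_3) (q_cons (Vale.Agent.P032.Lt.q R0Q099.q2113_4) (q_cons (Vale.Agent.P032.Lt.q R0Q099.q2113_5) (q_cons (Vale.Agent.P032.Lt.q R0Q099.q2113_6) q_nil))))))))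

def C2114 : List ℕ := [0, 4, 8, 12, 16, 20, 24, 212993, 475137, 607233, 609281, 737281]
theorem p2114 : Pat 73 73 TBm TCm (C2114.map Fm) R0Q099.P2114 R0Q099.I2114 := Vale.Agent.P032.Lt.pat_eq (E' := R0Q099.E2114) (by decide +kernel) (pat_step (by decide +kernel) (q_cons (Vale.Agent.P032.Lt.q R0Q099.q2114_0) (q_cons (Vale.Agent.P032.Lt.q R0Q099.q2114_1) (q_cons (Vale.Agent.P032.Lt.q R0Q099.q2114_2) (q_cons (Vale.Agent.P032.Lt.q R0Q099.q2114_3) (q_cons (Vale.Agent.P032.Lt.q R0Q099.q2114_4) (q_cons (Vale.Agent.P032.Lt.q R0Q099.q2114_5) (q_cons (Vale.Agent.P032.Lt.q R0Q099.q2114_6) (q_cons (Vale.Agent.P032.Lt.q R0Q099.q2114_7) (q_cons (Vale.Agent.P032.Lt.q R0Q099.q2114_8) (q_cons (Vale.Agent.P032.Lt.q R0Q099.q2114_9) (q_cons (Vale.Agent.P032.Lt.q R0Q099.q2114_10) (q_cons (Vale.Agent.P032.Lt.q R0Q099.q2114_11) (q_cons (Vale.Agent.P032.Lt.q R0Q099.q2114_12)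 (q_cons (Vale.Agent.P032.Lt.q R0Q099.q2114_13) q_nil)))))))))))))))

def C2115 : List ℕ := [0, 4, 8, 12, 16, 20, 24, 607233, 609281]
theorem p2115 : Pat 73 73 TBm TCm (C2115.map Fm) R0Q099.P2115 R0Q099.I2115 := Vale.Agent.P032.Lt.pat_eq (E' := R0Q099.E2115) (by decide +kernel) (pat_step (by decide +kernel) (q_cons (Vale.Agent.P032.Lt.q R0Q099.q2115_0) q_nil))

def C2116 : List ℕ := [0, 4, 8, 12, 16, 20, 24, 82945, 84993, 212993, 475137, 607233, 609281, 737281, 741377]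
theorem p2116 : Pat 73 73 TBm TCm (C2116.map Fm) R0Q099.P2116 R0Q099.I2116 := Vale.Agent.P032.Lt.pat_eq (E' := R0Q099.E2116) (by decide +kernel) (pat_step (by decide +kernel) (q_cons (Vale.Agent.P032.Lt.q R0Q099.q2116_0) (q_cons (Vale.Agent.P032.Lt.q R0Q099.q2116_1) (q_cons (Vale.Agent.P032.Lt.q R0Q099.q2116_2) (q_cons (Vale.Agent.P032.Lt.q R0Q099.q2116_3) q_nil)))))

theorem p2117 : Pat 73 73 TBm TCm (CB.map Fm) R0Q099.P2117 R0Q099.I2117 := Vale.Agent.P032.Lt.pat_eq (E' := R0Q099.E) eB (pat_step (by decide +kernel) (q_cons (Vale.Agent.P032.Lt.q R0Q099.q2117_0) (q_cons (Vale.Agent.P032.Lt.q R0Q099.q2117_1) (q_cons (Vale.Agent.P032.Lt.q R0Q099.q2117_2) (q_cons (Vale.Agent.P032.Lt.q R0Q099.q2117_3) (q_cons (Vale.Agent.P032.Lt.q R0Q099.q2117_4) (q_cons (Vale.Agent.P032.Lt.q R0Q099.q2117_5) (q_cons (Vale.Agent.P032.Lt.q R0Q099.q2117_6) q_nil))))))))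

def C2118 : List ℕ := [0, 4, 8, 12, 16, 20, 24, 84993, 475137, 607233, 609281, 613377, 615425, 737281]
theorem p2118 : Pat 73 73 TBm TCm (C2118.map Fm) R0Q100.P2118 R0Q100.I2118 := Vale.Agent.P032.Lt.pat_eq (E' := R0Q100.E2118) (by decide +kernel) (pat_step (by decide +kernel) (q_cons (Vale.Agent.P032.Lt.q R0Q100.q2118_0) (q_cons (Vale.Agent.P032.Lt.q R0Q100.q2118_1) (q_cons (Vale.Agent.P032.Lt.q R0Q100.q2118_2) (q_cons (Vale.Agent.P032.Lt.q R0Q100.q2118_3) (q_cons (Vale.Agent.P032.Lt.q R0Q100.q2118_4) (q_cons (Vale.Agent.P032.Lt.q R0Q100.q2118_5) (q_cons (Vale.Agent.P032.Lt.q R0Q100.q2118_6) (q_cons (Vale.Agent.P032.Lt.q R0Q100.q2118_7) (q_cons (Vale.Agent.P032.Lt.q R0Q100.q2118_8) (q_cons (Vale.Agent.P032.Lt.q R0Q100.q2118_9) (q_cons (Vale.Agent.P032.Lt.q R0Q100.q2118_10) (q_cons (Vale.Agent.P032.Lt.q R0Q100.q2118_11) (q_cons (Vale.Agent.P032.Lt.q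 R0Q100.q2118_12) (q_cons (Vale.Agent.P032.Lt.q R0Q100.q2118_13) (q_cons (Vale.Agent.P032.Lt.q R0Q100.q2118_14) (q_cons (Vale.Agent.P032.Lt.q R0Q100.q2118_15) (q_cons (Vale.Agent.P032.Lt.q R0Q100.q2118_16) (q_cons (Vale.Agent.P032.Lt.q R0Q100.q2118_17) (q_cons (Vale.Agent.P032.Lt.q R0Q100.q2118_18) (q_cons (Vale.Agent.P032.Lt.q R0Q100.q2118_19) (q_cons (Vale.Agent.P032.Lt.q R0Q100.q2118_20) (q_cons (Vale.Agent.P032.Lt.q R0Q100.q2118_21) (q_cons (Vale.Agent.P032.Lt.q R0Q100.q2118_22) (q_cons (Vale.Agent.P032.Lt.q R0Q100.q2118_23) (q_cons (Vale.Agent.P032.Lt.q R0Q100.q2118_24) (q_cons (Vale.Agent.P032.Lt.q R0Q100.q2118_25) (q_cons (Vale.Agent.P032.Lt.q R0Q100.q2118_26) (q_cons (Vale.Agent.P032.Lt.q R0Q100.q2118_27) (q_cons (Vale.Agent.P032.Lt.q R0Q100.q2118_28) (q_cons (Vale.Agent.P032.Lt.q R0Q100.q2118_29) (q_cons (Vale.Agent.P032.Lt.q R0Q100.q2118_30)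 (q_cons (Vale.Agent.P032.Lt.q R0Q100.q2118_31) (q_cons (Vale.Agent.P032.Lt.q R0Q100.q2118_32) q_nil))))))))))))))))))))))))))))))))))

theorem p2119 : Pat 73 73 TBm TCm (CB.map Fm) R0Q100.P2119 R0Q100.I2119 := Vale.Agent.P032.Lt.pat_eq (E' := R0Q100.E) eB (pat_step (by decide +kernel) (q_cons (Vale.Agent.P032.Lt.q R0Q100.q2119_0) q_nil))

theorem p2120 : Pat 73 73 TBm TCm (CB.map Fm) R0Q100.P2120 R0Q100.I2120 := Vale.Agent.P032.Lt.pat_eq (E' := R0Q100.E) eB (pat_step (by decide +kernel) (q_cons (Vale.Agent.P032.Lt.q R0Q100.q2120_0) q_nil))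

theorem p2121 : Pat 73 73 TBm TCm (CB.map Fm) R0Q100.P2121 R0Q100.I2121 := Vale.Agent.P032.Lt.pat_eq (E' := R0Q100.E) eB (pat_step (by decide +kernel) (q_cons (Vale.Agent.P032.Lt.q R0Q100.q2121_0) (q_cons (Vale.Agent.P032.Lt.q R0Q100.q2121_1) (q_cons (Vale.Agent.P032.Lt.q R0Q100.q2121_2) (q_cons (Vale.Agent.P032.Lt.q R0Q100.q2121_3) (q_cons (Vale.Agent.P032.Lt.q R0Q100.q2121_4) (q_cons (Vale.Agent.P032.Lt.q R0Q100.q2121_5) (q_cons (Vale.Agent.P032.Lt.q R0Q100.q2121_6) (q_cons (Vale.Agent.P032.Lt.q R0Q100.q2121_7) (q_cons (Vale.Agent.P032.Lt.q R0Q100.q2121_8) (q_cons (Vale.Agent.P032.Lt.q R0Q100.q2121_9) (q_cons (Vale.Agent.P032.Lt.q R0Q100.q2121_10) (q_cons (Vale.Agent.P032.Lt.q R0Q100.q2121_11) (q_cons (Vale.Agent.P032.Lt.q R0Q100.q2121_12) q_nil))))))))))))))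

theorem p2122 : Pat 73 73 TBm TCm (CB.map Fm) R0Q100.P2122 R0Q100.I2122 := Vale.Agent.P032.Lt.pat_eq (E' := R0Q100.E) eB (pat_step (by decide +kernel) (q_cons (Vale.Agent.P032.Lt.q R0Q100.q2122_0) (q_cons (Vale.Agent.P032.Lt.q R0Q100.q2122_1) (q_cons (Vale.Agent.P032.Lt.q R0Q100.q2122_2) (q_cons (Vale.Agent.P032.Lt.q R0Q100.q2122_3) (q_cons (Vale.Agent.P032.Lt.q R0Q100.q2122_4) (q_cons (Vale.Agent.P032.Lt.q R0Q100.q2122_5) (q_cons (Vale.Agent.P032.Lt.q R0Q100.q2122_6) (q_cons (Vale.Agent.P032.Lt.q R0Q100.q2122_7) (q_cons (Vale.Agent.P032.Lt.q R0Q100.q2122_8) (q_cons (Vale.Agent.P032.Lt.q R0Q100.q2122_9) (q_cons (Vale.Agent.P032.Lt.q R0Q100.q2122_10) (q_cons (Vale.Agent.P032.Lt.q R0Q100.q2122_11) q_nil)))))))))))))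

theorem p2123 : Pat 73 73 TBm TCm (CB.map Fm) R0Q100.P2123 R0Q100.I2123 := Vale.Agent.P032.Lt.pat_eq (E' := R0Q100.E) eB (pat_step (by decide +kernel) (q_cons (Vale.Agent.P032.Lt.q R0Q100.q2123_0) (q_cons (Vale.Agent.P032.Lt.q R0Q100.q2123_1) (q_cons (Vale.Agent.P032.Lt.q R0Q100.q2123_2) (q_cons (Vale.Agent.P032.Lt.q R0Q100.q2123_3) (q_cons (Vale.Agent.P032.Lt.q R0Q100.q2123_4) (q_cons (Vale.Agent.P032.Lt.q R0Q100.q2123_5) (q_cons (Vale.Agent.P032.Lt.q R0Q100.q2123_6) (q_cons (Vale.Agent.P032.Lt.q R0Q100.q2123_7) q_nil)))))))))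

theorem p2124 : Pat 73 73 TBm TCm (CB.map Fm) R0Q100.P2124 R0Q100.I2124 := Vale.Agent.P032.Lt.pat_eq (E' := R0Q100.E) eB (pat_step (by decide +kernel) (q_cons (Vale.Agent.P032.Lt.q R0Q100.q2124_0) (q_cons (Vale.Agent.P032.Lt.q R0Q100.q2124_1) (q_cons (Vale.Agent.P032.Lt.q R0Q100.q2124_2) (q_cons (Vale.Agent.P032.Lt.q R0Q100.q2124_3) (q_cons (Vale.Agent.P032.Lt.q R0Q100.q2124_4) (q_cons (Vale.Agent.P032.Lt.q R0Q100.q2124_5) (q_cons (Vale.Agent.P032.Lt.q R0Q100.q2124_6) (q_cons (Vale.Agent.P032.Lt.q R0Q100.q2124_7) (q_cons (Vale.Agent.P032.Lt.q R0Q100.q2124_8) (q_cons (Vale.Agent.P032.Lt.q R0Q100.q2124_9) (q_cons (Vale.Agent.P032.Lt.q R0Q100.q2124_10) (q_cons (Vale.Agent.P032.Lt.q R0Q100.q2124_11) (q_cons (Vale.Agent.P032.Lt.q R0Q100.q2124_12) (q_cons (Vale.Agent.P032.Lt.q R0Q100.q2124_13) (q_cons (Vale.Agent.P032.Lt.q R0Q100.q2124_14) q_nil))))))))))))))))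

theorem p2125 : Pat 73 73 TBm TCm (CB.map Fm) R0Q100.P2125 R0Q100.I2125 := Vale.Agent.P032.Lt.pat_eq (E' := R0Q100.E) eB (pat_step (by decide +kernel) (q_cons (Vale.Agent.P032.Lt.q R0Q100.q2125_0) q_nil))

def C2126 : List ℕ := [0, 4, 8, 12, 16, 20, 24, 344065, 475137, 607233, 609281, 737281, 741377]
theorem p2126 : Pat 73 73 TBm TCm (C2126.map Fm) R0Q100.P2126 R0Q100.I2126 := Vale.Agent.P032.Lt.pat_eq (E' := R0Q100.E2126) (by decide +kernel) (pat_step (by decide +kernel) (q_cons (Vale.Agent.P032.Lt.q R0Q100.q2126_0) (q_cons (Vale.Agent.P032.Lt.q R0Q100.q2126_1) q_nil)))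

theorem p2127 : Pat 73 73 TBm TCm (CB.map Fm) R0Q100.P2127 R0Q100.I2127 := Vale.Agent.P032.Lt.pat_eq (E' := R0Q100.E) eB (pat_step (by decide +kernel) (q_cons (Vale.Agent.P032.Lt.q R0Q100.q2127_0) (q_cons (Vale.Agent.P032.Lt.q R0Q100.q2127_1) q_nil)))

theorem p2128 : Pat 73 73 TBm TCm (CB.map Fm) R0Q100.P2128 R0Q100.I2128 := Vale.Agent.P032.Lt.pat_eq (E' := R0Q100.E) eB (pat_step (by decide +kernel) (q_cons (Vale.Agent.P032.Lt.q R0Q100.q2128_0) (q_cons (Vale.Agent.P032.Lt.q R0Q100.q2128_1) q_nil)))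

theorem p2129 : Pat 73 73 TBm TCm (CB.map Fm) R0Q100.P2129 R0Q100.I2129 := Vale.Agent.P032.Lt.pat_eq (E' := R0Q100.E) eB (pat_step (by decide +kernel) (q_cons (Vale.Agent.P032.Lt.q R0Q100.q2129_0) (q_cons (Vale.Agent.P032.Lt.q R0Q100.q2129_1) q_nil)))

theorem p2130 : Pat 73 73 TBm TCm (CB.map Fm) R0Q100.P2130 R0Q100.I2130 := Vale.Agent.P032.Lt.pat_eq (E' := R0Q100.E) eB (pat_step (by decide +kernel) (q_cons (Vale.Agent.P032.Lt.q R0Q100.q2130_0) (q_cons (Vale.Agent.P032.Lt.q R0Q100.q2130_1) (q_cons (Vale.Agent.P032.Lt.q R0Q100.q2130_2) q_nil))))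

theorem p2131 : Pat 73 73 TBm TCm (CB.map Fm) R0Q100.P2131 R0Q100.I2131 := Vale.Agent.P032.Lt.pat_eq (E' := R0Q100.E) eB (pat_step (by decide +kernel) (q_cons (Vale.Agent.P032.Lt.q R0Q100.q2131_0) (q_cons (Vale.Agent.P032.Lt.q R0Q100.q2131_1) (q_cons (Vale.Agent.P032.Lt.q R0Q100.q2131_2) (q_cons (Vale.Agent.P032.Lt.q R0Q100.q2131_3) q_nil)))))

theorem p2132 : Pat 73 73 TBm TCm (CB.map Fm) R0Q100.P2132 R0Q100.I2132 := Vale.Agent.P032.Lt.pat_eq (E' := R0Q100.E) eB (pat_step (by decide +kernel) (q_cons (Vale.Agent.P032.Lt.q R0Q100.q2132_0) (q_cons (Vale.Agent.P032.Lt.q R0Q100.q2132_1) q_nil)))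

theorem p2133 : Pat 73 73 TBm TCm (CB.map Fm) R0Q100.P2133 R0Q100.I2133 := Vale.Agent.P032.Lt.pat_eq (E' := R0Q100.E) eB (pat_step (by decide +kernel) (q_cons (Vale.Agent.P032.Lt.q R0Q100.q2133_0) (q_cons (Vale.Agent.P032.Lt.q R0Q100.q2133_1) (q_cons (Vale.Agent.P032.Lt.q R0Q100.q2133_2) (q_cons (Vale.Agent.P032.Lt.q R0Q100.q2133_3) q_nil)))))

theorem p2134 : Pat 73 73 TBm TCm (CB.map Fm) R0Q100.P2134 R0Q100.I2134 := Vale.Agent.P032.Lt.pat_eq (E' := R0Q100.E) eB (pat_step (by decide +kernel) (q_cons (Vale.Agent.P032.Lt.q R0Q100.q2134_0) (q_cons (Vale.Agent.P032.Lt.q R0Q100.q2134_1) (q_cons (Vale.Agent.P032.Lt.q R0Q100.q2134_2) (q_cons (Vale.Agent.P032.Lt.q R0Q100.q2134_3) (q_cons (Vale.Agent.P032.Lt.q R0Q100.q2134_4) (q_cons (Vale.Agent.P032.Lt.q R0Q100.q2134_5) q_nil)))))))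

theorem p2135 : Pat 73 73 TBm TCm (CB.map Fm) R0Q100.P2135 R0Q100.I2135 := Vale.Agent.P032.Lt.pat_eq (E' := R0Q100.E) eB (pat_step (by decide +kernel) (q_cons (Vale.Agent.P032.Lt.q R0Q100.q2135_0) (q_cons (Vale.Agent.P032.Lt.q R0Q100.q2135_1) (q_cons (Vale.Agent.P032.Lt.q R0Q100.q2135_2) (q_cons (Vale.Agent.P032.Lt.q R0Q100.q2135_3) (q_cons (Vale.Agent.P032.Lt.q R0Q100.q2135_4) (q_cons (Vale.Agent.P032.Lt.q R0Q100.q2135_5) (q_cons (Vale.Agent.P032.Lt.q R0Q100.q2135_6) (q_cons (Vale.Agent.P032.Lt.q R0Q100.q2135_7) (q_cons (Vale.Agent.P032.Lt.q R0Q100.q2135_8) (q_cons (Vale.Agent.P032.Lt.q R0Q100.q2135_9) (q_cons (Vale.Agent.P032.Lt.q R0Q100.q2135_10) (q_cons (Vale.Agent.P032.Lt.q R0Q100.q2135_11) (q_cons (Vale.Agent.P032.Lt.q R0Q100.q2135_12) (q_cons (Vale.Agent.P032.Lt.q R0Q100.q2135_13) (q_cons (Vale.Agent.P032.Lt.q R0Q100.q2135_14) (q_cons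 (Vale.Agent.P032.Lt.q R0Q100.q2135_15) (q_cons (Vale.Agent.P032.Lt.q R0Q100.q2135_16) (q_cons (Vale.Agent.P032.Lt.q R0Q100.q2135_17) (q_cons (Vale.Agent.P032.Lt.q R0Q100.q2135_18) (q_cons (Vale.Agent.P032.Lt.q R0Q100.q2135_19) (q_cons (Vale.Agent.P032.Lt.q R0Q100.q2135_20) (q_cons (Vale.Agent.P032.Lt.q R0Q100.q2135_21) (q_cons (Vale.Agent.P032.Lt.q R0Q100.q2135_22) q_nil))))))))))))))))))))))))

theorem p2136 : Pat 73 73 TBm TCm (CB.map Fm) R0Q101.P2136 R0Q101.I2136 := Vale.Agent.P032.Lt.pat_eq (E' := R0Q101.E) eB (pat_step (by decide +kernel) (q_cons (Vale.Agent.P032.Lt.q R0Q101.q2136_0) (q_cons (Vale.Agent.P032.Lt.q R0Q101.q2136_1) (q_cons (Vale.Agent.P032.Lt.q R0Q101.q2136_2) (q_cons (Vale.Agent.P032.Lt.q R0Q101.q2136_3) (q_cons (Vale.Agent.P032.Lt.q R0Q101.q2136_4) (q_cons (Vale.Agent.P032.Lt.q R0Q101.q2136_5) q_nil)))))))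

theorem p2137 : Pat 73 73 TBm TCm (CB.map Fm) R0Q101.P2137 R0Q101.I2137 := Vale.Agent.P032.Lt.pat_eq (E' := R0Q101.E) eB (pat_step (by decide +kernel) (q_cons (Vale.Agent.P032.Lt.q R0Q101.q2137_0) q_nil))

theorem p2138 : Pat 73 73 TBm TCm (CB.map Fm) R0Q101.P2138 R0Q101.I2138 := Vale.Agent.P032.Lt.pat_eq (E' := R0Q101.E) eB (pat_step (by decide +kernel) (q_cons (Vale.Agent.P032.Lt.q R0Q101.q2138_0) q_nil))

theorem p2139 : Pat 73 73 TBm TCm (CB.map Fm) R0Q101.P2139 R0Q101.I2139 := Vale.Agent.P032.Lt.pat_eq (E' := R0Q101.E) eB (pat_step (by decide +kernel) (q_cons (Vale.Agent.P032.Lt.q R0Q101.q2139_0) (q_cons (Vale.Agent.P032.Lt.q R0Q101.q2139_1) (q_cons (Vale.Agent.P032.Lt.q R0Q101.q2139_2) (q_cons (Vale.Agent.P032.Lt.q R0Q101.q2139_3) (q_cons (Vale.Agent.P032.Lt.q R0Q101.q2139_4) (q_cons (Vale.Agent.P032.Lt.q R0Q101.q2139_5) (q_cons (Vale.Agent.P032.Lt.q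 R0Q101.q2139_6) (q_cons (Vale.Agent.P032.Lt.q R0Q101.q2139_7) (q_cons (Vale.Agent.P032.Lt.q R0Q101.q2139_8) (q_cons (Vale.Agent.P032.Lt.q R0Q101.q2139_9) (q_cons (Vale.Agent.P032.Lt.q R0Q101.q2139_10) (q_cons (Vale.Agent.P032.Lt.q R0Q101.q2139_11) (q_cons (Vale.Agent.P032.Lt.q R0Q101.q2139_12) (q_cons (Vale.Agent.P032.Lt.q R0Q101.q2139_13) (q_cons (Vale.Agent.P032.Lt.q R0Q101.q2139_14) (q_cons (Vale.Agent.P032.Lt.q R0Q101.q2139_15) (q_cons (Vale.Agent.P032.Lt.q R0Q101.q2139_16) (q_cons (Vale.Agent.P032.Lt.q R0Q101.q2139_17) (q_cons (Vale.Agent.P032.Lt.q R0Q101.q2139_18) (q_cons (Vale.Agent.P032.Lt.q R0Q101.q2139_19) (q_cons (Vale.Agent.P032.Lt.q R0Q101.q2139_20) (q_cons (Vale.Agent.P032.Lt.q R0Q101.q2139_21) (q_cons (Vale.Agent.P032.Lt.q R0Q101.q2139_22) (q_cons (Vale.Agent.P032.Lt.q R0Q101.q2139_23) (q_cons (Vale.Agent.P032.Lt.q R0Q101.q2139_24)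 (q_cons (Vale.Agent.P032.Lt.q R0Q101.q2139_25) (q_cons (Vale.Agent.P032.Lt.q R0Q101.q2139_26) (q_cons (Vale.Agent.P032.Lt.q R0Q101.q2139_27) q_nil)))))))))))))))))))))))))))))

theorem p2140 : Pat 73 73 TBm TCm (CB.map Fm) R0Q101.P2140 R0Q101.I2140 := Vale.Agent.P032.Lt.pat_eq (E' := R0Q101.E) eB (pat_step (by decide +kernel) (q_cons (Vale.Agent.P032.Lt.q R0Q101.q2140_0) (q_cons (Vale.Agent.P032.Lt.q R0Q101.q2140_1) (q_cons (Vale.Agent.P032.Lt.q R0Q101.q2140_2) (q_cons (Vale.Agent.P032.Lt.q R0Q101.q2140_3) (q_cons (Vale.Agent.P032.Lt.q R0Q101.q2140_4) (q_cons (Vale.Agent.P032.Lt.q R0Q101.q2140_5) (q_cons (Vale.Agent.P032.Lt.q R0Q101.q2140_6) (q_cons (Vale.Agent.P032.Lt.q R0Q101.q2140_7) (q_cons (Vale.Agent.P032.Lt.q R0Q101.q2140_8) (q_cons (Vale.Agent.P032.Lt.q R0Q101.q2140_9) (q_cons (Vale.Agent.P032.Lt.q R0Q101.q2140_10) (q_cons (Vale.Agent.P032.Lt.q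 R0Q101.q2140_11) (q_cons (Vale.Agent.P032.Lt.q R0Q101.q2140_12) (q_cons (Vale.Agent.P032.Lt.q R0Q101.q2140_13) (q_cons (Vale.Agent.P032.Lt.q R0Q101.q2140_14) (q_cons (Vale.Agent.P032.Lt.q R0Q101.q2140_15) (q_cons (Vale.Agent.P032.Lt.q R0Q101.q2140_16) (q_cons (Vale.Agent.P032.Lt.q R0Q101.q2140_17) (q_cons (Vale.Agent.P032.Lt.q R0Q101.q2140_18) (q_cons (Vale.Agent.P032.Lt.q R0Q101.q2140_19) (q_cons (Vale.Agent.P032.Lt.q R0Q101.q2140_20) (q_cons (Vale.Agent.P032.Lt.q R0Q101.q2140_21) (q_cons (Vale.Agent.P032.Lt.q R0Q101.q2140_22) (q_cons (Vale.Agent.P032.Lt.q R0Q101.q2140_23) (q_cons (Vale.Agent.P032.Lt.q R0Q101.q2140_24) (q_cons (Vale.Agent.P032.Lt.q R0Q101.q2140_25) (q_cons (Vale.Agent.P032.Lt.q R0Q101.q2140_26) (q_cons (Vale.Agent.P032.Lt.q R0Q101.q2140_27) (q_cons (Vale.Agent.P032.Lt.q R0Q101.q2140_28) q_nil))))))))))))))))))))))))))))))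

theorem p2141 : Pat 73 73 TBm TCm (CB.map Fm) R0Q101.P2141 R0Q101.I2141 := Vale.Agent.P032.Lt.pat_eq (E' := R0Q101.E) eB (pat_step (by decide +kernel) (q_cons (Vale.Agent.P032.Lt.q R0Q101.q2141_0) (q_cons (Vale.Agent.P032.Lt.q R0Q101.q2141_1) (q_cons (Vale.Agent.P032.Lt.q R0Q101.q2141_2) (q_cons (Vale.Agent.P032.Lt.q R0Q101.q2141_3) (q_cons (Vale.Agent.P032.Lt.q R0Q101.q2141_4) (q_cons (Vale.Agent.P032.Lt.q R0Q101.q2141_5) (q_cons (Vale.Agent.P032.Lt.q R0Q101.q2141_6) (q_cons (Vale.Agent.P032.Lt.q R0Q101.q2141_7) q_nil)))))))))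

theorem p2142 : Pat 73 73 TBm TCm (CB.map Fm) R0Q101.P2142 R0Q101.I2142 := Vale.Agent.P032.Lt.pat_eq (E' := R0Q101.E) eB (pat_step (by decide +kernel) (q_cons (Vale.Agent.P032.Lt.q R0Q101.q2142_0) (q_cons (Vale.Agent.P032.Lt.q R0Q101.q2142_1) (q_cons (Vale.Agent.P032.Lt.q R0Q101.q2142_2) (q_cons (Vale.Agent.P032.Lt.q R0Q101.q2142_3) (q_cons (Vale.Agent.P032.Lt.q R0Q101.q2142_4) q_nil))))))

theorem p2143 : Pat 73 73 TBm TCm (CB.map Fm) R0Q101.P2143 R0Q101.I2143 := Vale.Agent.P032.Lt.pat_eq (E' := R0Q101.E) eB (pat_step (by decide +kernel) (q_cons (Vale.Agent.P032.Lt.q R0Q101.q2143_0) (q_cons (Vale.Agent.P032.Lt.q R0Q101.q2143_1) (q_cons (Vale.Agent.P032.Lt.q R0Q101.q2143_2) (q_cons (Vale.Agent.P032.Lt.q R0Q101.q2143_3) (q_cons (Vale.Agent.P032.Lt.q R0Q101.q2143_4) (q_cons (Vale.Agent.P032.Lt.q R0Q101.q2143_5) q_nil)))))))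

theorem p2144 : Pat 73 73 TBm TCm (CB.map Fm) R0Q101.P2144 R0Q101.I2144 := Vale.Agent.P032.Lt.pat_eq (E' := R0Q101.E) eB (pat_step (by decide +kernel) (q_cons (Vale.Agent.P032.Lt.q R0Q101.q2144_0) (q_cons (Vale.Agent.P032.Lt.q R0Q101.q2144_1) (q_cons (Vale.Agent.P032.Lt.q R0Q101.q2144_2) (q_cons (Vale.Agent.P032.Lt.q R0Q101.q2144_3) (q_cons (Vale.Agent.P032.Lt.q R0Q101.q2144_4) (q_cons (Vale.Agent.P032.Lt.q R0Q101.q2144_5) (q_cons (Vale.Agent.P032.Lt.q R0Q101.q2144_6) (q_cons (Vale.Agent.P032.Lt.q R0Q101.q2144_7) (q_cons (Vale.Agent.P032.Lt.q R0Q101.q2144_8) (q_cons (Vale.Agent.P032.Lt.q R0Q101.q2144_9) (q_cons (Vale.Agent.P032.Lt.q R0Q101.q2144_10) (q_cons (Vale.Agent.P032.Lt.q R0Q101.q2144_11) (q_cons (Vale.Agent.P032.Lt.q R0Q101.q2144_12) (q_cons (Vale.Agent.P032.Lt.q R0Q101.q2144_13) (q_cons (Vale.Agent.P032.Lt.q R0Q101.q2144_14) (q_cons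 (Vale.Agent.P032.Lt.q R0Q101.q2144_15) (q_cons (Vale.Agent.P032.Lt.q R0Q101.q2144_16) (q_cons (Vale.Agent.P032.Lt.q R0Q101.q2144_17) (q_cons (Vale.Agent.P032.Lt.q R0Q101.q2144_18) (q_cons (Vale.Agent.P032.Lt.q R0Q101.q2144_19) (q_cons (Vale.Agent.P032.Lt.q R0Q101.q2144_20) (q_cons (Vale.Agent.P032.Lt.q R0Q101.q2144_21) (q_cons (Vale.Agent.P032.Lt.q R0Q101.q2144_22) (q_cons (Vale.Agent.P032.Lt.q R0Q101.q2144_23) (q_cons (Vale.Agent.P032.Lt.q R0Q101.q2144_24) (q_cons (Vale.Agent.P032.Lt.q R0Q101.q2144_25) (q_cons (Vale.Agent.P032.Lt.q R0Q101.q2144_26) (q_cons (Vale.Agent.P032.Lt.q R0Q101.q2144_27) (q_cons (Vale.Agent.P032.Lt.q R0Q101.q2144_28) (q_cons (Vale.Agent.P032.Lt.q R0Q101.q2144_29) (q_cons (Vale.Agent.P032.Lt.q R0Q101.q2144_30) (q_cons (Vale.Agent.P032.Lt.q R0Q101.q2144_31) (q_cons (Vale.Agent.P032.Lt.q R0Q101.q2144_32) (q_cons (Vale.Agent.P032.Lt.q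 R0Q101.q2144_33) (q_cons (Vale.Agent.P032.Lt.q R0Q101.q2144_34) (q_cons (Vale.Agent.P032.Lt.q R0Q101.q2144_35) (q_cons (Vale.Agent.P032.Lt.q R0Q101.q2144_36) (q_cons (Vale.Agent.P032.Lt.q R0Q101.q2144_37) (q_cons (Vale.Agent.P032.Lt.q R0Q101.q2144_38) q_nil))))))))))))))))))))))))))))))))))))))))

theorem p2145 : Pat 73 73 TBm TCm (CB.map Fm) R0Q101.P2145 R0Q101.I2145 := Vale.Agent.P032.Lt.pat_eq (E' := R0Q101.E) eB (pat_step (by decide +kernel) (q_cons (Vale.Agent.P032.Lt.q R0Q101.q2145_0) q_nil))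

theorem p2146 : Pat 73 73 TBm TCm (CB.map Fm) R0Q101.P2146 R0Q101.I2146 := Vale.Agent.P032.Lt.pat_eq (E' := R0Q101.E) eB (pat_step (by decide +kernel) (q_cons (Vale.Agent.P032.Lt.q R0Q101.q2146_0) (q_cons (Vale.Agent.P032.Lt.q R0Q101.q2146_1) (q_cons (Vale.Agent.P032.Lt.q R0Q101.q2146_2) q_nil))))

theorem p2147 : Pat 73 73 TBm TCm (CB.map Fm) R0Q101.P2147 R0Q101.I2147 := Vale.Agent.P032.Lt.pat_eq (E' := R0Q101.E) eB (pat_step (by decide +kernel) (q_cons (Vale.Agent.P032.Lt.q R0Q101.q2147_0) (q_cons (Vale.Agent.P032.Lt.q R0Q101.q2147_1) (q_cons (Vale.Agent.P032.Lt.q R0Q101.q2147_2) q_nil))))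

theorem p2148 : Pat 73 73 TBm TCm (CB.map Fm) R0Q101.P2148 R0Q101.I2148 := Vale.Agent.P032.Lt.pat_eq (E' := R0Q101.E) eB (pat_step (by decide +kernel) (q_cons (Vale.Agent.P032.Lt.q R0Q101.q2148_0) (q_cons (Vale.Agent.P032.Lt.q R0Q101.q2148_1) (q_cons (Vale.Agent.P032.Lt.q R0Q101.q2148_2) (q_cons (Vale.Agent.P032.Lt.q R0Q101.q2148_3) (q_cons (Vale.Agent.P032.Lt.q R0Q101.q2148_4) (q_cons (Vale.Agent.P032.Lt.q R0Q101.q2148_5) (q_cons (Vale.Agent.P032.Lt.q R0Q101.q2148_6) q_nil))))))))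

theorem p2149 : Pat 73 73 TBm TCm (CB.map Fm) R0Q101.P2149 R0Q101.I2149 := Vale.Agent.P032.Lt.pat_eq (E' := R0Q101.E) eB (pat_step (by decide +kernel) (q_cons (Vale.Agent.P032.Lt.q R0Q101.q2149_0) (q_cons (Vale.Agent.P032.Lt.q R0Q101.q2149_1) (q_cons (Vale.Agent.P032.Lt.q R0Q101.q2149_2) (q_cons (Vale.Agent.P032.Lt.q R0Q101.q2149_3) (q_cons (Vale.Agent.P032.Lt.q R0Q101.q2149_4) (q_cons (Vale.Agent.P032.Lt.q R0Q101.q2149_5) (q_cons (Vale.Agent.P032.Lt.q R0Q101.q2149_6) (q_cons (Vale.Agent.P032.Lt.q R0Q101.q2149_7) (q_cons (Vale.Agent.P032.Lt.q R0Q101.q2149_8) (q_cons (Vale.Agent.P032.Lt.q R0Q101.q2149_9) (q_cons (Vale.Agent.P032.Lt.q R0Q101.q2149_10) (q_cons (Vale.Agent.P032.Lt.q R0Q101.q2149_11) (q_cons (Vale.Agent.P032.Lt.q R0Q101.q2149_12) (q_cons (Vale.Agent.P032.Lt.q R0Q101.q2149_13) (q_cons (Vale.Agent.P032.Lt.q R0Q101.q2149_14) (q_cons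 (Vale.Agent.P032.Lt.q R0Q101.q2149_15) q_nil)))))))))))))))))

theorem p2150 : Pat 73 73 TBm TCm (CB.map Fm) R0Q101.P2150 R0Q101.I2150 := Vale.Agent.P032.Lt.pat_eq (E' := R0Q101.E) eB (pat_step (by decide +kernel) (q_cons (Vale.Agent.P032.Lt.q R0Q101.q2150_0) q_nil))

theorem p2151 : Pat 73 73 TBm TCm (CB.map Fm) R0Q101.P2151 R0Q101.I2151 := Vale.Agent.P032.Lt.pat_eq (E' := R0Q101.E) eB (pat_step (by decide +kernel) (q_cons (Vale.Agent.P032.Lt.q R0Q101.q2151_0) (q_cons (Vale.Agent.P032.Lt.q R0Q101.q2151_1) (q_cons (Vale.Agent.P032.Lt.q R0Q101.q2151_2) q_nil))))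

theorem p2152 : Pat 73 73 TBm TCm (CB.map Fm) R0Q101.P2152 R0Q101.I2152 := Vale.Agent.P032.Lt.pat_eq (E' := R0Q101.E) eB (pat_step (by decide +kernel) (q_cons (Vale.Agent.P032.Lt.q R0Q101.q2152_0) (q_cons (Vale.Agent.P032.Lt.q R0Q101.q2152_1) (q_cons (Vale.Agent.P032.Lt.q R0Q101.q2152_2) q_nil))))

theorem p2153 : Pat 73 73 TBm TCm (CB.map Fm) R0Q101.P2153 R0Q101.I2153 := Vale.Agent.P032.Lt.pat_eq (E' := R0Q101.E) eB (pat_step (by decide +kernel) (q_cons (Vale.Agent.P032.Lt.q R0Q101.q2153_0) (q_cons (Vale.Agent.P032.Lt.q R0Q101.q2153_1) q_nil)))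

def C2154 : List ℕ := [0, 4, 8, 12, 16, 20, 24, 212993, 606209, 737281]
theorem p2154 : Pat 73 73 TBm TCm (C2154.map Fm) R0Q101.P2154 R0Q101.I2154 := Vale.Agent.P032.Lt.pat_eq (E' := R0Q101.E2154) (by decide +kernel) (pat_step (by decide +kernel) (q_cons (Vale.Agent.P032.Lt.q R0Q101.q2154_0) (q_cons (Vale.Agent.P032.Lt.q R0Q101.q2154_1) q_nil)))

theorem p2155 : Pat 73 73 TBm TCm (CB.map Fm) R0Q101.P2155 R0Q101.I2155 := Vale.Agent.P032.Lt.pat_eq (E' := R0Q101.E) eB (pat_step (by decide +kernel) (q_cons (Vale.Agent.P032.Lt.q R0Q101.q2155_0) (q_cons (Vale.Agent.P032.Lt.q R0Q101.q2155_1) (q_cons (Vale.Agent.P032.Lt.q R0Q101.q2155_2) (q_cons (Vale.Agent.P032.Lt.q R0Q101.q2155_3) (q_cons (Vale.Agent.P032.Lt.q R0Q101.q2155_4) q_nil))))))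

theorem p2156 : Pat 73 73 TBm TCm (CB.map Fm) R0Q101.P2156 R0Q101.I2156 := Vale.Agent.P032.Lt.pat_eq (E' := R0Q101.E) eB (pat_step (by decide +kernel) (q_cons (Vale.Agent.P032.Lt.q R0Q101.q2156_0) (q_cons (Vale.Agent.P032.Lt.q R0Q101.q2156_1) q_nil)))

theorem p2157 : Pat 73 73 TBm TCm (CB.map Fm) R0Q101.P2157 R0Q101.I2157 := Vale.Agent.P032.Lt.pat_eq (E' := R0Q101.E) eB (pat_step (by decide +kernel) (q_cons (Vale.Agent.P032.Lt.q R0Q101.q2157_0) (q_cons (Vale.Agent.P032.Lt.q R0Q101.q2157_1) (q_cons (Vale.Agent.P032.Lt.q R0Q101.q2157_2) (q_cons (Vale.Agent.P032.Lt.q R0Q101.q2157_3) (q_cons (Vale.Agent.P032.Lt.q R0Q101.q2157_4) (q_cons (Vale.Agent.P032.Lt.q R0Q101.q2157_5) (q_cons (Vale.Agent.P032.Lt.q R0Q101.q2157_6) q_nil))))))))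

theorem p2158 : Pat 73 73 TBm TCm (CB.map Fm) R0Q102.P2158 R0Q102.I2158 := Vale.Agent.P032.Lt.pat_eq (E' := R0Q102.E) eB (pat_step (by decide +kernel) (q_cons (Vale.Agent.P032.Lt.q R0Q102.q2158_0) (q_cons (Vale.Agent.P032.Lt.q R0Q102.q2158_1) (q_cons (Vale.Agent.P032.Lt.q R0Q102.q2158_2) (q_cons (Vale.Agent.P032.Lt.q R0Q102.q2158_3) (q_cons (Vale.Agent.P032.Lt.q R0Q102.q2158_4) (q_cons (Vale.Agent.P032.Lt.q R0Q102.q2158_5) q_nil)))))))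

def C2159 : List ℕ := [0, 4, 8, 12, 16, 20, 24, 216065, 480257, 613377, 741377]
theorem p2159 : Pat 73 73 TBm TCm (C2159.map Fm) R0Q102.P2159 R0Q102.I2159 := Vale.Agent.P032.Lt.pat_eq (E' := R0Q102.E2159) (by decide +kernel) (pat_step (by decide +kernel) (q_cons (Vale.Agent.P032.Lt.q R0Q102.q2159_0) (q_cons (Vale.Agent.P032.Lt.q R0Q102.q2159_1) (q_cons (Vale.Agent.P032.Lt.q R0Q102.q2159_2) (q_cons (Vale.Agent.P032.Lt.q R0Q102.q2159_3) (q_cons (Vale.Agent.P032.Lt.q R0Q102.q2159_4) q_nil))))))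

theorem p2160 : Pat 73 73 TBm TCm (CB.map Fm) R0Q102.P2160 R0Q102.I2160 := Vale.Agent.P032.Lt.pat_eq (E' := R0Q102.E) eB (pat_step (by decide +kernel) (q_cons (Vale.Agent.P032.Lt.q R0Q102.q2160_0) q_nil))

def C2161 : List ℕ := [0, 4, 8, 12, 16, 20, 24, 475137, 606209, 737281]
theorem p2161 : Pat 73 73 TBm TCm (C2161.map Fm) R0Q102.P2161 R0Q102.I2161 := Vale.Agent.P032.Lt.pat_eq (E' := R0Q102.E2161) (by decide +kernel) (pat_step (by decide +kernel) (q_cons (Vale.Agent.P032.Lt.q R0Q102.q2161_0) (q_cons (Vale.Agent.P032.Lt.q R0Q102.q2161_1) q_nil)))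

theorem p2162 : Pat 73 73 TBm TCm (CB.map Fm) R0Q102.P2162 R0Q102.I2162 := Vale.Agent.P032.Lt.pat_eq (E' := R0Q102.E) eB (pat_step (by decide +kernel) (q_cons (Vale.Agent.P032.Lt.q R0Q102.q2162_0) (q_cons (Vale.Agent.P032.Lt.q R0Q102.q2162_1) (q_cons (Vale.Agent.P032.Lt.q R0Q102.q2162_2) (q_cons (Vale.Agent.P032.Lt.q R0Q102.q2162_3) (q_cons (Vale.Agent.P032.Lt.q R0Q102.q2162_4) (q_cons (Vale.Agent.P032.Lt.q R0Q102.q2162_5) (q_cons (Vale.Agent.P032.Lt.q R0Q102.q2162_6) (q_cons (Vale.Agent.P032.Lt.q R0Q102.q2162_7) (q_cons (Vale.Agent.P032.Lt.q R0Q102.q2162_8) (q_cons (Vale.Agent.P032.Lt.q R0Q102.q2162_9) (q_cons (Vale.Agent.P032.Lt.q R0Q102.q2162_10) (q_cons (Vale.Agent.P032.Lt.q R0Q102.q2162_11) (q_cons (Vale.Agent.P032.Lt.q R0Q102.q2162_12) (q_cons (Vale.Agent.P032.Lt.q R0Q102.q2162_13) (q_cons (Vale.Agent.P032.Lt.q R0Q102.q2162_14) (q_cons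 (Vale.Agent.P032.Lt.q R0Q102.q2162_15) (q_cons (Vale.Agent.P032.Lt.q R0Q102.q2162_16) (q_cons (Vale.Agent.P032.Lt.q R0Q102.q2162_17) (q_cons (Vale.Agent.P032.Lt.q R0Q102.q2162_18) (q_cons (Vale.Agent.P032.Lt.q R0Q102.q2162_19) (q_cons (Vale.Agent.P032.Lt.q R0Q102.q2162_20) (q_cons (Vale.Agent.P032.Lt.q R0Q102.q2162_21) (q_cons (Vale.Agent.P032.Lt.q R0Q102.q2162_22) (q_cons (Vale.Agent.P032.Lt.q R0Q102.q2162_23) (q_cons (Vale.Agent.P032.Lt.q R0Q102.q2162_24) (q_cons (Vale.Agent.P032.Lt.q R0Q102.q2162_25) (q_cons (Vale.Agent.P032.Lt.q R0Q102.q2162_26) q_nil))))))))))))))))))))))))))))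

theorem p2163 : Pat 73 73 TBm TCm (CB.map Fm) R0Q102.P2163 R0Q102.I2163 := Vale.Agent.P032.Lt.pat_eq (E' := R0Q102.E) eB (pat_step (by decide +kernel) (q_cons (Vale.Agent.P032.Lt.q R0Q102.q2163_0) q_nil))

theorem p2164 : Pat 73 73 TBm TCm (CB.map Fm) R0Q102.P2164 R0Q102.I2164 := Vale.Agent.P032.Lt.pat_eq (E' := R0Q102.E) eB (pat_step (by decide +kernel) (q_cons (Vale.Agent.P032.Lt.q R0Q102.q2164_0) q_nil))

def C2165 : List ℕ := [0, 4, 8, 12, 16, 20, 24, 607233]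
theorem p2165 : Pat 73 73 TBm TCm (C2165.map Fm) R0Q102.P2165 R0Q102.I2165 := Vale.Agent.P032.Lt.pat_eq (E' := R0Q102.E2165) (by decide +kernel) (pat_step (by decide +kernel) (q_cons (Vale.Agent.P032.Lt.q R0Q102.q2165_0) (q_cons (Vale.Agent.P032.Lt.q R0Q102.q2165_1) (q_cons (Vale.Agent.P032.Lt.q R0Q102.q2165_2) q_nil))))

theorem p2166 : Pat 73 73 TBm TCm (CB.map Fm) R0Q102.P2166 R0Q102.I2166 := Vale.Agent.P032.Lt.pat_eq (E' := R0Q102.E) eB (pat_step (by decide +kernel) (q_cons (Vale.Agent.P032.Lt.q R0Q102.q2166_0) (q_cons (Vale.Agent.P032.Lt.q R0Q102.q2166_1) (q_cons (Vale.Agent.P032.Lt.q R0Q102.q2166_2) (q_cons (Vale.Agent.P032.Lt.q R0Q102.q2166_3) (q_cons (Vale.Agent.P032.Lt.q R0Q102.q2166_4) q_nil))))))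

theorem p2167 : Pat 73 73 TBm TCm (CB.map Fm) R0Q102.P2167 R0Q102.I2167 := Vale.Agent.P032.Lt.pat_eq (E' := R0Q102.E) eB (pat_step (by decide +kernel) (q_cons (Vale.Agent.P032.Lt.q R0Q102.q2167_0) q_nil))

theorem p2168 : Pat 73 73 TBm TCm (CB.map Fm) R0Q102.P2168 R0Q102.I2168 := Vale.Agent.P032.Lt.pat_eq (E' := R0Q102.E) eB (pat_step (by decide +kernel) (q_cons (Vale.Agent.P032.Lt.q R0Q102.q2168_0) q_nil))

theorem p2169 : Pat 73 73 TBm TCm (CB.map Fm) R0Q102.P2169 R0Q102.I2169 := Vale.Agent.P032.Lt.pat_eq (E' := R0Q102.E) eB (pat_step (by decide +kernel) (q_cons (Vale.Agent.P032.Lt.q R0Q102.q2169_0) q_nil))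

theorem p2170 : Pat 73 73 TBm TCm (CB.map Fm) R0Q102.P2170 [] := Vale.Agent.P032.Lt.pat_eq (E' := R0Q102.E) eB (pat_end (by decide +kernel) (Vale.Agent.P032.Lt.q R0Q102.q2170))

theorem p2171 : Pat 73 73 TBm TCm (CB.map Fm) R0Q102.P2171 R0Q102.I2171 := Vale.Agent.P032.Lt.pat_eq (E' := R0Q102.E) eB (pat_step (by decide +kernel) (q_cons (Vale.Agent.P032.Lt.q R0Q102.q2171_0) (q_cons (Vale.Agent.P032.Lt.q R0Q102.q2171_1) q_nil)))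

theorem p2172 : Pat 73 73 TBm TCm (CB.map Fm) R0Q102.P2172 R0Q102.I2172 := Vale.Agent.P032.Lt.pat_eq (E' := R0Q102.E) eB (pat_step (by decide +kernel) (q_cons (Vale.Agent.P032.Lt.q R0Q102.q2172_0) (q_cons (Vale.Agent.P032.Lt.q R0Q102.q2172_1) q_nil)))

theorem p2173 : Pat 73 73 TBm TCm (CB.map Fm) R0Q102.P2173 R0Q102.I2173 := Vale.Agent.P032.Lt.pat_eq (E' := R0Q102.E) eB (pat_step (by decide +kernel) (q_cons (Vale.Agent.P032.Lt.q R0Q102.q2173_0) q_nil))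

theorem p2174 : Pat 73 73 TBm TCm (CB.map Fm) R0Q102.P2174 R0Q102.I2174 := Vale.Agent.P032.Lt.pat_eq (E' := R0Q102.E) eB (pat_step (by decide +kernel) (q_cons (Vale.Agent.P032.Lt.q R0Q102.q2174_0) (q_cons (Vale.Agent.P032.Lt.q R0Q102.q2174_1) (q_cons (Vale.Agent.P032.Lt.q R0Q102.q2174_2) (q_cons (Vale.Agent.P032.Lt.q R0Q102.q2174_3) q_nil)))))

def C2175 : List ℕ := [0, 4, 8, 12, 16, 20, 24, 355329, 486401]
theorem p2175 : Pat 73 73 TBm TCm (C2175.map Fm) R0Q102.P2175 R0Q102.I2175 := Vale.Agent.P032.Lt.pat_eq (E' := R0Q102.E2175) (by decide +kernel) (pat_step (by decide +kernel) (q_cons (Vale.Agent.P032.Lt.q R0Q102.q2175_0) q_nil))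

def L : List (List ℕ) := [R0Q095.P2048, R0Q095.P2049, R0Q095.P2050, R0Q095.P2051, R0Q095.P2052, R0Q095.P2053, R0Q095.P2054, R0Q095.P2055, R0Q095.P2056, R0Q095.P2057, R0Q095.P2058, R0Q095.P2059, R0Q095.P2060, R0Q095.P2061, R0Q095.P2062, R0Q095.P2063, R0Q096.P2064, R0Q096.P2065, R0Q096.P2066, R0Q096.P2067, R0Q096.P2068, R0Q096.P2069, R0Q096.P2070, R0Q096.P2071, R0Q097.P2072, R0Q097.P2073, R0Q097.P2074, R0Q097.P2075, R0Q097.P2076, R0Q097.P2077, R0Q097.P2078, R0Q097.P2079, R0Q097.P2080, R0Q097.P2081, R0Q097.P2082, R0Q097.P2083, R0Q097.P2084, R0Q097.P2085, R0Q097.P2086, R0Q097.P2087, R0Q097.P2088, R0Q097.P2089, R0Q097.P2090, R0Q097.P2091, R0Q098.P2092, R0Q098.P2093, R0Q098.P2094, R0Q099.P2095, R0Q099.P2096, R0Q099.P2097, R0Q099.P2098, R0Q099.P2099, R0Q099.P2100, R0Q099.P2101, R0Q099.P2102, R0Q099.P2103, R0Q099.P2104, R0Q099.P2105, R0Q099.P2106, R0Q099.P2107,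 R0Q099.P2108, R0Q099.P2109, R0Q099.P2110, R0Q099.P2111, R0Q099.P2112, R0Q099.P2113, R0Q099.P2114, R0Q099.P2115, R0Q099.P2116, R0Q099.P2117, R0Q100.P2118, R0Q100.P2119, R0Q100.P2120, R0Q100.P2121, R0Q100.P2122, R0Q100.P2123, R0Q100.P2124, R0Q100.P2125, R0Q100.P2126, R0Q100.P2127, R0Q100.P2128, R0Q100.P2129, R0Q100.P2130, R0Q100.P2131, R0Q100.P2132, R0Q100.P2133, R0Q100.P2134, R0Q100.P2135, R0Q101.P2136, R0Q101.P2137, R0Q101.P2138, R0Q101.P2139, R0Q101.P2140, R0Q101.P2141, R0Q101.P2142, R0Q101.P2143, R0Q101.P2144, R0Q101.P2145, R0Q101.P2146, R0Q101.P2147, R0Q101.P2148, R0Q101.P2149, R0Q101.P2150, R0Q101.P2151, R0Q101.P2152, R0Q101.P2153, R0Q101.P2154, R0Q101.P2155, R0Q101.P2156, R0Q101.P2157, R0Q102.P2158, R0Q102.P2159, R0Q102.P2160, R0Q102.P2161, R0Q102.P2162, R0Q102.P2163, R0Q102.P2164, R0Q102.P2165, R0Q102.P2166, R0Q102.P2167, R0Q102.P2168,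 R0Q102.P2169, R0Q102.P2170, R0Q102.P2171, R0Q102.P2172, R0Q102.P2173, R0Q102.P2174, R0Q102.P2175]

theorem all : ∀ P ∈ L, CrtF 73 73 TBm TCm (Vale.Agent.P032.Fam.fam2 (Vale.Agent.P032.Fam.im0)) P := crtF_cons p2048 (crtF_cons p2049 (crtF_cons p2050 (crtF_cons p2051 (crtF_cons p2052 (crtF_cons p2053 (crtF_cons p2054 (crtF_cons p2055 (crtF_cons p2056 (crtF_cons p2057 (crtF_cons p2058 (crtF_cons p2059 (crtF_cons p2060 (crtF_cons p2061 (crtF_cons p2062 (crtF_cons p2063 (crtF_cons p2064 (crtF_cons p2065 (crtF_cons p2066 (crtF_cons p2067 (crtF_cons p2068 (crtF_cons p2069 (crtF_cons p2070 (crtF_cons p2071 (crtF_cons p2072 (crtF_cons p2073 (crtF_cons p2074 (crtF_cons p2075 (crtF_cons p2076 (crtF_cons p2077 (crtF_cons p2078 (crtF_cons p2079 (crtF_cons p2080 (crtF_cons p2081 (crtF_cons p2082 (crtF_cons p2083 (crtF_cons p2084 (crtF_cons p2085 (crtF_cons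 p2086 (crtF_cons p2087 (crtF_cons p2088 (crtF_cons p2089 (crtF_cons p2090 (crtF_cons p2091 (crtF_cons p2092 (crtF_cons p2093 (crtF_cons p2094 (crtF_cons p2095 (crtF_cons p2096 (crtF_cons p2097 (crtF_cons p2098 (crtF_cons p2099 (crtF_cons p2100 (crtF_cons p2101 (crtF_cons p2102 (crtF_cons p2103 (crtF_cons p2104 (crtF_cons p2105 (crtF_cons p2106 (crtF_cons p2107 (crtF_cons p2108 (crtF_cons p2109 (crtF_cons p2110 (crtF_cons p2111 (crtF_cons p2112 (crtF_cons p2113 (crtF_cons p2114 (crtF_cons p2115 (crtF_cons p2116 (crtF_cons p2117 (crtF_cons p2118 (crtF_cons p2119 (crtF_cons p2120 (crtF_cons p2121 (crtF_cons p2122 (crtF_cons p2123 (crtF_cons p2124 (crtF_cons p2125 (crtF_cons p2126 (crtF_cons p2127 (crtF_cons p2128 (crtF_cons p2129 (crtF_cons p2130 (crtF_cons p2131 (crtF_cons p2132 (crtF_cons p2133 (crtF_cons p2134 (crtF_cons p2135 (crtF_cons p2136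 (crtF_cons p2137 (crtF_cons p2138 (crtF_cons p2139 (crtF_cons p2140 (crtF_cons p2141 (crtF_cons p2142 (crtF_cons p2143 (crtF_cons p2144 (crtF_cons p2145 (crtF_cons p2146 (crtF_cons p2147 (crtF_cons p2148 (crtF_cons p2149 (crtF_cons p2150 (crtF_cons p2151 (crtF_cons p2152 (crtF_cons p2153 (crtF_cons p2154 (crtF_cons p2155 (crtF_cons p2156 (crtF_cons p2157 (crtF_cons p2158 (crtF_cons p2159 (crtF_cons p2160 (crtF_cons p2161 (crtF_cons p2162 (crtF_cons p2163 (crtF_cons p2164 (crtF_cons p2165 (crtF_cons p2166 (crtF_cons p2167 (crtF_cons p2168 (crtF_cons p2169 (crtF_cons p2170 (crtF_cons p2171 (crtF_cons p2172 (crtF_cons p2173 (crtF_cons p2174 (crtF_cons p2175 crtF_nil)))))))))))))))))))))))))))))))))))))))))))))))))))))))))))))))))))))))))))))))))))))))))))))))))))))))))))))))))))))))))))))))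

theorem ch : chT 73 73 TCm s0_016 L = true := by decide +kernel

end Vale.Agent.P032X.Cert.XP.B1.R0H016
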