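import Vale.Agent.P032X.H892.LtH
import Vale.Agent.P032X.H286.W73
import Vale.Agent.P032X.Cert.XP.B1.R0T
import Vale.Agent.P032X.Cert.XP.B1.R0Q103
import Vale.Agent.P032X.Cert.XP.B1.R0Q104
import Vale.Agent.P032X.Cert.XP.B1.R0Q105
import Vale.Agent.P032X.Cert.XP.B1.R0Q106
import Vale.Agent.P032X.Cert.XP.B1.R0Q107

set_option maxRecDepth 1000000

namespace Vale.Agent.P032X.Cert.XP.B1.R0H017

open Vale.Agent.P032.H820.K Vale.Agent.P032.H357.MK Vale.Agent.P032.H286.E Vale.Agent.P032.H61 Vale.Agent.P032X.Cert.XP.B1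

noncomputable abbrev Fm : ℕ → List ℕ := Vale.Agent.P032.Fam.fam2 (Vale.Agent.P032.Fam.im0)

def CB : List ℕ := [0, 4, 8, 12, 16, 20, 24]

theorem eB : Vale.Agent.P032.Lt.eqLL (CB.map Fm) R0Q103.E = true := by decide +kernel

theorem p2176 : Pat 73 73 TBm TCm (CB.map Fm) R0Q103.P2176 R0Q103.I2176 := Vale.Agent.P032.Lt.pat_eq (E' := R0Q103.E) eB (pat_step (by decide +kernel) (q_cons (Vale.Agent.P032.Lt.q R0Q103.q2176_0) (q_cons (Vale.Agent.P032.Lt.q R0Q103.q2176_1) (q_cons (Vale.Agent.P032.Lt.q R0Q103.q2176_2) q_nil))))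

def C2177 : List ℕ := [0, 4, 8, 12, 16, 20, 24, 617473, 737281]
theorem p2177 : Pat 73 73 TBm TCm (C2177.map Fm) R0Q103.P2177 R0Q103.I2177 := Vale.Agent.P032.Lt.pat_eq (E' := R0Q103.E2177) (by decide +kernel) (pat_step (by decide +kernel) (q_cons (Vale.Agent.P032.Lt.q R0Q103.q2177_0) (q_cons (Vale.Agent.P032.Lt.q R0Q103.q2177_1) (q_cons (Vale.Agent.P032.Lt.q R0Q103.q2177_2) (q_cons (Vale.Agent.P032.Lt.q R0Q103.q2177_3) (q_cons (Vale.Agent.P032.Lt.q R0Q103.q2177_4) (q_cons (Vale.Agent.P032.Lt.q R0Q103.q2177_5) q_nil)))))))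

theorem p2178 : Pat 73 73 TBm TCm (CB.map Fm) R0Q103.P2178 R0Q103.I2178 := Vale.Agent.P032.Lt.pat_eq (E' := R0Q103.E) eB (pat_step (by decide +kernel) (q_cons (Vale.Agent.P032.Lt.q R0Q103.q2178_0) q_nil))

theorem p2179 : Pat 73 73 TBm TCm (CB.map Fm) R0Q103.P2179 R0Q103.I2179 := Vale.Agent.P032.Lt.pat_eq (E' := R0Q103.E) eB (pat_step (by decide +kernel) (q_cons (Vale.Agent.P032.Lt.q R0Q103.q2179_0) (q_cons (Vale.Agent.P032.Lt.q R0Q103.q2179_1) (q_cons (Vale.Agent.P032.Lt.q R0Q103.q2179_2) (q_cons (Vale.Agent.P032.Lt.q R0Q103.q2179_3) (q_cons (Vale.Agent.P032.Lt.q R0Q103.q2179_4) q_nil))))))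

theorem p2180 : Pat 73 73 TBm TCm (CB.map Fm) R0Q103.P2180 R0Q103.I2180 := Vale.Agent.P032.Lt.pat_eq (E' := R0Q103.E) eB (pat_step (by decide +kernel) (q_cons (Vale.Agent.P032.Lt.q R0Q103.q2180_0) q_nil))

theorem p2181 : Pat 73 73 TBm TCm (CB.map Fm) R0Q103.P2181 R0Q103.I2181 := Vale.Agent.P032.Lt.pat_eq (E' := R0Q103.E) eB (pat_step (by decide +kernel) (q_cons (Vale.Agent.P032.Lt.q R0Q103.q2181_0) (q_cons (Vale.Agent.P032.Lt.q R0Q103.q2181_1) q_nil)))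

theorem p2182 : Pat 73 73 TBm TCm (CB.map Fm) R0Q103.P2182 R0Q103.I2182 := Vale.Agent.P032.Lt.pat_eq (E' := R0Q103.E) eB (pat_step (by decide +kernel) (q_cons (Vale.Agent.P032.Lt.q R0Q103.q2182_0) (q_cons (Vale.Agent.P032.Lt.q R0Q103.q2182_1) (q_cons (Vale.Agent.P032.Lt.q R0Q103.q2182_2) (q_cons (Vale.Agent.P032.Lt.q R0Q103.q2182_3) q_nil)))))

theorem p2183 : Pat 73 73 TBm TCm (CB.map Fm) R0Q103.P2183 R0Q103.I2183 := Vale.Agent.P032.Lt.pat_eq (E' := R0Q103.E) eB (pat_step (by decide +kernel) (q_cons (Vale.Agent.P032.Lt.q R0Q103.q2183_0) q_nil))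

theorem p2184 : Pat 73 73 TBm TCm (CB.map Fm) R0Q103.P2184 R0Q103.I2184 := Vale.Agent.P032.Lt.pat_eq (E' := R0Q103.E) eB (pat_step (by decide +kernel) (q_cons (Vale.Agent.P032.Lt.q R0Q103.q2184_0) (q_cons (Vale.Agent.P032.Lt.q R0Q103.q2184_1) q_nil)))

theorem p2185 : Pat 73 73 TBm TCm (CB.map Fm) R0Q103.P2185 R0Q103.I2185 := Vale.Agent.P032.Lt.pat_eq (E' := R0Q103.E) eB (pat_step (by decide +kernel) (q_cons (Vale.Agent.P032.Lt.q R0Q103.q2185_0) q_nil))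

theorem p2186 : Pat 73 73 TBm TCm (CB.map Fm) R0Q103.P2186 R0Q103.I2186 := Vale.Agent.P032.Lt.pat_eq (E' := R0Q103.E) eB (pat_step (by decide +kernel) (q_cons (Vale.Agent.P032.Lt.q R0Q103.q2186_0) q_nil))

theorem p2187 : Pat 73 73 TBm TCm (CB.map Fm) R0Q103.P2187 R0Q103.I2187 := Vale.Agent.P032.Lt.pat_eq (E' := R0Q103.E) eB (pat_step (by decide +kernel) (q_cons (Vale.Agent.P032.Lt.q R0Q103.q2187_0) (q_cons (Vale.Agent.P032.Lt.q R0Q103.q2187_1) (q_cons (Vale.Agent.P032.Lt.q R0Q103.q2187_2) (q_cons (Vale.Agent.P032.Lt.q R0Q103.q2187_3) (q_cons (Vale.Agent.P032.Lt.q R0Q103.q2187_4) q_nil))))))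

theorem p2188 : Pat 73 73 TBm TCm (CB.map Fm) R0Q103.P2188 R0Q103.I2188 := Vale.Agent.P032.Lt.pat_eq (E' := R0Q103.E) eB (pat_step (by decide +kernel) (q_cons (Vale.Agent.P032.Lt.q R0Q103.q2188_0) q_nil))

theorem p2189 : Pat 73 73 TBm TCm (CB.map Fm) R0Q103.P2189 R0Q103.I2189 := Vale.Agent.P032.Lt.pat_eq (E' := R0Q103.E) eB (pat_step (by decide +kernel) (q_cons (Vale.Agent.P032.Lt.q R0Q103.q2189_0) (q_cons (Vale.Agent.P032.Lt.q R0Q103.q2189_1) q_nil)))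

theorem p2190 : Pat 73 73 TBm TCm (CB.map Fm) R0Q103.P2190 R0Q103.I2190 := Vale.Agent.P032.Lt.pat_eq (E' := R0Q103.E) eB (pat_step (by decide +kernel) (q_cons (Vale.Agent.P032.Lt.q R0Q103.q2190_0) (q_cons (Vale.Agent.P032.Lt.q R0Q103.q2190_1) q_nil)))

def C2191 : List ℕ := [0, 4, 8, 12, 16, 20, 24, 83969, 346113, 355329, 477185, 481281, 608257, 617473]
theorem p2191 : Pat 73 73 TBm TCm (C2191.map Fm) R0Q103.P2191 R0Q103.I2191 := Vale.Agent.P032.Lt.pat_eq (E' := R0Q103.E2191) (by decide +kernel) (pat_step (by decide +kernel) (q_cons (Vale.Agent.P032.Lt.q R0Q103.q2191_0) q_nil))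

theorem p2192 : Pat 73 73 TBm TCm (CB.map Fm) R0Q103.P2192 R0Q103.I2192 := Vale.Agent.P032.Lt.pat_eq (E' := R0Q103.E) eB (pat_step (by decide +kernel) (q_cons (Vale.Agent.P032.Lt.q R0Q103.q2192_0) q_nil))

theorem p2193 : Pat 73 73 TBm TCm (CB.map Fm) R0Q103.P2193 R0Q103.I2193 := Vale.Agent.P032.Lt.pat_eq (E' := R0Q103.E) eB (pat_step (by decide +kernel) (q_cons (Vale.Agent.P032.Lt.q R0Q103.q2193_0) (q_cons (Vale.Agent.P032.Lt.q R0Q103.q2193_1) q_nil)))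

theorem p2194 : Pat 73 73 TBm TCm (CB.map Fm) R0Q103.P2194 R0Q103.I2194 := Vale.Agent.P032.Lt.pat_eq (E' := R0Q103.E) eB (pat_step (by decide +kernel) (q_cons (Vale.Agent.P032.Lt.q R0Q103.q2194_0) (q_cons (Vale.Agent.P032.Lt.q R0Q103.q2194_1) (q_cons (Vale.Agent.P032.Lt.q R0Q103.q2194_2) (q_cons (Vale.Agent.P032.Lt.q R0Q103.q2194_3) (q_cons (Vale.Agent.P032.Lt.q R0Q103.q2194_4) q_nil))))))

theorem p2195 : Pat 73 73 TBm TCm (CB.map Fm) R0Q103.P2195 R0Q103.I2195 := Vale.Agent.P032.Lt.pat_eq (E' := R0Q103.E) eB (pat_step (by decide +kernel) (q_cons (Vale.Agent.P032.Lt.q R0Q103.q2195_0) (q_cons (Vale.Agent.P032.Lt.q R0Q103.q2195_1) (q_cons (Vale.Agent.P032.Lt.q R0Q103.q2195_2) q_nil))))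

theorem p2196 : Pat 73 73 TBm TCm (CB.map Fm) R0Q103.P2196 R0Q103.I2196 := Vale.Agent.P032.Lt.pat_eq (E' := R0Q103.E) eB (pat_step (by decide +kernel) (q_cons (Vale.Agent.P032.Lt.q R0Q103.q2196_0) q_nil))

theorem p2197 : Pat 73 73 TBm TCm (CB.map Fm) R0Q103.P2197 R0Q103.I2197 := Vale.Agent.P032.Lt.pat_eq (E' := R0Q103.E) eB (pat_step (by decide +kernel) (q_cons (Vale.Agent.P032.Lt.q R0Q103.q2197_0) (q_cons (Vale.Agent.P032.Lt.q R0Q103.q2197_1) (q_cons (Vale.Agent.P032.Lt.q R0Q103.q2197_2) (q_cons (Vale.Agent.P032.Lt.q R0Q103.q2197_3) (q_cons (Vale.Agent.P032.Lt.q R0Q103.q2197_4) (q_cons (Vale.Agent.P032.Lt.q R0Q103.q2197_5) (q_cons (Vale.Agent.P032.Lt.q R0Q103.q2197_6) (q_cons (Vale.Agent.P032.Lt.q R0Q103.q2197_7) q_nil)))))))))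

theorem p2198 : Pat 73 73 TBm TCm (CB.map Fm) R0Q103.P2198 R0Q103.I2198 := Vale.Agent.P032.Lt.pat_eq (E' := R0Q103.E) eB (pat_step (by decide +kernel) (q_cons (Vale.Agent.P032.Lt.q R0Q103.q2198_0) q_nil))

theorem p2199 : Pat 73 73 TBm TCm (CB.map Fm) R0Q103.P2199 R0Q103.I2199 := Vale.Agent.P032.Lt.pat_eq (E' := R0Q103.E) eB (pat_step (by decide +kernel) (q_cons (Vale.Agent.P032.Lt.q R0Q103.q2199_0) (q_cons (Vale.Agent.P032.Lt.q R0Q103.q2199_1) (q_cons (Vale.Agent.P032.Lt.q R0Q103.q2199_2) (q_cons (Vale.Agent.P032.Lt.q R0Q103.q2199_3) (q_cons (Vale.Agent.P032.Lt.q R0Q103.q2199_4) q_nil))))))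

def C2200 : List ℕ := [0, 4, 8, 12, 16, 20, 24, 475137, 609281, 737281]
theorem p2200 : Pat 73 73 TBm TCm (C2200.map Fm) R0Q103.P2200 R0Q103.I2200 := Vale.Agent.P032.Lt.pat_eq (E' := R0Q103.E2200) (by decide +kernel) (pat_step (by decide +kernel) (q_cons (Vale.Agent.P032.Lt.q R0Q103.q2200_0) (q_cons (Vale.Agent.P032.Lt.q R0Q103.q2200_1) (q_cons (Vale.Agent.P032.Lt.q R0Q103.q2200_2) (q_cons (Vale.Agent.P032.Lt.q R0Q103.q2200_3) q_nil)))))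

theorem p2201 : Pat 73 73 TBm TCm (CB.map Fm) R0Q103.P2201 R0Q103.I2201 := Vale.Agent.P032.Lt.pat_eq (E' := R0Q103.E) eB (pat_step (by decide +kernel) (q_cons (Vale.Agent.P032.Lt.q R0Q103.q2201_0) (q_cons (Vale.Agent.P032.Lt.q R0Q103.q2201_1) (q_cons (Vale.Agent.P032.Lt.q R0Q103.q2201_2) (q_cons (Vale.Agent.P032.Lt.q R0Q103.q2201_3) (q_cons (Vale.Agent.P032.Lt.q R0Q103.q2201_4) (q_cons (Vale.Agent.P032.Lt.q R0Q103.q2201_5) q_nil)))))))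

theorem p2202 : Pat 73 73 TBm TCm (CB.map Fm) R0Q103.P2202 R0Q103.I2202 := Vale.Agent.P032.Lt.pat_eq (E' := R0Q103.E) eB (pat_step (by decide +kernel) (q_cons (Vale.Agent.P032.Lt.q R0Q103.q2202_0) (q_cons (Vale.Agent.P032.Lt.q R0Q103.q2202_1) (q_cons (Vale.Agent.P032.Lt.q R0Q103.q2202_2) (q_cons (Vale.Agent.P032.Lt.q R0Q103.q2202_3) (q_cons (Vale.Agent.P032.Lt.q R0Q103.q2202_4) (q_cons (Vale.Agent.P032.Lt.q R0Q103.q2202_5) (q_cons (Vale.Agent.P032.Lt.q R0Q103.q2202_6) (q_cons (Vale.Agent.P032.Lt.q R0Q103.q2202_7) (q_cons (Vale.Agent.P032.Lt.q R0Q103.q2202_8) (q_cons (Vale.Agent.P032.Lt.q R0Q103.q2202_9) (q_cons (Vale.Agent.P032.Lt.q R0Q103.q2202_10) (q_cons (Vale.Agent.P032.Lt.q R0Q103.q2202_11) (q_cons (Vale.Agent.P032.Lt.q R0Q103.q2202_12) q_nil))))))))))))))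

theorem p2203 : Pat 73 73 TBm TCm (CB.map Fm) R0Q103.P2203 R0Q103.I2203 := Vale.Agent.P032.Lt.pat_eq (E' := R0Q103.E) eB (pat_step (by decide +kernel) (q_cons (Vale.Agent.P032.Lt.q R0Q103.q2203_0) (q_cons (Vale.Agent.P032.Lt.q R0Q103.q2203_1) (q_cons (Vale.Agent.P032.Lt.q R0Q103.q2203_2) (q_cons (Vale.Agent.P032.Lt.q R0Q103.q2203_3) (q_cons (Vale.Agent.P032.Lt.q R0Q103.q2203_4) (q_cons (Vale.Agent.P032.Lt.q R0Q103.q2203_5) (q_cons (Vale.Agent.P032.Lt.q R0Q103.q2203_6) (q_cons (Vale.Agent.P032.Lt.q R0Q103.q2203_7) (q_cons (Vale.Agent.P032.Lt.q R0Q103.q2203_8) (q_cons (Vale.Agent.P032.Lt.q R0Q103.q2203_9) (q_cons (Vale.Agent.P032.Lt.q R0Q103.q2203_10) q_nil))))))))))))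

theorem p2204 : Pat 73 73 TBm TCm (CB.map Fm) R0Q103.P2204 R0Q103.I2204 := Vale.Agent.P032.Lt.pat_eq (E' := R0Q103.E) eB (pat_step (by decide +kernel) (q_cons (Vale.Agent.P032.Lt.q R0Q103.q2204_0) q_nil))

theorem p2205 : Pat 73 73 TBm TCm (CB.map Fm) R0Q103.P2205 R0Q103.I2205 := Vale.Agent.P032.Lt.pat_eq (E' := R0Q103.E) eB (pat_step (by decide +kernel) (q_cons (Vale.Agent.P032.Lt.q R0Q103.q2205_0) (q_cons (Vale.Agent.P032.Lt.q R0Q103.q2205_1) (q_cons (Vale.Agent.P032.Lt.q R0Q103.q2205_2) (q_cons (Vale.Agent.P032.Lt.q R0Q103.q2205_3) (q_cons (Vale.Agent.P032.Lt.q R0Q103.q2205_4) (q_cons (Vale.Agent.P032.Lt.q R0Q103.q2205_5) q_nil)))))))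

theorem p2206 : Pat 73 73 TBm TCm (CB.map Fm) R0Q103.P2206 R0Q103.I2206 := Vale.Agent.P032.Lt.pat_eq (E' := R0Q103.E) eB (pat_step (by decide +kernel) (q_cons (Vale.Agent.P032.Lt.q R0Q103.q2206_0) q_nil))

theorem p2207 : Pat 73 73 TBm TCm (CB.map Fm) R0Q103.P2207 R0Q103.I2207 := Vale.Agent.P032.Lt.pat_eq (E' := R0Q103.E) eB (pat_step (by decide +kernel) (q_cons (Vale.Agent.P032.Lt.q R0Q103.q2207_0) (q_cons (Vale.Agent.P032.Lt.q R0Q103.q2207_1) (q_cons (Vale.Agent.P032.Lt.q R0Q103.q2207_2) (q_cons (Vale.Agent.P032.Lt.q R0Q103.q2207_3) (q_cons (Vale.Agent.P032.Lt.q R0Q103.q2207_4) (q_cons (Vale.Agent.P032.Lt.q R0Q103.q2207_5) q_nil)))))))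

theorem p2208 : Pat 73 73 TBm TCm (CB.map Fm) R0Q104.P2208 R0Q104.I2208 := Vale.Agent.P032.Lt.pat_eq (E' := R0Q104.E) eB (pat_step (by decide +kernel) (q_cons (Vale.Agent.P032.Lt.q R0Q104.q2208_0) (q_cons (Vale.Agent.P032.Lt.q R0Q104.q2208_1) (q_cons (Vale.Agent.P032.Lt.q R0Q104.q2208_2) (q_cons (Vale.Agent.P032.Lt.q R0Q104.q2208_3) q_nil)))))

theorem p2209 : Pat 73 73 TBm TCm (CB.map Fm) R0Q104.P2209 R0Q104.I2209 := Vale.Agent.P032.Lt.pat_eq (E' := R0Q104.E) eB (pat_step (by decide +kernel) (q_cons (Vale.Agent.P032.Lt.q R0Q104.q2209_0) (q_cons (Vale.Agent.P032.Lt.q R0Q104.q2209_1) q_nil)))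

theorem p2210 : Pat 73 73 TBm TCm (CB.map Fm) R0Q104.P2210 R0Q104.I2210 := Vale.Agent.P032.Lt.pat_eq (E' := R0Q104.E) eB (pat_step (by decide +kernel) (q_cons (Vale.Agent.P032.Lt.q R0Q104.q2210_0) (q_cons (Vale.Agent.P032.Lt.q R0Q104.q2210_1) (q_cons (Vale.Agent.P032.Lt.q R0Q104.q2210_2) (q_cons (Vale.Agent.P032.Lt.q R0Q104.q2210_3) q_nil)))))

def C2211 : List ℕ := [0, 4, 8, 12, 16, 20, 24, 349185]
theorem p2211 : Pat 73 73 TBm TCm (C2211.map Fm) R0Q104.P2211 R0Q104.I2211 := Vale.Agent.P032.Lt.pat_eq (E' := R0Q104.E2211) (by decide +kernel) (pat_step (by decide +kernel) (q_cons (Vale.Agent.P032.Lt.q R0Q104.q2211_0) (q_cons (Vale.Agent.P032.Lt.q R0Q104.q2211_1) (q_cons (Vale.Agent.P032.Lt.q R0Q104.q2211_2) (q_cons (Vale.Agent.P032.Lt.q R0Q104.q2211_3) (q_cons (Vale.Agent.P032.Lt.q R0Q104.q2211_4) (q_cons (Vale.Agent.P032.Lt.q R0Q104.q2211_5) (q_cons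 (Vale.Agent.P032.Lt.q R0Q104.q2211_6) (q_cons (Vale.Agent.P032.Lt.q R0Q104.q2211_7) (q_cons (Vale.Agent.P032.Lt.q R0Q104.q2211_8) (q_cons (Vale.Agent.P032.Lt.q R0Q104.q2211_9) q_nil)))))))))))

def C2212 : List ℕ := [0, 4, 8, 12, 16, 20, 24, 212993, 347137, 606209, 737281]
theorem p2212 : Pat 73 73 TBm TCm (C2212.map Fm) R0Q104.P2212 R0Q104.I2212 := Vale.Agent.P032.Lt.pat_eq (E' := R0Q104.E2212) (by decide +kernel) (pat_step (by decide +kernel) (q_cons (Vale.Agent.P032.Lt.q R0Q104.q2212_0) (q_cons (Vale.Agent.P032.Lt.q R0Q104.q2212_1) (q_cons (Vale.Agent.P032.Lt.q R0Q104.q2212_2) (q_cons (Vale.Agent.P032.Lt.q R0Q104.q2212_3) q_nil)))))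

def C2213 : List ℕ := [0, 4, 8, 12, 16, 20, 24, 475137, 606209, 737281]
theorem p2213 : Pat 73 73 TBm TCm (C2213.map Fm) R0Q104.P2213 R0Q104.I2213 := Vale.Agent.P032.Lt.pat_eq (E' := R0Q104.E2213) (by decide +kernel) (pat_step (by decide +kernel) (q_cons (Vale.Agent.P032.Lt.q R0Q104.q2213_0) (q_cons (Vale.Agent.P032.Lt.q R0Q104.q2213_1) (q_cons (Vale.Agent.P032.Lt.q R0Q104.q2213_2) (q_cons (Vale.Agent.P032.Lt.q R0Q104.q2213_3) (q_cons (Vale.Agent.P032.Lt.q R0Q104.q2213_4) (q_cons (Vale.Agent.P032.Lt.q R0Q104.q2213_5) q_nil)))))))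

theorem p2214 : Pat 73 73 TBm TCm (CB.map Fm) R0Q104.P2214 R0Q104.I2214 := Vale.Agent.P032.Lt.pat_eq (E' := R0Q104.E) eB (pat_step (by decide +kernel) (q_cons (Vale.Agent.P032.Lt.q R0Q104.q2214_0) (q_cons (Vale.Agent.P032.Lt.q R0Q104.q2214_1) (q_cons (Vale.Agent.P032.Lt.q R0Q104.q2214_2) (q_cons (Vale.Agent.P032.Lt.q R0Q104.q2214_3) q_nil)))))

theorem p2215 : Pat 73 73 TBm TCm (CB.map Fm) R0Q104.P2215 R0Q104.I2215 := Vale.Agent.P032.Lt.pat_eq (E' := R0Q104.E) eB (pat_step (by decide +kernel) (q_cons (Vale.Agent.P032.Lt.q R0Q104.q2215_0) q_nil))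

theorem p2216 : Pat 73 73 TBm TCm (CB.map Fm) R0Q104.P2216 R0Q104.I2216 := Vale.Agent.P032.Lt.pat_eq (E' := R0Q104.E) eB (pat_step (by decide +kernel) (q_cons (Vale.Agent.P032.Lt.q R0Q104.q2216_0) q_nil))

theorem p2217 : Pat 73 73 TBm TCm (CB.map Fm) R0Q104.P2217 R0Q104.I2217 := Vale.Agent.P032.Lt.pat_eq (E' := R0Q104.E) eB (pat_step (by decide +kernel) (q_cons (Vale.Agent.P032.Lt.q R0Q104.q2217_0) q_nil))

theorem p2218 : Pat 73 73 TBm TCm (CB.map Fm) R0Q104.P2218 R0Q104.I2218 := Vale.Agent.P032.Lt.pat_eq (E' := R0Q104.E) eB (pat_step (by decide +kernel) (q_cons (Vale.Agent.P032.Lt.q R0Q104.q2218_0) (q_cons (Vale.Agent.P032.Lt.q R0Q104.q2218_1) (q_cons (Vale.Agent.P032.Lt.q R0Q104.q2218_2) (q_cons (Vale.Agent.P032.Lt.q R0Q104.q2218_3) (q_cons (Vale.Agent.P032.Lt.q R0Q104.q2218_4) (q_cons (Vale.Agent.P032.Lt.q R0Q104.q2218_5) (q_cons (Vale.Agent.P032.Lt.q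 R0Q104.q2218_6) (q_cons (Vale.Agent.P032.Lt.q R0Q104.q2218_7) q_nil)))))))))

theorem p2219 : Pat 73 73 TBm TCm (CB.map Fm) R0Q104.P2219 R0Q104.I2219 := Vale.Agent.P032.Lt.pat_eq (E' := R0Q104.E) eB (pat_step (by decide +kernel) (q_cons (Vale.Agent.P032.Lt.q R0Q104.q2219_0) (q_cons (Vale.Agent.P032.Lt.q R0Q104.q2219_1) (q_cons (Vale.Agent.P032.Lt.q R0Q104.q2219_2) (q_cons (Vale.Agent.P032.Lt.q R0Q104.q2219_3) (q_cons (Vale.Agent.P032.Lt.q R0Q104.q2219_4) q_nil))))))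

theorem p2220 : Pat 73 73 TBm TCm (CB.map Fm) R0Q104.P2220 R0Q104.I2220 := Vale.Agent.P032.Lt.pat_eq (E' := R0Q104.E) eB (pat_step (by decide +kernel) (q_cons (Vale.Agent.P032.Lt.q R0Q104.q2220_0) (q_cons (Vale.Agent.P032.Lt.q R0Q104.q2220_1) q_nil)))

theorem p2221 : Pat 73 73 TBm TCm (CB.map Fm) R0Q104.P2221 R0Q104.I2221 := Vale.Agent.P032.Lt.pat_eq (E' := R0Q104.E) eB (pat_step (by decide +kernel) (q_cons (Vale.Agent.P032.Lt.q R0Q104.q2221_0) q_nil))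

theorem p2222 : Pat 73 73 TBm TCm (CB.map Fm) R0Q104.P2222 R0Q104.I2222 := Vale.Agent.P032.Lt.pat_eq (E' := R0Q104.E) eB (pat_step (by decide +kernel) (q_cons (Vale.Agent.P032.Lt.q R0Q104.q2222_0) (q_cons (Vale.Agent.P032.Lt.q R0Q104.q2222_1) (q_cons (Vale.Agent.P032.Lt.q R0Q104.q2222_2) (q_cons (Vale.Agent.P032.Lt.q R0Q104.q2222_3) (q_cons (Vale.Agent.P032.Lt.q R0Q104.q2222_4) (q_cons (Vale.Agent.P032.Lt.q R0Q104.q2222_5) (q_cons (Vale.Agent.P032.Lt.q R0Q104.q2222_6) (q_cons (Vale.Agent.P032.Lt.q R0Q104.q2222_7) q_nil)))))))))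

theorem p2223 : Pat 73 73 TBm TCm (CB.map Fm) R0Q104.P2223 R0Q104.I2223 := Vale.Agent.P032.Lt.pat_eq (E' := R0Q104.E) eB (pat_step (by decide +kernel) (q_cons (Vale.Agent.P032.Lt.q R0Q104.q2223_0) (q_cons (Vale.Agent.P032.Lt.q R0Q104.q2223_1) q_nil)))

theorem p2224 : Pat 73 73 TBm TCm (CB.map Fm) R0Q104.P2224 R0Q104.I2224 := Vale.Agent.P032.Lt.pat_eq (E' := R0Q104.E) eB (pat_step (by decide +kernel) (q_cons (Vale.Agent.P032.Lt.q R0Q104.q2224_0) q_nil))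

theorem p2225 : Pat 73 73 TBm TCm (CB.map Fm) R0Q104.P2225 R0Q104.I2225 := Vale.Agent.P032.Lt.pat_eq (E' := R0Q104.E) eB (pat_step (by decide +kernel) (q_cons (Vale.Agent.P032.Lt.q R0Q104.q2225_0) (q_cons (Vale.Agent.P032.Lt.q R0Q104.q2225_1) q_nil)))

theorem p2226 : Pat 73 73 TBm TCm (CB.map Fm) R0Q104.P2226 R0Q104.I2226 := Vale.Agent.P032.Lt.pat_eq (E' := R0Q104.E) eB (pat_step (by decide +kernel) (q_cons (Vale.Agent.P032.Lt.q R0Q104.q2226_0) (q_cons (Vale.Agent.P032.Lt.q R0Q104.q2226_1) (q_cons (Vale.Agent.P032.Lt.q R0Q104.q2226_2) q_nil))))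

theorem p2227 : Pat 73 73 TBm TCm (CB.map Fm) R0Q104.P2227 R0Q104.I2227 := Vale.Agent.P032.Lt.pat_eq (E' := R0Q104.E) eB (pat_step (by decide +kernel) (q_cons (Vale.Agent.P032.Lt.q R0Q104.q2227_0) (q_cons (Vale.Agent.P032.Lt.q R0Q104.q2227_1) (q_cons (Vale.Agent.P032.Lt.q R0Q104.q2227_2) q_nil))))

theorem p2228 : Pat 73 73 TBm TCm (CB.map Fm) R0Q104.P2228 R0Q104.I2228 := Vale.Agent.P032.Lt.pat_eq (E' := R0Q104.E) eB (pat_step (by decide +kernel) (q_cons (Vale.Agent.P032.Lt.q R0Q104.q2228_0) (q_cons (Vale.Agent.P032.Lt.q R0Q104.q2228_1) (q_cons (Vale.Agent.P032.Lt.q R0Q104.q2228_2) q_nil))))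

theorem p2229 : Pat 73 73 TBm TCm (CB.map Fm) R0Q104.P2229 R0Q104.I2229 := Vale.Agent.P032.Lt.pat_eq (E' := R0Q104.E) eB (pat_step (by decide +kernel) (q_cons (Vale.Agent.P032.Lt.q R0Q104.q2229_0) (q_cons (Vale.Agent.P032.Lt.q R0Q104.q2229_1) (q_cons (Vale.Agent.P032.Lt.q R0Q104.q2229_2) (q_cons (Vale.Agent.P032.Lt.q R0Q104.q2229_3) q_nil)))))

theorem p2230 : Pat 73 73 TBm TCm (CB.map Fm) R0Q104.P2230 R0Q104.I2230 := Vale.Agent.P032.Lt.pat_eq (E' := R0Q104.E) eB (pat_step (by decide +kernel) (q_cons (Vale.Agent.P032.Lt.q R0Q104.q2230_0) (q_cons (Vale.Agent.P032.Lt.q R0Q104.q2230_1) (q_cons (Vale.Agent.P032.Lt.q R0Q104.q2230_2) (q_cons (Vale.Agent.P032.Lt.q R0Q104.q2230_3) q_nil)))))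

theorem p2231 : Pat 73 73 TBm TCm (CB.map Fm) R0Q104.P2231 R0Q104.I2231 := Vale.Agent.P032.Lt.pat_eq (E' := R0Q104.E) eB (pat_step (by decide +kernel) (q_cons (Vale.Agent.P032.Lt.q R0Q104.q2231_0) q_nil))

def C2232 : List ℕ := [0, 4, 8, 12, 16, 20, 24, 344065, 475137, 485377]
theorem p2232 : Pat 73 73 TBm TCm (C2232.map Fm) R0Q104.P2232 R0Q104.I2232 := Vale.Agent.P032.Lt.pat_eq (E' := R0Q104.E2232) (by decide +kernel) (pat_step (by decide +kernel) (q_cons (Vale.Agent.P032.Lt.q R0Q104.q2232_0) (q_cons (Vale.Agent.P032.Lt.q R0Q104.q2232_1) (q_cons (Vale.Agent.P032.Lt.q R0Q104.q2232_2) (q_cons (Vale.Agent.P032.Lt.q R0Q104.q2232_3) (q_cons (Vale.Agent.P032.Lt.q R0Q104.q2232_4) (q_cons (Vale.Agent.P032.Lt.q R0Q104.q2232_5) q_nil)))))))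

theorem p2233 : Pat 73 73 TBm TCm (CB.map Fm) R0Q104.P2233 R0Q104.I2233 := Vale.Agent.P032.Lt.pat_eq (E' := R0Q104.E) eB (pat_step (by decide +kernel) (q_cons (Vale.Agent.P032.Lt.q R0Q104.q2233_0) (q_cons (Vale.Agent.P032.Lt.q R0Q104.q2233_1) q_nil)))

theorem p2234 : Pat 73 73 TBm TCm (CB.map Fm) R0Q104.P2234 R0Q104.I2234 := Vale.Agent.P032.Lt.pat_eq (E' := R0Q104.E) eB (pat_step (by decide +kernel) (q_cons (Vale.Agent.P032.Lt.q R0Q104.q2234_0) (q_cons (Vale.Agent.P032.Lt.q R0Q104.q2234_1) (q_cons (Vale.Agent.P032.Lt.q R0Q104.q2234_2) q_nil))))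

theorem p2235 : Pat 73 73 TBm TCm (CB.map Fm) R0Q104.P2235 R0Q104.I2235 := Vale.Agent.P032.Lt.pat_eq (E' := R0Q104.E) eB (pat_step (by decide +kernel) (q_cons (Vale.Agent.P032.Lt.q R0Q104.q2235_0) q_nil))

theorem p2236 : Pat 73 73 TBm TCm (CB.map Fm) R0Q104.P2236 R0Q104.I2236 := Vale.Agent.P032.Lt.pat_eq (E' := R0Q104.E) eB (pat_step (by decide +kernel) (q_cons (Vale.Agent.P032.Lt.q R0Q104.q2236_0) (q_cons (Vale.Agent.P032.Lt.q R0Q104.q2236_1) (q_cons (Vale.Agent.P032.Lt.q R0Q104.q2236_2) (q_cons (Vale.Agent.P032.Lt.q R0Q104.q2236_3) (q_cons (Vale.Agent.P032.Lt.q R0Q104.q2236_4) (q_cons (Vale.Agent.P032.Lt.q R0Q104.q2236_5) q_nil)))))))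

theorem p2237 : Pat 73 73 TBm TCm (CB.map Fm) R0Q104.P2237 R0Q104.I2237 := Vale.Agent.P032.Lt.pat_eq (E' := R0Q104.E) eB (pat_step (by decide +kernel) (q_cons (Vale.Agent.P032.Lt.q R0Q104.q2237_0) (q_cons (Vale.Agent.P032.Lt.q R0Q104.q2237_1) q_nil)))

theorem p2238 : Pat 73 73 TBm TCm (CB.map Fm) R0Q104.P2238 R0Q104.I2238 := Vale.Agent.P032.Lt.pat_eq (E' := R0Q104.E) eB (pat_step (by decide +kernel) (q_cons (Vale.Agent.P032.Lt.q R0Q104.q2238_0) (q_cons (Vale.Agent.P032.Lt.q R0Q104.q2238_1) (q_cons (Vale.Agent.P032.Lt.q R0Q104.q2238_2) (q_cons (Vale.Agent.P032.Lt.q R0Q104.q2238_3) (q_cons (Vale.Agent.P032.Lt.q R0Q104.q2238_4) (q_cons (Vale.Agent.P032.Lt.q R0Q104.q2238_5) (q_cons (Vale.Agent.P032.Lt.q R0Q104.q2238_6) q_nil))))))))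

theorem p2239 : Pat 73 73 TBm TCm (CB.map Fm) R0Q104.P2239 R0Q104.I2239 := Vale.Agent.P032.Lt.pat_eq (E' := R0Q104.E) eB (pat_step (by decide +kernel) (q_cons (Vale.Agent.P032.Lt.q R0Q104.q2239_0) (q_cons (Vale.Agent.P032.Lt.q R0Q104.q2239_1) (q_cons (Vale.Agent.P032.Lt.q R0Q104.q2239_2) (q_cons (Vale.Agent.P032.Lt.q R0Q104.q2239_3) (q_cons (Vale.Agent.P032.Lt.q R0Q104.q2239_4) q_nil))))))

theorem p2240 : Pat 73 73 TBm TCm (CB.map Fm) R0Q104.P2240 R0Q104.I2240 := Vale.Agent.P032.Lt.pat_eq (E' := R0Q104.E) eB (pat_step (by decide +kernel) (q_cons (Vale.Agent.P032.Lt.q R0Q104.q2240_0) (q_cons (Vale.Agent.P032.Lt.q R0Q104.q2240_1) (q_cons (Vale.Agent.P032.Lt.q R0Q104.q2240_2) (q_cons (Vale.Agent.P032.Lt.q R0Q104.q2240_3) (q_cons (Vale.Agent.P032.Lt.q R0Q104.q2240_4) q_nil))))))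

theorem p2241 : Pat 73 73 TBm TCm (CB.map Fm) R0Q104.P2241 R0Q104.I2241 := Vale.Agent.P032.Lt.pat_eq (E' := R0Q104.E) eB (pat_step (by decide +kernel) (q_cons (Vale.Agent.P032.Lt.q R0Q104.q2241_0) (q_cons (Vale.Agent.P032.Lt.q R0Q104.q2241_1) (q_cons (Vale.Agent.P032.Lt.q R0Q104.q2241_2) (q_cons (Vale.Agent.P032.Lt.q R0Q104.q2241_3) (q_cons (Vale.Agent.P032.Lt.q R0Q104.q2241_4) q_nil))))))

theorem p2242 : Pat 73 73 TBm TCm (CB.map Fm) R0Q104.P2242 R0Q104.I2242 := Vale.Agent.P032.Lt.pat_eq (E' := R0Q104.E) eB (pat_step (by decide +kernel) (q_cons (Vale.Agent.P032.Lt.q R0Q104.q2242_0) (q_cons (Vale.Agent.P032.Lt.q R0Q104.q2242_1) (q_cons (Vale.Agent.P032.Lt.q R0Q104.q2242_2) (q_cons (Vale.Agent.P032.Lt.q R0Q104.q2242_3) (q_cons (Vale.Agent.P032.Lt.q R0Q104.q2242_4) q_nil))))))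

theorem p2243 : Pat 73 73 TBm TCm (CB.map Fm) R0Q105.P2243 R0Q105.I2243 := Vale.Agent.P032.Lt.pat_eq (E' := R0Q105.E) eB (pat_step (by decide +kernel) (q_cons (Vale.Agent.P032.Lt.q R0Q105.q2243_0) (q_cons (Vale.Agent.P032.Lt.q R0Q105.q2243_1) (q_cons (Vale.Agent.P032.Lt.q R0Q105.q2243_2) (q_cons (Vale.Agent.P032.Lt.q R0Q105.q2243_3) (q_cons (Vale.Agent.P032.Lt.q R0Q105.q2243_4) (q_cons (Vale.Agent.P032.Lt.q R0Q105.q2243_5) (q_cons (Vale.Agent.P032.Lt.q R0Q105.q2243_6) (q_cons (Vale.Agent.P032.Lt.q R0Q105.q2243_7) q_nil)))))))))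

theorem p2244 : Pat 73 73 TBm TCm (CB.map Fm) R0Q105.P2244 R0Q105.I2244 := Vale.Agent.P032.Lt.pat_eq (E' := R0Q105.E) eB (pat_step (by decide +kernel) (q_cons (Vale.Agent.P032.Lt.q R0Q105.q2244_0) (q_cons (Vale.Agent.P032.Lt.q R0Q105.q2244_1) (q_cons (Vale.Agent.P032.Lt.q R0Q105.q2244_2) (q_cons (Vale.Agent.P032.Lt.q R0Q105.q2244_3) (q_cons (Vale.Agent.P032.Lt.q R0Q105.q2244_4) (q_cons (Vale.Agent.P032.Lt.q R0Q105.q2244_5) (q_cons (Vale.Agent.P032.Lt.q R0Q105.q2244_6) (q_cons (Vale.Agent.P032.Lt.q R0Q105.q2244_7) (q_cons (Vale.Agent.P032.Lt.q R0Q105.q2244_8) (q_cons (Vale.Agent.P032.Lt.q R0Q105.q2244_9) (q_cons (Vale.Agent.P032.Lt.q R0Q105.q2244_10) (q_cons (Vale.Agent.P032.Lt.q R0Q105.q2244_11) (q_cons (Vale.Agent.P032.Lt.q R0Q105.q2244_12) (q_cons (Vale.Agent.P032.Lt.q R0Q105.q2244_13) (q_cons (Vale.Agent.P032.Lt.q R0Q105.q2244_14) (q_cons (Vale.Agent.P032.Lt.q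 R0Q105.q2244_15) (q_cons (Vale.Agent.P032.Lt.q R0Q105.q2244_16) (q_cons (Vale.Agent.P032.Lt.q R0Q105.q2244_17) (q_cons (Vale.Agent.P032.Lt.q R0Q105.q2244_18) (q_cons (Vale.Agent.P032.Lt.q R0Q105.q2244_19) (q_cons (Vale.Agent.P032.Lt.q R0Q105.q2244_20) (q_cons (Vale.Agent.P032.Lt.q R0Q105.q2244_21) (q_cons (Vale.Agent.P032.Lt.q R0Q105.q2244_22) (q_cons (Vale.Agent.P032.Lt.q R0Q105.q2244_23) (q_cons (Vale.Agent.P032.Lt.q R0Q105.q2244_24) (q_cons (Vale.Agent.P032.Lt.q R0Q105.q2244_25) (q_cons (Vale.Agent.P032.Lt.q R0Q105.q2244_26) (q_cons (Vale.Agent.P032.Lt.q R0Q105.q2244_27) q_nil)))))))))))))))))))))))))))))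

theorem p2245 : Pat 73 73 TBm TCm (CB.map Fm) R0Q105.P2245 R0Q105.I2245 := Vale.Agent.P032.Lt.pat_eq (E' := R0Q105.E) eB (pat_step (by decide +kernel) (q_cons (Vale.Agent.P032.Lt.q R0Q105.q2245_0) (q_cons (Vale.Agent.P032.Lt.q R0Q105.q2245_1) (q_cons (Vale.Agent.P032.Lt.q R0Q105.q2245_2) (q_cons (Vale.Agent.P032.Lt.q R0Q105.q2245_3) (q_cons (Vale.Agent.P032.Lt.q R0Q105.q2245_4) (q_cons (Vale.Agent.P032.Lt.q R0Q105.q2245_5) (q_cons (Vale.Agent.P032.Lt.q R0Q105.q2245_6) (q_cons (Vale.Agent.P032.Lt.q R0Q105.q2245_7) q_nil)))))))))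

theorem p2246 : Pat 73 73 TBm TCm (CB.map Fm) R0Q105.P2246 R0Q105.I2246 := Vale.Agent.P032.Lt.pat_eq (E' := R0Q105.E) eB (pat_step (by decide +kernel) (q_cons (Vale.Agent.P032.Lt.q R0Q105.q2246_0) q_nil))

theorem p2247 : Pat 73 73 TBm TCm (CB.map Fm) R0Q105.P2247 R0Q105.I2247 := Vale.Agent.P032.Lt.pat_eq (E' := R0Q105.E) eB (pat_step (by decide +kernel) (q_cons (Vale.Agent.P032.Lt.q R0Q105.q2247_0) (q_cons (Vale.Agent.P032.Lt.q R0Q105.q2247_1) (q_cons (Vale.Agent.P032.Lt.q R0Q105.q2247_2) (q_cons (Vale.Agent.P032.Lt.q R0Q105.q2247_3) (q_cons (Vale.Agent.P032.Lt.q R0Q105.q2247_4) (q_cons (Vale.Agent.P032.Lt.q R0Q105.q2247_5) (q_cons (Vale.Agent.P032.Lt.q R0Q105.q2247_6) q_nil))))))))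

theorem p2248 : Pat 73 73 TBm TCm (CB.map Fm) R0Q105.P2248 R0Q105.I2248 := Vale.Agent.P032.Lt.pat_eq (E' := R0Q105.E) eB (pat_step (by decide +kernel) (q_cons (Vale.Agent.P032.Lt.q R0Q105.q2248_0) (q_cons (Vale.Agent.P032.Lt.q R0Q105.q2248_1) (q_cons (Vale.Agent.P032.Lt.q R0Q105.q2248_2) (q_cons (Vale.Agent.P032.Lt.q R0Q105.q2248_3) q_nil)))))

theorem p2249 : Pat 73 73 TBm TCm (CB.map Fm) R0Q105.P2249 R0Q105.I2249 := Vale.Agent.P032.Lt.pat_eq (E' := R0Q105.E) eB (pat_step (by decide +kernel) (q_cons (Vale.Agent.P032.Lt.q R0Q105.q2249_0) (q_cons (Vale.Agent.P032.Lt.q R0Q105.q2249_1) (q_cons (Vale.Agent.P032.Lt.q R0Q105.q2249_2) q_nil))))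

theorem p2250 : Pat 73 73 TBm TCm (CB.map Fm) R0Q105.P2250 R0Q105.I2250 := Vale.Agent.P032.Lt.pat_eq (E' := R0Q105.E) eB (pat_step (by decide +kernel) (q_cons (Vale.Agent.P032.Lt.q R0Q105.q2250_0) q_nil))

theorem p2251 : Pat 73 73 TBm TCm (CB.map Fm) R0Q105.P2251 R0Q105.I2251 := Vale.Agent.P032.Lt.pat_eq (E' := R0Q105.E) eB (pat_step (by decide +kernel) (q_cons (Vale.Agent.P032.Lt.q R0Q105.q2251_0) (q_cons (Vale.Agent.P032.Lt.q R0Q105.q2251_1) (q_cons (Vale.Agent.P032.Lt.q R0Q105.q2251_2) (q_cons (Vale.Agent.P032.Lt.q R0Q105.q2251_3) (q_cons (Vale.Agent.P032.Lt.q R0Q105.q2251_4) (q_cons (Vale.Agent.P032.Lt.q R0Q105.q2251_5) (q_cons (Vale.Agent.P032.Lt.q R0Q105.q2251_6) (q_cons (Vale.Agent.P032.Lt.q R0Q105.q2251_7) q_nil)))))))))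

theorem p2252 : Pat 73 73 TBm TCm (CB.map Fm) R0Q105.P2252 R0Q105.I2252 := Vale.Agent.P032.Lt.pat_eq (E' := R0Q105.E) eB (pat_step (by decide +kernel) (q_cons (Vale.Agent.P032.Lt.q R0Q105.q2252_0) (q_cons (Vale.Agent.P032.Lt.q R0Q105.q2252_1) (q_cons (Vale.Agent.P032.Lt.q R0Q105.q2252_2) (q_cons (Vale.Agent.P032.Lt.q R0Q105.q2252_3) (q_cons (Vale.Agent.P032.Lt.q R0Q105.q2252_4) (q_cons (Vale.Agent.P032.Lt.q R0Q105.q2252_5) q_nil)))))))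

def C2253 : List ℕ := [0, 4, 8, 12, 16, 20, 24, 82945]
theorem p2253 : Pat 73 73 TBm TCm (C2253.map Fm) R0Q105.P2253 R0Q105.I2253 := Vale.Agent.P032.Lt.pat_eq (E' := R0Q105.E2253) (by decide +kernel) (pat_step (by decide +kernel) (q_cons (Vale.Agent.P032.Lt.q R0Q105.q2253_0) q_nil))

theorem p2254 : Pat 73 73 TBm TCm (CB.map Fm) R0Q105.P2254 R0Q105.I2254 := Vale.Agent.P032.Lt.pat_eq (E' := R0Q105.E) eB (pat_step (by decide +kernel) (q_cons (Vale.Agent.P032.Lt.q R0Q105.q2254_0) (q_cons (Vale.Agent.P032.Lt.q R0Q105.q2254_1) (q_cons (Vale.Agent.P032.Lt.q R0Q105.q2254_2) (q_cons (Vale.Agent.P032.Lt.q R0Q105.q2254_3) q_nil)))))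

theorem p2255 : Pat 73 73 TBm TCm (CB.map Fm) R0Q105.P2255 R0Q105.I2255 := Vale.Agent.P032.Lt.pat_eq (E' := R0Q105.E) eB (pat_step (by decide +kernel) (q_cons (Vale.Agent.P032.Lt.q R0Q105.q2255_0) (q_cons (Vale.Agent.P032.Lt.q R0Q105.q2255_1) q_nil)))

theorem p2256 : Pat 73 73 TBm TCm (CB.map Fm) R0Q105.P2256 R0Q105.I2256 := Vale.Agent.P032.Lt.pat_eq (E' := R0Q105.E) eB (pat_step (by decide +kernel) (q_cons (Vale.Agent.P032.Lt.q R0Q105.q2256_0) q_nil))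

theorem p2257 : Pat 73 73 TBm TCm (CB.map Fm) R0Q105.P2257 R0Q105.I2257 := Vale.Agent.P032.Lt.pat_eq (E' := R0Q105.E) eB (pat_step (by decide +kernel) (q_cons (Vale.Agent.P032.Lt.q R0Q105.q2257_0) q_nil))

def C2258 : List ℕ := [0, 4, 8, 12, 16, 20, 24, 476161, 745473]
theorem p2258 : Pat 73 73 TBm TCm (C2258.map Fm) R0Q105.P2258 R0Q105.I2258 := Vale.Agent.P032.Lt.pat_eq (E' := R0Q105.E2258) (by decide +kernel) (pat_step (by decide +kernel) (q_cons (Vale.Agent.P032.Lt.q R0Q105.q2258_0) q_nil))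

theorem p2259 : Pat 73 73 TBm TCm (CB.map Fm) R0Q105.P2259 R0Q105.I2259 := Vale.Agent.P032.Lt.pat_eq (E' := R0Q105.E) eB (pat_step (by decide +kernel) (q_cons (Vale.Agent.P032.Lt.q R0Q105.q2259_0) (q_cons (Vale.Agent.P032.Lt.q R0Q105.q2259_1) (q_cons (Vale.Agent.P032.Lt.q R0Q105.q2259_2) (q_cons (Vale.Agent.P032.Lt.q R0Q105.q2259_3) (q_cons (Vale.Agent.P032.Lt.q R0Q105.q2259_4) (q_cons (Vale.Agent.P032.Lt.q R0Q105.q2259_5) (q_cons (Vale.Agent.P032.Lt.q R0Q105.q2259_6) (q_cons (Vale.Agent.P032.Lt.q R0Q105.q2259_7) (q_cons (Vale.Agent.P032.Lt.q R0Q105.q2259_8) (q_cons (Vale.Agent.P032.Lt.q R0Q105.q2259_9) q_nil)))))))))))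

theorem p2260 : Pat 73 73 TBm TCm (CB.map Fm) R0Q105.P2260 R0Q105.I2260 := Vale.Agent.P032.Lt.pat_eq (E' := R0Q105.E) eB (pat_step (by decide +kernel) (q_cons (Vale.Agent.P032.Lt.q R0Q105.q2260_0) (q_cons (Vale.Agent.P032.Lt.q R0Q105.q2260_1) q_nil)))

theorem p2261 : Pat 73 73 TBm TCm (CB.map Fm) R0Q105.P2261 R0Q105.I2261 := Vale.Agent.P032.Lt.pat_eq (E' := R0Q105.E) eB (pat_step (by decide +kernel) (q_cons (Vale.Agent.P032.Lt.q R0Q105.q2261_0) (q_cons (Vale.Agent.P032.Lt.q R0Q105.q2261_1) q_nil)))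

theorem p2262 : Pat 73 73 TBm TCm (CB.map Fm) R0Q105.P2262 R0Q105.I2262 := Vale.Agent.P032.Lt.pat_eq (E' := R0Q105.E) eB (pat_step (by decide +kernel) (q_cons (Vale.Agent.P032.Lt.q R0Q105.q2262_0) (q_cons (Vale.Agent.P032.Lt.q R0Q105.q2262_1) (q_cons (Vale.Agent.P032.Lt.q R0Q105.q2262_2) q_nil))))

def C2263 : List ℕ := [0, 4, 8, 12, 16, 20, 24, 91137, 222209, 353281, 355329, 482305, 484353, 606209, 615425, 737281]
theorem p2263 : Pat 73 73 TBm TCm (C2263.map Fm) R0Q105.P2263 R0Q105.I2263 := Vale.Agent.P032.Lt.pat_eq (E' := R0Q105.E2263) (by decide +kernel) (pat_step (by decide +kernel) (q_cons (Vale.Agent.P032.Lt.q R0Q105.q2263_0) q_nil))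

def C2264 : List ℕ := [0, 4, 8, 12, 16, 20, 24, 212993, 606209, 737281]
theorem p2264 : Pat 73 73 TBm TCm (C2264.map Fm) R0Q105.P2264 R0Q105.I2264 := Vale.Agent.P032.Lt.pat_eq (E' := R0Q105.E2264) (by decide +kernel) (pat_step (by decide +kernel) (q_cons (Vale.Agent.P032.Lt.q R0Q105.q2264_0) (q_cons (Vale.Agent.P032.Lt.q R0Q105.q2264_1) (q_cons (Vale.Agent.P032.Lt.q R0Q105.q2264_2) (q_cons (Vale.Agent.P032.Lt.q R0Q105.q2264_3) (q_cons (Vale.Agent.P032.Lt.q R0Q105.q2264_4) (q_cons (Vale.Agent.P032.Lt.q R0Q105.q2264_5) (q_cons (Vale.Agent.P032.Lt.q R0Q105.q2264_6) (q_cons (Vale.Agent.P032.Lt.q R0Q105.q2264_7) (q_cons (Vale.Agent.P032.Lt.q R0Q105.q2264_8) (q_cons (Vale.Agent.P032.Lt.q R0Q105.q2264_9) (q_cons (Vale.Agent.P032.Lt.q R0Q105.q2264_10) (q_cons (Vale.Agent.P032.Lt.q R0Q105.q2264_11) (q_cons (Vale.Agent.P032.Lt.q R0Q105.q2264_12) q_nil))))))))))))))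

theorem p2265 : Pat 73 73 TBm TCm (CB.map Fm) R0Q105.P2265 R0Q105.I2265 := Vale.Agent.P032.Lt.pat_eq (E' := R0Q105.E) eB (pat_step (by decide +kernel) (q_cons (Vale.Agent.P032.Lt.q R0Q105.q2265_0) (q_cons (Vale.Agent.P032.Lt.q R0Q105.q2265_1) (q_cons (Vale.Agent.P032.Lt.q R0Q105.q2265_2) (q_cons (Vale.Agent.P032.Lt.q R0Q105.q2265_3) (q_cons (Vale.Agent.P032.Lt.q R0Q105.q2265_4) (q_cons (Vale.Agent.P032.Lt.q R0Q105.q2265_5) (q_cons (Vale.Agent.P032.Lt.q R0Q105.q2265_6) q_nil))))))))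

def C2266 : List ℕ := [0, 4, 8, 12, 16, 20, 24, 91137, 222209, 355329, 475137]
theorem p2266 : Pat 73 73 TBm TCm (C2266.map Fm) R0Q105.P2266 R0Q105.I2266 := Vale.Agent.P032.Lt.pat_eq (E' := R0Q105.E2266) (by decide +kernel) (pat_step (by decide +kernel) (q_cons (Vale.Agent.P032.Lt.q R0Q105.q2266_0) q_nil))

theorem p2267 : Pat 73 73 TBm TCm (CB.map Fm) R0Q105.P2267 R0Q105.I2267 := Vale.Agent.P032.Lt.pat_eq (E' := R0Q105.E) eB (pat_step (by decide +kernel) (q_cons (Vale.Agent.P032.Lt.q R0Q105.q2267_0) (q_cons (Vale.Agent.P032.Lt.q R0Q105.q2267_1) (q_cons (Vale.Agent.P032.Lt.q R0Q105.q2267_2) (q_cons (Vale.Agent.P032.Lt.q R0Q105.q2267_3) (q_cons (Vale.Agent.P032.Lt.q R0Q105.q2267_4) (q_cons (Vale.Agent.P032.Lt.q R0Q105.q2267_5) (q_cons (Vale.Agent.P032.Lt.q R0Q105.q2267_6) (q_cons (Vale.Agent.P032.Lt.q R0Q105.q2267_7) (q_cons (Vale.Agent.P032.Lt.q R0Q105.q2267_8)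 (q_cons (Vale.Agent.P032.Lt.q R0Q105.q2267_9) (q_cons (Vale.Agent.P032.Lt.q R0Q105.q2267_10) (q_cons (Vale.Agent.P032.Lt.q R0Q105.q2267_11) (q_cons (Vale.Agent.P032.Lt.q R0Q105.q2267_12) (q_cons (Vale.Agent.P032.Lt.q R0Q105.q2267_13) (q_cons (Vale.Agent.P032.Lt.q R0Q105.q2267_14) (q_cons (Vale.Agent.P032.Lt.q R0Q105.q2267_15) (q_cons (Vale.Agent.P032.Lt.q R0Q105.q2267_16) (q_cons (Vale.Agent.P032.Lt.q R0Q105.q2267_17) (q_cons (Vale.Agent.P032.Lt.q R0Q105.q2267_18) (q_cons (Vale.Agent.P032.Lt.q R0Q105.q2267_19) (q_cons (Vale.Agent.P032.Lt.q R0Q105.q2267_20) (q_cons (Vale.Agent.P032.Lt.q R0Q105.q2267_21) q_nil)))))))))))))))))))))))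

def C2268 : List ℕ := [0, 4, 8, 12, 16, 20, 24, 212993, 475137, 737281]
theorem p2268 : Pat 73 73 TBm TCm (C2268.map Fm) R0Q105.P2268 R0Q105.I2268 := Vale.Agent.P032.Lt.pat_eq (E' := R0Q105.E2268) (by decide +kernel) (pat_step (by decide +kernel) (q_cons (Vale.Agent.P032.Lt.q R0Q105.q2268_0) (q_cons (Vale.Agent.P032.Lt.q R0Q105.q2268_1) (q_cons (Vale.Agent.P032.Lt.q R0Q105.q2268_2) (q_cons (Vale.Agent.P032.Lt.q R0Q105.q2268_3) (q_cons (Vale.Agent.P032.Lt.q R0Q105.q2268_4) (q_cons (Vale.Agent.P032.Lt.q R0Q105.q2268_5) (q_cons (Vale.Agent.P032.Lt.q R0Q105.q2268_6) (q_cons (Vale.Agent.P032.Lt.q R0Q105.q2268_7) (q_cons (Vale.Agent.P032.Lt.q R0Q105.q2268_8) (q_cons (Vale.Agent.P032.Lt.q R0Q105.q2268_9) (q_cons (Vale.Agent.P032.Lt.q R0Q105.q2268_10) (q_cons (Vale.Agent.P032.Lt.q R0Q105.q2268_11) (q_cons (Vale.Agent.P032.Lt.q R0Q105.q2268_12) (q_cons (Vale.Agent.P032.Lt.q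 R0Q105.q2268_13) q_nil)))))))))))))))

theorem p2269 : Pat 73 73 TBm TCm (CB.map Fm) R0Q105.P2269 R0Q105.I2269 := Vale.Agent.P032.Lt.pat_eq (E' := R0Q105.E) eB (pat_step (by decide +kernel) (q_cons (Vale.Agent.P032.Lt.q R0Q105.q2269_0) q_nil))

theorem p2270 : Pat 73 73 TBm TCm (CB.map Fm) R0Q106.P2270 R0Q106.I2270 := Vale.Agent.P032.Lt.pat_eq (E' := R0Q106.E) eB (pat_step (by decide +kernel) (q_cons (Vale.Agent.P032.Lt.q R0Q106.q2270_0) (q_cons (Vale.Agent.P032.Lt.q R0Q106.q2270_1) (q_cons (Vale.Agent.P032.Lt.q R0Q106.q2270_2) (q_cons (Vale.Agent.P032.Lt.q R0Q106.q2270_3) (q_cons (Vale.Agent.P032.Lt.q R0Q106.q2270_4) (q_cons (Vale.Agent.P032.Lt.q R0Q106.q2270_5) (q_cons (Vale.Agent.P032.Lt.q R0Q106.q2270_6) (q_cons (Vale.Agent.P032.Lt.q R0Q106.q2270_7) (q_cons (Vale.Agent.P032.Lt.q R0Q106.q2270_8) (q_cons (Vale.Agent.P032.Lt.q R0Q106.q2270_9) (q_cons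 (Vale.Agent.P032.Lt.q R0Q106.q2270_10) (q_cons (Vale.Agent.P032.Lt.q R0Q106.q2270_11) (q_cons (Vale.Agent.P032.Lt.q R0Q106.q2270_12) (q_cons (Vale.Agent.P032.Lt.q R0Q106.q2270_13) (q_cons (Vale.Agent.P032.Lt.q R0Q106.q2270_14) (q_cons (Vale.Agent.P032.Lt.q R0Q106.q2270_15) (q_cons (Vale.Agent.P032.Lt.q R0Q106.q2270_16) (q_cons (Vale.Agent.P032.Lt.q R0Q106.q2270_17) (q_cons (Vale.Agent.P032.Lt.q R0Q106.q2270_18) (q_cons (Vale.Agent.P032.Lt.q R0Q106.q2270_19) (q_cons (Vale.Agent.P032.Lt.q R0Q106.q2270_20) (q_cons (Vale.Agent.P032.Lt.q R0Q106.q2270_21) (q_cons (Vale.Agent.P032.Lt.q R0Q106.q2270_22) (q_cons (Vale.Agent.P032.Lt.q R0Q106.q2270_23) (q_cons (Vale.Agent.P032.Lt.q R0Q106.q2270_24) (q_cons (Vale.Agent.P032.Lt.q R0Q106.q2270_25) (q_cons (Vale.Agent.P032.Lt.q R0Q106.q2270_26) (q_cons (Vale.Agent.P032.Lt.q R0Q106.q2270_27) (q_cons (Vale.Agent.P032.Lt.q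 R0Q106.q2270_28) (q_cons (Vale.Agent.P032.Lt.q R0Q106.q2270_29) q_nil)))))))))))))))))))))))))))))))

theorem p2271 : Pat 73 73 TBm TCm (CB.map Fm) R0Q106.P2271 R0Q106.I2271 := Vale.Agent.P032.Lt.pat_eq (E' := R0Q106.E) eB (pat_step (by decide +kernel) (q_cons (Vale.Agent.P032.Lt.q R0Q106.q2271_0) q_nil))

def C2272 : List ℕ := [0, 4, 8, 12, 16, 20, 24, 475137, 737281]
theorem p2272 : Pat 73 73 TBm TCm (C2272.map Fm) R0Q106.P2272 R0Q106.I2272 := Vale.Agent.P032.Lt.pat_eq (E' := R0Q106.E2272) (by decide +kernel) (pat_step (by decide +kernel) (q_cons (Vale.Agent.P032.Lt.q R0Q106.q2272_0) (q_cons (Vale.Agent.P032.Lt.q R0Q106.q2272_1) (q_cons (Vale.Agent.P032.Lt.q R0Q106.q2272_2) (q_cons (Vale.Agent.P032.Lt.q R0Q106.q2272_3) (q_cons (Vale.Agent.P032.Lt.q R0Q106.q2272_4) q_nil))))))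

theorem p2273 : Pat 73 73 TBm TCm (CB.map Fm) R0Q106.P2273 R0Q106.I2273 := Vale.Agent.P032.Lt.pat_eq (E' := R0Q106.E) eB (pat_step (by decide +kernel) (q_cons (Vale.Agent.P032.Lt.q R0Q106.q2273_0) q_nil))

theorem p2274 : Pat 73 73 TBm TCm (CB.map Fm) R0Q106.P2274 R0Q106.I2274 := Vale.Agent.P032.Lt.pat_eq (E' := R0Q106.E) eB (pat_step (by decide +kernel) (q_cons (Vale.Agent.P032.Lt.q R0Q106.q2274_0) (q_cons (Vale.Agent.P032.Lt.q R0Q106.q2274_1) q_nil)))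

def C2275 : List ℕ := [0, 4, 8, 12, 16, 20, 24, 212993, 220161, 475137, 737281]
theorem p2275 : Pat 73 73 TBm TCm (C2275.map Fm) R0Q106.P2275 R0Q106.I2275 := Vale.Agent.P032.Lt.pat_eq (E' := R0Q106.E2275) (by decide +kernel) (pat_step (by decide +kernel) (q_cons (Vale.Agent.P032.Lt.q R0Q106.q2275_0) (q_cons (Vale.Agent.P032.Lt.q R0Q106.q2275_1) q_nil)))

theorem p2276 : Pat 73 73 TBm TCm (CB.map Fm) R0Q106.P2276 R0Q106.I2276 := Vale.Agent.P032.Lt.pat_eq (E' := R0Q106.E) eB (pat_step (by decide +kernel) (q_cons (Vale.Agent.P032.Lt.q R0Q106.q2276_0) q_nil))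

theorem p2277 : Pat 73 73 TBm TCm (CB.map Fm) R0Q106.P2277 R0Q106.I2277 := Vale.Agent.P032.Lt.pat_eq (E' := R0Q106.E) eB (pat_step (by decide +kernel) (q_cons (Vale.Agent.P032.Lt.q R0Q106.q2277_0) (q_cons (Vale.Agent.P032.Lt.q R0Q106.q2277_1) (q_cons (Vale.Agent.P032.Lt.q R0Q106.q2277_2) q_nil))))

theorem p2278 : Pat 73 73 TBm TCm (CB.map Fm) R0Q106.P2278 R0Q106.I2278 := Vale.Agent.P032.Lt.pat_eq (E' := R0Q106.E) eB (pat_step (by decide +kernel) (q_cons (Vale.Agent.P032.Lt.q R0Q106.q2278_0) q_nil))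

theorem p2279 : Pat 73 73 TBm TCm (CB.map Fm) R0Q106.P2279 R0Q106.I2279 := Vale.Agent.P032.Lt.pat_eq (E' := R0Q106.E) eB (pat_step (by decide +kernel) (q_cons (Vale.Agent.P032.Lt.q R0Q106.q2279_0) q_nil))

theorem p2280 : Pat 73 73 TBm TCm (CB.map Fm) R0Q106.P2280 R0Q106.I2280 := Vale.Agent.P032.Lt.pat_eq (E' := R0Q106.E) eB (pat_step (by decide +kernel) (q_cons (Vale.Agent.P032.Lt.q R0Q106.q2280_0) q_nil))

theorem p2281 : Pat 73 73 TBm TCm (CB.map Fm) R0Q106.P2281 R0Q106.I2281 := Vale.Agent.P032.Lt.pat_eq (E' := R0Q106.E) eB (pat_step (by decide +kernel) (q_cons (Vale.Agent.P032.Lt.q R0Q106.q2281_0) (q_cons (Vale.Agent.P032.Lt.q R0Q106.q2281_1) (q_cons (Vale.Agent.P032.Lt.q R0Q106.q2281_2) (q_cons (Vale.Agent.P032.Lt.q R0Q106.q2281_3) (q_cons (Vale.Agent.P032.Lt.q R0Q106.q2281_4) (q_cons (Vale.Agent.P032.Lt.q R0Q106.q2281_5) (q_cons (Vale.Agent.P032.Lt.q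 R0Q106.q2281_6) (q_cons (Vale.Agent.P032.Lt.q R0Q106.q2281_7) (q_cons (Vale.Agent.P032.Lt.q R0Q106.q2281_8) (q_cons (Vale.Agent.P032.Lt.q R0Q106.q2281_9) (q_cons (Vale.Agent.P032.Lt.q R0Q106.q2281_10) (q_cons (Vale.Agent.P032.Lt.q R0Q106.q2281_11) (q_cons (Vale.Agent.P032.Lt.q R0Q106.q2281_12) (q_cons (Vale.Agent.P032.Lt.q R0Q106.q2281_13) (q_cons (Vale.Agent.P032.Lt.q R0Q106.q2281_14) q_nil))))))))))))))))

theorem p2282 : Pat 73 73 TBm TCm (CB.map Fm) R0Q106.P2282 R0Q106.I2282 := Vale.Agent.P032.Lt.pat_eq (E' := R0Q106.E) eB (pat_step (by decide +kernel) (q_cons (Vale.Agent.P032.Lt.q R0Q106.q2282_0) (q_cons (Vale.Agent.P032.Lt.q R0Q106.q2282_1) (q_cons (Vale.Agent.P032.Lt.q R0Q106.q2282_2) (q_cons (Vale.Agent.P032.Lt.q R0Q106.q2282_3) (q_cons (Vale.Agent.P032.Lt.q R0Q106.q2282_4) q_nil))))))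

theorem p2283 : Pat 73 73 TBm TCm (CB.map Fm) R0Q106.P2283 R0Q106.I2283 := Vale.Agent.P032.Lt.pat_eq (E' := R0Q106.E) eB (pat_step (by decide +kernel) (q_cons (Vale.Agent.P032.Lt.q R0Q106.q2283_0) q_nil))

theorem p2284 : Pat 73 73 TBm TCm (CB.map Fm) R0Q106.P2284 R0Q106.I2284 := Vale.Agent.P032.Lt.pat_eq (E' := R0Q106.E) eB (pat_step (by decide +kernel) (q_cons (Vale.Agent.P032.Lt.q R0Q106.q2284_0) q_nil))

theorem p2285 : Pat 73 73 TBm TCm (CB.map Fm) R0Q106.P2285 R0Q106.I2285 := Vale.Agent.P032.Lt.pat_eq (E' := R0Q106.E) eB (pat_step (by decide +kernel) (q_cons (Vale.Agent.P032.Lt.q R0Q106.q2285_0) q_nil))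

theorem p2286 : Pat 73 73 TBm TCm (CB.map Fm) R0Q106.P2286 R0Q106.I2286 := Vale.Agent.P032.Lt.pat_eq (E' := R0Q106.E) eB (pat_step (by decide +kernel) (q_cons (Vale.Agent.P032.Lt.q R0Q106.q2286_0) (q_cons (Vale.Agent.P032.Lt.q R0Q106.q2286_1) (q_cons (Vale.Agent.P032.Lt.q R0Q106.q2286_2) (q_cons (Vale.Agent.P032.Lt.q R0Q106.q2286_3) (q_cons (Vale.Agent.P032.Lt.q R0Q106.q2286_4) (q_cons (Vale.Agent.P032.Lt.q R0Q106.q2286_5) q_nil)))))))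

theorem p2287 : Pat 73 73 TBm TCm (CB.map Fm) R0Q106.P2287 R0Q106.I2287 := Vale.Agent.P032.Lt.pat_eq (E' := R0Q106.E) eB (pat_step (by decide +kernel) (q_cons (Vale.Agent.P032.Lt.q R0Q106.q2287_0) q_nil))

theorem p2288 : Pat 73 73 TBm TCm (CB.map Fm) R0Q106.P2288 R0Q106.I2288 := Vale.Agent.P032.Lt.pat_eq (E' := R0Q106.E) eB (pat_step (by decide +kernel) (q_cons (Vale.Agent.P032.Lt.q R0Q106.q2288_0) (q_cons (Vale.Agent.P032.Lt.q R0Q106.q2288_1) (q_cons (Vale.Agent.P032.Lt.q R0Q106.q2288_2) (q_cons (Vale.Agent.P032.Lt.q R0Q106.q2288_3) (q_cons (Vale.Agent.P032.Lt.q R0Q106.q2288_4) q_nil))))))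

theorem p2289 : Pat 73 73 TBm TCm (CB.map Fm) R0Q106.P2289 R0Q106.I2289 := Vale.Agent.P032.Lt.pat_eq (E' := R0Q106.E) eB (pat_step (by decide +kernel) (q_cons (Vale.Agent.P032.Lt.q R0Q106.q2289_0) (q_cons (Vale.Agent.P032.Lt.q R0Q106.q2289_1) q_nil)))

theorem p2290 : Pat 73 73 TBm TCm (CB.map Fm) R0Q106.P2290 R0Q106.I2290 := Vale.Agent.P032.Lt.pat_eq (E' := R0Q106.E) eB (pat_step (by decide +kernel) (q_cons (Vale.Agent.P032.Lt.q R0Q106.q2290_0) q_nil))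

def C2291 : List ℕ := [0, 4, 8, 12, 16, 20, 24, 611329]
theorem p2291 : Pat 73 73 TBm TCm (C2291.map Fm) R0Q107.P2291 R0Q107.I2291 := Vale.Agent.P032.Lt.pat_eq (E' := R0Q107.E2291) (by decide +kernel) (pat_step (by decide +kernel) (q_cons (Vale.Agent.P032.Lt.q R0Q107.q2291_0) (q_cons (Vale.Agent.P032.Lt.q R0Q107.q2291_1) (q_cons (Vale.Agent.P032.Lt.q R0Q107.q2291_2) (q_cons (Vale.Agent.P032.Lt.q R0Q107.q2291_3) (q_cons (Vale.Agent.P032.Lt.q R0Q107.q2291_4) (q_cons (Vale.Agent.P032.Lt.q R0Q107.q2291_5) (q_cons (Vale.Agent.P032.Lt.q R0Q107.q2291_6) (q_cons (Vale.Agent.P032.Lt.q R0Q107.q2291_7) (q_cons (Vale.Agent.P032.Lt.q R0Q107.q2291_8) (q_cons (Vale.Agent.P032.Lt.q R0Q107.q2291_9) (q_cons (Vale.Agent.P032.Lt.q R0Q107.q2291_10) (q_cons (Vale.Agent.P032.Lt.q R0Q107.q2291_11) (q_cons (Vale.Agent.P032.Lt.q R0Q107.q2291_12) (q_cons (Vale.Agent.P032.Lt.q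 R0Q107.q2291_13) (q_cons (Vale.Agent.P032.Lt.q R0Q107.q2291_14) (q_cons (Vale.Agent.P032.Lt.q R0Q107.q2291_15) (q_cons (Vale.Agent.P032.Lt.q R0Q107.q2291_16) (q_cons (Vale.Agent.P032.Lt.q R0Q107.q2291_17) (q_cons (Vale.Agent.P032.Lt.q R0Q107.q2291_18) (q_cons (Vale.Agent.P032.Lt.q R0Q107.q2291_19) (q_cons (Vale.Agent.P032.Lt.q R0Q107.q2291_20) (q_cons (Vale.Agent.P032.Lt.q R0Q107.q2291_21) (q_cons (Vale.Agent.P032.Lt.q R0Q107.q2291_22) (q_cons (Vale.Agent.P032.Lt.q R0Q107.q2291_23) (q_cons (Vale.Agent.P032.Lt.q R0Q107.q2291_24) (q_cons (Vale.Agent.P032.Lt.q R0Q107.q2291_25) (q_cons (Vale.Agent.P032.Lt.q R0Q107.q2291_26) (q_cons (Vale.Agent.P032.Lt.q R0Q107.q2291_27) (q_cons (Vale.Agent.P032.Lt.q R0Q107.q2291_28) (q_cons (Vale.Agent.P032.Lt.q R0Q107.q2291_29) (q_cons (Vale.Agent.P032.Lt.q R0Q107.q2291_30) (q_cons (Vale.Agent.P032.Lt.q R0Q107.q2291_31)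 (q_cons (Vale.Agent.P032.Lt.q R0Q107.q2291_32) (q_cons (Vale.Agent.P032.Lt.q R0Q107.q2291_33) (q_cons (Vale.Agent.P032.Lt.q R0Q107.q2291_34) (q_cons (Vale.Agent.P032.Lt.q R0Q107.q2291_35) (q_cons (Vale.Agent.P032.Lt.q R0Q107.q2291_36) (q_cons (Vale.Agent.P032.Lt.q R0Q107.q2291_37) (q_cons (Vale.Agent.P032.Lt.q R0Q107.q2291_38) (q_cons (Vale.Agent.P032.Lt.q R0Q107.q2291_39) (q_cons (Vale.Agent.P032.Lt.q R0Q107.q2291_40) (q_cons (Vale.Agent.P032.Lt.q R0Q107.q2291_41) (q_cons (Vale.Agent.P032.Lt.q R0Q107.q2291_42) (q_cons (Vale.Agent.P032.Lt.q R0Q107.q2291_43) (q_cons (Vale.Agent.P032.Lt.q R0Q107.q2291_44) (q_cons (Vale.Agent.P032.Lt.q R0Q107.q2291_45) (q_cons (Vale.Agent.P032.Lt.q R0Q107.q2291_46) (q_cons (Vale.Agent.P032.Lt.q R0Q107.q2291_47) (q_cons (Vale.Agent.P032.Lt.q R0Q107.q2291_48) (q_cons (Vale.Agent.P032.Lt.q R0Q107.q2291_49) (q_cons (Vale.Agent.P032.Lt.q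 R0Q107.q2291_50) (q_cons (Vale.Agent.P032.Lt.q R0Q107.q2291_51) (q_cons (Vale.Agent.P032.Lt.q R0Q107.q2291_52) (q_cons (Vale.Agent.P032.Lt.q R0Q107.q2291_53) (q_cons (Vale.Agent.P032.Lt.q R0Q107.q2291_54) (q_cons (Vale.Agent.P032.Lt.q R0Q107.q2291_55) (q_cons (Vale.Agent.P032.Lt.q R0Q107.q2291_56) (q_cons (Vale.Agent.P032.Lt.q R0Q107.q2291_57) (q_cons (Vale.Agent.P032.Lt.q R0Q107.q2291_58) (q_cons (Vale.Agent.P032.Lt.q R0Q107.q2291_59) (q_cons (Vale.Agent.P032.Lt.q R0Q107.q2291_60) (q_cons (Vale.Agent.P032.Lt.q R0Q107.q2291_61) (q_cons (Vale.Agent.P032.Lt.q R0Q107.q2291_62) (q_cons (Vale.Agent.P032.Lt.q R0Q107.q2291_63) (q_cons (Vale.Agent.P032.Lt.q R0Q107.q2291_64) (q_cons (Vale.Agent.P032.Lt.q R0Q107.q2291_65) (q_cons (Vale.Agent.P032.Lt.q R0Q107.q2291_66) (q_cons (Vale.Agent.P032.Lt.q R0Q107.q2291_67) (q_cons (Vale.Agent.P032.Lt.q R0Q107.q2291_68)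 (q_cons (Vale.Agent.P032.Lt.q R0Q107.q2291_69) (q_cons (Vale.Agent.P032.Lt.q R0Q107.q2291_70) (q_cons (Vale.Agent.P032.Lt.q R0Q107.q2291_71) (q_cons (Vale.Agent.P032.Lt.q R0Q107.q2291_72) (q_cons (Vale.Agent.P032.Lt.q R0Q107.q2291_73) (q_cons (Vale.Agent.P032.Lt.q R0Q107.q2291_74) (q_cons (Vale.Agent.P032.Lt.q R0Q107.q2291_75) (q_cons (Vale.Agent.P032.Lt.q R0Q107.q2291_76) (q_cons (Vale.Agent.P032.Lt.q R0Q107.q2291_77) (q_cons (Vale.Agent.P032.Lt.q R0Q107.q2291_78) (q_cons (Vale.Agent.P032.Lt.q R0Q107.q2291_79) (q_cons (Vale.Agent.P032.Lt.q R0Q107.q2291_80) (q_cons (Vale.Agent.P032.Lt.q R0Q107.q2291_81) (q_cons (Vale.Agent.P032.Lt.q R0Q107.q2291_82) (q_cons (Vale.Agent.P032.Lt.q R0Q107.q2291_83) (q_cons (Vale.Agent.P032.Lt.q R0Q107.q2291_84) (q_cons (Vale.Agent.P032.Lt.q R0Q107.q2291_85) (q_cons (Vale.Agent.P032.Lt.q R0Q107.q2291_86) (q_cons (Vale.Agent.P032.Lt.q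 R0Q107.q2291_87) (q_cons (Vale.Agent.P032.Lt.q R0Q107.q2291_88) (q_cons (Vale.Agent.P032.Lt.q R0Q107.q2291_89) (q_cons (Vale.Agent.P032.Lt.q R0Q107.q2291_90) (q_cons (Vale.Agent.P032.Lt.q R0Q107.q2291_91) (q_cons (Vale.Agent.P032.Lt.q R0Q107.q2291_92) q_nil))))))))))))))))))))))))))))))))))))))))))))))))))))))))))))))))))))))))))))))))))))))))))))))

theorem p2292 : Pat 73 73 TBm TCm (CB.map Fm) R0Q107.P2292 R0Q107.I2292 := Vale.Agent.P032.Lt.pat_eq (E' := R0Q107.E) eB (pat_step (by decide +kernel) (q_cons (Vale.Agent.P032.Lt.q R0Q107.q2292_0) (q_cons (Vale.Agent.P032.Lt.q R0Q107.q2292_1) (q_cons (Vale.Agent.P032.Lt.q R0Q107.q2292_2) q_nil))))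

theorem p2293 : Pat 73 73 TBm TCm (CB.map Fm) R0Q107.P2293 R0Q107.I2293 := Vale.Agent.P032.Lt.pat_eq (E' := R0Q107.E) eB (pat_step (by decide +kernel) (q_cons (Vale.Agent.P032.Lt.q R0Q107.q2293_0) (q_cons (Vale.Agent.P032.Lt.q R0Q107.q2293_1) (q_cons (Vale.Agent.P032.Lt.q R0Q107.q2293_2) q_nil))))

def C2294 : List ℕ := [0, 4, 8, 12, 16, 20, 24, 737281]
theorem p2294 : Pat 73 73 TBm TCm (C2294.map Fm) R0Q107.P2294 R0Q107.I2294 := Vale.Agent.P032.Lt.pat_eq (E' := R0Q107.E2294) (by decide +kernel) (pat_step (by decide +kernel) (q_cons (Vale.Agent.P032.Lt.q R0Q107.q2294_0) q_nil))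

def C2295 : List ℕ := [0, 4, 8, 12, 16, 20, 24, 82945, 216065, 606209]
theorem p2295 : Pat 73 73 TBm TCm (C2295.map Fm) R0Q107.P2295 R0Q107.I2295 := Vale.Agent.P032.Lt.pat_eq (E' := R0Q107.E2295) (by decide +kernel) (pat_step (by decide +kernel) (q_cons (Vale.Agent.P032.Lt.q R0Q107.q2295_0) q_nil))

theorem p2296 : Pat 73 73 TBm TCm (CB.map Fm) R0Q107.P2296 R0Q107.I2296 := Vale.Agent.P032.Lt.pat_eq (E' := R0Q107.E) eB (pat_step (by decide +kernel) (q_cons (Vale.Agent.P032.Lt.q R0Q107.q2296_0) q_nil))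

theorem p2297 : Pat 73 73 TBm TCm (CB.map Fm) R0Q107.P2297 R0Q107.I2297 := Vale.Agent.P032.Lt.pat_eq (E' := R0Q107.E) eB (pat_step (by decide +kernel) (q_cons (Vale.Agent.P032.Lt.q R0Q107.q2297_0) (q_cons (Vale.Agent.P032.Lt.q R0Q107.q2297_1) q_nil)))

theorem p2298 : Pat 73 73 TBm TCm (CB.map Fm) R0Q107.P2298 R0Q107.I2298 := Vale.Agent.P032.Lt.pat_eq (E' := R0Q107.E) eB (pat_step (by decide +kernel) (q_cons (Vale.Agent.P032.Lt.q R0Q107.q2298_0) (q_cons (Vale.Agent.P032.Lt.q R0Q107.q2298_1) q_nil)))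

theorem p2299 : Pat 73 73 TBm TCm (CB.map Fm) R0Q107.P2299 R0Q107.I2299 := Vale.Agent.P032.Lt.pat_eq (E' := R0Q107.E) eB (pat_step (by decide +kernel) (q_cons (Vale.Agent.P032.Lt.q R0Q107.q2299_0) q_nil))

def C2300 : List ℕ := [0, 4, 8, 12, 16, 20, 24, 475137]
theorem p2300 : Pat 73 73 TBm TCm (C2300.map Fm) R0Q107.P2300 R0Q107.I2300 := Vale.Agent.P032.Lt.pat_eq (E' := R0Q107.E2300) (by decide +kernel) (pat_step (by decide +kernel) (q_cons (Vale.Agent.P032.Lt.q R0Q107.q2300_0) (q_cons (Vale.Agent.P032.Lt.q R0Q107.q2300_1) q_nil)))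

theorem p2301 : Pat 73 73 TBm TCm (CB.map Fm) R0Q107.P2301 R0Q107.I2301 := Vale.Agent.P032.Lt.pat_eq (E' := R0Q107.E) eB (pat_step (by decide +kernel) (q_cons (Vale.Agent.P032.Lt.q R0Q107.q2301_0) (q_cons (Vale.Agent.P032.Lt.q R0Q107.q2301_1) (q_cons (Vale.Agent.P032.Lt.q R0Q107.q2301_2) (q_cons (Vale.Agent.P032.Lt.q R0Q107.q2301_3) (q_cons (Vale.Agent.P032.Lt.q R0Q107.q2301_4) (q_cons (Vale.Agent.P032.Lt.q R0Q107.q2301_5) q_nil)))))))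

theorem p2302 : Pat 73 73 TBm TCm (CB.map Fm) R0Q107.P2302 R0Q107.I2302 := Vale.Agent.P032.Lt.pat_eq (E' := R0Q107.E) eB (pat_step (by decide +kernel) (q_cons (Vale.Agent.P032.Lt.q R0Q107.q2302_0) q_nil))

theorem p2303 : Pat 73 73 TBm TCm (CB.map Fm) R0Q107.P2303 R0Q107.I2303 := Vale.Agent.P032.Lt.pat_eq (E' := R0Q107.E) eB (pat_step (by decide +kernel) (q_cons (Vale.Agent.P032.Lt.q R0Q107.q2303_0) (q_cons (Vale.Agent.P032.Lt.q R0Q107.q2303_1) (q_cons (Vale.Agent.P032.Lt.q R0Q107.q2303_2) (q_cons (Vale.Agent.P032.Lt.q R0Q107.q2303_3) (q_cons (Vale.Agent.P032.Lt.q R0Q107.q2303_4) q_nil))))))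

def L : List (List ℕ) := [R0Q103.P2176, R0Q103.P2177, R0Q103.P2178, R0Q103.P2179, R0Q103.P2180, R0Q103.P2181, R0Q103.P2182, R0Q103.P2183, R0Q103.P2184, R0Q103.P2185, R0Q103.P2186, R0Q103.P2187, R0Q103.P2188, R0Q103.P2189, R0Q103.P2190, R0Q103.P2191, R0Q103.P2192, R0Q103.P2193, R0Q103.P2194, R0Q103.P2195, R0Q103.P2196, R0Q103.P2197, R0Q103.P2198, R0Q103.P2199, R0Q103.P2200, R0Q103.P2201, R0Q103.P2202, R0Q103.P2203, R0Q103.P2204, R0Q103.P2205, R0Q103.P2206, R0Q103.P2207, R0Q104.P2208, R0Q104.P2209, R0Q104.P2210, R0Q104.P2211, R0Q104.P2212, R0Q104.P2213, R0Q104.P2214, R0Q104.P2215, R0Q104.P2216, R0Q104.P2217, R0Q104.P2218, R0Q104.P2219, R0Q104.P2220, R0Q104.P2221, R0Q104.P2222, R0Q104.P2223, R0Q104.P2224, R0Q104.P2225, R0Q104.P2226, R0Q104.P2227, R0Q104.P2228, R0Q104.P2229, R0Q104.P2230, R0Q104.P2231, R0Q104.P2232, R0Q104.P2233, R0Q104.P2234, R0Q104.P2235,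 R0Q104.P2236, R0Q104.P2237, R0Q104.P2238, R0Q104.P2239, R0Q104.P2240, R0Q104.P2241, R0Q104.P2242, R0Q105.P2243, R0Q105.P2244, R0Q105.P2245, R0Q105.P2246, R0Q105.P2247, R0Q105.P2248, R0Q105.P2249, R0Q105.P2250, R0Q105.P2251, R0Q105.P2252, R0Q105.P2253, R0Q105.P2254, R0Q105.P2255, R0Q105.P2256, R0Q105.P2257, R0Q105.P2258, R0Q105.P2259, R0Q105.P2260, R0Q105.P2261, R0Q105.P2262, R0Q105.P2263, R0Q105.P2264, R0Q105.P2265, R0Q105.P2266, R0Q105.P2267, R0Q105.P2268, R0Q105.P2269, R0Q106.P2270, R0Q106.P2271, R0Q106.P2272, R0Q106.P2273, R0Q106.P2274, R0Q106.P2275, R0Q106.P2276, R0Q106.P2277, R0Q106.P2278, R0Q106.P2279, R0Q106.P2280, R0Q106.P2281, R0Q106.P2282, R0Q106.P2283, R0Q106.P2284, R0Q106.P2285, R0Q106.P2286, R0Q106.P2287, R0Q106.P2288, R0Q106.P2289, R0Q106.P2290, R0Q107.P2291, R0Q107.P2292, R0Q107.P2293, R0Q107.P2294, R0Q107.P2295, R0Q107.P2296, R0Q107.P2297,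 R0Q107.P2298, R0Q107.P2299, R0Q107.P2300, R0Q107.P2301, R0Q107.P2302, R0Q107.P2303]

theorem all : ∀ P ∈ L, CrtF 73 73 TBm TCm (Vale.Agent.P032.Fam.fam2 (Vale.Agent.P032.Fam.im0)) P := crtF_cons p2176 (crtF_cons p2177 (crtF_cons p2178 (crtF_cons p2179 (crtF_cons p2180 (crtF_cons p2181 (crtF_cons p2182 (crtF_cons p2183 (crtF_cons p2184 (crtF_cons p2185 (crtF_cons p2186 (crtF_cons p2187 (crtF_cons p2188 (crtF_cons p2189 (crtF_cons p2190 (crtF_cons p2191 (crtF_cons p2192 (crtF_cons p2193 (crtF_cons p2194 (crtF_cons p2195 (crtF_cons p2196 (crtF_cons p2197 (crtF_cons p2198 (crtF_cons p2199 (crtF_cons p2200 (crtF_cons p2201 (crtF_cons p2202 (crtF_cons p2203 (crtF_cons p2204 (crtF_cons p2205 (crtF_cons p2206 (crtF_cons p2207 (crtF_cons p2208 (crtF_cons p2209 (crtF_cons p2210 (crtF_cons p2211 (crtF_cons p2212 (crtF_cons p2213 (crtF_cons p2214 (crtF_cons p2215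 (crtF_cons p2216 (crtF_cons p2217 (crtF_cons p2218 (crtF_cons p2219 (crtF_cons p2220 (crtF_cons p2221 (crtF_cons p2222 (crtF_cons p2223 (crtF_cons p2224 (crtF_cons p2225 (crtF_cons p2226 (crtF_cons p2227 (crtF_cons p2228 (crtF_cons p2229 (crtF_cons p2230 (crtF_cons p2231 (crtF_cons p2232 (crtF_cons p2233 (crtF_cons p2234 (crtF_cons p2235 (crtF_cons p2236 (crtF_cons p2237 (crtF_cons p2238 (crtF_cons p2239 (crtF_cons p2240 (crtF_cons p2241 (crtF_cons p2242 (crtF_cons p2243 (crtF_cons p2244 (crtF_cons p2245 (crtF_cons p2246 (crtF_cons p2247 (crtF_cons p2248 (crtF_cons p2249 (crtF_cons p2250 (crtF_cons p2251 (crtF_cons p2252 (crtF_cons p2253 (crtF_cons p2254 (crtF_cons p2255 (crtF_cons p2256 (crtF_cons p2257 (crtF_cons p2258 (crtF_cons p2259 (crtF_cons p2260 (crtF_cons p2261 (crtF_cons p2262 (crtF_cons p2263 (crtF_cons p2264 (crtF_cons p2265 (crtF_cons p2266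 (crtF_cons p2267 (crtF_cons p2268 (crtF_cons p2269 (crtF_cons p2270 (crtF_cons p2271 (crtF_cons p2272 (crtF_cons p2273 (crtF_cons p2274 (crtF_cons p2275 (crtF_cons p2276 (crtF_cons p2277 (crtF_cons p2278 (crtF_cons p2279 (crtF_cons p2280 (crtF_cons p2281 (crtF_cons p2282 (crtF_cons p2283 (crtF_cons p2284 (crtF_cons p2285 (crtF_cons p2286 (crtF_cons p2287 (crtF_cons p2288 (crtF_cons p2289 (crtF_cons p2290 (crtF_cons p2291 (crtF_cons p2292 (crtF_cons p2293 (crtF_cons p2294 (crtF_cons p2295 (crtF_cons p2296 (crtF_cons p2297 (crtF_cons p2298 (crtF_cons p2299 (crtF_cons p2300 (crtF_cons p2301 (crtF_cons p2302 (crtF_cons p2303 crtF_nil)))))))))))))))))))))))))))))))))))))))))))))))))))))))))))))))))))))))))))))))))))))))))))))))))))))))))))))))))))))))))))))))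

theorem ch : chT 73 73 TCm s0_017 L = true := by decide +kernel

end Vale.Agent.P032X.Cert.XP.B1.R0H017
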