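import Vale.Agent.P032X.H892.LtH
import Vale.Agent.P032X.H286.W73
import Vale.Agent.P032X.Cert.XP.B1.R0T
import Vale.Agent.P032X.Cert.XP.B1.R0Q114
import Vale.Agent.P032X.Cert.XP.B1.R0Q115
import Vale.Agent.P032X.Cert.XP.B1.R0Q116
import Vale.Agent.P032X.Cert.XP.B1.R0Q117
import Vale.Agent.P032X.Cert.XP.B1.R0Q118
import Vale.Agent.P032X.Cert.XP.B1.R0Q119
import Vale.Agent.P032X.Cert.XP.B1.R0Q120

set_option maxRecDepth 1000000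

namespace Vale.Agent.P032X.Cert.XP.B1.R0H019

open Vale.Agent.P032.H820.K Vale.Agent.P032.H357.MK Vale.Agent.P032.H286.E Vale.Agent.P032.H61 Vale.Agent.P032X.Cert.XP.B1

noncomputable abbrev Fm : ℕ → List ℕ := Vale.Agent.P032.Fam.fam2 (Vale.Agent.P032.Fam.im0)

def CB : List ℕ := [0, 4, 8, 12, 16, 20, 24]

theorem eB : Vale.Agent.P032.Lt.eqLL (CB.map Fm) R0Q114.E = true := by decide +kernel

theorem p2432 : Pat 73 73 TBm TCm (CB.map Fm) R0Q114.P2432 R0Q114.I2432 := Vale.Agent.P032.Lt.pat_eq (E' := R0Q114.E) eB (pat_step (by decide +kernel) (q_cons (Vale.Agent.P032.Lt.q R0Q114.q2432_0) q_nil))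

theorem p2433 : Pat 73 73 TBm TCm (CB.map Fm) R0Q115.P2433 R0Q115.I2433 := Vale.Agent.P032.Lt.pat_eq (E' := R0Q115.E) eB (pat_step (by decide +kernel) (q_cons (Vale.Agent.P032.Lt.q R0Q115.q2433_0) (q_cons (Vale.Agent.P032.Lt.q R0Q115.q2433_1) q_nil)))

theorem p2434 : Pat 73 73 TBm TCm (CB.map Fm) R0Q115.P2434 R0Q115.I2434 := Vale.Agent.P032.Lt.pat_eq (E' := R0Q115.E) eB (pat_step (by decide +kernel) (q_cons (Vale.Agent.P032.Lt.q R0Q115.q2434_0) (q_cons (Vale.Agent.P032.Lt.q R0Q115.q2434_1) (q_cons (Vale.Agent.P032.Lt.q R0Q115.q2434_2) q_nil))))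

theorem p2435 : Pat 73 73 TBm TCm (CB.map Fm) R0Q115.P2435 R0Q115.I2435 := Vale.Agent.P032.Lt.pat_eq (E' := R0Q115.E) eB (pat_step (by decide +kernel) (q_cons (Vale.Agent.P032.Lt.q R0Q115.q2435_0) (q_cons (Vale.Agent.P032.Lt.q R0Q115.q2435_1) (q_cons (Vale.Agent.P032.Lt.q R0Q115.q2435_2) (q_cons (Vale.Agent.P032.Lt.q R0Q115.q2435_3) (q_cons (Vale.Agent.P032.Lt.q R0Q115.q2435_4) (q_cons (Vale.Agent.P032.Lt.q R0Q115.q2435_5) q_nil)))))))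

theorem p2436 : Pat 73 73 TBm TCm (CB.map Fm) R0Q115.P2436 R0Q115.I2436 := Vale.Agent.P032.Lt.pat_eq (E' := R0Q115.E) eB (pat_step (by decide +kernel) (q_cons (Vale.Agent.P032.Lt.q R0Q115.q2436_0) (q_cons (Vale.Agent.P032.Lt.q R0Q115.q2436_1) (q_cons (Vale.Agent.P032.Lt.q R0Q115.q2436_2) (q_cons (Vale.Agent.P032.Lt.q R0Q115.q2436_3) (q_cons (Vale.Agent.P032.Lt.q R0Q115.q2436_4) q_nil))))))

theorem p2437 : Pat 73 73 TBm TCm (CB.map Fm) R0Q115.P2437 R0Q115.I2437 := Vale.Agent.P032.Lt.pat_eq (E' := R0Q115.E) eB (pat_step (by decide +kernel) (q_cons (Vale.Agent.P032.Lt.q R0Q115.q2437_0) (q_cons (Vale.Agent.P032.Lt.q R0Q115.q2437_1) q_nil)))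

theorem p2438 : Pat 73 73 TBm TCm (CB.map Fm) R0Q115.P2438 R0Q115.I2438 := Vale.Agent.P032.Lt.pat_eq (E' := R0Q115.E) eB (pat_step (by decide +kernel) (q_cons (Vale.Agent.P032.Lt.q R0Q115.q2438_0) (q_cons (Vale.Agent.P032.Lt.q R0Q115.q2438_1) (q_cons (Vale.Agent.P032.Lt.q R0Q115.q2438_2) (q_cons (Vale.Agent.P032.Lt.q R0Q115.q2438_3) (q_cons (Vale.Agent.P032.Lt.q R0Q115.q2438_4) (q_cons (Vale.Agent.P032.Lt.q R0Q115.q2438_5) (q_cons (Vale.Agent.P032.Lt.q R0Q115.q2438_6) (q_cons (Vale.Agent.P032.Lt.q R0Q115.q2438_7) q_nil)))))))))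

theorem p2439 : Pat 73 73 TBm TCm (CB.map Fm) R0Q115.P2439 R0Q115.I2439 := Vale.Agent.P032.Lt.pat_eq (E' := R0Q115.E) eB (pat_step (by decide +kernel) (q_cons (Vale.Agent.P032.Lt.q R0Q115.q2439_0) (q_cons (Vale.Agent.P032.Lt.q R0Q115.q2439_1) (q_cons (Vale.Agent.P032.Lt.q R0Q115.q2439_2) (q_cons (Vale.Agent.P032.Lt.q R0Q115.q2439_3) (q_cons (Vale.Agent.P032.Lt.q R0Q115.q2439_4) (q_cons (Vale.Agent.P032.Lt.q R0Q115.q2439_5) (q_cons (Vale.Agent.P032.Lt.q R0Q115.q2439_6) (q_cons (Vale.Agent.P032.Lt.q R0Q115.q2439_7) (q_cons (Vale.Agent.P032.Lt.q R0Q115.q2439_8) (q_cons (Vale.Agent.P032.Lt.q R0Q115.q2439_9) (q_cons (Vale.Agent.P032.Lt.q R0Q115.q2439_10) (q_cons (Vale.Agent.P032.Lt.q R0Q115.q2439_11) (q_cons (Vale.Agent.P032.Lt.q R0Q115.q2439_12) (q_cons (Vale.Agent.P032.Lt.q R0Q115.q2439_13) (q_cons (Vale.Agent.P032.Lt.q R0Q115.q2439_14) (q_cons (Vale.Agent.P032.Lt.q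 R0Q115.q2439_15) (q_cons (Vale.Agent.P032.Lt.q R0Q115.q2439_16) q_nil))))))))))))))))))

theorem p2440 : Pat 73 73 TBm TCm (CB.map Fm) R0Q115.P2440 R0Q115.I2440 := Vale.Agent.P032.Lt.pat_eq (E' := R0Q115.E) eB (pat_step (by decide +kernel) (q_cons (Vale.Agent.P032.Lt.q R0Q115.q2440_0) (q_cons (Vale.Agent.P032.Lt.q R0Q115.q2440_1) (q_cons (Vale.Agent.P032.Lt.q R0Q115.q2440_2) (q_cons (Vale.Agent.P032.Lt.q R0Q115.q2440_3) (q_cons (Vale.Agent.P032.Lt.q R0Q115.q2440_4) (q_cons (Vale.Agent.P032.Lt.q R0Q115.q2440_5) q_nil)))))))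

theorem p2441 : Pat 73 73 TBm TCm (CB.map Fm) R0Q115.P2441 R0Q115.I2441 := Vale.Agent.P032.Lt.pat_eq (E' := R0Q115.E) eB (pat_step (by decide +kernel) (q_cons (Vale.Agent.P032.Lt.q R0Q115.q2441_0) (q_cons (Vale.Agent.P032.Lt.q R0Q115.q2441_1) (q_cons (Vale.Agent.P032.Lt.q R0Q115.q2441_2) (q_cons (Vale.Agent.P032.Lt.q R0Q115.q2441_3) (q_cons (Vale.Agent.P032.Lt.q R0Q115.q2441_4) (q_cons (Vale.Agent.P032.Lt.q R0Q115.q2441_5) q_nil)))))))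

theorem p2442 : Pat 73 73 TBm TCm (CB.map Fm) R0Q115.P2442 R0Q115.I2442 := Vale.Agent.P032.Lt.pat_eq (E' := R0Q115.E) eB (pat_step (by decide +kernel) (q_cons (Vale.Agent.P032.Lt.q R0Q115.q2442_0) (q_cons (Vale.Agent.P032.Lt.q R0Q115.q2442_1) (q_cons (Vale.Agent.P032.Lt.q R0Q115.q2442_2) (q_cons (Vale.Agent.P032.Lt.q R0Q115.q2442_3) (q_cons (Vale.Agent.P032.Lt.q R0Q115.q2442_4) (q_cons (Vale.Agent.P032.Lt.q R0Q115.q2442_5) (q_cons (Vale.Agent.P032.Lt.q R0Q115.q2442_6) (q_cons (Vale.Agent.P032.Lt.q R0Q115.q2442_7) (q_cons (Vale.Agent.P032.Lt.q R0Q115.q2442_8) (q_cons (Vale.Agent.P032.Lt.q R0Q115.q2442_9) (q_cons (Vale.Agent.P032.Lt.q R0Q115.q2442_10) (q_cons (Vale.Agent.P032.Lt.q R0Q115.q2442_11) (q_cons (Vale.Agent.P032.Lt.q R0Q115.q2442_12) (q_cons (Vale.Agent.P032.Lt.q R0Q115.q2442_13) (q_cons (Vale.Agent.P032.Lt.q R0Q115.q2442_14) q_nil))))))))))))))))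

theorem p2443 : Pat 73 73 TBm TCm (CB.map Fm) R0Q115.P2443 R0Q115.I2443 := Vale.Agent.P032.Lt.pat_eq (E' := R0Q115.E) eB (pat_step (by decide +kernel) (q_cons (Vale.Agent.P032.Lt.q R0Q115.q2443_0) (q_cons (Vale.Agent.P032.Lt.q R0Q115.q2443_1) (q_cons (Vale.Agent.P032.Lt.q R0Q115.q2443_2) (q_cons (Vale.Agent.P032.Lt.q R0Q115.q2443_3) (q_cons (Vale.Agent.P032.Lt.q R0Q115.q2443_4) (q_cons (Vale.Agent.P032.Lt.q R0Q115.q2443_5) (q_cons (Vale.Agent.P032.Lt.q R0Q115.q2443_6) (q_cons (Vale.Agent.P032.Lt.q R0Q115.q2443_7) q_nil)))))))))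

theorem p2444 : Pat 73 73 TBm TCm (CB.map Fm) R0Q115.P2444 R0Q115.I2444 := Vale.Agent.P032.Lt.pat_eq (E' := R0Q115.E) eB (pat_step (by decide +kernel) (q_cons (Vale.Agent.P032.Lt.q R0Q115.q2444_0) (q_cons (Vale.Agent.P032.Lt.q R0Q115.q2444_1) (q_cons (Vale.Agent.P032.Lt.q R0Q115.q2444_2) (q_cons (Vale.Agent.P032.Lt.q R0Q115.q2444_3) (q_cons (Vale.Agent.P032.Lt.q R0Q115.q2444_4) q_nil))))))

theorem p2445 : Pat 73 73 TBm TCm (CB.map Fm) R0Q115.P2445 R0Q115.I2445 := Vale.Agent.P032.Lt.pat_eq (E' := R0Q115.E) eB (pat_step (by decide +kernel) (q_cons (Vale.Agent.P032.Lt.q R0Q115.q2445_0) (q_cons (Vale.Agent.P032.Lt.q R0Q115.q2445_1) (q_cons (Vale.Agent.P032.Lt.q R0Q115.q2445_2) (q_cons (Vale.Agent.P032.Lt.q R0Q115.q2445_3) (q_cons (Vale.Agent.P032.Lt.q R0Q115.q2445_4) (q_cons (Vale.Agent.P032.Lt.q R0Q115.q2445_5) (q_cons (Vale.Agent.P032.Lt.q R0Q115.q2445_6)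 (q_cons (Vale.Agent.P032.Lt.q R0Q115.q2445_7) (q_cons (Vale.Agent.P032.Lt.q R0Q115.q2445_8) (q_cons (Vale.Agent.P032.Lt.q R0Q115.q2445_9) (q_cons (Vale.Agent.P032.Lt.q R0Q115.q2445_10) (q_cons (Vale.Agent.P032.Lt.q R0Q115.q2445_11) q_nil)))))))))))))

theorem p2446 : Pat 73 73 TBm TCm (CB.map Fm) R0Q115.P2446 R0Q115.I2446 := Vale.Agent.P032.Lt.pat_eq (E' := R0Q115.E) eB (pat_step (by decide +kernel) (q_cons (Vale.Agent.P032.Lt.q R0Q115.q2446_0) (q_cons (Vale.Agent.P032.Lt.q R0Q115.q2446_1) (q_cons (Vale.Agent.P032.Lt.q R0Q115.q2446_2) (q_cons (Vale.Agent.P032.Lt.q R0Q115.q2446_3) (q_cons (Vale.Agent.P032.Lt.q R0Q115.q2446_4) q_nil))))))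

theorem p2447 : Pat 73 73 TBm TCm (CB.map Fm) R0Q115.P2447 R0Q115.I2447 := Vale.Agent.P032.Lt.pat_eq (E' := R0Q115.E) eB (pat_step (by decide +kernel) (q_cons (Vale.Agent.P032.Lt.q R0Q115.q2447_0) (q_cons (Vale.Agent.P032.Lt.q R0Q115.q2447_1) q_nil)))

theorem p2448 : Pat 73 73 TBm TCm (CB.map Fm) R0Q115.P2448 R0Q115.I2448 := Vale.Agent.P032.Lt.pat_eq (E' := R0Q115.E) eB (pat_step (by decide +kernel) (q_cons (Vale.Agent.P032.Lt.q R0Q115.q2448_0) (q_cons (Vale.Agent.P032.Lt.q R0Q115.q2448_1) (q_cons (Vale.Agent.P032.Lt.q R0Q115.q2448_2) q_nil))))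

theorem p2449 : Pat 73 73 TBm TCm (CB.map Fm) R0Q115.P2449 R0Q115.I2449 := Vale.Agent.P032.Lt.pat_eq (E' := R0Q115.E) eB (pat_step (by decide +kernel) (q_cons (Vale.Agent.P032.Lt.q R0Q115.q2449_0) (q_cons (Vale.Agent.P032.Lt.q R0Q115.q2449_1) (q_cons (Vale.Agent.P032.Lt.q R0Q115.q2449_2) q_nil))))

theorem p2450 : Pat 73 73 TBm TCm (CB.map Fm) R0Q116.P2450 R0Q116.I2450 := Vale.Agent.P032.Lt.pat_eq (E' := R0Q116.E) eB (pat_step (by decide +kernel) (q_cons (Vale.Agent.P032.Lt.q R0Q116.q2450_0) (q_cons (Vale.Agent.P032.Lt.q R0Q116.q2450_1) q_nil)))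

theorem p2451 : Pat 73 73 TBm TCm (CB.map Fm) R0Q116.P2451 R0Q116.I2451 := Vale.Agent.P032.Lt.pat_eq (E' := R0Q116.E) eB (pat_step (by decide +kernel) (q_cons (Vale.Agent.P032.Lt.q R0Q116.q2451_0) (q_cons (Vale.Agent.P032.Lt.q R0Q116.q2451_1) (q_cons (Vale.Agent.P032.Lt.q R0Q116.q2451_2) (q_cons (Vale.Agent.P032.Lt.q R0Q116.q2451_3) (q_cons (Vale.Agent.P032.Lt.q R0Q116.q2451_4) (q_cons (Vale.Agent.P032.Lt.q R0Q116.q2451_5) (q_cons (Vale.Agent.P032.Lt.q R0Q116.q2451_6) (q_cons (Vale.Agent.P032.Lt.q R0Q116.q2451_7) (q_cons (Vale.Agent.P032.Lt.q R0Q116.q2451_8) q_nil))))))))))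

theorem p2452 : Pat 73 73 TBm TCm (CB.map Fm) R0Q116.P2452 R0Q116.I2452 := Vale.Agent.P032.Lt.pat_eq (E' := R0Q116.E) eB (pat_step (by decide +kernel) (q_cons (Vale.Agent.P032.Lt.q R0Q116.q2452_0) q_nil))

theorem p2453 : Pat 73 73 TBm TCm (CB.map Fm) R0Q116.P2453 R0Q116.I2453 := Vale.Agent.P032.Lt.pat_eq (E' := R0Q116.E) eB (pat_step (by decide +kernel) (q_cons (Vale.Agent.P032.Lt.q R0Q116.q2453_0) (q_cons (Vale.Agent.P032.Lt.q R0Q116.q2453_1) (q_cons (Vale.Agent.P032.Lt.q R0Q116.q2453_2) (q_cons (Vale.Agent.P032.Lt.q R0Q116.q2453_3) (q_cons (Vale.Agent.P032.Lt.q R0Q116.q2453_4) q_nil))))))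

theorem p2454 : Pat 73 73 TBm TCm (CB.map Fm) R0Q116.P2454 R0Q116.I2454 := Vale.Agent.P032.Lt.pat_eq (E' := R0Q116.E) eB (pat_step (by decide +kernel) (q_cons (Vale.Agent.P032.Lt.q R0Q116.q2454_0) (q_cons (Vale.Agent.P032.Lt.q R0Q116.q2454_1) (q_cons (Vale.Agent.P032.Lt.q R0Q116.q2454_2) (q_cons (Vale.Agent.P032.Lt.q R0Q116.q2454_3) q_nil)))))

theorem p2455 : Pat 73 73 TBm TCm (CB.map Fm) R0Q116.P2455 R0Q116.I2455 := Vale.Agent.P032.Lt.pat_eq (E' := R0Q116.E) eB (pat_step (by decide +kernel) (q_cons (Vale.Agent.P032.Lt.q R0Q116.q2455_0) (q_cons (Vale.Agent.P032.Lt.q R0Q116.q2455_1) q_nil)))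

theorem p2456 : Pat 73 73 TBm TCm (CB.map Fm) R0Q116.P2456 R0Q116.I2456 := Vale.Agent.P032.Lt.pat_eq (E' := R0Q116.E) eB (pat_step (by decide +kernel) (q_cons (Vale.Agent.P032.Lt.q R0Q116.q2456_0) (q_cons (Vale.Agent.P032.Lt.q R0Q116.q2456_1) (q_cons (Vale.Agent.P032.Lt.q R0Q116.q2456_2) (q_cons (Vale.Agent.P032.Lt.q R0Q116.q2456_3) (q_cons (Vale.Agent.P032.Lt.q R0Q116.q2456_4) (q_cons (Vale.Agent.P032.Lt.q R0Q116.q2456_5) (q_cons (Vale.Agent.P032.Lt.q R0Q116.q2456_6) q_nil))))))))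

theorem p2457 : Pat 73 73 TBm TCm (CB.map Fm) R0Q116.P2457 R0Q116.I2457 := Vale.Agent.P032.Lt.pat_eq (E' := R0Q116.E) eB (pat_step (by decide +kernel) (q_cons (Vale.Agent.P032.Lt.q R0Q116.q2457_0) (q_cons (Vale.Agent.P032.Lt.q R0Q116.q2457_1) (q_cons (Vale.Agent.P032.Lt.q R0Q116.q2457_2) (q_cons (Vale.Agent.P032.Lt.q R0Q116.q2457_3) (q_cons (Vale.Agent.P032.Lt.q R0Q116.q2457_4) (q_cons (Vale.Agent.P032.Lt.q R0Q116.q2457_5) (q_cons (Vale.Agent.P032.Lt.q R0Q116.q2457_6) q_nil))))))))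

theorem p2458 : Pat 73 73 TBm TCm (CB.map Fm) R0Q116.P2458 R0Q116.I2458 := Vale.Agent.P032.Lt.pat_eq (E' := R0Q116.E) eB (pat_step (by decide +kernel) (q_cons (Vale.Agent.P032.Lt.q R0Q116.q2458_0) (q_cons (Vale.Agent.P032.Lt.q R0Q116.q2458_1) q_nil)))

theorem p2459 : Pat 73 73 TBm TCm (CB.map Fm) R0Q116.P2459 R0Q116.I2459 := Vale.Agent.P032.Lt.pat_eq (E' := R0Q116.E) eB (pat_step (by decide +kernel) (q_cons (Vale.Agent.P032.Lt.q R0Q116.q2459_0) (q_cons (Vale.Agent.P032.Lt.q R0Q116.q2459_1) (q_cons (Vale.Agent.P032.Lt.q R0Q116.q2459_2) q_nil))))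

theorem p2460 : Pat 73 73 TBm TCm (CB.map Fm) R0Q116.P2460 R0Q116.I2460 := Vale.Agent.P032.Lt.pat_eq (E' := R0Q116.E) eB (pat_step (by decide +kernel) (q_cons (Vale.Agent.P032.Lt.q R0Q116.q2460_0) q_nil))

theorem p2461 : Pat 73 73 TBm TCm (CB.map Fm) R0Q116.P2461 R0Q116.I2461 := Vale.Agent.P032.Lt.pat_eq (E' := R0Q116.E) eB (pat_step (by decide +kernel) (q_cons (Vale.Agent.P032.Lt.q R0Q116.q2461_0) (q_cons (Vale.Agent.P032.Lt.q R0Q116.q2461_1) (q_cons (Vale.Agent.P032.Lt.q R0Q116.q2461_2) q_nil))))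

def C2462 : List ℕ := [0, 4, 8, 12, 16, 20, 24, 609281, 737281]
theorem p2462 : Pat 73 73 TBm TCm (C2462.map Fm) R0Q116.P2462 R0Q116.I2462 := Vale.Agent.P032.Lt.pat_eq (E' := R0Q116.E2462) (by decide +kernel) (pat_step (by decide +kernel) (q_cons (Vale.Agent.P032.Lt.q R0Q116.q2462_0) q_nil))

theorem p2463 : Pat 73 73 TBm TCm (CB.map Fm) R0Q116.P2463 R0Q116.I2463 := Vale.Agent.P032.Lt.pat_eq (E' := R0Q116.E) eB (pat_step (by decide +kernel) (q_cons (Vale.Agent.P032.Lt.q R0Q116.q2463_0) q_nil))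

theorem p2464 : Pat 73 73 TBm TCm (CB.map Fm) R0Q116.P2464 R0Q116.I2464 := Vale.Agent.P032.Lt.pat_eq (E' := R0Q116.E) eB (pat_step (by decide +kernel) (q_cons (Vale.Agent.P032.Lt.q R0Q116.q2464_0) (q_cons (Vale.Agent.P032.Lt.q R0Q116.q2464_1) (q_cons (Vale.Agent.P032.Lt.q R0Q116.q2464_2) (q_cons (Vale.Agent.P032.Lt.q R0Q116.q2464_3) (q_cons (Vale.Agent.P032.Lt.q R0Q116.q2464_4) (q_cons (Vale.Agent.P032.Lt.q R0Q116.q2464_5) (q_cons (Vale.Agent.P032.Lt.q R0Q116.q2464_6) (q_cons (Vale.Agent.P032.Lt.q R0Q116.q2464_7) q_nil)))))))))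

theorem p2465 : Pat 73 73 TBm TCm (CB.map Fm) R0Q116.P2465 R0Q116.I2465 := Vale.Agent.P032.Lt.pat_eq (E' := R0Q116.E) eB (pat_step (by decide +kernel) (q_cons (Vale.Agent.P032.Lt.q R0Q116.q2465_0) (q_cons (Vale.Agent.P032.Lt.q R0Q116.q2465_1) (q_cons (Vale.Agent.P032.Lt.q R0Q116.q2465_2) (q_cons (Vale.Agent.P032.Lt.q R0Q116.q2465_3) (q_cons (Vale.Agent.P032.Lt.q R0Q116.q2465_4) (q_cons (Vale.Agent.P032.Lt.q R0Q116.q2465_5) (q_cons (Vale.Agent.P032.Lt.q R0Q116.q2465_6) (q_cons (Vale.Agent.P032.Lt.q R0Q116.q2465_7) (q_cons (Vale.Agent.P032.Lt.q R0Q116.q2465_8) (q_cons (Vale.Agent.P032.Lt.q R0Q116.q2465_9) (q_cons (Vale.Agent.P032.Lt.q R0Q116.q2465_10) q_nil))))))))))))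

theorem p2466 : Pat 73 73 TBm TCm (CB.map Fm) R0Q116.P2466 R0Q116.I2466 := Vale.Agent.P032.Lt.pat_eq (E' := R0Q116.E) eB (pat_step (by decide +kernel) (q_cons (Vale.Agent.P032.Lt.q R0Q116.q2466_0) (q_cons (Vale.Agent.P032.Lt.q R0Q116.q2466_1) q_nil)))

def C2467 : List ℕ := [0, 4, 8, 12, 16, 20, 24, 349185, 606209, 737281]
theorem p2467 : Pat 73 73 TBm TCm (C2467.map Fm) R0Q116.P2467 R0Q116.I2467 := Vale.Agent.P032.Lt.pat_eq (E' := R0Q116.E2467) (by decide +kernel) (pat_step (by decide +kernel) (q_cons (Vale.Agent.P032.Lt.q R0Q116.q2467_0) (q_cons (Vale.Agent.P032.Lt.q R0Q116.q2467_1) (q_cons (Vale.Agent.P032.Lt.q R0Q116.q2467_2) (q_cons (Vale.Agent.P032.Lt.q R0Q116.q2467_3) (q_cons (Vale.Agent.P032.Lt.q R0Q116.q2467_4) (q_cons (Vale.Agent.P032.Lt.q R0Q116.q2467_5) (q_cons (Vale.Agent.P032.Lt.q R0Q116.q2467_6) (q_cons (Vale.Agent.P032.Lt.q R0Q116.q2467_7)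 q_nil)))))))))

theorem p2468 : Pat 73 73 TBm TCm (CB.map Fm) R0Q116.P2468 R0Q116.I2468 := Vale.Agent.P032.Lt.pat_eq (E' := R0Q116.E) eB (pat_step (by decide +kernel) (q_cons (Vale.Agent.P032.Lt.q R0Q116.q2468_0) (q_cons (Vale.Agent.P032.Lt.q R0Q116.q2468_1) (q_cons (Vale.Agent.P032.Lt.q R0Q116.q2468_2) (q_cons (Vale.Agent.P032.Lt.q R0Q116.q2468_3) (q_cons (Vale.Agent.P032.Lt.q R0Q116.q2468_4) (q_cons (Vale.Agent.P032.Lt.q R0Q116.q2468_5) (q_cons (Vale.Agent.P032.Lt.q R0Q116.q2468_6) (q_cons (Vale.Agent.P032.Lt.q R0Q116.q2468_7) (q_cons (Vale.Agent.P032.Lt.q R0Q116.q2468_8) (q_cons (Vale.Agent.P032.Lt.q R0Q116.q2468_9) (q_cons (Vale.Agent.P032.Lt.q R0Q116.q2468_10) q_nil))))))))))))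

theorem p2469 : Pat 73 73 TBm TCm (CB.map Fm) R0Q116.P2469 R0Q116.I2469 := Vale.Agent.P032.Lt.pat_eq (E' := R0Q116.E) eB (pat_step (by decide +kernel) (q_cons (Vale.Agent.P032.Lt.q R0Q116.q2469_0) q_nil))

theorem p2470 : Pat 73 73 TBm TCm (CB.map Fm) R0Q116.P2470 R0Q116.I2470 := Vale.Agent.P032.Lt.pat_eq (E' := R0Q116.E) eB (pat_step (by decide +kernel) (q_cons (Vale.Agent.P032.Lt.q R0Q116.q2470_0) q_nil))

theorem p2471 : Pat 73 73 TBm TCm (CB.map Fm) R0Q116.P2471 R0Q116.I2471 := Vale.Agent.P032.Lt.pat_eq (E' := R0Q116.E) eB (pat_step (by decide +kernel) (q_cons (Vale.Agent.P032.Lt.q R0Q116.q2471_0) q_nil))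

theorem p2472 : Pat 73 73 TBm TCm (CB.map Fm) R0Q116.P2472 R0Q116.I2472 := Vale.Agent.P032.Lt.pat_eq (E' := R0Q116.E) eB (pat_step (by decide +kernel) (q_cons (Vale.Agent.P032.Lt.q R0Q116.q2472_0) (q_cons (Vale.Agent.P032.Lt.q R0Q116.q2472_1) (q_cons (Vale.Agent.P032.Lt.q R0Q116.q2472_2) (q_cons (Vale.Agent.P032.Lt.q R0Q116.q2472_3) (q_cons (Vale.Agent.P032.Lt.q R0Q116.q2472_4) q_nil))))))

theorem p2473 : Pat 73 73 TBm TCm (CB.map Fm) R0Q116.P2473 R0Q116.I2473 := Vale.Agent.P032.Lt.pat_eq (E' := R0Q116.E) eB (pat_step (by decide +kernel) (q_cons (Vale.Agent.P032.Lt.q R0Q116.q2473_0) (q_cons (Vale.Agent.P032.Lt.q R0Q116.q2473_1) (q_cons (Vale.Agent.P032.Lt.q R0Q116.q2473_2) (q_cons (Vale.Agent.P032.Lt.q R0Q116.q2473_3) (q_cons (Vale.Agent.P032.Lt.q R0Q116.q2473_4) (q_cons (Vale.Agent.P032.Lt.q R0Q116.q2473_5) (q_cons (Vale.Agent.P032.Lt.q R0Q116.q2473_6)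 (q_cons (Vale.Agent.P032.Lt.q R0Q116.q2473_7) (q_cons (Vale.Agent.P032.Lt.q R0Q116.q2473_8) q_nil))))))))))

theorem p2474 : Pat 73 73 TBm TCm (CB.map Fm) R0Q116.P2474 R0Q116.I2474 := Vale.Agent.P032.Lt.pat_eq (E' := R0Q116.E) eB (pat_step (by decide +kernel) (q_cons (Vale.Agent.P032.Lt.q R0Q116.q2474_0) (q_cons (Vale.Agent.P032.Lt.q R0Q116.q2474_1) (q_cons (Vale.Agent.P032.Lt.q R0Q116.q2474_2) (q_cons (Vale.Agent.P032.Lt.q R0Q116.q2474_3) (q_cons (Vale.Agent.P032.Lt.q R0Q116.q2474_4) (q_cons (Vale.Agent.P032.Lt.q R0Q116.q2474_5) (q_cons (Vale.Agent.P032.Lt.q R0Q116.q2474_6) (q_cons (Vale.Agent.P032.Lt.q R0Q116.q2474_7) (q_cons (Vale.Agent.P032.Lt.q R0Q116.q2474_8) q_nil))))))))))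

theorem p2475 : Pat 73 73 TBm TCm (CB.map Fm) R0Q116.P2475 R0Q116.I2475 := Vale.Agent.P032.Lt.pat_eq (E' := R0Q116.E) eB (pat_step (by decide +kernel) (q_cons (Vale.Agent.P032.Lt.q R0Q116.q2475_0) (q_cons (Vale.Agent.P032.Lt.q R0Q116.q2475_1) (q_cons (Vale.Agent.P032.Lt.q R0Q116.q2475_2) (q_cons (Vale.Agent.P032.Lt.q R0Q116.q2475_3) (q_cons (Vale.Agent.P032.Lt.q R0Q116.q2475_4) (q_cons (Vale.Agent.P032.Lt.q R0Q116.q2475_5) q_nil)))))))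

def C2476 : List ℕ := [0, 4, 8, 12, 16, 20, 24, 348161, 609281, 741377]
theorem p2476 : Pat 73 73 TBm TCm (C2476.map Fm) R0Q116.P2476 R0Q116.I2476 := Vale.Agent.P032.Lt.pat_eq (E' := R0Q116.E2476) (by decide +kernel) (pat_step (by decide +kernel) (q_cons (Vale.Agent.P032.Lt.q R0Q116.q2476_0) (q_cons (Vale.Agent.P032.Lt.q R0Q116.q2476_1) (q_cons (Vale.Agent.P032.Lt.q R0Q116.q2476_2) (q_cons (Vale.Agent.P032.Lt.q R0Q116.q2476_3) q_nil)))))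

theorem p2477 : Pat 73 73 TBm TCm (CB.map Fm) R0Q116.P2477 R0Q116.I2477 := Vale.Agent.P032.Lt.pat_eq (E' := R0Q116.E) eB (pat_step (by decide +kernel) (q_cons (Vale.Agent.P032.Lt.q R0Q116.q2477_0) (q_cons (Vale.Agent.P032.Lt.q R0Q116.q2477_1) (q_cons (Vale.Agent.P032.Lt.q R0Q116.q2477_2) q_nil))))

theorem p2478 : Pat 73 73 TBm TCm (CB.map Fm) R0Q116.P2478 R0Q116.I2478 := Vale.Agent.P032.Lt.pat_eq (E' := R0Q116.E) eB (pat_step (by decide +kernel) (q_cons (Vale.Agent.P032.Lt.q R0Q116.q2478_0) (q_cons (Vale.Agent.P032.Lt.q R0Q116.q2478_1) (q_cons (Vale.Agent.P032.Lt.q R0Q116.q2478_2) q_nil))))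

theorem p2479 : Pat 73 73 TBm TCm (CB.map Fm) R0Q116.P2479 R0Q116.I2479 := Vale.Agent.P032.Lt.pat_eq (E' := R0Q116.E) eB (pat_step (by decide +kernel) (q_cons (Vale.Agent.P032.Lt.q R0Q116.q2479_0) (q_cons (Vale.Agent.P032.Lt.q R0Q116.q2479_1) q_nil)))

theorem p2480 : Pat 73 73 TBm TCm (CB.map Fm) R0Q116.P2480 R0Q116.I2480 := Vale.Agent.P032.Lt.pat_eq (E' := R0Q116.E) eB (pat_step (by decide +kernel) (q_cons (Vale.Agent.P032.Lt.q R0Q116.q2480_0) (q_cons (Vale.Agent.P032.Lt.q R0Q116.q2480_1) (q_cons (Vale.Agent.P032.Lt.q R0Q116.q2480_2) q_nil))))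

theorem p2481 : Pat 73 73 TBm TCm (CB.map Fm) R0Q116.P2481 R0Q116.I2481 := Vale.Agent.P032.Lt.pat_eq (E' := R0Q116.E) eB (pat_step (by decide +kernel) (q_cons (Vale.Agent.P032.Lt.q R0Q116.q2481_0) (q_cons (Vale.Agent.P032.Lt.q R0Q116.q2481_1) (q_cons (Vale.Agent.P032.Lt.q R0Q116.q2481_2) (q_cons (Vale.Agent.P032.Lt.q R0Q116.q2481_3) q_nil)))))

theorem p2482 : Pat 73 73 TBm TCm (CB.map Fm) R0Q116.P2482 R0Q116.I2482 := Vale.Agent.P032.Lt.pat_eq (E' := R0Q116.E) eB (pat_step (by decide +kernel) (q_cons (Vale.Agent.P032.Lt.q R0Q116.q2482_0) (q_cons (Vale.Agent.P032.Lt.q R0Q116.q2482_1) (q_cons (Vale.Agent.P032.Lt.q R0Q116.q2482_2) (q_cons (Vale.Agent.P032.Lt.q R0Q116.q2482_3) (q_cons (Vale.Agent.P032.Lt.q R0Q116.q2482_4) (q_cons (Vale.Agent.P032.Lt.q R0Q116.q2482_5) (q_cons (Vale.Agent.P032.Lt.q R0Q116.q2482_6) (q_cons (Vale.Agent.P032.Lt.q R0Q116.q2482_7)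 q_nil)))))))))

theorem p2483 : Pat 73 73 TBm TCm (CB.map Fm) R0Q117.P2483 R0Q117.I2483 := Vale.Agent.P032.Lt.pat_eq (E' := R0Q117.E) eB (pat_step (by decide +kernel) (q_cons (Vale.Agent.P032.Lt.q R0Q117.q2483_0) (q_cons (Vale.Agent.P032.Lt.q R0Q117.q2483_1) (q_cons (Vale.Agent.P032.Lt.q R0Q117.q2483_2) (q_cons (Vale.Agent.P032.Lt.q R0Q117.q2483_3) (q_cons (Vale.Agent.P032.Lt.q R0Q117.q2483_4) (q_cons (Vale.Agent.P032.Lt.q R0Q117.q2483_5) (q_cons (Vale.Agent.P032.Lt.q R0Q117.q2483_6) (q_cons (Vale.Agent.P032.Lt.q R0Q117.q2483_7) (q_cons (Vale.Agent.P032.Lt.q R0Q117.q2483_8) (q_cons (Vale.Agent.P032.Lt.q R0Q117.q2483_9) (q_cons (Vale.Agent.P032.Lt.q R0Q117.q2483_10) (q_cons (Vale.Agent.P032.Lt.q R0Q117.q2483_11) (q_cons (Vale.Agent.P032.Lt.q R0Q117.q2483_12) (q_cons (Vale.Agent.P032.Lt.q R0Q117.q2483_13) (q_cons (Vale.Agent.P032.Lt.q R0Q117.q2483_14)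 (q_cons (Vale.Agent.P032.Lt.q R0Q117.q2483_15) (q_cons (Vale.Agent.P032.Lt.q R0Q117.q2483_16) (q_cons (Vale.Agent.P032.Lt.q R0Q117.q2483_17) (q_cons (Vale.Agent.P032.Lt.q R0Q117.q2483_18) (q_cons (Vale.Agent.P032.Lt.q R0Q117.q2483_19) (q_cons (Vale.Agent.P032.Lt.q R0Q117.q2483_20) (q_cons (Vale.Agent.P032.Lt.q R0Q117.q2483_21) (q_cons (Vale.Agent.P032.Lt.q R0Q117.q2483_22) (q_cons (Vale.Agent.P032.Lt.q R0Q117.q2483_23) (q_cons (Vale.Agent.P032.Lt.q R0Q117.q2483_24) (q_cons (Vale.Agent.P032.Lt.q R0Q117.q2483_25) q_nil)))))))))))))))))))))))))))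

theorem p2484 : Pat 73 73 TBm TCm (CB.map Fm) R0Q117.P2484 R0Q117.I2484 := Vale.Agent.P032.Lt.pat_eq (E' := R0Q117.E) eB (pat_step (by decide +kernel) (q_cons (Vale.Agent.P032.Lt.q R0Q117.q2484_0) (q_cons (Vale.Agent.P032.Lt.q R0Q117.q2484_1) (q_cons (Vale.Agent.P032.Lt.q R0Q117.q2484_2) (q_cons (Vale.Agent.P032.Lt.q R0Q117.q2484_3) (q_cons (Vale.Agent.P032.Lt.q R0Q117.q2484_4) (q_cons (Vale.Agent.P032.Lt.q R0Q117.q2484_5) (q_cons (Vale.Agent.P032.Lt.q R0Q117.q2484_6) (q_cons (Vale.Agent.P032.Lt.q R0Q117.q2484_7) (q_cons (Vale.Agent.P032.Lt.q R0Q117.q2484_8) (q_cons (Vale.Agent.P032.Lt.q R0Q117.q2484_9) (q_cons (Vale.Agent.P032.Lt.q R0Q117.q2484_10) (q_cons (Vale.Agent.P032.Lt.q R0Q117.q2484_11) (q_cons (Vale.Agent.P032.Lt.q R0Q117.q2484_12) (q_cons (Vale.Agent.P032.Lt.q R0Q117.q2484_13) (q_cons (Vale.Agent.P032.Lt.q R0Q117.q2484_14) (q_cons (Vale.Agent.P032.Lt.q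 R0Q117.q2484_15) q_nil)))))))))))))))))

theorem p2485 : Pat 73 73 TBm TCm (CB.map Fm) R0Q117.P2485 R0Q117.I2485 := Vale.Agent.P032.Lt.pat_eq (E' := R0Q117.E) eB (pat_step (by decide +kernel) (q_cons (Vale.Agent.P032.Lt.q R0Q117.q2485_0) (q_cons (Vale.Agent.P032.Lt.q R0Q117.q2485_1) (q_cons (Vale.Agent.P032.Lt.q R0Q117.q2485_2) (q_cons (Vale.Agent.P032.Lt.q R0Q117.q2485_3) (q_cons (Vale.Agent.P032.Lt.q R0Q117.q2485_4) (q_cons (Vale.Agent.P032.Lt.q R0Q117.q2485_5) q_nil)))))))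

theorem p2486 : Pat 73 73 TBm TCm (CB.map Fm) R0Q117.P2486 R0Q117.I2486 := Vale.Agent.P032.Lt.pat_eq (E' := R0Q117.E) eB (pat_step (by decide +kernel) (q_cons (Vale.Agent.P032.Lt.q R0Q117.q2486_0) (q_cons (Vale.Agent.P032.Lt.q R0Q117.q2486_1) (q_cons (Vale.Agent.P032.Lt.q R0Q117.q2486_2) (q_cons (Vale.Agent.P032.Lt.q R0Q117.q2486_3) (q_cons (Vale.Agent.P032.Lt.q R0Q117.q2486_4) (q_cons (Vale.Agent.P032.Lt.q R0Q117.q2486_5) (q_cons (Vale.Agent.P032.Lt.q R0Q117.q2486_6) (q_cons (Vale.Agent.P032.Lt.q R0Q117.q2486_7) (q_cons (Vale.Agent.P032.Lt.q R0Q117.q2486_8) (q_cons (Vale.Agent.P032.Lt.q R0Q117.q2486_9) (q_cons (Vale.Agent.P032.Lt.q R0Q117.q2486_10) (q_cons (Vale.Agent.P032.Lt.q R0Q117.q2486_11) (q_cons (Vale.Agent.P032.Lt.q R0Q117.q2486_12) (q_cons (Vale.Agent.P032.Lt.q R0Q117.q2486_13) q_nil)))))))))))))))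

theorem p2487 : Pat 73 73 TBm TCm (CB.map Fm) R0Q117.P2487 R0Q117.I2487 := Vale.Agent.P032.Lt.pat_eq (E' := R0Q117.E) eB (pat_step (by decide +kernel) (q_cons (Vale.Agent.P032.Lt.q R0Q117.q2487_0) (q_cons (Vale.Agent.P032.Lt.q R0Q117.q2487_1) (q_cons (Vale.Agent.P032.Lt.q R0Q117.q2487_2) (q_cons (Vale.Agent.P032.Lt.q R0Q117.q2487_3) q_nil)))))

theorem p2488 : Pat 73 73 TBm TCm (CB.map Fm) R0Q117.P2488 R0Q117.I2488 := Vale.Agent.P032.Lt.pat_eq (E' := R0Q117.E) eB (pat_step (by decide +kernel) (q_cons (Vale.Agent.P032.Lt.q R0Q117.q2488_0) (q_cons (Vale.Agent.P032.Lt.q R0Q117.q2488_1) q_nil)))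

theorem p2489 : Pat 73 73 TBm TCm (CB.map Fm) R0Q117.P2489 R0Q117.I2489 := Vale.Agent.P032.Lt.pat_eq (E' := R0Q117.E) eB (pat_step (by decide +kernel) (q_cons (Vale.Agent.P032.Lt.q R0Q117.q2489_0) (q_cons (Vale.Agent.P032.Lt.q R0Q117.q2489_1) q_nil)))

theorem p2490 : Pat 73 73 TBm TCm (CB.map Fm) R0Q117.P2490 R0Q117.I2490 := Vale.Agent.P032.Lt.pat_eq (E' := R0Q117.E) eB (pat_step (by decide +kernel) (q_cons (Vale.Agent.P032.Lt.q R0Q117.q2490_0) (q_cons (Vale.Agent.P032.Lt.q R0Q117.q2490_1) q_nil)))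

theorem p2491 : Pat 73 73 TBm TCm (CB.map Fm) R0Q117.P2491 R0Q117.I2491 := Vale.Agent.P032.Lt.pat_eq (E' := R0Q117.E) eB (pat_step (by decide +kernel) (q_cons (Vale.Agent.P032.Lt.q R0Q117.q2491_0) (q_cons (Vale.Agent.P032.Lt.q R0Q117.q2491_1) (q_cons (Vale.Agent.P032.Lt.q R0Q117.q2491_2) (q_cons (Vale.Agent.P032.Lt.q R0Q117.q2491_3) (q_cons (Vale.Agent.P032.Lt.q R0Q117.q2491_4) (q_cons (Vale.Agent.P032.Lt.q R0Q117.q2491_5) (q_cons (Vale.Agent.P032.Lt.q R0Q117.q2491_6) (q_cons (Vale.Agent.P032.Lt.q R0Q117.q2491_7) (q_cons (Vale.Agent.P032.Lt.q R0Q117.q2491_8) (q_cons (Vale.Agent.P032.Lt.q R0Q117.q2491_9) (q_cons (Vale.Agent.P032.Lt.q R0Q117.q2491_10) (q_cons (Vale.Agent.P032.Lt.q R0Q117.q2491_11) q_nil)))))))))))))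

def C2492 : List ℕ := [0, 4, 8, 12, 16, 20, 24, 212993, 344065, 475137, 615425, 737281]
theorem p2492 : Pat 73 73 TBm TCm (C2492.map Fm) R0Q117.P2492 R0Q117.I2492 := Vale.Agent.P032.Lt.pat_eq (E' := R0Q117.E2492) (by decide +kernel) (pat_step (by decide +kernel) (q_cons (Vale.Agent.P032.Lt.q R0Q117.q2492_0) q_nil))

theorem p2493 : Pat 73 73 TBm TCm (CB.map Fm) R0Q117.P2493 R0Q117.I2493 := Vale.Agent.P032.Lt.pat_eq (E' := R0Q117.E) eB (pat_step (by decide +kernel) (q_cons (Vale.Agent.P032.Lt.q R0Q117.q2493_0) (q_cons (Vale.Agent.P032.Lt.q R0Q117.q2493_1) q_nil)))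

theorem p2494 : Pat 73 73 TBm TCm (CB.map Fm) R0Q117.P2494 R0Q117.I2494 := Vale.Agent.P032.Lt.pat_eq (E' := R0Q117.E) eB (pat_step (by decide +kernel) (q_cons (Vale.Agent.P032.Lt.q R0Q117.q2494_0) (q_cons (Vale.Agent.P032.Lt.q R0Q117.q2494_1) q_nil)))

theorem p2495 : Pat 73 73 TBm TCm (CB.map Fm) R0Q117.P2495 R0Q117.I2495 := Vale.Agent.P032.Lt.pat_eq (E' := R0Q117.E) eB (pat_step (by decide +kernel) (q_cons (Vale.Agent.P032.Lt.q R0Q117.q2495_0) q_nil))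

theorem p2496 : Pat 73 73 TBm TCm (CB.map Fm) R0Q117.P2496 R0Q117.I2496 := Vale.Agent.P032.Lt.pat_eq (E' := R0Q117.E) eB (pat_step (by decide +kernel) (q_cons (Vale.Agent.P032.Lt.q R0Q117.q2496_0) (q_cons (Vale.Agent.P032.Lt.q R0Q117.q2496_1) (q_cons (Vale.Agent.P032.Lt.q R0Q117.q2496_2) q_nil))))

theorem p2497 : Pat 73 73 TBm TCm (CB.map Fm) R0Q117.P2497 R0Q117.I2497 := Vale.Agent.P032.Lt.pat_eq (E' := R0Q117.E) eB (pat_step (by decide +kernel) (q_cons (Vale.Agent.P032.Lt.q R0Q117.q2497_0) q_nil))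

def C2498 : List ℕ := [0, 4, 8, 12, 16, 20, 24, 475137, 607233, 609281, 737281, 741377]
theorem p2498 : Pat 73 73 TBm TCm (C2498.map Fm) R0Q117.P2498 R0Q117.I2498 := Vale.Agent.P032.Lt.pat_eq (E' := R0Q117.E2498) (by decide +kernel) (pat_step (by decide +kernel) (q_cons (Vale.Agent.P032.Lt.q R0Q117.q2498_0) q_nil))

theorem p2499 : Pat 73 73 TBm TCm (CB.map Fm) R0Q117.P2499 R0Q117.I2499 := Vale.Agent.P032.Lt.pat_eq (E' := R0Q117.E) eB (pat_step (by decide +kernel) (q_cons (Vale.Agent.P032.Lt.q R0Q117.q2499_0) (q_cons (Vale.Agent.P032.Lt.q R0Q117.q2499_1) q_nil)))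

theorem p2500 : Pat 73 73 TBm TCm (CB.map Fm) R0Q117.P2500 R0Q117.I2500 := Vale.Agent.P032.Lt.pat_eq (E' := R0Q117.E) eB (pat_step (by decide +kernel) (q_cons (Vale.Agent.P032.Lt.q R0Q117.q2500_0) q_nil))

theorem p2501 : Pat 73 73 TBm TCm (CB.map Fm) R0Q117.P2501 R0Q117.I2501 := Vale.Agent.P032.Lt.pat_eq (E' := R0Q117.E) eB (pat_step (by decide +kernel) (q_cons (Vale.Agent.P032.Lt.q R0Q117.q2501_0) (q_cons (Vale.Agent.P032.Lt.q R0Q117.q2501_1) (q_cons (Vale.Agent.P032.Lt.q R0Q117.q2501_2) (q_cons (Vale.Agent.P032.Lt.q R0Q117.q2501_3) (q_cons (Vale.Agent.P032.Lt.q R0Q117.q2501_4) (q_cons (Vale.Agent.P032.Lt.q R0Q117.q2501_5) q_nil)))))))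

def C2502 : List ℕ := [0, 4, 8, 12, 16, 20, 24, 478209, 480257]
theorem p2502 : Pat 73 73 TBm TCm (C2502.map Fm) R0Q117.P2502 R0Q117.I2502 := Vale.Agent.P032.Lt.pat_eq (E' := R0Q117.E2502) (by decide +kernel) (pat_step (by decide +kernel) (q_cons (Vale.Agent.P032.Lt.q R0Q117.q2502_0) q_nil))

def C2503 : List ℕ := [0, 4, 8, 12, 16, 20, 24, 355329, 606209, 615425, 737281]
theorem p2503 : Pat 73 73 TBm TCm (C2503.map Fm) R0Q117.P2503 R0Q117.I2503 := Vale.Agent.P032.Lt.pat_eq (E' := R0Q117.E2503) (by decide +kernel) (pat_step (by decide +kernel) (q_cons (Vale.Agent.P032.Lt.q R0Q117.q2503_0) q_nil))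

theorem p2504 : Pat 73 73 TBm TCm (CB.map Fm) R0Q117.P2504 R0Q117.I2504 := Vale.Agent.P032.Lt.pat_eq (E' := R0Q117.E) eB (pat_step (by decide +kernel) (q_cons (Vale.Agent.P032.Lt.q R0Q117.q2504_0) (q_cons (Vale.Agent.P032.Lt.q R0Q117.q2504_1) q_nil)))

theorem p2505 : Pat 73 73 TBm TCm (CB.map Fm) R0Q117.P2505 R0Q117.I2505 := Vale.Agent.P032.Lt.pat_eq (E' := R0Q117.E) eB (pat_step (by decide +kernel) (q_cons (Vale.Agent.P032.Lt.q R0Q117.q2505_0) (q_cons (Vale.Agent.P032.Lt.q R0Q117.q2505_1) q_nil)))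

def C2506 : List ℕ := [0, 4, 8, 12, 16, 20, 24, 355329]
theorem p2506 : Pat 73 73 TBm TCm (C2506.map Fm) R0Q117.P2506 R0Q117.I2506 := Vale.Agent.P032.Lt.pat_eq (E' := R0Q117.E2506) (by decide +kernel) (pat_step (by decide +kernel) (q_cons (Vale.Agent.P032.Lt.q R0Q117.q2506_0) (q_cons (Vale.Agent.P032.Lt.q R0Q117.q2506_1) q_nil)))

theorem p2507 : Pat 73 73 TBm TCm (CB.map Fm) R0Q117.P2507 R0Q117.I2507 := Vale.Agent.P032.Lt.pat_eq (E' := R0Q117.E) eB (pat_step (by decide +kernel) (q_cons (Vale.Agent.P032.Lt.q R0Q117.q2507_0) q_nil))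

def C2508 : List ℕ := [0, 4, 8, 12, 16, 20, 24, 212993, 344065, 355329, 606209, 737281]
theorem p2508 : Pat 73 73 TBm TCm (C2508.map Fm) R0Q117.P2508 R0Q117.I2508 := Vale.Agent.P032.Lt.pat_eq (E' := R0Q117.E2508) (by decide +kernel) (pat_step (by decide +kernel) (q_cons (Vale.Agent.P032.Lt.q R0Q117.q2508_0) (q_cons (Vale.Agent.P032.Lt.q R0Q117.q2508_1) (q_cons (Vale.Agent.P032.Lt.q R0Q117.q2508_2) (q_cons (Vale.Agent.P032.Lt.q R0Q117.q2508_3) (q_cons (Vale.Agent.P032.Lt.q R0Q117.q2508_4) q_nil))))))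

theorem p2509 : Pat 73 73 TBm TCm (CB.map Fm) R0Q117.P2509 R0Q117.I2509 := Vale.Agent.P032.Lt.pat_eq (E' := R0Q117.E) eB (pat_step (by decide +kernel) (q_cons (Vale.Agent.P032.Lt.q R0Q117.q2509_0) (q_cons (Vale.Agent.P032.Lt.q R0Q117.q2509_1) q_nil)))

theorem p2510 : Pat 73 73 TBm TCm (CB.map Fm) R0Q117.P2510 R0Q117.I2510 := Vale.Agent.P032.Lt.pat_eq (E' := R0Q117.E) eB (pat_step (by decide +kernel) (q_cons (Vale.Agent.P032.Lt.q R0Q117.q2510_0) (q_cons (Vale.Agent.P032.Lt.q R0Q117.q2510_1) (q_cons (Vale.Agent.P032.Lt.q R0Q117.q2510_2) (q_cons (Vale.Agent.P032.Lt.q R0Q117.q2510_3) (q_cons (Vale.Agent.P032.Lt.q R0Q117.q2510_4) (q_cons (Vale.Agent.P032.Lt.q R0Q117.q2510_5) (q_cons (Vale.Agent.P032.Lt.q R0Q117.q2510_6) q_nil))))))))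

theorem p2511 : Pat 73 73 TBm TCm (CB.map Fm) R0Q117.P2511 R0Q117.I2511 := Vale.Agent.P032.Lt.pat_eq (E' := R0Q117.E) eB (pat_step (by decide +kernel) (q_cons (Vale.Agent.P032.Lt.q R0Q117.q2511_0) (q_cons (Vale.Agent.P032.Lt.q R0Q117.q2511_1) (q_cons (Vale.Agent.P032.Lt.q R0Q117.q2511_2) q_nil))))

theorem p2512 : Pat 73 73 TBm TCm (CB.map Fm) R0Q117.P2512 R0Q117.I2512 := Vale.Agent.P032.Lt.pat_eq (E' := R0Q117.E) eB (pat_step (by decide +kernel) (q_cons (Vale.Agent.P032.Lt.q R0Q117.q2512_0) q_nil))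

theorem p2513 : Pat 73 73 TBm TCm (CB.map Fm) R0Q117.P2513 R0Q117.I2513 := Vale.Agent.P032.Lt.pat_eq (E' := R0Q117.E) eB (pat_step (by decide +kernel) (q_cons (Vale.Agent.P032.Lt.q R0Q117.q2513_0) q_nil))

theorem p2514 : Pat 73 73 TBm TCm (CB.map Fm) R0Q118.P2514 R0Q118.I2514 := Vale.Agent.P032.Lt.pat_eq (E' := R0Q118.E) eB (pat_step (by decide +kernel) (q_cons (Vale.Agent.P032.Lt.q R0Q118.q2514_0) (q_cons (Vale.Agent.P032.Lt.q R0Q118.q2514_1) (q_cons (Vale.Agent.P032.Lt.q R0Q118.q2514_2) (q_cons (Vale.Agent.P032.Lt.q R0Q118.q2514_3) (q_cons (Vale.Agent.P032.Lt.q R0Q118.q2514_4) (q_cons (Vale.Agent.P032.Lt.q R0Q118.q2514_5) (q_cons (Vale.Agent.P032.Lt.q R0Q118.q2514_6) (q_cons (Vale.Agent.P032.Lt.q R0Q118.q2514_7) (q_cons (Vale.Agent.P032.Lt.q R0Q118.q2514_8) (q_cons (Vale.Agent.P032.Lt.q R0Q118.q2514_9) q_nil)))))))))))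

def C2515 : List ℕ := [0, 4, 8, 12, 16, 20, 24, 606209, 737281]
theorem p2515 : Pat 73 73 TBm TCm (C2515.map Fm) R0Q118.P2515 R0Q118.I2515 := Vale.Agent.P032.Lt.pat_eq (E' := R0Q118.E2515) (by decide +kernel) (pat_step (by decide +kernel) (q_cons (Vale.Agent.P032.Lt.q R0Q118.q2515_0) (q_cons (Vale.Agent.P032.Lt.q R0Q118.q2515_1) (q_cons (Vale.Agent.P032.Lt.q R0Q118.q2515_2) q_nil))))

theorem p2516 : Pat 73 73 TBm TCm (CB.map Fm) R0Q118.P2516 R0Q118.I2516 := Vale.Agent.P032.Lt.pat_eq (E' := R0Q118.E) eB (pat_step (by decide +kernel) (q_cons (Vale.Agent.P032.Lt.q R0Q118.q2516_0) (q_cons (Vale.Agent.P032.Lt.q R0Q118.q2516_1) (q_cons (Vale.Agent.P032.Lt.q R0Q118.q2516_2) (q_cons (Vale.Agent.P032.Lt.q R0Q118.q2516_3) (q_cons (Vale.Agent.P032.Lt.q R0Q118.q2516_4) (q_cons (Vale.Agent.P032.Lt.q R0Q118.q2516_5) (q_cons (Vale.Agent.P032.Lt.q R0Q118.q2516_6)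 q_nil))))))))

theorem p2517 : Pat 73 73 TBm TCm (CB.map Fm) R0Q118.P2517 R0Q118.I2517 := Vale.Agent.P032.Lt.pat_eq (E' := R0Q118.E) eB (pat_step (by decide +kernel) (q_cons (Vale.Agent.P032.Lt.q R0Q118.q2517_0) q_nil))

theorem p2518 : Pat 73 73 TBm TCm (CB.map Fm) R0Q118.P2518 R0Q118.I2518 := Vale.Agent.P032.Lt.pat_eq (E' := R0Q118.E) eB (pat_step (by decide +kernel) (q_cons (Vale.Agent.P032.Lt.q R0Q118.q2518_0) (q_cons (Vale.Agent.P032.Lt.q R0Q118.q2518_1) (q_cons (Vale.Agent.P032.Lt.q R0Q118.q2518_2) (q_cons (Vale.Agent.P032.Lt.q R0Q118.q2518_3) (q_cons (Vale.Agent.P032.Lt.q R0Q118.q2518_4) q_nil))))))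

theorem p2519 : Pat 73 73 TBm TCm (CB.map Fm) R0Q118.P2519 R0Q118.I2519 := Vale.Agent.P032.Lt.pat_eq (E' := R0Q118.E) eB (pat_step (by decide +kernel) (q_cons (Vale.Agent.P032.Lt.q R0Q118.q2519_0) (q_cons (Vale.Agent.P032.Lt.q R0Q118.q2519_1) q_nil)))

theorem p2520 : Pat 73 73 TBm TCm (CB.map Fm) R0Q118.P2520 R0Q118.I2520 := Vale.Agent.P032.Lt.pat_eq (E' := R0Q118.E) eB (pat_step (by decide +kernel) (q_cons (Vale.Agent.P032.Lt.q R0Q118.q2520_0) (q_cons (Vale.Agent.P032.Lt.q R0Q118.q2520_1) (q_cons (Vale.Agent.P032.Lt.q R0Q118.q2520_2) q_nil))))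

theorem p2521 : Pat 73 73 TBm TCm (CB.map Fm) R0Q118.P2521 R0Q118.I2521 := Vale.Agent.P032.Lt.pat_eq (E' := R0Q118.E) eB (pat_step (by decide +kernel) (q_cons (Vale.Agent.P032.Lt.q R0Q118.q2521_0) (q_cons (Vale.Agent.P032.Lt.q R0Q118.q2521_1) q_nil)))

theorem p2522 : Pat 73 73 TBm TCm (CB.map Fm) R0Q118.P2522 R0Q118.I2522 := Vale.Agent.P032.Lt.pat_eq (E' := R0Q118.E) eB (pat_step (by decide +kernel) (q_cons (Vale.Agent.P032.Lt.q R0Q118.q2522_0) (q_cons (Vale.Agent.P032.Lt.q R0Q118.q2522_1) (q_cons (Vale.Agent.P032.Lt.q R0Q118.q2522_2) (q_cons (Vale.Agent.P032.Lt.q R0Q118.q2522_3) (q_cons (Vale.Agent.P032.Lt.q R0Q118.q2522_4) (q_cons (Vale.Agent.P032.Lt.q R0Q118.q2522_5) (q_cons (Vale.Agent.P032.Lt.q R0Q118.q2522_6) (q_cons (Vale.Agent.P032.Lt.q R0Q118.q2522_7) (q_cons (Vale.Agent.P032.Lt.q R0Q118.q2522_8) (q_cons (Vale.Agent.P032.Lt.q R0Q118.q2522_9)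 (q_cons (Vale.Agent.P032.Lt.q R0Q118.q2522_10) (q_cons (Vale.Agent.P032.Lt.q R0Q118.q2522_11) q_nil)))))))))))))

theorem p2523 : Pat 73 73 TBm TCm (CB.map Fm) R0Q118.P2523 R0Q118.I2523 := Vale.Agent.P032.Lt.pat_eq (E' := R0Q118.E) eB (pat_step (by decide +kernel) (q_cons (Vale.Agent.P032.Lt.q R0Q118.q2523_0) (q_cons (Vale.Agent.P032.Lt.q R0Q118.q2523_1) (q_cons (Vale.Agent.P032.Lt.q R0Q118.q2523_2) (q_cons (Vale.Agent.P032.Lt.q R0Q118.q2523_3) (q_cons (Vale.Agent.P032.Lt.q R0Q118.q2523_4) q_nil))))))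

theorem p2524 : Pat 73 73 TBm TCm (CB.map Fm) R0Q118.P2524 R0Q118.I2524 := Vale.Agent.P032.Lt.pat_eq (E' := R0Q118.E) eB (pat_step (by decide +kernel) (q_cons (Vale.Agent.P032.Lt.q R0Q118.q2524_0) (q_cons (Vale.Agent.P032.Lt.q R0Q118.q2524_1) q_nil)))

theorem p2525 : Pat 73 73 TBm TCm (CB.map Fm) R0Q118.P2525 R0Q118.I2525 := Vale.Agent.P032.Lt.pat_eq (E' := R0Q118.E) eB (pat_step (by decide +kernel) (q_cons (Vale.Agent.P032.Lt.q R0Q118.q2525_0) (q_cons (Vale.Agent.P032.Lt.q R0Q118.q2525_1) q_nil)))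

theorem p2526 : Pat 73 73 TBm TCm (CB.map Fm) R0Q118.P2526 R0Q118.I2526 := Vale.Agent.P032.Lt.pat_eq (E' := R0Q118.E) eB (pat_step (by decide +kernel) (q_cons (Vale.Agent.P032.Lt.q R0Q118.q2526_0) (q_cons (Vale.Agent.P032.Lt.q R0Q118.q2526_1) (q_cons (Vale.Agent.P032.Lt.q R0Q118.q2526_2) (q_cons (Vale.Agent.P032.Lt.q R0Q118.q2526_3) q_nil)))))

theorem p2527 : Pat 73 73 TBm TCm (CB.map Fm) R0Q118.P2527 R0Q118.I2527 := Vale.Agent.P032.Lt.pat_eq (E' := R0Q118.E) eB (pat_step (by decide +kernel) (q_cons (Vale.Agent.P032.Lt.q R0Q118.q2527_0) (q_cons (Vale.Agent.P032.Lt.q R0Q118.q2527_1) (q_cons (Vale.Agent.P032.Lt.q R0Q118.q2527_2) q_nil))))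

theorem p2528 : Pat 73 73 TBm TCm (CB.map Fm) R0Q118.P2528 R0Q118.I2528 := Vale.Agent.P032.Lt.pat_eq (E' := R0Q118.E) eB (pat_step (by decide +kernel) (q_cons (Vale.Agent.P032.Lt.q R0Q118.q2528_0) (q_cons (Vale.Agent.P032.Lt.q R0Q118.q2528_1) q_nil)))

theorem p2529 : Pat 73 73 TBm TCm (CB.map Fm) R0Q118.P2529 R0Q118.I2529 := Vale.Agent.P032.Lt.pat_eq (E' := R0Q118.E) eB (pat_step (by decide +kernel) (q_cons (Vale.Agent.P032.Lt.q R0Q118.q2529_0) (q_cons (Vale.Agent.P032.Lt.q R0Q118.q2529_1) (q_cons (Vale.Agent.P032.Lt.q R0Q118.q2529_2) q_nil))))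

theorem p2530 : Pat 73 73 TBm TCm (CB.map Fm) R0Q118.P2530 R0Q118.I2530 := Vale.Agent.P032.Lt.pat_eq (E' := R0Q118.E) eB (pat_step (by decide +kernel) (q_cons (Vale.Agent.P032.Lt.q R0Q118.q2530_0) (q_cons (Vale.Agent.P032.Lt.q R0Q118.q2530_1) (q_cons (Vale.Agent.P032.Lt.q R0Q118.q2530_2) q_nil))))

theorem p2531 : Pat 73 73 TBm TCm (CB.map Fm) R0Q118.P2531 R0Q118.I2531 := Vale.Agent.P032.Lt.pat_eq (E' := R0Q118.E) eB (pat_step (by decide +kernel) (q_cons (Vale.Agent.P032.Lt.q R0Q118.q2531_0) (q_cons (Vale.Agent.P032.Lt.q R0Q118.q2531_1) q_nil)))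

theorem p2532 : Pat 73 73 TBm TCm (CB.map Fm) R0Q118.P2532 R0Q118.I2532 := Vale.Agent.P032.Lt.pat_eq (E' := R0Q118.E) eB (pat_step (by decide +kernel) (q_cons (Vale.Agent.P032.Lt.q R0Q118.q2532_0) q_nil))

theorem p2533 : Pat 73 73 TBm TCm (CB.map Fm) R0Q118.P2533 R0Q118.I2533 := Vale.Agent.P032.Lt.pat_eq (E' := R0Q118.E) eB (pat_step (by decide +kernel) (q_cons (Vale.Agent.P032.Lt.q R0Q118.q2533_0) (q_cons (Vale.Agent.P032.Lt.q R0Q118.q2533_1) q_nil)))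

theorem p2534 : Pat 73 73 TBm TCm (CB.map Fm) R0Q118.P2534 R0Q118.I2534 := Vale.Agent.P032.Lt.pat_eq (E' := R0Q118.E) eB (pat_step (by decide +kernel) (q_cons (Vale.Agent.P032.Lt.q R0Q118.q2534_0) q_nil))

theorem p2535 : Pat 73 73 TBm TCm (CB.map Fm) R0Q118.P2535 R0Q118.I2535 := Vale.Agent.P032.Lt.pat_eq (E' := R0Q118.E) eB (pat_step (by decide +kernel) (q_cons (Vale.Agent.P032.Lt.q R0Q118.q2535_0) (q_cons (Vale.Agent.P032.Lt.q R0Q118.q2535_1) (q_cons (Vale.Agent.P032.Lt.q R0Q118.q2535_2) q_nil))))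

theorem p2536 : Pat 73 73 TBm TCm (CB.map Fm) R0Q118.P2536 R0Q118.I2536 := Vale.Agent.P032.Lt.pat_eq (E' := R0Q118.E) eB (pat_step (by decide +kernel) (q_cons (Vale.Agent.P032.Lt.q R0Q118.q2536_0) (q_cons (Vale.Agent.P032.Lt.q R0Q118.q2536_1) (q_cons (Vale.Agent.P032.Lt.q R0Q118.q2536_2) (q_cons (Vale.Agent.P032.Lt.q R0Q118.q2536_3) (q_cons (Vale.Agent.P032.Lt.q R0Q118.q2536_4) (q_cons (Vale.Agent.P032.Lt.q R0Q118.q2536_5) (q_cons (Vale.Agent.P032.Lt.q R0Q118.q2536_6) (q_cons (Vale.Agent.P032.Lt.q R0Q118.q2536_7) (q_cons (Vale.Agent.P032.Lt.q R0Q118.q2536_8) (q_cons (Vale.Agent.P032.Lt.q R0Q118.q2536_9) q_nil)))))))))))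

theorem p2537 : Pat 73 73 TBm TCm (CB.map Fm) R0Q118.P2537 R0Q118.I2537 := Vale.Agent.P032.Lt.pat_eq (E' := R0Q118.E) eB (pat_step (by decide +kernel) (q_cons (Vale.Agent.P032.Lt.q R0Q118.q2537_0) (q_cons (Vale.Agent.P032.Lt.q R0Q118.q2537_1) (q_cons (Vale.Agent.P032.Lt.q R0Q118.q2537_2) q_nil))))

theorem p2538 : Pat 73 73 TBm TCm (CB.map Fm) R0Q118.P2538 R0Q118.I2538 := Vale.Agent.P032.Lt.pat_eq (E' := R0Q118.E) eB (pat_step (by decide +kernel) (q_cons (Vale.Agent.P032.Lt.q R0Q118.q2538_0) (q_cons (Vale.Agent.P032.Lt.q R0Q118.q2538_1) (q_cons (Vale.Agent.P032.Lt.q R0Q118.q2538_2) q_nil))))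

theorem p2539 : Pat 73 73 TBm TCm (CB.map Fm) R0Q118.P2539 R0Q118.I2539 := Vale.Agent.P032.Lt.pat_eq (E' := R0Q118.E) eB (pat_step (by decide +kernel) (q_cons (Vale.Agent.P032.Lt.q R0Q118.q2539_0) (q_cons (Vale.Agent.P032.Lt.q R0Q118.q2539_1) (q_cons (Vale.Agent.P032.Lt.q R0Q118.q2539_2) q_nil))))

theorem p2540 : Pat 73 73 TBm TCm (CB.map Fm) R0Q118.P2540 R0Q118.I2540 := Vale.Agent.P032.Lt.pat_eq (E' := R0Q118.E) eB (pat_step (by decide +kernel) (q_cons (Vale.Agent.P032.Lt.q R0Q118.q2540_0) (q_cons (Vale.Agent.P032.Lt.q R0Q118.q2540_1) (q_cons (Vale.Agent.P032.Lt.q R0Q118.q2540_2) q_nil))))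

theorem p2541 : Pat 73 73 TBm TCm (CB.map Fm) R0Q118.P2541 R0Q118.I2541 := Vale.Agent.P032.Lt.pat_eq (E' := R0Q118.E) eB (pat_step (by decide +kernel) (q_cons (Vale.Agent.P032.Lt.q R0Q118.q2541_0) (q_cons (Vale.Agent.P032.Lt.q R0Q118.q2541_1) (q_cons (Vale.Agent.P032.Lt.q R0Q118.q2541_2) q_nil))))

theorem p2542 : Pat 73 73 TBm TCm (CB.map Fm) R0Q119.P2542 R0Q119.I2542 := Vale.Agent.P032.Lt.pat_eq (E' := R0Q119.E) eB (pat_step (by decide +kernel) (q_cons (Vale.Agent.P032.Lt.q R0Q119.q2542_0) (q_cons (Vale.Agent.P032.Lt.q R0Q119.q2542_1) (q_cons (Vale.Agent.P032.Lt.q R0Q119.q2542_2) (q_cons (Vale.Agent.P032.Lt.q R0Q119.q2542_3) (q_cons (Vale.Agent.P032.Lt.q R0Q119.q2542_4) (q_cons (Vale.Agent.P032.Lt.q R0Q119.q2542_5) (q_cons (Vale.Agent.P032.Lt.q R0Q119.q2542_6) (q_cons (Vale.Agent.P032.Lt.q R0Q119.q2542_7) (q_cons (Vale.Agent.P032.Lt.q R0Q119.q2542_8)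 (q_cons (Vale.Agent.P032.Lt.q R0Q119.q2542_9) (q_cons (Vale.Agent.P032.Lt.q R0Q119.q2542_10) (q_cons (Vale.Agent.P032.Lt.q R0Q119.q2542_11) (q_cons (Vale.Agent.P032.Lt.q R0Q119.q2542_12) (q_cons (Vale.Agent.P032.Lt.q R0Q119.q2542_13) (q_cons (Vale.Agent.P032.Lt.q R0Q119.q2542_14) (q_cons (Vale.Agent.P032.Lt.q R0Q119.q2542_15) (q_cons (Vale.Agent.P032.Lt.q R0Q119.q2542_16) (q_cons (Vale.Agent.P032.Lt.q R0Q119.q2542_17) (q_cons (Vale.Agent.P032.Lt.q R0Q119.q2542_18) (q_cons (Vale.Agent.P032.Lt.q R0Q119.q2542_19) (q_cons (Vale.Agent.P032.Lt.q R0Q119.q2542_20) (q_cons (Vale.Agent.P032.Lt.q R0Q119.q2542_21) (q_cons (Vale.Agent.P032.Lt.q R0Q119.q2542_22) (q_cons (Vale.Agent.P032.Lt.q R0Q119.q2542_23) (q_cons (Vale.Agent.P032.Lt.q R0Q119.q2542_24) (q_cons (Vale.Agent.P032.Lt.q R0Q119.q2542_25) (q_cons (Vale.Agent.P032.Lt.q R0Q119.q2542_26) (q_cons (Vale.Agent.P032.Lt.q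 R0Q119.q2542_27) (q_cons (Vale.Agent.P032.Lt.q R0Q119.q2542_28) (q_cons (Vale.Agent.P032.Lt.q R0Q119.q2542_29) (q_cons (Vale.Agent.P032.Lt.q R0Q119.q2542_30) (q_cons (Vale.Agent.P032.Lt.q R0Q119.q2542_31) (q_cons (Vale.Agent.P032.Lt.q R0Q119.q2542_32) (q_cons (Vale.Agent.P032.Lt.q R0Q119.q2542_33) (q_cons (Vale.Agent.P032.Lt.q R0Q119.q2542_34) (q_cons (Vale.Agent.P032.Lt.q R0Q119.q2542_35) (q_cons (Vale.Agent.P032.Lt.q R0Q119.q2542_36) (q_cons (Vale.Agent.P032.Lt.q R0Q119.q2542_37) (q_cons (Vale.Agent.P032.Lt.q R0Q119.q2542_38) (q_cons (Vale.Agent.P032.Lt.q R0Q119.q2542_39) (q_cons (Vale.Agent.P032.Lt.q R0Q119.q2542_40) (q_cons (Vale.Agent.P032.Lt.q R0Q119.q2542_41) (q_cons (Vale.Agent.P032.Lt.q R0Q119.q2542_42) (q_cons (Vale.Agent.P032.Lt.q R0Q119.q2542_43) (q_cons (Vale.Agent.P032.Lt.q R0Q119.q2542_44) (q_cons (Vale.Agent.P032.Lt.q R0Q119.q2542_45)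 (q_cons (Vale.Agent.P032.Lt.q R0Q119.q2542_46) (q_cons (Vale.Agent.P032.Lt.q R0Q119.q2542_47) (q_cons (Vale.Agent.P032.Lt.q R0Q119.q2542_48) (q_cons (Vale.Agent.P032.Lt.q R0Q119.q2542_49) (q_cons (Vale.Agent.P032.Lt.q R0Q119.q2542_50) q_nil))))))))))))))))))))))))))))))))))))))))))))))))))))

theorem p2543 : Pat 73 73 TBm TCm (CB.map Fm) R0Q119.P2543 R0Q119.I2543 := Vale.Agent.P032.Lt.pat_eq (E' := R0Q119.E) eB (pat_step (by decide +kernel) (q_cons (Vale.Agent.P032.Lt.q R0Q119.q2543_0) (q_cons (Vale.Agent.P032.Lt.q R0Q119.q2543_1) (q_cons (Vale.Agent.P032.Lt.q R0Q119.q2543_2) (q_cons (Vale.Agent.P032.Lt.q R0Q119.q2543_3) q_nil)))))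

theorem p2544 : Pat 73 73 TBm TCm (CB.map Fm) R0Q119.P2544 R0Q119.I2544 := Vale.Agent.P032.Lt.pat_eq (E' := R0Q119.E) eB (pat_step (by decide +kernel) (q_cons (Vale.Agent.P032.Lt.q R0Q119.q2544_0) (q_cons (Vale.Agent.P032.Lt.q R0Q119.q2544_1) (q_cons (Vale.Agent.P032.Lt.q R0Q119.q2544_2) (q_cons (Vale.Agent.P032.Lt.q R0Q119.q2544_3) (q_cons (Vale.Agent.P032.Lt.q R0Q119.q2544_4) (q_cons (Vale.Agent.P032.Lt.q R0Q119.q2544_5) (q_cons (Vale.Agent.P032.Lt.q R0Q119.q2544_6) q_nil))))))))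

theorem p2545 : Pat 73 73 TBm TCm (CB.map Fm) R0Q119.P2545 R0Q119.I2545 := Vale.Agent.P032.Lt.pat_eq (E' := R0Q119.E) eB (pat_step (by decide +kernel) (q_cons (Vale.Agent.P032.Lt.q R0Q119.q2545_0) (q_cons (Vale.Agent.P032.Lt.q R0Q119.q2545_1) (q_cons (Vale.Agent.P032.Lt.q R0Q119.q2545_2) (q_cons (Vale.Agent.P032.Lt.q R0Q119.q2545_3) (q_cons (Vale.Agent.P032.Lt.q R0Q119.q2545_4) q_nil))))))

theorem p2546 : Pat 73 73 TBm TCm (CB.map Fm) R0Q119.P2546 R0Q119.I2546 := Vale.Agent.P032.Lt.pat_eq (E' := R0Q119.E) eB (pat_step (by decide +kernel) (q_cons (Vale.Agent.P032.Lt.q R0Q119.q2546_0) (q_cons (Vale.Agent.P032.Lt.q R0Q119.q2546_1) (q_cons (Vale.Agent.P032.Lt.q R0Q119.q2546_2) (q_cons (Vale.Agent.P032.Lt.q R0Q119.q2546_3) (q_cons (Vale.Agent.P032.Lt.q R0Q119.q2546_4) (q_cons (Vale.Agent.P032.Lt.q R0Q119.q2546_5) (q_cons (Vale.Agent.P032.Lt.q R0Q119.q2546_6)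 (q_cons (Vale.Agent.P032.Lt.q R0Q119.q2546_7) (q_cons (Vale.Agent.P032.Lt.q R0Q119.q2546_8) (q_cons (Vale.Agent.P032.Lt.q R0Q119.q2546_9) q_nil)))))))))))

theorem p2547 : Pat 73 73 TBm TCm (CB.map Fm) R0Q119.P2547 R0Q119.I2547 := Vale.Agent.P032.Lt.pat_eq (E' := R0Q119.E) eB (pat_step (by decide +kernel) (q_cons (Vale.Agent.P032.Lt.q R0Q119.q2547_0) (q_cons (Vale.Agent.P032.Lt.q R0Q119.q2547_1) (q_cons (Vale.Agent.P032.Lt.q R0Q119.q2547_2) (q_cons (Vale.Agent.P032.Lt.q R0Q119.q2547_3) (q_cons (Vale.Agent.P032.Lt.q R0Q119.q2547_4) (q_cons (Vale.Agent.P032.Lt.q R0Q119.q2547_5) (q_cons (Vale.Agent.P032.Lt.q R0Q119.q2547_6) (q_cons (Vale.Agent.P032.Lt.q R0Q119.q2547_7) (q_cons (Vale.Agent.P032.Lt.q R0Q119.q2547_8) (q_cons (Vale.Agent.P032.Lt.q R0Q119.q2547_9) (q_cons (Vale.Agent.P032.Lt.q R0Q119.q2547_10) (q_cons (Vale.Agent.P032.Lt.q R0Q119.q2547_11)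 (q_cons (Vale.Agent.P032.Lt.q R0Q119.q2547_12) (q_cons (Vale.Agent.P032.Lt.q R0Q119.q2547_13) (q_cons (Vale.Agent.P032.Lt.q R0Q119.q2547_14) (q_cons (Vale.Agent.P032.Lt.q R0Q119.q2547_15) (q_cons (Vale.Agent.P032.Lt.q R0Q119.q2547_16) (q_cons (Vale.Agent.P032.Lt.q R0Q119.q2547_17) (q_cons (Vale.Agent.P032.Lt.q R0Q119.q2547_18) (q_cons (Vale.Agent.P032.Lt.q R0Q119.q2547_19) (q_cons (Vale.Agent.P032.Lt.q R0Q119.q2547_20) (q_cons (Vale.Agent.P032.Lt.q R0Q119.q2547_21) (q_cons (Vale.Agent.P032.Lt.q R0Q119.q2547_22) (q_cons (Vale.Agent.P032.Lt.q R0Q119.q2547_23) (q_cons (Vale.Agent.P032.Lt.q R0Q119.q2547_24) (q_cons (Vale.Agent.P032.Lt.q R0Q119.q2547_25) (q_cons (Vale.Agent.P032.Lt.q R0Q119.q2547_26) q_nil))))))))))))))))))))))))))))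

theorem p2548 : Pat 73 73 TBm TCm (CB.map Fm) R0Q119.P2548 R0Q119.I2548 := Vale.Agent.P032.Lt.pat_eq (E' := R0Q119.E) eB (pat_step (by decide +kernel) (q_cons (Vale.Agent.P032.Lt.q R0Q119.q2548_0) (q_cons (Vale.Agent.P032.Lt.q R0Q119.q2548_1) (q_cons (Vale.Agent.P032.Lt.q R0Q119.q2548_2) (q_cons (Vale.Agent.P032.Lt.q R0Q119.q2548_3) (q_cons (Vale.Agent.P032.Lt.q R0Q119.q2548_4) (q_cons (Vale.Agent.P032.Lt.q R0Q119.q2548_5) (q_cons (Vale.Agent.P032.Lt.q R0Q119.q2548_6) q_nil))))))))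

theorem p2549 : Pat 73 73 TBm TCm (CB.map Fm) R0Q119.P2549 R0Q119.I2549 := Vale.Agent.P032.Lt.pat_eq (E' := R0Q119.E) eB (pat_step (by decide +kernel) (q_cons (Vale.Agent.P032.Lt.q R0Q119.q2549_0) q_nil))

def C2550 : List ℕ := [0, 4, 8, 12, 16, 20, 24, 214017, 344065, 475137, 476161, 613377, 737281]
theorem p2550 : Pat 73 73 TBm TCm (C2550.map Fm) R0Q119.P2550 R0Q119.I2550 := Vale.Agent.P032.Lt.pat_eq (E' := R0Q119.E2550) (by decide +kernel) (pat_step (by decide +kernel) (q_cons (Vale.Agent.P032.Lt.q R0Q119.q2550_0) (q_cons (Vale.Agent.P032.Lt.q R0Q119.q2550_1) (q_cons (Vale.Agent.P032.Lt.q R0Q119.q2550_2) (q_cons (Vale.Agent.P032.Lt.q R0Q119.q2550_3) (q_cons (Vale.Agent.P032.Lt.q R0Q119.q2550_4) (q_cons (Vale.Agent.P032.Lt.q R0Q119.q2550_5) (q_cons (Vale.Agent.P032.Lt.q R0Q119.q2550_6) q_nil))))))))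

theorem p2551 : Pat 73 73 TBm TCm (CB.map Fm) R0Q119.P2551 R0Q119.I2551 := Vale.Agent.P032.Lt.pat_eq (E' := R0Q119.E) eB (pat_step (by decide +kernel) (q_cons (Vale.Agent.P032.Lt.q R0Q119.q2551_0) (q_cons (Vale.Agent.P032.Lt.q R0Q119.q2551_1) q_nil)))

theorem p2552 : Pat 73 73 TBm TCm (CB.map Fm) R0Q119.P2552 R0Q119.I2552 := Vale.Agent.P032.Lt.pat_eq (E' := R0Q119.E) eB (pat_step (by decide +kernel) (q_cons (Vale.Agent.P032.Lt.q R0Q119.q2552_0) (q_cons (Vale.Agent.P032.Lt.q R0Q119.q2552_1) (q_cons (Vale.Agent.P032.Lt.q R0Q119.q2552_2) (q_cons (Vale.Agent.P032.Lt.q R0Q119.q2552_3) (q_cons (Vale.Agent.P032.Lt.q R0Q119.q2552_4) q_nil))))))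

theorem p2553 : Pat 73 73 TBm TCm (CB.map Fm) R0Q119.P2553 R0Q119.I2553 := Vale.Agent.P032.Lt.pat_eq (E' := R0Q119.E) eB (pat_step (by decide +kernel) (q_cons (Vale.Agent.P032.Lt.q R0Q119.q2553_0) q_nil))

theorem p2554 : Pat 73 73 TBm TCm (CB.map Fm) R0Q119.P2554 R0Q119.I2554 := Vale.Agent.P032.Lt.pat_eq (E' := R0Q119.E) eB (pat_step (by decide +kernel) (q_cons (Vale.Agent.P032.Lt.q R0Q119.q2554_0) q_nil))

theorem p2555 : Pat 73 73 TBm TCm (CB.map Fm) R0Q119.P2555 R0Q119.I2555 := Vale.Agent.P032.Lt.pat_eq (E' := R0Q119.E) eB (pat_step (by decide +kernel) (q_cons (Vale.Agent.P032.Lt.q R0Q119.q2555_0) (q_cons (Vale.Agent.P032.Lt.q R0Q119.q2555_1) (q_cons (Vale.Agent.P032.Lt.q R0Q119.q2555_2) q_nil))))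

theorem p2556 : Pat 73 73 TBm TCm (CB.map Fm) R0Q120.P2556 R0Q120.I2556 := Vale.Agent.P032.Lt.pat_eq (E' := R0Q120.E) eB (pat_step (by decide +kernel) (q_cons (Vale.Agent.P032.Lt.q R0Q120.q2556_0) (q_cons (Vale.Agent.P032.Lt.q R0Q120.q2556_1) (q_cons (Vale.Agent.P032.Lt.q R0Q120.q2556_2) (q_cons (Vale.Agent.P032.Lt.q R0Q120.q2556_3) (q_cons (Vale.Agent.P032.Lt.q R0Q120.q2556_4) (q_cons (Vale.Agent.P032.Lt.q R0Q120.q2556_5) (q_cons (Vale.Agent.P032.Lt.q R0Q120.q2556_6) (q_cons (Vale.Agent.P032.Lt.q R0Q120.q2556_7) (q_cons (Vale.Agent.P032.Lt.q R0Q120.q2556_8) (q_cons (Vale.Agent.P032.Lt.q R0Q120.q2556_9) (q_cons (Vale.Agent.P032.Lt.q R0Q120.q2556_10) (q_cons (Vale.Agent.P032.Lt.q R0Q120.q2556_11) (q_cons (Vale.Agent.P032.Lt.q R0Q120.q2556_12) q_nil))))))))))))))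

theorem p2557 : Pat 73 73 TBm TCm (CB.map Fm) R0Q120.P2557 R0Q120.I2557 := Vale.Agent.P032.Lt.pat_eq (E' := R0Q120.E) eB (pat_step (by decide +kernel) (q_cons (Vale.Agent.P032.Lt.q R0Q120.q2557_0) q_nil))

theorem p2558 : Pat 73 73 TBm TCm (CB.map Fm) R0Q120.P2558 R0Q120.I2558 := Vale.Agent.P032.Lt.pat_eq (E' := R0Q120.E) eB (pat_step (by decide +kernel) (q_cons (Vale.Agent.P032.Lt.q R0Q120.q2558_0) q_nil))

theorem p2559 : Pat 73 73 TBm TCm (CB.map Fm) R0Q120.P2559 R0Q120.I2559 := Vale.Agent.P032.Lt.pat_eq (E' := R0Q120.E) eB (pat_step (by decide +kernel) (q_cons (Vale.Agent.P032.Lt.q R0Q120.q2559_0) q_nil))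

def L : List (List ℕ) := [R0Q114.P2432, R0Q115.P2433, R0Q115.P2434, R0Q115.P2435, R0Q115.P2436, R0Q115.P2437, R0Q115.P2438, R0Q115.P2439, R0Q115.P2440, R0Q115.P2441, R0Q115.P2442, R0Q115.P2443, R0Q115.P2444, R0Q115.P2445, R0Q115.P2446, R0Q115.P2447, R0Q115.P2448, R0Q115.P2449, R0Q116.P2450, R0Q116.P2451, R0Q116.P2452, R0Q116.P2453, R0Q116.P2454, R0Q116.P2455, R0Q116.P2456, R0Q116.P2457, R0Q116.P2458, R0Q116.P2459, R0Q116.P2460, R0Q116.P2461, R0Q116.P2462, R0Q116.P2463, R0Q116.P2464, R0Q116.P2465, R0Q116.P2466, R0Q116.P2467, R0Q116.P2468, R0Q116.P2469, R0Q116.P2470, R0Q116.P2471, R0Q116.P2472, R0Q116.P2473, R0Q116.P2474, R0Q116.P2475, R0Q116.P2476, R0Q116.P2477, R0Q116.P2478, R0Q116.P2479, R0Q116.P2480, R0Q116.P2481, R0Q116.P2482, R0Q117.P2483, R0Q117.P2484, R0Q117.P2485, R0Q117.P2486, R0Q117.P2487, R0Q117.P2488, R0Q117.P2489, R0Q117.P2490, R0Q117.P2491,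 R0Q117.P2492, R0Q117.P2493, R0Q117.P2494, R0Q117.P2495, R0Q117.P2496, R0Q117.P2497, R0Q117.P2498, R0Q117.P2499, R0Q117.P2500, R0Q117.P2501, R0Q117.P2502, R0Q117.P2503, R0Q117.P2504, R0Q117.P2505, R0Q117.P2506, R0Q117.P2507, R0Q117.P2508, R0Q117.P2509, R0Q117.P2510, R0Q117.P2511, R0Q117.P2512, R0Q117.P2513, R0Q118.P2514, R0Q118.P2515, R0Q118.P2516, R0Q118.P2517, R0Q118.P2518, R0Q118.P2519, R0Q118.P2520, R0Q118.P2521, R0Q118.P2522, R0Q118.P2523, R0Q118.P2524, R0Q118.P2525, R0Q118.P2526, R0Q118.P2527, R0Q118.P2528, R0Q118.P2529, R0Q118.P2530, R0Q118.P2531, R0Q118.P2532, R0Q118.P2533, R0Q118.P2534, R0Q118.P2535, R0Q118.P2536, R0Q118.P2537, R0Q118.P2538, R0Q118.P2539, R0Q118.P2540, R0Q118.P2541, R0Q119.P2542, R0Q119.P2543, R0Q119.P2544, R0Q119.P2545, R0Q119.P2546, R0Q119.P2547, R0Q119.P2548, R0Q119.P2549, R0Q119.P2550, R0Q119.P2551, R0Q119.P2552, R0Q119.P2553,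 R0Q119.P2554, R0Q119.P2555, R0Q120.P2556, R0Q120.P2557, R0Q120.P2558, R0Q120.P2559]

theorem all : ∀ P ∈ L, CrtF 73 73 TBm TCm (Vale.Agent.P032.Fam.fam2 (Vale.Agent.P032.Fam.im0)) P := crtF_cons p2432 (crtF_cons p2433 (crtF_cons p2434 (crtF_cons p2435 (crtF_cons p2436 (crtF_cons p2437 (crtF_cons p2438 (crtF_cons p2439 (crtF_cons p2440 (crtF_cons p2441 (crtF_cons p2442 (crtF_cons p2443 (crtF_cons p2444 (crtF_cons p2445 (crtF_cons p2446 (crtF_cons p2447 (crtF_cons p2448 (crtF_cons p2449 (crtF_cons p2450 (crtF_cons p2451 (crtF_cons p2452 (crtF_cons p2453 (crtF_cons p2454 (crtF_cons p2455 (crtF_cons p2456 (crtF_cons p2457 (crtF_cons p2458 (crtF_cons p2459 (crtF_cons p2460 (crtF_cons p2461 (crtF_cons p2462 (crtF_cons p2463 (crtF_cons p2464 (crtF_cons p2465 (crtF_cons p2466 (crtF_cons p2467 (crtF_cons p2468 (crtF_cons p2469 (crtF_cons p2470 (crtF_cons p2471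 (crtF_cons p2472 (crtF_cons p2473 (crtF_cons p2474 (crtF_cons p2475 (crtF_cons p2476 (crtF_cons p2477 (crtF_cons p2478 (crtF_cons p2479 (crtF_cons p2480 (crtF_cons p2481 (crtF_cons p2482 (crtF_cons p2483 (crtF_cons p2484 (crtF_cons p2485 (crtF_cons p2486 (crtF_cons p2487 (crtF_cons p2488 (crtF_cons p2489 (crtF_cons p2490 (crtF_cons p2491 (crtF_cons p2492 (crtF_cons p2493 (crtF_cons p2494 (crtF_cons p2495 (crtF_cons p2496 (crtF_cons p2497 (crtF_cons p2498 (crtF_cons p2499 (crtF_cons p2500 (crtF_cons p2501 (crtF_cons p2502 (crtF_cons p2503 (crtF_cons p2504 (crtF_cons p2505 (crtF_cons p2506 (crtF_cons p2507 (crtF_cons p2508 (crtF_cons p2509 (crtF_cons p2510 (crtF_cons p2511 (crtF_cons p2512 (crtF_cons p2513 (crtF_cons p2514 (crtF_cons p2515 (crtF_cons p2516 (crtF_cons p2517 (crtF_cons p2518 (crtF_cons p2519 (crtF_cons p2520 (crtF_cons p2521 (crtF_cons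 p2522 (crtF_cons p2523 (crtF_cons p2524 (crtF_cons p2525 (crtF_cons p2526 (crtF_cons p2527 (crtF_cons p2528 (crtF_cons p2529 (crtF_cons p2530 (crtF_cons p2531 (crtF_cons p2532 (crtF_cons p2533 (crtF_cons p2534 (crtF_cons p2535 (crtF_cons p2536 (crtF_cons p2537 (crtF_cons p2538 (crtF_cons p2539 (crtF_cons p2540 (crtF_cons p2541 (crtF_cons p2542 (crtF_cons p2543 (crtF_cons p2544 (crtF_cons p2545 (crtF_cons p2546 (crtF_cons p2547 (crtF_cons p2548 (crtF_cons p2549 (crtF_cons p2550 (crtF_cons p2551 (crtF_cons p2552 (crtF_cons p2553 (crtF_cons p2554 (crtF_cons p2555 (crtF_cons p2556 (crtF_cons p2557 (crtF_cons p2558 (crtF_cons p2559 crtF_nil)))))))))))))))))))))))))))))))))))))))))))))))))))))))))))))))))))))))))))))))))))))))))))))))))))))))))))))))))))))))))))))))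

theorem ch : chT 73 73 TCm s0_019 L = true := by decide +kernel

end Vale.Agent.P032X.Cert.XP.B1.R0H019
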