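import Vale.Agent.P032X.H892.LtH
import Vale.Agent.P032X.H286.W73
import Vale.Agent.P032X.Cert.XP.B1.R0T
import Vale.Agent.P032X.Cert.XP.B1.R0Q121
import Vale.Agent.P032X.Cert.XP.B1.R0Q122
import Vale.Agent.P032X.Cert.XP.B1.R0Q123
import Vale.Agent.P032X.Cert.XP.B1.R0Q124
import Vale.Agent.P032X.Cert.XP.B1.R0Q125
import Vale.Agent.P032X.Cert.XP.B1.R0Q126

set_option maxRecDepth 1000000

namespace Vale.Agent.P032X.Cert.XP.B1.R0H020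

open Vale.Agent.P032.H820.K Vale.Agent.P032.H357.MK Vale.Agent.P032.H286.E Vale.Agent.P032.H61 Vale.Agent.P032X.Cert.XP.B1

noncomputable abbrev Fm : ℕ → List ℕ := Vale.Agent.P032.Fam.fam2 (Vale.Agent.P032.Fam.im0)

def CB : List ℕ := [0, 4, 8, 12, 16, 20, 24]

theorem eB : Vale.Agent.P032.Lt.eqLL (CB.map Fm) R0Q121.E = true := by decide +kernel

theorem p2560 : Pat 73 73 TBm TCm (CB.map Fm) R0Q121.P2560 R0Q121.I2560 := Vale.Agent.P032.Lt.pat_eq (E' := R0Q121.E) eB (pat_step (by decide +kernel) (q_cons (Vale.Agent.P032.Lt.q R0Q121.q2560_0) (q_cons (Vale.Agent.P032.Lt.q R0Q121.q2560_1) (q_cons (Vale.Agent.P032.Lt.q R0Q121.q2560_2) (q_cons (Vale.Agent.P032.Lt.q R0Q121.q2560_3) (q_cons (Vale.Agent.P032.Lt.q R0Q121.q2560_4) q_nil))))))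

theorem p2561 : Pat 73 73 TBm TCm (CB.map Fm) R0Q121.P2561 R0Q121.I2561 := Vale.Agent.P032.Lt.pat_eq (E' := R0Q121.E) eB (pat_step (by decide +kernel) (q_cons (Vale.Agent.P032.Lt.q R0Q121.q2561_0) q_nil))

theorem p2562 : Pat 73 73 TBm TCm (CB.map Fm) R0Q121.P2562 R0Q121.I2562 := Vale.Agent.P032.Lt.pat_eq (E' := R0Q121.E) eB (pat_step (by decide +kernel) (q_cons (Vale.Agent.P032.Lt.q R0Q121.q2562_0) (q_cons (Vale.Agent.P032.Lt.q R0Q121.q2562_1) (q_cons (Vale.Agent.P032.Lt.q R0Q121.q2562_2) q_nil))))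

theorem p2563 : Pat 73 73 TBm TCm (CB.map Fm) R0Q121.P2563 R0Q121.I2563 := Vale.Agent.P032.Lt.pat_eq (E' := R0Q121.E) eB (pat_step (by decide +kernel) (q_cons (Vale.Agent.P032.Lt.q R0Q121.q2563_0) q_nil))

theorem p2564 : Pat 73 73 TBm TCm (CB.map Fm) R0Q121.P2564 R0Q121.I2564 := Vale.Agent.P032.Lt.pat_eq (E' := R0Q121.E) eB (pat_step (by decide +kernel) (q_cons (Vale.Agent.P032.Lt.q R0Q121.q2564_0) q_nil))

theorem p2565 : Pat 73 73 TBm TCm (CB.map Fm) R0Q121.P2565 R0Q121.I2565 := Vale.Agent.P032.Lt.pat_eq (E' := R0Q121.E) eB (pat_step (by decide +kernel) (q_cons (Vale.Agent.P032.Lt.q R0Q121.q2565_0) (q_cons (Vale.Agent.P032.Lt.q R0Q121.q2565_1) q_nil)))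

theorem p2566 : Pat 73 73 TBm TCm (CB.map Fm) R0Q121.P2566 R0Q121.I2566 := Vale.Agent.P032.Lt.pat_eq (E' := R0Q121.E) eB (pat_step (by decide +kernel) (q_cons (Vale.Agent.P032.Lt.q R0Q121.q2566_0) (q_cons (Vale.Agent.P032.Lt.q R0Q121.q2566_1) (q_cons (Vale.Agent.P032.Lt.q R0Q121.q2566_2) (q_cons (Vale.Agent.P032.Lt.q R0Q121.q2566_3) (q_cons (Vale.Agent.P032.Lt.q R0Q121.q2566_4) (q_cons (Vale.Agent.P032.Lt.q R0Q121.q2566_5) (q_cons (Vale.Agent.P032.Lt.q R0Q121.q2566_6) (q_cons (Vale.Agent.P032.Lt.q R0Q121.q2566_7) (q_cons (Vale.Agent.P032.Lt.q R0Q121.q2566_8) q_nil))))))))))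

theorem p2567 : Pat 73 73 TBm TCm (CB.map Fm) R0Q121.P2567 R0Q121.I2567 := Vale.Agent.P032.Lt.pat_eq (E' := R0Q121.E) eB (pat_step (by decide +kernel) (q_cons (Vale.Agent.P032.Lt.q R0Q121.q2567_0) (q_cons (Vale.Agent.P032.Lt.q R0Q121.q2567_1) (q_cons (Vale.Agent.P032.Lt.q R0Q121.q2567_2) q_nil))))

theorem p2568 : Pat 73 73 TBm TCm (CB.map Fm) R0Q121.P2568 R0Q121.I2568 := Vale.Agent.P032.Lt.pat_eq (E' := R0Q121.E) eB (pat_step (by decide +kernel) (q_cons (Vale.Agent.P032.Lt.q R0Q121.q2568_0) (q_cons (Vale.Agent.P032.Lt.q R0Q121.q2568_1) (q_cons (Vale.Agent.P032.Lt.q R0Q121.q2568_2) q_nil))))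

theorem p2569 : Pat 73 73 TBm TCm (CB.map Fm) R0Q121.P2569 R0Q121.I2569 := Vale.Agent.P032.Lt.pat_eq (E' := R0Q121.E) eB (pat_step (by decide +kernel) (q_cons (Vale.Agent.P032.Lt.q R0Q121.q2569_0) (q_cons (Vale.Agent.P032.Lt.q R0Q121.q2569_1) (q_cons (Vale.Agent.P032.Lt.q R0Q121.q2569_2) (q_cons (Vale.Agent.P032.Lt.q R0Q121.q2569_3) (q_cons (Vale.Agent.P032.Lt.q R0Q121.q2569_4) q_nil))))))

theorem p2570 : Pat 73 73 TBm TCm (CB.map Fm) R0Q121.P2570 R0Q121.I2570 := Vale.Agent.P032.Lt.pat_eq (E' := R0Q121.E) eB (pat_step (by decide +kernel) (q_cons (Vale.Agent.P032.Lt.q R0Q121.q2570_0) (q_cons (Vale.Agent.P032.Lt.q R0Q121.q2570_1) (q_cons (Vale.Agent.P032.Lt.q R0Q121.q2570_2) (q_cons (Vale.Agent.P032.Lt.q R0Q121.q2570_3) (q_cons (Vale.Agent.P032.Lt.q R0Q121.q2570_4) (q_cons (Vale.Agent.P032.Lt.q R0Q121.q2570_5) (q_cons (Vale.Agent.P032.Lt.q R0Q121.q2570_6)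 (q_cons (Vale.Agent.P032.Lt.q R0Q121.q2570_7) (q_cons (Vale.Agent.P032.Lt.q R0Q121.q2570_8) (q_cons (Vale.Agent.P032.Lt.q R0Q121.q2570_9) (q_cons (Vale.Agent.P032.Lt.q R0Q121.q2570_10) (q_cons (Vale.Agent.P032.Lt.q R0Q121.q2570_11) q_nil)))))))))))))

theorem p2571 : Pat 73 73 TBm TCm (CB.map Fm) R0Q121.P2571 R0Q121.I2571 := Vale.Agent.P032.Lt.pat_eq (E' := R0Q121.E) eB (pat_step (by decide +kernel) (q_cons (Vale.Agent.P032.Lt.q R0Q121.q2571_0) (q_cons (Vale.Agent.P032.Lt.q R0Q121.q2571_1) (q_cons (Vale.Agent.P032.Lt.q R0Q121.q2571_2) (q_cons (Vale.Agent.P032.Lt.q R0Q121.q2571_3) q_nil)))))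

theorem p2572 : Pat 73 73 TBm TCm (CB.map Fm) R0Q121.P2572 R0Q121.I2572 := Vale.Agent.P032.Lt.pat_eq (E' := R0Q121.E) eB (pat_step (by decide +kernel) (q_cons (Vale.Agent.P032.Lt.q R0Q121.q2572_0) q_nil))

def C2573 : List ℕ := [0, 4, 8, 12, 16, 20, 24, 475137]
theorem p2573 : Pat 73 73 TBm TCm (C2573.map Fm) R0Q121.P2573 R0Q121.I2573 := Vale.Agent.P032.Lt.pat_eq (E' := R0Q121.E2573) (by decide +kernel) (pat_step (by decide +kernel) (q_cons (Vale.Agent.P032.Lt.q R0Q121.q2573_0) q_nil))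

theorem p2574 : Pat 73 73 TBm TCm (CB.map Fm) R0Q121.P2574 R0Q121.I2574 := Vale.Agent.P032.Lt.pat_eq (E' := R0Q121.E) eB (pat_step (by decide +kernel) (q_cons (Vale.Agent.P032.Lt.q R0Q121.q2574_0) q_nil))

def C2575 : List ℕ := [0, 4, 8, 12, 16, 20, 24, 212993, 347137, 355329, 476161, 606209, 737281]
theorem p2575 : Pat 73 73 TBm TCm (C2575.map Fm) R0Q121.P2575 R0Q121.I2575 := Vale.Agent.P032.Lt.pat_eq (E' := R0Q121.E2575) (by decide +kernel) (pat_step (by decide +kernel) (q_cons (Vale.Agent.P032.Lt.q R0Q121.q2575_0) (q_cons (Vale.Agent.P032.Lt.q R0Q121.q2575_1) (q_cons (Vale.Agent.P032.Lt.q R0Q121.q2575_2) (q_cons (Vale.Agent.P032.Lt.q R0Q121.q2575_3) q_nil)))))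

theorem p2576 : Pat 73 73 TBm TCm (CB.map Fm) R0Q121.P2576 R0Q121.I2576 := Vale.Agent.P032.Lt.pat_eq (E' := R0Q121.E) eB (pat_step (by decide +kernel) (q_cons (Vale.Agent.P032.Lt.q R0Q121.q2576_0) (q_cons (Vale.Agent.P032.Lt.q R0Q121.q2576_1) (q_cons (Vale.Agent.P032.Lt.q R0Q121.q2576_2) (q_cons (Vale.Agent.P032.Lt.q R0Q121.q2576_3) (q_cons (Vale.Agent.P032.Lt.q R0Q121.q2576_4) (q_cons (Vale.Agent.P032.Lt.q R0Q121.q2576_5) (q_cons (Vale.Agent.P032.Lt.q R0Q121.q2576_6) (q_cons (Vale.Agent.P032.Lt.q R0Q121.q2576_7) q_nil)))))))))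

theorem p2577 : Pat 73 73 TBm TCm (CB.map Fm) R0Q121.P2577 R0Q121.I2577 := Vale.Agent.P032.Lt.pat_eq (E' := R0Q121.E) eB (pat_step (by decide +kernel) (q_cons (Vale.Agent.P032.Lt.q R0Q121.q2577_0) q_nil))

theorem p2578 : Pat 73 73 TBm TCm (CB.map Fm) R0Q121.P2578 R0Q121.I2578 := Vale.Agent.P032.Lt.pat_eq (E' := R0Q121.E) eB (pat_step (by decide +kernel) (q_cons (Vale.Agent.P032.Lt.q R0Q121.q2578_0) (q_cons (Vale.Agent.P032.Lt.q R0Q121.q2578_1) (q_cons (Vale.Agent.P032.Lt.q R0Q121.q2578_2) q_nil))))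

theorem p2579 : Pat 73 73 TBm TCm (CB.map Fm) R0Q121.P2579 R0Q121.I2579 := Vale.Agent.P032.Lt.pat_eq (E' := R0Q121.E) eB (pat_step (by decide +kernel) (q_cons (Vale.Agent.P032.Lt.q R0Q121.q2579_0) (q_cons (Vale.Agent.P032.Lt.q R0Q121.q2579_1) (q_cons (Vale.Agent.P032.Lt.q R0Q121.q2579_2) (q_cons (Vale.Agent.P032.Lt.q R0Q121.q2579_3) (q_cons (Vale.Agent.P032.Lt.q R0Q121.q2579_4) (q_cons (Vale.Agent.P032.Lt.q R0Q121.q2579_5) (q_cons (Vale.Agent.P032.Lt.q R0Q121.q2579_6) (q_cons (Vale.Agent.P032.Lt.q R0Q121.q2579_7) (q_cons (Vale.Agent.P032.Lt.q R0Q121.q2579_8) (q_cons (Vale.Agent.P032.Lt.q R0Q121.q2579_9) (q_cons (Vale.Agent.P032.Lt.q R0Q121.q2579_10) (q_cons (Vale.Agent.P032.Lt.q R0Q121.q2579_11) (q_cons (Vale.Agent.P032.Lt.q R0Q121.q2579_12) (q_cons (Vale.Agent.P032.Lt.q R0Q121.q2579_13) (q_cons (Vale.Agent.P032.Lt.q R0Q121.q2579_14) (q_cons (Vale.Agent.P032.Lt.q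 R0Q121.q2579_15) (q_cons (Vale.Agent.P032.Lt.q R0Q121.q2579_16) (q_cons (Vale.Agent.P032.Lt.q R0Q121.q2579_17) (q_cons (Vale.Agent.P032.Lt.q R0Q121.q2579_18) (q_cons (Vale.Agent.P032.Lt.q R0Q121.q2579_19) (q_cons (Vale.Agent.P032.Lt.q R0Q121.q2579_20) (q_cons (Vale.Agent.P032.Lt.q R0Q121.q2579_21) (q_cons (Vale.Agent.P032.Lt.q R0Q121.q2579_22) (q_cons (Vale.Agent.P032.Lt.q R0Q121.q2579_23) (q_cons (Vale.Agent.P032.Lt.q R0Q121.q2579_24) (q_cons (Vale.Agent.P032.Lt.q R0Q121.q2579_25) (q_cons (Vale.Agent.P032.Lt.q R0Q121.q2579_26) (q_cons (Vale.Agent.P032.Lt.q R0Q121.q2579_27) (q_cons (Vale.Agent.P032.Lt.q R0Q121.q2579_28) (q_cons (Vale.Agent.P032.Lt.q R0Q121.q2579_29) (q_cons (Vale.Agent.P032.Lt.q R0Q121.q2579_30) (q_cons (Vale.Agent.P032.Lt.q R0Q121.q2579_31) (q_cons (Vale.Agent.P032.Lt.q R0Q121.q2579_32) (q_cons (Vale.Agent.P032.Lt.q R0Q121.q2579_33)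 (q_cons (Vale.Agent.P032.Lt.q R0Q121.q2579_34) (q_cons (Vale.Agent.P032.Lt.q R0Q121.q2579_35) (q_cons (Vale.Agent.P032.Lt.q R0Q121.q2579_36) (q_cons (Vale.Agent.P032.Lt.q R0Q121.q2579_37) (q_cons (Vale.Agent.P032.Lt.q R0Q121.q2579_38) (q_cons (Vale.Agent.P032.Lt.q R0Q121.q2579_39) (q_cons (Vale.Agent.P032.Lt.q R0Q121.q2579_40) (q_cons (Vale.Agent.P032.Lt.q R0Q121.q2579_41) (q_cons (Vale.Agent.P032.Lt.q R0Q121.q2579_42) (q_cons (Vale.Agent.P032.Lt.q R0Q121.q2579_43) (q_cons (Vale.Agent.P032.Lt.q R0Q121.q2579_44) (q_cons (Vale.Agent.P032.Lt.q R0Q121.q2579_45) q_nil)))))))))))))))))))))))))))))))))))))))))))))))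

theorem p2580 : Pat 73 73 TBm TCm (CB.map Fm) R0Q121.P2580 R0Q121.I2580 := Vale.Agent.P032.Lt.pat_eq (E' := R0Q121.E) eB (pat_step (by decide +kernel) (q_cons (Vale.Agent.P032.Lt.q R0Q121.q2580_0) (q_cons (Vale.Agent.P032.Lt.q R0Q121.q2580_1) (q_cons (Vale.Agent.P032.Lt.q R0Q121.q2580_2) (q_cons (Vale.Agent.P032.Lt.q R0Q121.q2580_3) (q_cons (Vale.Agent.P032.Lt.q R0Q121.q2580_4) q_nil))))))

theorem p2581 : Pat 73 73 TBm TCm (CB.map Fm) R0Q121.P2581 R0Q121.I2581 := Vale.Agent.P032.Lt.pat_eq (E' := R0Q121.E) eB (pat_step (by decide +kernel) (q_cons (Vale.Agent.P032.Lt.q R0Q121.q2581_0) (q_cons (Vale.Agent.P032.Lt.q R0Q121.q2581_1) q_nil)))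

theorem p2582 : Pat 73 73 TBm TCm (CB.map Fm) R0Q122.P2582 R0Q122.I2582 := Vale.Agent.P032.Lt.pat_eq (E' := R0Q122.E) eB (pat_step (by decide +kernel) (q_cons (Vale.Agent.P032.Lt.q R0Q122.q2582_0) (q_cons (Vale.Agent.P032.Lt.q R0Q122.q2582_1) (q_cons (Vale.Agent.P032.Lt.q R0Q122.q2582_2) (q_cons (Vale.Agent.P032.Lt.q R0Q122.q2582_3) (q_cons (Vale.Agent.P032.Lt.q R0Q122.q2582_4) (q_cons (Vale.Agent.P032.Lt.q R0Q122.q2582_5) (q_cons (Vale.Agent.P032.Lt.q R0Q122.q2582_6) (q_cons (Vale.Agent.P032.Lt.q R0Q122.q2582_7) (q_cons (Vale.Agent.P032.Lt.q R0Q122.q2582_8) (q_cons (Vale.Agent.P032.Lt.q R0Q122.q2582_9) (q_cons (Vale.Agent.P032.Lt.q R0Q122.q2582_10) (q_cons (Vale.Agent.P032.Lt.q R0Q122.q2582_11) (q_cons (Vale.Agent.P032.Lt.q R0Q122.q2582_12) (q_cons (Vale.Agent.P032.Lt.q R0Q122.q2582_13) (q_cons (Vale.Agent.P032.Lt.q R0Q122.q2582_14) q_nil))))))))))))))))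

theorem p2583 : Pat 73 73 TBm TCm (CB.map Fm) R0Q122.P2583 R0Q122.I2583 := Vale.Agent.P032.Lt.pat_eq (E' := R0Q122.E) eB (pat_step (by decide +kernel) (q_cons (Vale.Agent.P032.Lt.q R0Q122.q2583_0) (q_cons (Vale.Agent.P032.Lt.q R0Q122.q2583_1) (q_cons (Vale.Agent.P032.Lt.q R0Q122.q2583_2) q_nil))))

def C2584 : List ℕ := [0, 4, 8, 12, 16, 20, 24, 82945, 216065, 347137]
theorem p2584 : Pat 73 73 TBm TCm (C2584.map Fm) R0Q122.P2584 R0Q122.I2584 := Vale.Agent.P032.Lt.pat_eq (E' := R0Q122.E2584) (by decide +kernel) (pat_step (by decide +kernel) (q_cons (Vale.Agent.P032.Lt.q R0Q122.q2584_0) (q_cons (Vale.Agent.P032.Lt.q R0Q122.q2584_1) (q_cons (Vale.Agent.P032.Lt.q R0Q122.q2584_2) (q_cons (Vale.Agent.P032.Lt.q R0Q122.q2584_3) q_nil)))))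

theorem p2585 : Pat 73 73 TBm TCm (CB.map Fm) R0Q122.P2585 R0Q122.I2585 := Vale.Agent.P032.Lt.pat_eq (E' := R0Q122.E) eB (pat_step (by decide +kernel) (q_cons (Vale.Agent.P032.Lt.q R0Q122.q2585_0) (q_cons (Vale.Agent.P032.Lt.q R0Q122.q2585_1) (q_cons (Vale.Agent.P032.Lt.q R0Q122.q2585_2) q_nil))))

theorem p2586 : Pat 73 73 TBm TCm (CB.map Fm) R0Q122.P2586 R0Q122.I2586 := Vale.Agent.P032.Lt.pat_eq (E' := R0Q122.E) eB (pat_step (by decide +kernel) (q_cons (Vale.Agent.P032.Lt.q R0Q122.q2586_0) (q_cons (Vale.Agent.P032.Lt.q R0Q122.q2586_1) (q_cons (Vale.Agent.P032.Lt.q R0Q122.q2586_2) (q_cons (Vale.Agent.P032.Lt.q R0Q122.q2586_3) (q_cons (Vale.Agent.P032.Lt.q R0Q122.q2586_4) (q_cons (Vale.Agent.P032.Lt.q R0Q122.q2586_5) (q_cons (Vale.Agent.P032.Lt.q R0Q122.q2586_6) (q_cons (Vale.Agent.P032.Lt.q R0Q122.q2586_7) (q_cons (Vale.Agent.P032.Lt.q R0Q122.q2586_8)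 (q_cons (Vale.Agent.P032.Lt.q R0Q122.q2586_9) (q_cons (Vale.Agent.P032.Lt.q R0Q122.q2586_10) (q_cons (Vale.Agent.P032.Lt.q R0Q122.q2586_11) q_nil)))))))))))))

theorem p2587 : Pat 73 73 TBm TCm (CB.map Fm) R0Q122.P2587 R0Q122.I2587 := Vale.Agent.P032.Lt.pat_eq (E' := R0Q122.E) eB (pat_step (by decide +kernel) (q_cons (Vale.Agent.P032.Lt.q R0Q122.q2587_0) (q_cons (Vale.Agent.P032.Lt.q R0Q122.q2587_1) (q_cons (Vale.Agent.P032.Lt.q R0Q122.q2587_2) q_nil))))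

theorem p2588 : Pat 73 73 TBm TCm (CB.map Fm) R0Q122.P2588 R0Q122.I2588 := Vale.Agent.P032.Lt.pat_eq (E' := R0Q122.E) eB (pat_step (by decide +kernel) (q_cons (Vale.Agent.P032.Lt.q R0Q122.q2588_0) (q_cons (Vale.Agent.P032.Lt.q R0Q122.q2588_1) q_nil)))

theorem p2589 : Pat 73 73 TBm TCm (CB.map Fm) R0Q122.P2589 R0Q122.I2589 := Vale.Agent.P032.Lt.pat_eq (E' := R0Q122.E) eB (pat_step (by decide +kernel) (q_cons (Vale.Agent.P032.Lt.q R0Q122.q2589_0) q_nil))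

theorem p2590 : Pat 73 73 TBm TCm (CB.map Fm) R0Q122.P2590 R0Q122.I2590 := Vale.Agent.P032.Lt.pat_eq (E' := R0Q122.E) eB (pat_step (by decide +kernel) (q_cons (Vale.Agent.P032.Lt.q R0Q122.q2590_0) (q_cons (Vale.Agent.P032.Lt.q R0Q122.q2590_1) (q_cons (Vale.Agent.P032.Lt.q R0Q122.q2590_2) (q_cons (Vale.Agent.P032.Lt.q R0Q122.q2590_3) (q_cons (Vale.Agent.P032.Lt.q R0Q122.q2590_4) (q_cons (Vale.Agent.P032.Lt.q R0Q122.q2590_5) (q_cons (Vale.Agent.P032.Lt.q R0Q122.q2590_6) (q_cons (Vale.Agent.P032.Lt.q R0Q122.q2590_7) q_nil)))))))))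

theorem p2591 : Pat 73 73 TBm TCm (CB.map Fm) R0Q122.P2591 R0Q122.I2591 := Vale.Agent.P032.Lt.pat_eq (E' := R0Q122.E) eB (pat_step (by decide +kernel) (q_cons (Vale.Agent.P032.Lt.q R0Q122.q2591_0) (q_cons (Vale.Agent.P032.Lt.q R0Q122.q2591_1) (q_cons (Vale.Agent.P032.Lt.q R0Q122.q2591_2) (q_cons (Vale.Agent.P032.Lt.q R0Q122.q2591_3) (q_cons (Vale.Agent.P032.Lt.q R0Q122.q2591_4) (q_cons (Vale.Agent.P032.Lt.q R0Q122.q2591_5) (q_cons (Vale.Agent.P032.Lt.q R0Q122.q2591_6) (q_cons (Vale.Agent.P032.Lt.q R0Q122.q2591_7) q_nil)))))))))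

theorem p2592 : Pat 73 73 TBm TCm (CB.map Fm) R0Q122.P2592 R0Q122.I2592 := Vale.Agent.P032.Lt.pat_eq (E' := R0Q122.E) eB (pat_step (by decide +kernel) (q_cons (Vale.Agent.P032.Lt.q R0Q122.q2592_0) q_nil))

theorem p2593 : Pat 73 73 TBm TCm (CB.map Fm) R0Q122.P2593 R0Q122.I2593 := Vale.Agent.P032.Lt.pat_eq (E' := R0Q122.E) eB (pat_step (by decide +kernel) (q_cons (Vale.Agent.P032.Lt.q R0Q122.q2593_0) q_nil))

theorem p2594 : Pat 73 73 TBm TCm (CB.map Fm) R0Q122.P2594 R0Q122.I2594 := Vale.Agent.P032.Lt.pat_eq (E' := R0Q122.E) eB (pat_step (by decide +kernel) (q_cons (Vale.Agent.P032.Lt.q R0Q122.q2594_0) (q_cons (Vale.Agent.P032.Lt.q R0Q122.q2594_1) (q_cons (Vale.Agent.P032.Lt.q R0Q122.q2594_2) (q_cons (Vale.Agent.P032.Lt.q R0Q122.q2594_3) (q_cons (Vale.Agent.P032.Lt.q R0Q122.q2594_4) (q_cons (Vale.Agent.P032.Lt.q R0Q122.q2594_5) (q_cons (Vale.Agent.P032.Lt.q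 R0Q122.q2594_6) (q_cons (Vale.Agent.P032.Lt.q R0Q122.q2594_7) (q_cons (Vale.Agent.P032.Lt.q R0Q122.q2594_8) (q_cons (Vale.Agent.P032.Lt.q R0Q122.q2594_9) (q_cons (Vale.Agent.P032.Lt.q R0Q122.q2594_10) q_nil))))))))))))

theorem p2595 : Pat 73 73 TBm TCm (CB.map Fm) R0Q122.P2595 R0Q122.I2595 := Vale.Agent.P032.Lt.pat_eq (E' := R0Q122.E) eB (pat_step (by decide +kernel) (q_cons (Vale.Agent.P032.Lt.q R0Q122.q2595_0) (q_cons (Vale.Agent.P032.Lt.q R0Q122.q2595_1) (q_cons (Vale.Agent.P032.Lt.q R0Q122.q2595_2) (q_cons (Vale.Agent.P032.Lt.q R0Q122.q2595_3) (q_cons (Vale.Agent.P032.Lt.q R0Q122.q2595_4) (q_cons (Vale.Agent.P032.Lt.q R0Q122.q2595_5) (q_cons (Vale.Agent.P032.Lt.q R0Q122.q2595_6) (q_cons (Vale.Agent.P032.Lt.q R0Q122.q2595_7) (q_cons (Vale.Agent.P032.Lt.q R0Q122.q2595_8) (q_cons (Vale.Agent.P032.Lt.q R0Q122.q2595_9) q_nil)))))))))))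

theorem p2596 : Pat 73 73 TBm TCm (CB.map Fm) R0Q122.P2596 R0Q122.I2596 := Vale.Agent.P032.Lt.pat_eq (E' := R0Q122.E) eB (pat_step (by decide +kernel) (q_cons (Vale.Agent.P032.Lt.q R0Q122.q2596_0) (q_cons (Vale.Agent.P032.Lt.q R0Q122.q2596_1) (q_cons (Vale.Agent.P032.Lt.q R0Q122.q2596_2) (q_cons (Vale.Agent.P032.Lt.q R0Q122.q2596_3) (q_cons (Vale.Agent.P032.Lt.q R0Q122.q2596_4) (q_cons (Vale.Agent.P032.Lt.q R0Q122.q2596_5) (q_cons (Vale.Agent.P032.Lt.q R0Q122.q2596_6) (q_cons (Vale.Agent.P032.Lt.q R0Q122.q2596_7) (q_cons (Vale.Agent.P032.Lt.q R0Q122.q2596_8) (q_cons (Vale.Agent.P032.Lt.q R0Q122.q2596_9) (q_cons (Vale.Agent.P032.Lt.q R0Q122.q2596_10) (q_cons (Vale.Agent.P032.Lt.q R0Q122.q2596_11) (q_cons (Vale.Agent.P032.Lt.q R0Q122.q2596_12) (q_cons (Vale.Agent.P032.Lt.q R0Q122.q2596_13) (q_cons (Vale.Agent.P032.Lt.q R0Q122.q2596_14) (q_cons (Vale.Agent.P032.Lt.q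 R0Q122.q2596_15) (q_cons (Vale.Agent.P032.Lt.q R0Q122.q2596_16) q_nil))))))))))))))))))

theorem p2597 : Pat 73 73 TBm TCm (CB.map Fm) R0Q122.P2597 R0Q122.I2597 := Vale.Agent.P032.Lt.pat_eq (E' := R0Q122.E) eB (pat_step (by decide +kernel) (q_cons (Vale.Agent.P032.Lt.q R0Q122.q2597_0) (q_cons (Vale.Agent.P032.Lt.q R0Q122.q2597_1) (q_cons (Vale.Agent.P032.Lt.q R0Q122.q2597_2) (q_cons (Vale.Agent.P032.Lt.q R0Q122.q2597_3) (q_cons (Vale.Agent.P032.Lt.q R0Q122.q2597_4) (q_cons (Vale.Agent.P032.Lt.q R0Q122.q2597_5) (q_cons (Vale.Agent.P032.Lt.q R0Q122.q2597_6) (q_cons (Vale.Agent.P032.Lt.q R0Q122.q2597_7) (q_cons (Vale.Agent.P032.Lt.q R0Q122.q2597_8) (q_cons (Vale.Agent.P032.Lt.q R0Q122.q2597_9) (q_cons (Vale.Agent.P032.Lt.q R0Q122.q2597_10) (q_cons (Vale.Agent.P032.Lt.q R0Q122.q2597_11) (q_cons (Vale.Agent.P032.Lt.q R0Q122.q2597_12) (q_cons (Vale.Agent.P032.Lt.q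 R0Q122.q2597_13) (q_cons (Vale.Agent.P032.Lt.q R0Q122.q2597_14) (q_cons (Vale.Agent.P032.Lt.q R0Q122.q2597_15) (q_cons (Vale.Agent.P032.Lt.q R0Q122.q2597_16) (q_cons (Vale.Agent.P032.Lt.q R0Q122.q2597_17) (q_cons (Vale.Agent.P032.Lt.q R0Q122.q2597_18) (q_cons (Vale.Agent.P032.Lt.q R0Q122.q2597_19) (q_cons (Vale.Agent.P032.Lt.q R0Q122.q2597_20) (q_cons (Vale.Agent.P032.Lt.q R0Q122.q2597_21) (q_cons (Vale.Agent.P032.Lt.q R0Q122.q2597_22) (q_cons (Vale.Agent.P032.Lt.q R0Q122.q2597_23) (q_cons (Vale.Agent.P032.Lt.q R0Q122.q2597_24) (q_cons (Vale.Agent.P032.Lt.q R0Q122.q2597_25) (q_cons (Vale.Agent.P032.Lt.q R0Q122.q2597_26) (q_cons (Vale.Agent.P032.Lt.q R0Q122.q2597_27) (q_cons (Vale.Agent.P032.Lt.q R0Q122.q2597_28) q_nil))))))))))))))))))))))))))))))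

theorem p2598 : Pat 73 73 TBm TCm (CB.map Fm) R0Q123.P2598 R0Q123.I2598 := Vale.Agent.P032.Lt.pat_eq (E' := R0Q123.E) eB (pat_step (by decide +kernel) (q_cons (Vale.Agent.P032.Lt.q R0Q123.q2598_0) (q_cons (Vale.Agent.P032.Lt.q R0Q123.q2598_1) (q_cons (Vale.Agent.P032.Lt.q R0Q123.q2598_2) (q_cons (Vale.Agent.P032.Lt.q R0Q123.q2598_3) (q_cons (Vale.Agent.P032.Lt.q R0Q123.q2598_4) (q_cons (Vale.Agent.P032.Lt.q R0Q123.q2598_5) (q_cons (Vale.Agent.P032.Lt.q R0Q123.q2598_6) (q_cons (Vale.Agent.P032.Lt.q R0Q123.q2598_7) (q_cons (Vale.Agent.P032.Lt.q R0Q123.q2598_8) (q_cons (Vale.Agent.P032.Lt.q R0Q123.q2598_9) (q_cons (Vale.Agent.P032.Lt.q R0Q123.q2598_10) q_nil))))))))))))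

theorem p2599 : Pat 73 73 TBm TCm (CB.map Fm) R0Q123.P2599 R0Q123.I2599 := Vale.Agent.P032.Lt.pat_eq (E' := R0Q123.E) eB (pat_step (by decide +kernel) (q_cons (Vale.Agent.P032.Lt.q R0Q123.q2599_0) (q_cons (Vale.Agent.P032.Lt.q R0Q123.q2599_1) (q_cons (Vale.Agent.P032.Lt.q R0Q123.q2599_2) (q_cons (Vale.Agent.P032.Lt.q R0Q123.q2599_3) (q_cons (Vale.Agent.P032.Lt.q R0Q123.q2599_4) (q_cons (Vale.Agent.P032.Lt.q R0Q123.q2599_5) (q_cons (Vale.Agent.P032.Lt.q R0Q123.q2599_6) (q_cons (Vale.Agent.P032.Lt.q R0Q123.q2599_7) (q_cons (Vale.Agent.P032.Lt.q R0Q123.q2599_8) (q_cons (Vale.Agent.P032.Lt.q R0Q123.q2599_9) (q_cons (Vale.Agent.P032.Lt.q R0Q123.q2599_10) (q_cons (Vale.Agent.P032.Lt.q R0Q123.q2599_11) q_nil)))))))))))))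

theorem p2600 : Pat 73 73 TBm TCm (CB.map Fm) R0Q123.P2600 R0Q123.I2600 := Vale.Agent.P032.Lt.pat_eq (E' := R0Q123.E) eB (pat_step (by decide +kernel) (q_cons (Vale.Agent.P032.Lt.q R0Q123.q2600_0) (q_cons (Vale.Agent.P032.Lt.q R0Q123.q2600_1) (q_cons (Vale.Agent.P032.Lt.q R0Q123.q2600_2) (q_cons (Vale.Agent.P032.Lt.q R0Q123.q2600_3) (q_cons (Vale.Agent.P032.Lt.q R0Q123.q2600_4) (q_cons (Vale.Agent.P032.Lt.q R0Q123.q2600_5) (q_cons (Vale.Agent.P032.Lt.q R0Q123.q2600_6) (q_cons (Vale.Agent.P032.Lt.q R0Q123.q2600_7) (q_cons (Vale.Agent.P032.Lt.q R0Q123.q2600_8) (q_cons (Vale.Agent.P032.Lt.q R0Q123.q2600_9) (q_cons (Vale.Agent.P032.Lt.q R0Q123.q2600_10) (q_cons (Vale.Agent.P032.Lt.q R0Q123.q2600_11) (q_cons (Vale.Agent.P032.Lt.q R0Q123.q2600_12) (q_cons (Vale.Agent.P032.Lt.q R0Q123.q2600_13) (q_cons (Vale.Agent.P032.Lt.q R0Q123.q2600_14) (q_cons (Vale.Agent.P032.Lt.q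 R0Q123.q2600_15) (q_cons (Vale.Agent.P032.Lt.q R0Q123.q2600_16) (q_cons (Vale.Agent.P032.Lt.q R0Q123.q2600_17) (q_cons (Vale.Agent.P032.Lt.q R0Q123.q2600_18) (q_cons (Vale.Agent.P032.Lt.q R0Q123.q2600_19) (q_cons (Vale.Agent.P032.Lt.q R0Q123.q2600_20) q_nil))))))))))))))))))))))

theorem p2601 : Pat 73 73 TBm TCm (CB.map Fm) R0Q123.P2601 R0Q123.I2601 := Vale.Agent.P032.Lt.pat_eq (E' := R0Q123.E) eB (pat_step (by decide +kernel) (q_cons (Vale.Agent.P032.Lt.q R0Q123.q2601_0) (q_cons (Vale.Agent.P032.Lt.q R0Q123.q2601_1) (q_cons (Vale.Agent.P032.Lt.q R0Q123.q2601_2) (q_cons (Vale.Agent.P032.Lt.q R0Q123.q2601_3) (q_cons (Vale.Agent.P032.Lt.q R0Q123.q2601_4) (q_cons (Vale.Agent.P032.Lt.q R0Q123.q2601_5) (q_cons (Vale.Agent.P032.Lt.q R0Q123.q2601_6) (q_cons (Vale.Agent.P032.Lt.q R0Q123.q2601_7) (q_cons (Vale.Agent.P032.Lt.q R0Q123.q2601_8) (q_cons (Vale.Agent.P032.Lt.q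 R0Q123.q2601_9) q_nil)))))))))))

theorem p2602 : Pat 73 73 TBm TCm (CB.map Fm) R0Q123.P2602 R0Q123.I2602 := Vale.Agent.P032.Lt.pat_eq (E' := R0Q123.E) eB (pat_step (by decide +kernel) (q_cons (Vale.Agent.P032.Lt.q R0Q123.q2602_0) (q_cons (Vale.Agent.P032.Lt.q R0Q123.q2602_1) (q_cons (Vale.Agent.P032.Lt.q R0Q123.q2602_2) (q_cons (Vale.Agent.P032.Lt.q R0Q123.q2602_3) (q_cons (Vale.Agent.P032.Lt.q R0Q123.q2602_4) (q_cons (Vale.Agent.P032.Lt.q R0Q123.q2602_5) (q_cons (Vale.Agent.P032.Lt.q R0Q123.q2602_6) q_nil))))))))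

theorem p2603 : Pat 73 73 TBm TCm (CB.map Fm) R0Q123.P2603 R0Q123.I2603 := Vale.Agent.P032.Lt.pat_eq (E' := R0Q123.E) eB (pat_step (by decide +kernel) (q_cons (Vale.Agent.P032.Lt.q R0Q123.q2603_0) (q_cons (Vale.Agent.P032.Lt.q R0Q123.q2603_1) q_nil)))

theorem p2604 : Pat 73 73 TBm TCm (CB.map Fm) R0Q123.P2604 R0Q123.I2604 := Vale.Agent.P032.Lt.pat_eq (E' := R0Q123.E) eB (pat_step (by decide +kernel) (q_cons (Vale.Agent.P032.Lt.q R0Q123.q2604_0) (q_cons (Vale.Agent.P032.Lt.q R0Q123.q2604_1) (q_cons (Vale.Agent.P032.Lt.q R0Q123.q2604_2) (q_cons (Vale.Agent.P032.Lt.q R0Q123.q2604_3) (q_cons (Vale.Agent.P032.Lt.q R0Q123.q2604_4) q_nil))))))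

theorem p2605 : Pat 73 73 TBm TCm (CB.map Fm) R0Q123.P2605 R0Q123.I2605 := Vale.Agent.P032.Lt.pat_eq (E' := R0Q123.E) eB (pat_step (by decide +kernel) (q_cons (Vale.Agent.P032.Lt.q R0Q123.q2605_0) (q_cons (Vale.Agent.P032.Lt.q R0Q123.q2605_1) (q_cons (Vale.Agent.P032.Lt.q R0Q123.q2605_2) (q_cons (Vale.Agent.P032.Lt.q R0Q123.q2605_3) (q_cons (Vale.Agent.P032.Lt.q R0Q123.q2605_4) q_nil))))))

theorem p2606 : Pat 73 73 TBm TCm (CB.map Fm) R0Q123.P2606 R0Q123.I2606 := Vale.Agent.P032.Lt.pat_eq (E' := R0Q123.E) eB (pat_step (by decide +kernel) (q_cons (Vale.Agent.P032.Lt.q R0Q123.q2606_0) (q_cons (Vale.Agent.P032.Lt.q R0Q123.q2606_1) q_nil)))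

theorem p2607 : Pat 73 73 TBm TCm (CB.map Fm) R0Q123.P2607 R0Q123.I2607 := Vale.Agent.P032.Lt.pat_eq (E' := R0Q123.E) eB (pat_step (by decide +kernel) (q_cons (Vale.Agent.P032.Lt.q R0Q123.q2607_0) q_nil))

theorem p2608 : Pat 73 73 TBm TCm (CB.map Fm) R0Q123.P2608 R0Q123.I2608 := Vale.Agent.P032.Lt.pat_eq (E' := R0Q123.E) eB (pat_step (by decide +kernel) (q_cons (Vale.Agent.P032.Lt.q R0Q123.q2608_0) (q_cons (Vale.Agent.P032.Lt.q R0Q123.q2608_1) q_nil)))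

theorem p2609 : Pat 73 73 TBm TCm (CB.map Fm) R0Q123.P2609 R0Q123.I2609 := Vale.Agent.P032.Lt.pat_eq (E' := R0Q123.E) eB (pat_step (by decide +kernel) (q_cons (Vale.Agent.P032.Lt.q R0Q123.q2609_0) (q_cons (Vale.Agent.P032.Lt.q R0Q123.q2609_1) q_nil)))

def C2610 : List ℕ := [0, 4, 8, 12, 16, 20, 24, 81921, 212993, 344065]
theorem p2610 : Pat 73 73 TBm TCm (C2610.map Fm) R0Q123.P2610 R0Q123.I2610 := Vale.Agent.P032.Lt.pat_eq (E' := R0Q123.E2610) (by decide +kernel) (pat_step (by decide +kernel) (q_cons (Vale.Agent.P032.Lt.q R0Q123.q2610_0) (q_cons (Vale.Agent.P032.Lt.q R0Q123.q2610_1) q_nil)))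

theorem p2611 : Pat 73 73 TBm TCm (CB.map Fm) R0Q123.P2611 R0Q123.I2611 := Vale.Agent.P032.Lt.pat_eq (E' := R0Q123.E) eB (pat_step (by decide +kernel) (q_cons (Vale.Agent.P032.Lt.q R0Q123.q2611_0) (q_cons (Vale.Agent.P032.Lt.q R0Q123.q2611_1) (q_cons (Vale.Agent.P032.Lt.q R0Q123.q2611_2) (q_cons (Vale.Agent.P032.Lt.q R0Q123.q2611_3) q_nil)))))

theorem p2612 : Pat 73 73 TBm TCm (CB.map Fm) R0Q123.P2612 R0Q123.I2612 := Vale.Agent.P032.Lt.pat_eq (E' := R0Q123.E) eB (pat_step (by decide +kernel) (q_cons (Vale.Agent.P032.Lt.q R0Q123.q2612_0) (q_cons (Vale.Agent.P032.Lt.q R0Q123.q2612_1) q_nil)))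

theorem p2613 : Pat 73 73 TBm TCm (CB.map Fm) R0Q123.P2613 R0Q123.I2613 := Vale.Agent.P032.Lt.pat_eq (E' := R0Q123.E) eB (pat_step (by decide +kernel) (q_cons (Vale.Agent.P032.Lt.q R0Q123.q2613_0) (q_cons (Vale.Agent.P032.Lt.q R0Q123.q2613_1) (q_cons (Vale.Agent.P032.Lt.q R0Q123.q2613_2) (q_cons (Vale.Agent.P032.Lt.q R0Q123.q2613_3) (q_cons (Vale.Agent.P032.Lt.q R0Q123.q2613_4) (q_cons (Vale.Agent.P032.Lt.q R0Q123.q2613_5) q_nil)))))))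

theorem p2614 : Pat 73 73 TBm TCm (CB.map Fm) R0Q123.P2614 R0Q123.I2614 := Vale.Agent.P032.Lt.pat_eq (E' := R0Q123.E) eB (pat_step (by decide +kernel) (q_cons (Vale.Agent.P032.Lt.q R0Q123.q2614_0) (q_cons (Vale.Agent.P032.Lt.q R0Q123.q2614_1) (q_cons (Vale.Agent.P032.Lt.q R0Q123.q2614_2) (q_cons (Vale.Agent.P032.Lt.q R0Q123.q2614_3) (q_cons (Vale.Agent.P032.Lt.q R0Q123.q2614_4) (q_cons (Vale.Agent.P032.Lt.q R0Q123.q2614_5) (q_cons (Vale.Agent.P032.Lt.q R0Q123.q2614_6) (q_cons (Vale.Agent.P032.Lt.q R0Q123.q2614_7) q_nil)))))))))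

theorem p2615 : Pat 73 73 TBm TCm (CB.map Fm) R0Q123.P2615 R0Q123.I2615 := Vale.Agent.P032.Lt.pat_eq (E' := R0Q123.E) eB (pat_step (by decide +kernel) (q_cons (Vale.Agent.P032.Lt.q R0Q123.q2615_0) q_nil))

theorem p2616 : Pat 73 73 TBm TCm (CB.map Fm) R0Q123.P2616 R0Q123.I2616 := Vale.Agent.P032.Lt.pat_eq (E' := R0Q123.E) eB (pat_step (by decide +kernel) (q_cons (Vale.Agent.P032.Lt.q R0Q123.q2616_0) (q_cons (Vale.Agent.P032.Lt.q R0Q123.q2616_1) (q_cons (Vale.Agent.P032.Lt.q R0Q123.q2616_2) (q_cons (Vale.Agent.P032.Lt.q R0Q123.q2616_3) (q_cons (Vale.Agent.P032.Lt.q R0Q123.q2616_4) (q_cons (Vale.Agent.P032.Lt.q R0Q123.q2616_5) (q_cons (Vale.Agent.P032.Lt.q R0Q123.q2616_6) (q_cons (Vale.Agent.P032.Lt.q R0Q123.q2616_7) (q_cons (Vale.Agent.P032.Lt.q R0Q123.q2616_8) (q_cons (Vale.Agent.P032.Lt.q R0Q123.q2616_9) (q_cons (Vale.Agent.P032.Lt.q R0Q123.q2616_10)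 (q_cons (Vale.Agent.P032.Lt.q R0Q123.q2616_11) (q_cons (Vale.Agent.P032.Lt.q R0Q123.q2616_12) (q_cons (Vale.Agent.P032.Lt.q R0Q123.q2616_13) (q_cons (Vale.Agent.P032.Lt.q R0Q123.q2616_14) (q_cons (Vale.Agent.P032.Lt.q R0Q123.q2616_15) (q_cons (Vale.Agent.P032.Lt.q R0Q123.q2616_16) q_nil))))))))))))))))))

theorem p2617 : Pat 73 73 TBm TCm (CB.map Fm) R0Q123.P2617 R0Q123.I2617 := Vale.Agent.P032.Lt.pat_eq (E' := R0Q123.E) eB (pat_step (by decide +kernel) (q_cons (Vale.Agent.P032.Lt.q R0Q123.q2617_0) (q_cons (Vale.Agent.P032.Lt.q R0Q123.q2617_1) (q_cons (Vale.Agent.P032.Lt.q R0Q123.q2617_2) (q_cons (Vale.Agent.P032.Lt.q R0Q123.q2617_3) (q_cons (Vale.Agent.P032.Lt.q R0Q123.q2617_4) (q_cons (Vale.Agent.P032.Lt.q R0Q123.q2617_5) q_nil)))))))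

theorem p2618 : Pat 73 73 TBm TCm (CB.map Fm) R0Q123.P2618 R0Q123.I2618 := Vale.Agent.P032.Lt.pat_eq (E' := R0Q123.E) eB (pat_step (by decide +kernel) (q_cons (Vale.Agent.P032.Lt.q R0Q123.q2618_0) q_nil))

theorem p2619 : Pat 73 73 TBm TCm (CB.map Fm) R0Q123.P2619 R0Q123.I2619 := Vale.Agent.P032.Lt.pat_eq (E' := R0Q123.E) eB (pat_step (by decide +kernel) (q_cons (Vale.Agent.P032.Lt.q R0Q123.q2619_0) (q_cons (Vale.Agent.P032.Lt.q R0Q123.q2619_1) q_nil)))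

theorem p2620 : Pat 73 73 TBm TCm (CB.map Fm) R0Q124.P2620 R0Q124.I2620 := Vale.Agent.P032.Lt.pat_eq (E' := R0Q124.E) eB (pat_step (by decide +kernel) (q_cons (Vale.Agent.P032.Lt.q R0Q124.q2620_0) (q_cons (Vale.Agent.P032.Lt.q R0Q124.q2620_1) (q_cons (Vale.Agent.P032.Lt.q R0Q124.q2620_2) (q_cons (Vale.Agent.P032.Lt.q R0Q124.q2620_3) (q_cons (Vale.Agent.P032.Lt.q R0Q124.q2620_4) (q_cons (Vale.Agent.P032.Lt.q R0Q124.q2620_5) (q_cons (Vale.Agent.P032.Lt.q R0Q124.q2620_6) (q_cons (Vale.Agent.P032.Lt.q R0Q124.q2620_7) (q_cons (Vale.Agent.P032.Lt.q R0Q124.q2620_8) (q_cons (Vale.Agent.P032.Lt.q R0Q124.q2620_9) (q_cons (Vale.Agent.P032.Lt.q R0Q124.q2620_10) (q_cons (Vale.Agent.P032.Lt.q R0Q124.q2620_11) (q_cons (Vale.Agent.P032.Lt.q R0Q124.q2620_12) (q_cons (Vale.Agent.P032.Lt.q R0Q124.q2620_13) q_nil)))))))))))))))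

theorem p2621 : Pat 73 73 TBm TCm (CB.map Fm) R0Q124.P2621 R0Q124.I2621 := Vale.Agent.P032.Lt.pat_eq (E' := R0Q124.E) eB (pat_step (by decide +kernel) (q_cons (Vale.Agent.P032.Lt.q R0Q124.q2621_0) (q_cons (Vale.Agent.P032.Lt.q R0Q124.q2621_1) q_nil)))

theorem p2622 : Pat 73 73 TBm TCm (CB.map Fm) R0Q124.P2622 R0Q124.I2622 := Vale.Agent.P032.Lt.pat_eq (E' := R0Q124.E) eB (pat_step (by decide +kernel) (q_cons (Vale.Agent.P032.Lt.q R0Q124.q2622_0) (q_cons (Vale.Agent.P032.Lt.q R0Q124.q2622_1) (q_cons (Vale.Agent.P032.Lt.q R0Q124.q2622_2) (q_cons (Vale.Agent.P032.Lt.q R0Q124.q2622_3) (q_cons (Vale.Agent.P032.Lt.q R0Q124.q2622_4) (q_cons (Vale.Agent.P032.Lt.q R0Q124.q2622_5) (q_cons (Vale.Agent.P032.Lt.q R0Q124.q2622_6) (q_cons (Vale.Agent.P032.Lt.q R0Q124.q2622_7) (q_cons (Vale.Agent.P032.Lt.q R0Q124.q2622_8) (q_cons (Vale.Agent.P032.Lt.q R0Q124.q2622_9)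 (q_cons (Vale.Agent.P032.Lt.q R0Q124.q2622_10) (q_cons (Vale.Agent.P032.Lt.q R0Q124.q2622_11) (q_cons (Vale.Agent.P032.Lt.q R0Q124.q2622_12) (q_cons (Vale.Agent.P032.Lt.q R0Q124.q2622_13) (q_cons (Vale.Agent.P032.Lt.q R0Q124.q2622_14) (q_cons (Vale.Agent.P032.Lt.q R0Q124.q2622_15) (q_cons (Vale.Agent.P032.Lt.q R0Q124.q2622_16) (q_cons (Vale.Agent.P032.Lt.q R0Q124.q2622_17) q_nil)))))))))))))))))))

theorem p2623 : Pat 73 73 TBm TCm (CB.map Fm) R0Q124.P2623 R0Q124.I2623 := Vale.Agent.P032.Lt.pat_eq (E' := R0Q124.E) eB (pat_step (by decide +kernel) (q_cons (Vale.Agent.P032.Lt.q R0Q124.q2623_0) (q_cons (Vale.Agent.P032.Lt.q R0Q124.q2623_1) (q_cons (Vale.Agent.P032.Lt.q R0Q124.q2623_2) (q_cons (Vale.Agent.P032.Lt.q R0Q124.q2623_3) (q_cons (Vale.Agent.P032.Lt.q R0Q124.q2623_4) (q_cons (Vale.Agent.P032.Lt.q R0Q124.q2623_5) (q_cons (Vale.Agent.P032.Lt.q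 R0Q124.q2623_6) (q_cons (Vale.Agent.P032.Lt.q R0Q124.q2623_7) (q_cons (Vale.Agent.P032.Lt.q R0Q124.q2623_8) (q_cons (Vale.Agent.P032.Lt.q R0Q124.q2623_9) (q_cons (Vale.Agent.P032.Lt.q R0Q124.q2623_10) (q_cons (Vale.Agent.P032.Lt.q R0Q124.q2623_11) q_nil)))))))))))))

def C2624 : List ℕ := [0, 4, 8, 12, 16, 20, 24, 222209]
theorem p2624 : Pat 73 73 TBm TCm (C2624.map Fm) R0Q124.P2624 R0Q124.I2624 := Vale.Agent.P032.Lt.pat_eq (E' := R0Q124.E2624) (by decide +kernel) (pat_step (by decide +kernel) (q_cons (Vale.Agent.P032.Lt.q R0Q124.q2624_0) (q_cons (Vale.Agent.P032.Lt.q R0Q124.q2624_1) (q_cons (Vale.Agent.P032.Lt.q R0Q124.q2624_2) (q_cons (Vale.Agent.P032.Lt.q R0Q124.q2624_3) (q_cons (Vale.Agent.P032.Lt.q R0Q124.q2624_4) (q_cons (Vale.Agent.P032.Lt.q R0Q124.q2624_5) (q_cons (Vale.Agent.P032.Lt.q R0Q124.q2624_6) (q_cons (Vale.Agent.P032.Lt.q R0Q124.q2624_7)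 (q_cons (Vale.Agent.P032.Lt.q R0Q124.q2624_8) (q_cons (Vale.Agent.P032.Lt.q R0Q124.q2624_9) (q_cons (Vale.Agent.P032.Lt.q R0Q124.q2624_10) (q_cons (Vale.Agent.P032.Lt.q R0Q124.q2624_11) (q_cons (Vale.Agent.P032.Lt.q R0Q124.q2624_12) (q_cons (Vale.Agent.P032.Lt.q R0Q124.q2624_13) (q_cons (Vale.Agent.P032.Lt.q R0Q124.q2624_14) (q_cons (Vale.Agent.P032.Lt.q R0Q124.q2624_15) (q_cons (Vale.Agent.P032.Lt.q R0Q124.q2624_16) (q_cons (Vale.Agent.P032.Lt.q R0Q124.q2624_17) (q_cons (Vale.Agent.P032.Lt.q R0Q124.q2624_18) (q_cons (Vale.Agent.P032.Lt.q R0Q124.q2624_19) (q_cons (Vale.Agent.P032.Lt.q R0Q124.q2624_20) (q_cons (Vale.Agent.P032.Lt.q R0Q124.q2624_21) q_nil)))))))))))))))))))))))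

theorem p2625 : Pat 73 73 TBm TCm (CB.map Fm) R0Q124.P2625 R0Q124.I2625 := Vale.Agent.P032.Lt.pat_eq (E' := R0Q124.E) eB (pat_step (by decide +kernel) (q_cons (Vale.Agent.P032.Lt.q R0Q124.q2625_0) q_nil))

theorem p2626 : Pat 73 73 TBm TCm (CB.map Fm) R0Q124.P2626 R0Q124.I2626 := Vale.Agent.P032.Lt.pat_eq (E' := R0Q124.E) eB (pat_step (by decide +kernel) (q_cons (Vale.Agent.P032.Lt.q R0Q124.q2626_0) (q_cons (Vale.Agent.P032.Lt.q R0Q124.q2626_1) q_nil)))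

theorem p2627 : Pat 73 73 TBm TCm (CB.map Fm) R0Q124.P2627 R0Q124.I2627 := Vale.Agent.P032.Lt.pat_eq (E' := R0Q124.E) eB (pat_step (by decide +kernel) (q_cons (Vale.Agent.P032.Lt.q R0Q124.q2627_0) (q_cons (Vale.Agent.P032.Lt.q R0Q124.q2627_1) (q_cons (Vale.Agent.P032.Lt.q R0Q124.q2627_2) q_nil))))

theorem p2628 : Pat 73 73 TBm TCm (CB.map Fm) R0Q124.P2628 R0Q124.I2628 := Vale.Agent.P032.Lt.pat_eq (E' := R0Q124.E) eB (pat_step (by decide +kernel) (q_cons (Vale.Agent.P032.Lt.q R0Q124.q2628_0) (q_cons (Vale.Agent.P032.Lt.q R0Q124.q2628_1) (q_cons (Vale.Agent.P032.Lt.q R0Q124.q2628_2) q_nil))))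

theorem p2629 : Pat 73 73 TBm TCm (CB.map Fm) R0Q124.P2629 R0Q124.I2629 := Vale.Agent.P032.Lt.pat_eq (E' := R0Q124.E) eB (pat_step (by decide +kernel) (q_cons (Vale.Agent.P032.Lt.q R0Q124.q2629_0) (q_cons (Vale.Agent.P032.Lt.q R0Q124.q2629_1) q_nil)))

theorem p2630 : Pat 73 73 TBm TCm (CB.map Fm) R0Q124.P2630 R0Q124.I2630 := Vale.Agent.P032.Lt.pat_eq (E' := R0Q124.E) eB (pat_step (by decide +kernel) (q_cons (Vale.Agent.P032.Lt.q R0Q124.q2630_0) q_nil))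

theorem p2631 : Pat 73 73 TBm TCm (CB.map Fm) R0Q124.P2631 R0Q124.I2631 := Vale.Agent.P032.Lt.pat_eq (E' := R0Q124.E) eB (pat_step (by decide +kernel) (q_cons (Vale.Agent.P032.Lt.q R0Q124.q2631_0) (q_cons (Vale.Agent.P032.Lt.q R0Q124.q2631_1) q_nil)))

theorem p2632 : Pat 73 73 TBm TCm (CB.map Fm) R0Q124.P2632 R0Q124.I2632 := Vale.Agent.P032.Lt.pat_eq (E' := R0Q124.E) eB (pat_step (by decide +kernel) (q_cons (Vale.Agent.P032.Lt.q R0Q124.q2632_0) (q_cons (Vale.Agent.P032.Lt.q R0Q124.q2632_1) (q_cons (Vale.Agent.P032.Lt.q R0Q124.q2632_2) (q_cons (Vale.Agent.P032.Lt.q R0Q124.q2632_3) (q_cons (Vale.Agent.P032.Lt.q R0Q124.q2632_4) (q_cons (Vale.Agent.P032.Lt.q R0Q124.q2632_5) (q_cons (Vale.Agent.P032.Lt.q R0Q124.q2632_6) q_nil))))))))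

theorem p2633 : Pat 73 73 TBm TCm (CB.map Fm) R0Q124.P2633 R0Q124.I2633 := Vale.Agent.P032.Lt.pat_eq (E' := R0Q124.E) eB (pat_step (by decide +kernel) (q_cons (Vale.Agent.P032.Lt.q R0Q124.q2633_0) q_nil))

theorem p2634 : Pat 73 73 TBm TCm (CB.map Fm) R0Q124.P2634 R0Q124.I2634 := Vale.Agent.P032.Lt.pat_eq (E' := R0Q124.E) eB (pat_step (by decide +kernel) (q_cons (Vale.Agent.P032.Lt.q R0Q124.q2634_0) (q_cons (Vale.Agent.P032.Lt.q R0Q124.q2634_1) q_nil)))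

theorem p2635 : Pat 73 73 TBm TCm (CB.map Fm) R0Q124.P2635 R0Q124.I2635 := Vale.Agent.P032.Lt.pat_eq (E' := R0Q124.E) eB (pat_step (by decide +kernel) (q_cons (Vale.Agent.P032.Lt.q R0Q124.q2635_0) (q_cons (Vale.Agent.P032.Lt.q R0Q124.q2635_1) (q_cons (Vale.Agent.P032.Lt.q R0Q124.q2635_2) (q_cons (Vale.Agent.P032.Lt.q R0Q124.q2635_3) (q_cons (Vale.Agent.P032.Lt.q R0Q124.q2635_4) (q_cons (Vale.Agent.P032.Lt.q R0Q124.q2635_5) (q_cons (Vale.Agent.P032.Lt.q R0Q124.q2635_6) (q_cons (Vale.Agent.P032.Lt.q R0Q124.q2635_7) (q_cons (Vale.Agent.P032.Lt.q R0Q124.q2635_8) (q_cons (Vale.Agent.P032.Lt.q R0Q124.q2635_9) (q_cons (Vale.Agent.P032.Lt.q R0Q124.q2635_10) (q_cons (Vale.Agent.P032.Lt.q R0Q124.q2635_11) (q_cons (Vale.Agent.P032.Lt.q R0Q124.q2635_12) (q_cons (Vale.Agent.P032.Lt.q R0Q124.q2635_13) (q_cons (Vale.Agent.P032.Lt.q R0Q124.q2635_14) (q_cons (Vale.Agent.P032.Lt.q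 R0Q124.q2635_15) (q_cons (Vale.Agent.P032.Lt.q R0Q124.q2635_16) (q_cons (Vale.Agent.P032.Lt.q R0Q124.q2635_17) (q_cons (Vale.Agent.P032.Lt.q R0Q124.q2635_18) (q_cons (Vale.Agent.P032.Lt.q R0Q124.q2635_19) (q_cons (Vale.Agent.P032.Lt.q R0Q124.q2635_20) (q_cons (Vale.Agent.P032.Lt.q R0Q124.q2635_21) (q_cons (Vale.Agent.P032.Lt.q R0Q124.q2635_22) (q_cons (Vale.Agent.P032.Lt.q R0Q124.q2635_23) (q_cons (Vale.Agent.P032.Lt.q R0Q124.q2635_24) (q_cons (Vale.Agent.P032.Lt.q R0Q124.q2635_25) (q_cons (Vale.Agent.P032.Lt.q R0Q124.q2635_26) (q_cons (Vale.Agent.P032.Lt.q R0Q124.q2635_27) (q_cons (Vale.Agent.P032.Lt.q R0Q124.q2635_28) (q_cons (Vale.Agent.P032.Lt.q R0Q124.q2635_29) (q_cons (Vale.Agent.P032.Lt.q R0Q124.q2635_30) (q_cons (Vale.Agent.P032.Lt.q R0Q124.q2635_31) (q_cons (Vale.Agent.P032.Lt.q R0Q124.q2635_32) (q_cons (Vale.Agent.P032.Lt.q R0Q124.q2635_33)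 (q_cons (Vale.Agent.P032.Lt.q R0Q124.q2635_34) (q_cons (Vale.Agent.P032.Lt.q R0Q124.q2635_35) (q_cons (Vale.Agent.P032.Lt.q R0Q124.q2635_36) (q_cons (Vale.Agent.P032.Lt.q R0Q124.q2635_37) (q_cons (Vale.Agent.P032.Lt.q R0Q124.q2635_38) (q_cons (Vale.Agent.P032.Lt.q R0Q124.q2635_39) q_nil)))))))))))))))))))))))))))))))))))))))))

def C2636 : List ℕ := [0, 4, 8, 12, 16, 20, 24, 212993, 344065, 475137, 615425, 737281]
theorem p2636 : Pat 73 73 TBm TCm (C2636.map Fm) R0Q124.P2636 R0Q124.I2636 := Vale.Agent.P032.Lt.pat_eq (E' := R0Q124.E2636) (by decide +kernel) (pat_step (by decide +kernel) (q_cons (Vale.Agent.P032.Lt.q R0Q124.q2636_0) (q_cons (Vale.Agent.P032.Lt.q R0Q124.q2636_1) q_nil)))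

def C2637 : List ℕ := [0, 4, 8, 12, 16, 20, 24, 212993, 475137, 737281]
theorem p2637 : Pat 73 73 TBm TCm (C2637.map Fm) R0Q124.P2637 R0Q124.I2637 := Vale.Agent.P032.Lt.pat_eq (E' := R0Q124.E2637) (by decide +kernel) (pat_step (by decide +kernel) (q_cons (Vale.Agent.P032.Lt.q R0Q124.q2637_0) (q_cons (Vale.Agent.P032.Lt.q R0Q124.q2637_1) (q_cons (Vale.Agent.P032.Lt.q R0Q124.q2637_2) (q_cons (Vale.Agent.P032.Lt.q R0Q124.q2637_3) q_nil)))))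

theorem p2638 : Pat 73 73 TBm TCm (CB.map Fm) R0Q124.P2638 R0Q124.I2638 := Vale.Agent.P032.Lt.pat_eq (E' := R0Q124.E) eB (pat_step (by decide +kernel) (q_cons (Vale.Agent.P032.Lt.q R0Q124.q2638_0) (q_cons (Vale.Agent.P032.Lt.q R0Q124.q2638_1) (q_cons (Vale.Agent.P032.Lt.q R0Q124.q2638_2) (q_cons (Vale.Agent.P032.Lt.q R0Q124.q2638_3) q_nil)))))

theorem p2639 : Pat 73 73 TBm TCm (CB.map Fm) R0Q124.P2639 R0Q124.I2639 := Vale.Agent.P032.Lt.pat_eq (E' := R0Q124.E) eB (pat_step (by decide +kernel) (q_cons (Vale.Agent.P032.Lt.q R0Q124.q2639_0) (q_cons (Vale.Agent.P032.Lt.q R0Q124.q2639_1) (q_cons (Vale.Agent.P032.Lt.q R0Q124.q2639_2) (q_cons (Vale.Agent.P032.Lt.q R0Q124.q2639_3) q_nil)))))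

theorem p2640 : Pat 73 73 TBm TCm (CB.map Fm) R0Q124.P2640 R0Q124.I2640 := Vale.Agent.P032.Lt.pat_eq (E' := R0Q124.E) eB (pat_step (by decide +kernel) (q_cons (Vale.Agent.P032.Lt.q R0Q124.q2640_0) q_nil))

theorem p2641 : Pat 73 73 TBm TCm (CB.map Fm) R0Q124.P2641 R0Q124.I2641 := Vale.Agent.P032.Lt.pat_eq (E' := R0Q124.E) eB (pat_step (by decide +kernel) (q_cons (Vale.Agent.P032.Lt.q R0Q124.q2641_0) (q_cons (Vale.Agent.P032.Lt.q R0Q124.q2641_1) (q_cons (Vale.Agent.P032.Lt.q R0Q124.q2641_2) q_nil))))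

theorem p2642 : Pat 73 73 TBm TCm (CB.map Fm) R0Q124.P2642 R0Q124.I2642 := Vale.Agent.P032.Lt.pat_eq (E' := R0Q124.E) eB (pat_step (by decide +kernel) (q_cons (Vale.Agent.P032.Lt.q R0Q124.q2642_0) (q_cons (Vale.Agent.P032.Lt.q R0Q124.q2642_1) (q_cons (Vale.Agent.P032.Lt.q R0Q124.q2642_2) q_nil))))

theorem p2643 : Pat 73 73 TBm TCm (CB.map Fm) R0Q125.P2643 R0Q125.I2643 := Vale.Agent.P032.Lt.pat_eq (E' := R0Q125.E) eB (pat_step (by decide +kernel) (q_cons (Vale.Agent.P032.Lt.q R0Q125.q2643_0) (q_cons (Vale.Agent.P032.Lt.q R0Q125.q2643_1) (q_cons (Vale.Agent.P032.Lt.q R0Q125.q2643_2) (q_cons (Vale.Agent.P032.Lt.q R0Q125.q2643_3) (q_cons (Vale.Agent.P032.Lt.q R0Q125.q2643_4) (q_cons (Vale.Agent.P032.Lt.q R0Q125.q2643_5) (q_cons (Vale.Agent.P032.Lt.q R0Q125.q2643_6) q_nil))))))))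

theorem p2644 : Pat 73 73 TBm TCm (CB.map Fm) R0Q125.P2644 R0Q125.I2644 := Vale.Agent.P032.Lt.pat_eq (E' := R0Q125.E) eB (pat_step (by decide +kernel) (q_cons (Vale.Agent.P032.Lt.q R0Q125.q2644_0) (q_cons (Vale.Agent.P032.Lt.q R0Q125.q2644_1) (q_cons (Vale.Agent.P032.Lt.q R0Q125.q2644_2) q_nil))))

theorem p2645 : Pat 73 73 TBm TCm (CB.map Fm) R0Q125.P2645 R0Q125.I2645 := Vale.Agent.P032.Lt.pat_eq (E' := R0Q125.E) eB (pat_step (by decide +kernel) (q_cons (Vale.Agent.P032.Lt.q R0Q125.q2645_0) q_nil))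

theorem p2646 : Pat 73 73 TBm TCm (CB.map Fm) R0Q125.P2646 R0Q125.I2646 := Vale.Agent.P032.Lt.pat_eq (E' := R0Q125.E) eB (pat_step (by decide +kernel) (q_cons (Vale.Agent.P032.Lt.q R0Q125.q2646_0) q_nil))

theorem p2647 : Pat 73 73 TBm TCm (CB.map Fm) R0Q125.P2647 R0Q125.I2647 := Vale.Agent.P032.Lt.pat_eq (E' := R0Q125.E) eB (pat_step (by decide +kernel) (q_cons (Vale.Agent.P032.Lt.q R0Q125.q2647_0) (q_cons (Vale.Agent.P032.Lt.q R0Q125.q2647_1) (q_cons (Vale.Agent.P032.Lt.q R0Q125.q2647_2) (q_cons (Vale.Agent.P032.Lt.q R0Q125.q2647_3) (q_cons (Vale.Agent.P032.Lt.q R0Q125.q2647_4) (q_cons (Vale.Agent.P032.Lt.q R0Q125.q2647_5) (q_cons (Vale.Agent.P032.Lt.q R0Q125.q2647_6) (q_cons (Vale.Agent.P032.Lt.q R0Q125.q2647_7) q_nil)))))))))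

theorem p2648 : Pat 73 73 TBm TCm (CB.map Fm) R0Q125.P2648 R0Q125.I2648 := Vale.Agent.P032.Lt.pat_eq (E' := R0Q125.E) eB (pat_step (by decide +kernel) (q_cons (Vale.Agent.P032.Lt.q R0Q125.q2648_0) (q_cons (Vale.Agent.P032.Lt.q R0Q125.q2648_1) (q_cons (Vale.Agent.P032.Lt.q R0Q125.q2648_2) (q_cons (Vale.Agent.P032.Lt.q R0Q125.q2648_3) (q_cons (Vale.Agent.P032.Lt.q R0Q125.q2648_4) (q_cons (Vale.Agent.P032.Lt.q R0Q125.q2648_5) (q_cons (Vale.Agent.P032.Lt.q R0Q125.q2648_6) q_nil))))))))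

theorem p2649 : Pat 73 73 TBm TCm (CB.map Fm) R0Q125.P2649 R0Q125.I2649 := Vale.Agent.P032.Lt.pat_eq (E' := R0Q125.E) eB (pat_step (by decide +kernel) (q_cons (Vale.Agent.P032.Lt.q R0Q125.q2649_0) q_nil))

def C2650 : List ℕ := [0, 4, 8, 12, 16, 20, 24, 355329]
theorem p2650 : Pat 73 73 TBm TCm (C2650.map Fm) R0Q125.P2650 R0Q125.I2650 := Vale.Agent.P032.Lt.pat_eq (E' := R0Q125.E2650) (by decide +kernel) (pat_step (by decide +kernel) (q_cons (Vale.Agent.P032.Lt.q R0Q125.q2650_0) (q_cons (Vale.Agent.P032.Lt.q R0Q125.q2650_1) (q_cons (Vale.Agent.P032.Lt.q R0Q125.q2650_2) (q_cons (Vale.Agent.P032.Lt.q R0Q125.q2650_3) (q_cons (Vale.Agent.P032.Lt.q R0Q125.q2650_4) (q_cons (Vale.Agent.P032.Lt.q R0Q125.q2650_5) (q_cons (Vale.Agent.P032.Lt.q R0Q125.q2650_6) (q_cons (Vale.Agent.P032.Lt.q R0Q125.q2650_7) q_nil)))))))))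

theorem p2651 : Pat 73 73 TBm TCm (CB.map Fm) R0Q125.P2651 R0Q125.I2651 := Vale.Agent.P032.Lt.pat_eq (E' := R0Q125.E) eB (pat_step (by decide +kernel) (q_cons (Vale.Agent.P032.Lt.q R0Q125.q2651_0) (q_cons (Vale.Agent.P032.Lt.q R0Q125.q2651_1) (q_cons (Vale.Agent.P032.Lt.q R0Q125.q2651_2) (q_cons (Vale.Agent.P032.Lt.q R0Q125.q2651_3) (q_cons (Vale.Agent.P032.Lt.q R0Q125.q2651_4) (q_cons (Vale.Agent.P032.Lt.q R0Q125.q2651_5) q_nil)))))))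

theorem p2652 : Pat 73 73 TBm TCm (CB.map Fm) R0Q125.P2652 R0Q125.I2652 := Vale.Agent.P032.Lt.pat_eq (E' := R0Q125.E) eB (pat_step (by decide +kernel) (q_cons (Vale.Agent.P032.Lt.q R0Q125.q2652_0) (q_cons (Vale.Agent.P032.Lt.q R0Q125.q2652_1) (q_cons (Vale.Agent.P032.Lt.q R0Q125.q2652_2) (q_cons (Vale.Agent.P032.Lt.q R0Q125.q2652_3) q_nil)))))

theorem p2653 : Pat 73 73 TBm TCm (CB.map Fm) R0Q125.P2653 R0Q125.I2653 := Vale.Agent.P032.Lt.pat_eq (E' := R0Q125.E) eB (pat_step (by decide +kernel) (q_cons (Vale.Agent.P032.Lt.q R0Q125.q2653_0) q_nil))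

theorem p2654 : Pat 73 73 TBm TCm (CB.map Fm) R0Q125.P2654 R0Q125.I2654 := Vale.Agent.P032.Lt.pat_eq (E' := R0Q125.E) eB (pat_step (by decide +kernel) (q_cons (Vale.Agent.P032.Lt.q R0Q125.q2654_0) (q_cons (Vale.Agent.P032.Lt.q R0Q125.q2654_1) (q_cons (Vale.Agent.P032.Lt.q R0Q125.q2654_2) (q_cons (Vale.Agent.P032.Lt.q R0Q125.q2654_3) (q_cons (Vale.Agent.P032.Lt.q R0Q125.q2654_4) q_nil))))))

theorem p2655 : Pat 73 73 TBm TCm (CB.map Fm) R0Q125.P2655 R0Q125.I2655 := Vale.Agent.P032.Lt.pat_eq (E' := R0Q125.E) eB (pat_step (by decide +kernel) (q_cons (Vale.Agent.P032.Lt.q R0Q125.q2655_0) (q_cons (Vale.Agent.P032.Lt.q R0Q125.q2655_1) q_nil)))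

def C2656 : List ℕ := [0, 4, 8, 12, 16, 20, 24, 82945, 216065, 347137, 606209, 609281, 737281, 741377]
theorem p2656 : Pat 73 73 TBm TCm (C2656.map Fm) R0Q125.P2656 R0Q125.I2656 := Vale.Agent.P032.Lt.pat_eq (E' := R0Q125.E2656) (by decide +kernel) (pat_step (by decide +kernel) (q_cons (Vale.Agent.P032.Lt.q R0Q125.q2656_0) q_nil))

theorem p2657 : Pat 73 73 TBm TCm (CB.map Fm) R0Q125.P2657 R0Q125.I2657 := Vale.Agent.P032.Lt.pat_eq (E' := R0Q125.E) eB (pat_step (by decide +kernel) (q_cons (Vale.Agent.P032.Lt.q R0Q125.q2657_0) (q_cons (Vale.Agent.P032.Lt.q R0Q125.q2657_1) (q_cons (Vale.Agent.P032.Lt.q R0Q125.q2657_2) (q_cons (Vale.Agent.P032.Lt.q R0Q125.q2657_3) (q_cons (Vale.Agent.P032.Lt.q R0Q125.q2657_4) (q_cons (Vale.Agent.P032.Lt.q R0Q125.q2657_5) (q_cons (Vale.Agent.P032.Lt.q R0Q125.q2657_6) (q_cons (Vale.Agent.P032.Lt.q R0Q125.q2657_7) (q_cons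 (Vale.Agent.P032.Lt.q R0Q125.q2657_8) (q_cons (Vale.Agent.P032.Lt.q R0Q125.q2657_9) (q_cons (Vale.Agent.P032.Lt.q R0Q125.q2657_10) q_nil))))))))))))

theorem p2658 : Pat 73 73 TBm TCm (CB.map Fm) R0Q125.P2658 R0Q125.I2658 := Vale.Agent.P032.Lt.pat_eq (E' := R0Q125.E) eB (pat_step (by decide +kernel) (q_cons (Vale.Agent.P032.Lt.q R0Q125.q2658_0) (q_cons (Vale.Agent.P032.Lt.q R0Q125.q2658_1) (q_cons (Vale.Agent.P032.Lt.q R0Q125.q2658_2) (q_cons (Vale.Agent.P032.Lt.q R0Q125.q2658_3) (q_cons (Vale.Agent.P032.Lt.q R0Q125.q2658_4) (q_cons (Vale.Agent.P032.Lt.q R0Q125.q2658_5) q_nil)))))))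

def C2659 : List ℕ := [0, 4, 8, 12, 16, 20, 24, 81921, 347137, 606209, 737281]
theorem p2659 : Pat 73 73 TBm TCm (C2659.map Fm) R0Q125.P2659 R0Q125.I2659 := Vale.Agent.P032.Lt.pat_eq (E' := R0Q125.E2659) (by decide +kernel) (pat_step (by decide +kernel) (q_cons (Vale.Agent.P032.Lt.q R0Q125.q2659_0) (q_cons (Vale.Agent.P032.Lt.q R0Q125.q2659_1) (q_cons (Vale.Agent.P032.Lt.q R0Q125.q2659_2) (q_cons (Vale.Agent.P032.Lt.q R0Q125.q2659_3) (q_cons (Vale.Agent.P032.Lt.q R0Q125.q2659_4) (q_cons (Vale.Agent.P032.Lt.q R0Q125.q2659_5) (q_cons (Vale.Agent.P032.Lt.q R0Q125.q2659_6) (q_cons (Vale.Agent.P032.Lt.q R0Q125.q2659_7) (q_cons (Vale.Agent.P032.Lt.q R0Q125.q2659_8) q_nil))))))))))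

theorem p2660 : Pat 73 73 TBm TCm (CB.map Fm) R0Q125.P2660 R0Q125.I2660 := Vale.Agent.P032.Lt.pat_eq (E' := R0Q125.E) eB (pat_step (by decide +kernel) (q_cons (Vale.Agent.P032.Lt.q R0Q125.q2660_0) (q_cons (Vale.Agent.P032.Lt.q R0Q125.q2660_1) (q_cons (Vale.Agent.P032.Lt.q R0Q125.q2660_2) (q_cons (Vale.Agent.P032.Lt.q R0Q125.q2660_3) (q_cons (Vale.Agent.P032.Lt.q R0Q125.q2660_4) (q_cons (Vale.Agent.P032.Lt.q R0Q125.q2660_5) (q_cons (Vale.Agent.P032.Lt.q R0Q125.q2660_6) (q_cons (Vale.Agent.P032.Lt.q R0Q125.q2660_7) q_nil)))))))))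

theorem p2661 : Pat 73 73 TBm TCm (CB.map Fm) R0Q125.P2661 R0Q125.I2661 := Vale.Agent.P032.Lt.pat_eq (E' := R0Q125.E) eB (pat_step (by decide +kernel) (q_cons (Vale.Agent.P032.Lt.q R0Q125.q2661_0) (q_cons (Vale.Agent.P032.Lt.q R0Q125.q2661_1) (q_cons (Vale.Agent.P032.Lt.q R0Q125.q2661_2) (q_cons (Vale.Agent.P032.Lt.q R0Q125.q2661_3) (q_cons (Vale.Agent.P032.Lt.q R0Q125.q2661_4) (q_cons (Vale.Agent.P032.Lt.q R0Q125.q2661_5) (q_cons (Vale.Agent.P032.Lt.q R0Q125.q2661_6) (q_cons (Vale.Agent.P032.Lt.q R0Q125.q2661_7) (q_cons (Vale.Agent.P032.Lt.q R0Q125.q2661_8) (q_cons (Vale.Agent.P032.Lt.q R0Q125.q2661_9) (q_cons (Vale.Agent.P032.Lt.q R0Q125.q2661_10) q_nil))))))))))))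

def C2662 : List ℕ := [0, 4, 8, 12, 16, 20, 24, 347137, 737281]
theorem p2662 : Pat 73 73 TBm TCm (C2662.map Fm) R0Q125.P2662 R0Q125.I2662 := Vale.Agent.P032.Lt.pat_eq (E' := R0Q125.E2662) (by decide +kernel) (pat_step (by decide +kernel) (q_cons (Vale.Agent.P032.Lt.q R0Q125.q2662_0) (q_cons (Vale.Agent.P032.Lt.q R0Q125.q2662_1) (q_cons (Vale.Agent.P032.Lt.q R0Q125.q2662_2) (q_cons (Vale.Agent.P032.Lt.q R0Q125.q2662_3) (q_cons (Vale.Agent.P032.Lt.q R0Q125.q2662_4) (q_cons (Vale.Agent.P032.Lt.q R0Q125.q2662_5) (q_cons (Vale.Agent.P032.Lt.q R0Q125.q2662_6) (q_cons (Vale.Agent.P032.Lt.q R0Q125.q2662_7) (q_cons (Vale.Agent.P032.Lt.q R0Q125.q2662_8) (q_cons (Vale.Agent.P032.Lt.q R0Q125.q2662_9) (q_cons (Vale.Agent.P032.Lt.q R0Q125.q2662_10) (q_cons (Vale.Agent.P032.Lt.q R0Q125.q2662_11) (q_cons (Vale.Agent.P032.Lt.q R0Q125.q2662_12) (q_cons (Vale.Agent.P032.Lt.q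 R0Q125.q2662_13) (q_cons (Vale.Agent.P032.Lt.q R0Q125.q2662_14) q_nil))))))))))))))))

theorem p2663 : Pat 73 73 TBm TCm (CB.map Fm) R0Q125.P2663 R0Q125.I2663 := Vale.Agent.P032.Lt.pat_eq (E' := R0Q125.E) eB (pat_step (by decide +kernel) (q_cons (Vale.Agent.P032.Lt.q R0Q125.q2663_0) (q_cons (Vale.Agent.P032.Lt.q R0Q125.q2663_1) (q_cons (Vale.Agent.P032.Lt.q R0Q125.q2663_2) (q_cons (Vale.Agent.P032.Lt.q R0Q125.q2663_3) (q_cons (Vale.Agent.P032.Lt.q R0Q125.q2663_4) (q_cons (Vale.Agent.P032.Lt.q R0Q125.q2663_5) (q_cons (Vale.Agent.P032.Lt.q R0Q125.q2663_6) q_nil))))))))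

theorem p2664 : Pat 73 73 TBm TCm (CB.map Fm) R0Q125.P2664 R0Q125.I2664 := Vale.Agent.P032.Lt.pat_eq (E' := R0Q125.E) eB (pat_step (by decide +kernel) (q_cons (Vale.Agent.P032.Lt.q R0Q125.q2664_0) (q_cons (Vale.Agent.P032.Lt.q R0Q125.q2664_1) (q_cons (Vale.Agent.P032.Lt.q R0Q125.q2664_2) (q_cons (Vale.Agent.P032.Lt.q R0Q125.q2664_3) (q_cons (Vale.Agent.P032.Lt.q R0Q125.q2664_4) q_nil))))))

theorem p2665 : Pat 73 73 TBm TCm (CB.map Fm) R0Q125.P2665 R0Q125.I2665 := Vale.Agent.P032.Lt.pat_eq (E' := R0Q125.E) eB (pat_step (by decide +kernel) (q_cons (Vale.Agent.P032.Lt.q R0Q125.q2665_0) (q_cons (Vale.Agent.P032.Lt.q R0Q125.q2665_1) q_nil)))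

def C2666 : List ℕ := [0, 4, 8, 12, 16, 20, 24, 220161, 355329, 486401, 615425, 737281]
theorem p2666 : Pat 73 73 TBm TCm (C2666.map Fm) R0Q125.P2666 R0Q125.I2666 := Vale.Agent.P032.Lt.pat_eq (E' := R0Q125.E2666) (by decide +kernel) (pat_step (by decide +kernel) (q_cons (Vale.Agent.P032.Lt.q R0Q125.q2666_0) q_nil))

theorem p2667 : Pat 73 73 TBm TCm (CB.map Fm) R0Q125.P2667 R0Q125.I2667 := Vale.Agent.P032.Lt.pat_eq (E' := R0Q125.E) eB (pat_step (by decide +kernel) (q_cons (Vale.Agent.P032.Lt.q R0Q125.q2667_0) q_nil))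

theorem p2668 : Pat 73 73 TBm TCm (CB.map Fm) R0Q125.P2668 R0Q125.I2668 := Vale.Agent.P032.Lt.pat_eq (E' := R0Q125.E) eB (pat_step (by decide +kernel) (q_cons (Vale.Agent.P032.Lt.q R0Q125.q2668_0) (q_cons (Vale.Agent.P032.Lt.q R0Q125.q2668_1) (q_cons (Vale.Agent.P032.Lt.q R0Q125.q2668_2) (q_cons (Vale.Agent.P032.Lt.q R0Q125.q2668_3) (q_cons (Vale.Agent.P032.Lt.q R0Q125.q2668_4) (q_cons (Vale.Agent.P032.Lt.q R0Q125.q2668_5) q_nil)))))))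

theorem p2669 : Pat 73 73 TBm TCm (CB.map Fm) R0Q125.P2669 R0Q125.I2669 := Vale.Agent.P032.Lt.pat_eq (E' := R0Q125.E) eB (pat_step (by decide +kernel) (q_cons (Vale.Agent.P032.Lt.q R0Q125.q2669_0) (q_cons (Vale.Agent.P032.Lt.q R0Q125.q2669_1) q_nil)))

def C2670 : List ℕ := [0, 4, 8, 12, 16, 20, 24, 212993, 220161, 606209, 737281]
theorem p2670 : Pat 73 73 TBm TCm (C2670.map Fm) R0Q125.P2670 R0Q125.I2670 := Vale.Agent.P032.Lt.pat_eq (E' := R0Q125.E2670) (by decide +kernel) (pat_step (by decide +kernel) (q_cons (Vale.Agent.P032.Lt.q R0Q125.q2670_0) (q_cons (Vale.Agent.P032.Lt.q R0Q125.q2670_1) (q_cons (Vale.Agent.P032.Lt.q R0Q125.q2670_2) q_nil))))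

theorem p2671 : Pat 73 73 TBm TCm (CB.map Fm) R0Q125.P2671 R0Q125.I2671 := Vale.Agent.P032.Lt.pat_eq (E' := R0Q125.E) eB (pat_step (by decide +kernel) (q_cons (Vale.Agent.P032.Lt.q R0Q125.q2671_0) (q_cons (Vale.Agent.P032.Lt.q R0Q125.q2671_1) (q_cons (Vale.Agent.P032.Lt.q R0Q125.q2671_2) q_nil))))

theorem p2672 : Pat 73 73 TBm TCm (CB.map Fm) R0Q125.P2672 R0Q125.I2672 := Vale.Agent.P032.Lt.pat_eq (E' := R0Q125.E) eB (pat_step (by decide +kernel) (q_cons (Vale.Agent.P032.Lt.q R0Q125.q2672_0) (q_cons (Vale.Agent.P032.Lt.q R0Q125.q2672_1) (q_cons (Vale.Agent.P032.Lt.q R0Q125.q2672_2) (q_cons (Vale.Agent.P032.Lt.q R0Q125.q2672_3) (q_cons (Vale.Agent.P032.Lt.q R0Q125.q2672_4) q_nil))))))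

theorem p2673 : Pat 73 73 TBm TCm (CB.map Fm) R0Q125.P2673 R0Q125.I2673 := Vale.Agent.P032.Lt.pat_eq (E' := R0Q125.E) eB (pat_step (by decide +kernel) (q_cons (Vale.Agent.P032.Lt.q R0Q125.q2673_0) (q_cons (Vale.Agent.P032.Lt.q R0Q125.q2673_1) (q_cons (Vale.Agent.P032.Lt.q R0Q125.q2673_2) (q_cons (Vale.Agent.P032.Lt.q R0Q125.q2673_3) (q_cons (Vale.Agent.P032.Lt.q R0Q125.q2673_4) q_nil))))))

theorem p2674 : Pat 73 73 TBm TCm (CB.map Fm) R0Q126.P2674 R0Q126.I2674 := Vale.Agent.P032.Lt.pat_eq (E' := R0Q126.E) eB (pat_step (by decide +kernel) (q_cons (Vale.Agent.P032.Lt.q R0Q126.q2674_0) (q_cons (Vale.Agent.P032.Lt.q R0Q126.q2674_1) (q_cons (Vale.Agent.P032.Lt.q R0Q126.q2674_2) (q_cons (Vale.Agent.P032.Lt.q R0Q126.q2674_3) (q_cons (Vale.Agent.P032.Lt.q R0Q126.q2674_4) (q_cons (Vale.Agent.P032.Lt.q R0Q126.q2674_5) (q_cons (Vale.Agent.P032.Lt.q R0Q126.q2674_6)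 (q_cons (Vale.Agent.P032.Lt.q R0Q126.q2674_7) q_nil)))))))))

theorem p2675 : Pat 73 73 TBm TCm (CB.map Fm) R0Q126.P2675 R0Q126.I2675 := Vale.Agent.P032.Lt.pat_eq (E' := R0Q126.E) eB (pat_step (by decide +kernel) (q_cons (Vale.Agent.P032.Lt.q R0Q126.q2675_0) (q_cons (Vale.Agent.P032.Lt.q R0Q126.q2675_1) (q_cons (Vale.Agent.P032.Lt.q R0Q126.q2675_2) (q_cons (Vale.Agent.P032.Lt.q R0Q126.q2675_3) (q_cons (Vale.Agent.P032.Lt.q R0Q126.q2675_4) (q_cons (Vale.Agent.P032.Lt.q R0Q126.q2675_5) (q_cons (Vale.Agent.P032.Lt.q R0Q126.q2675_6) (q_cons (Vale.Agent.P032.Lt.q R0Q126.q2675_7) (q_cons (Vale.Agent.P032.Lt.q R0Q126.q2675_8) (q_cons (Vale.Agent.P032.Lt.q R0Q126.q2675_9) q_nil)))))))))))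

theorem p2676 : Pat 73 73 TBm TCm (CB.map Fm) R0Q126.P2676 R0Q126.I2676 := Vale.Agent.P032.Lt.pat_eq (E' := R0Q126.E) eB (pat_step (by decide +kernel) (q_cons (Vale.Agent.P032.Lt.q R0Q126.q2676_0) (q_cons (Vale.Agent.P032.Lt.q R0Q126.q2676_1) (q_cons (Vale.Agent.P032.Lt.q R0Q126.q2676_2) (q_cons (Vale.Agent.P032.Lt.q R0Q126.q2676_3) (q_cons (Vale.Agent.P032.Lt.q R0Q126.q2676_4) (q_cons (Vale.Agent.P032.Lt.q R0Q126.q2676_5) q_nil)))))))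

theorem p2677 : Pat 73 73 TBm TCm (CB.map Fm) R0Q126.P2677 R0Q126.I2677 := Vale.Agent.P032.Lt.pat_eq (E' := R0Q126.E) eB (pat_step (by decide +kernel) (q_cons (Vale.Agent.P032.Lt.q R0Q126.q2677_0) (q_cons (Vale.Agent.P032.Lt.q R0Q126.q2677_1) (q_cons (Vale.Agent.P032.Lt.q R0Q126.q2677_2) (q_cons (Vale.Agent.P032.Lt.q R0Q126.q2677_3) (q_cons (Vale.Agent.P032.Lt.q R0Q126.q2677_4) (q_cons (Vale.Agent.P032.Lt.q R0Q126.q2677_5) q_nil)))))))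

theorem p2678 : Pat 73 73 TBm TCm (CB.map Fm) R0Q126.P2678 R0Q126.I2678 := Vale.Agent.P032.Lt.pat_eq (E' := R0Q126.E) eB (pat_step (by decide +kernel) (q_cons (Vale.Agent.P032.Lt.q R0Q126.q2678_0) (q_cons (Vale.Agent.P032.Lt.q R0Q126.q2678_1) (q_cons (Vale.Agent.P032.Lt.q R0Q126.q2678_2) (q_cons (Vale.Agent.P032.Lt.q R0Q126.q2678_3) (q_cons (Vale.Agent.P032.Lt.q R0Q126.q2678_4) (q_cons (Vale.Agent.P032.Lt.q R0Q126.q2678_5) (q_cons (Vale.Agent.P032.Lt.q R0Q126.q2678_6) (q_cons (Vale.Agent.P032.Lt.q R0Q126.q2678_7) (q_cons (Vale.Agent.P032.Lt.q R0Q126.q2678_8) q_nil))))))))))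

theorem p2679 : Pat 73 73 TBm TCm (CB.map Fm) R0Q126.P2679 R0Q126.I2679 := Vale.Agent.P032.Lt.pat_eq (E' := R0Q126.E) eB (pat_step (by decide +kernel) (q_cons (Vale.Agent.P032.Lt.q R0Q126.q2679_0) q_nil))

theorem p2680 : Pat 73 73 TBm TCm (CB.map Fm) R0Q126.P2680 R0Q126.I2680 := Vale.Agent.P032.Lt.pat_eq (E' := R0Q126.E) eB (pat_step (by decide +kernel) (q_cons (Vale.Agent.P032.Lt.q R0Q126.q2680_0) (q_cons (Vale.Agent.P032.Lt.q R0Q126.q2680_1) (q_cons (Vale.Agent.P032.Lt.q R0Q126.q2680_2) q_nil))))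

theorem p2681 : Pat 73 73 TBm TCm (CB.map Fm) R0Q126.P2681 R0Q126.I2681 := Vale.Agent.P032.Lt.pat_eq (E' := R0Q126.E) eB (pat_step (by decide +kernel) (q_cons (Vale.Agent.P032.Lt.q R0Q126.q2681_0) (q_cons (Vale.Agent.P032.Lt.q R0Q126.q2681_1) (q_cons (Vale.Agent.P032.Lt.q R0Q126.q2681_2) (q_cons (Vale.Agent.P032.Lt.q R0Q126.q2681_3) q_nil)))))

def C2682 : List ℕ := [0, 4, 8, 12, 16, 20, 24, 212993, 606209, 737281]
theorem p2682 : Pat 73 73 TBm TCm (C2682.map Fm) R0Q126.P2682 R0Q126.I2682 := Vale.Agent.P032.Lt.pat_eq (E' := R0Q126.E2682) (by decide +kernel) (pat_step (by decide +kernel) (q_cons (Vale.Agent.P032.Lt.q R0Q126.q2682_0) (q_cons (Vale.Agent.P032.Lt.q R0Q126.q2682_1) (q_cons (Vale.Agent.P032.Lt.q R0Q126.q2682_2) (q_cons (Vale.Agent.P032.Lt.q R0Q126.q2682_3) q_nil)))))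

theorem p2683 : Pat 73 73 TBm TCm (CB.map Fm) R0Q126.P2683 R0Q126.I2683 := Vale.Agent.P032.Lt.pat_eq (E' := R0Q126.E) eB (pat_step (by decide +kernel) (q_cons (Vale.Agent.P032.Lt.q R0Q126.q2683_0) (q_cons (Vale.Agent.P032.Lt.q R0Q126.q2683_1) (q_cons (Vale.Agent.P032.Lt.q R0Q126.q2683_2) (q_cons (Vale.Agent.P032.Lt.q R0Q126.q2683_3) (q_cons (Vale.Agent.P032.Lt.q R0Q126.q2683_4) (q_cons (Vale.Agent.P032.Lt.q R0Q126.q2683_5) (q_cons (Vale.Agent.P032.Lt.q R0Q126.q2683_6) (q_cons (Vale.Agent.P032.Lt.q R0Q126.q2683_7) (q_cons (Vale.Agent.P032.Lt.q R0Q126.q2683_8) (q_cons (Vale.Agent.P032.Lt.q R0Q126.q2683_9) (q_cons (Vale.Agent.P032.Lt.q R0Q126.q2683_10) q_nil))))))))))))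

theorem p2684 : Pat 73 73 TBm TCm (CB.map Fm) R0Q126.P2684 R0Q126.I2684 := Vale.Agent.P032.Lt.pat_eq (E' := R0Q126.E) eB (pat_step (by decide +kernel) (q_cons (Vale.Agent.P032.Lt.q R0Q126.q2684_0) (q_cons (Vale.Agent.P032.Lt.q R0Q126.q2684_1) (q_cons (Vale.Agent.P032.Lt.q R0Q126.q2684_2) (q_cons (Vale.Agent.P032.Lt.q R0Q126.q2684_3) q_nil)))))

theorem p2685 : Pat 73 73 TBm TCm (CB.map Fm) R0Q126.P2685 [] := Vale.Agent.P032.Lt.pat_eq (E' := R0Q126.E) eB (pat_end (by decide +kernel) (Vale.Agent.P032.Lt.q R0Q126.q2685))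

theorem p2686 : Pat 73 73 TBm TCm (CB.map Fm) R0Q126.P2686 R0Q126.I2686 := Vale.Agent.P032.Lt.pat_eq (E' := R0Q126.E) eB (pat_step (by decide +kernel) (q_cons (Vale.Agent.P032.Lt.q R0Q126.q2686_0) (q_cons (Vale.Agent.P032.Lt.q R0Q126.q2686_1) q_nil)))

theorem p2687 : Pat 73 73 TBm TCm (CB.map Fm) R0Q126.P2687 R0Q126.I2687 := Vale.Agent.P032.Lt.pat_eq (E' := R0Q126.E) eB (pat_step (by decide +kernel) (q_cons (Vale.Agent.P032.Lt.q R0Q126.q2687_0) (q_cons (Vale.Agent.P032.Lt.q R0Q126.q2687_1) (q_cons (Vale.Agent.P032.Lt.q R0Q126.q2687_2) (q_cons (Vale.Agent.P032.Lt.q R0Q126.q2687_3) q_nil)))))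

def L : List (List ℕ) := [R0Q121.P2560, R0Q121.P2561, R0Q121.P2562, R0Q121.P2563, R0Q121.P2564, R0Q121.P2565, R0Q121.P2566, R0Q121.P2567, R0Q121.P2568, R0Q121.P2569, R0Q121.P2570, R0Q121.P2571, R0Q121.P2572, R0Q121.P2573, R0Q121.P2574, R0Q121.P2575, R0Q121.P2576, R0Q121.P2577, R0Q121.P2578, R0Q121.P2579, R0Q121.P2580, R0Q121.P2581, R0Q122.P2582, R0Q122.P2583, R0Q122.P2584, R0Q122.P2585, R0Q122.P2586, R0Q122.P2587, R0Q122.P2588, R0Q122.P2589, R0Q122.P2590, R0Q122.P2591, R0Q122.P2592, R0Q122.P2593, R0Q122.P2594, R0Q122.P2595, R0Q122.P2596, R0Q122.P2597, R0Q123.P2598, R0Q123.P2599, R0Q123.P2600, R0Q123.P2601, R0Q123.P2602, R0Q123.P2603, R0Q123.P2604, R0Q123.P2605, R0Q123.P2606, R0Q123.P2607, R0Q123.P2608, R0Q123.P2609, R0Q123.P2610, R0Q123.P2611, R0Q123.P2612, R0Q123.P2613, R0Q123.P2614, R0Q123.P2615, R0Q123.P2616, R0Q123.P2617, R0Q123.P2618, R0Q123.P2619,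 R0Q124.P2620, R0Q124.P2621, R0Q124.P2622, R0Q124.P2623, R0Q124.P2624, R0Q124.P2625, R0Q124.P2626, R0Q124.P2627, R0Q124.P2628, R0Q124.P2629, R0Q124.P2630, R0Q124.P2631, R0Q124.P2632, R0Q124.P2633, R0Q124.P2634, R0Q124.P2635, R0Q124.P2636, R0Q124.P2637, R0Q124.P2638, R0Q124.P2639, R0Q124.P2640, R0Q124.P2641, R0Q124.P2642, R0Q125.P2643, R0Q125.P2644, R0Q125.P2645, R0Q125.P2646, R0Q125.P2647, R0Q125.P2648, R0Q125.P2649, R0Q125.P2650, R0Q125.P2651, R0Q125.P2652, R0Q125.P2653, R0Q125.P2654, R0Q125.P2655, R0Q125.P2656, R0Q125.P2657, R0Q125.P2658, R0Q125.P2659, R0Q125.P2660, R0Q125.P2661, R0Q125.P2662, R0Q125.P2663, R0Q125.P2664, R0Q125.P2665, R0Q125.P2666, R0Q125.P2667, R0Q125.P2668, R0Q125.P2669, R0Q125.P2670, R0Q125.P2671, R0Q125.P2672, R0Q125.P2673, R0Q126.P2674, R0Q126.P2675, R0Q126.P2676, R0Q126.P2677, R0Q126.P2678, R0Q126.P2679, R0Q126.P2680, R0Q126.P2681,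 R0Q126.P2682, R0Q126.P2683, R0Q126.P2684, R0Q126.P2685, R0Q126.P2686, R0Q126.P2687]

theorem all : ∀ P ∈ L, CrtF 73 73 TBm TCm (Vale.Agent.P032.Fam.fam2 (Vale.Agent.P032.Fam.im0)) P := crtF_cons p2560 (crtF_cons p2561 (crtF_cons p2562 (crtF_cons p2563 (crtF_cons p2564 (crtF_cons p2565 (crtF_cons p2566 (crtF_cons p2567 (crtF_cons p2568 (crtF_cons p2569 (crtF_cons p2570 (crtF_cons p2571 (crtF_cons p2572 (crtF_cons p2573 (crtF_cons p2574 (crtF_cons p2575 (crtF_cons p2576 (crtF_cons p2577 (crtF_cons p2578 (crtF_cons p2579 (crtF_cons p2580 (crtF_cons p2581 (crtF_cons p2582 (crtF_cons p2583 (crtF_cons p2584 (crtF_cons p2585 (crtF_cons p2586 (crtF_cons p2587 (crtF_cons p2588 (crtF_cons p2589 (crtF_cons p2590 (crtF_cons p2591 (crtF_cons p2592 (crtF_cons p2593 (crtF_cons p2594 (crtF_cons p2595 (crtF_cons p2596 (crtF_cons p2597 (crtF_cons p2598 (crtF_cons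 p2599 (crtF_cons p2600 (crtF_cons p2601 (crtF_cons p2602 (crtF_cons p2603 (crtF_cons p2604 (crtF_cons p2605 (crtF_cons p2606 (crtF_cons p2607 (crtF_cons p2608 (crtF_cons p2609 (crtF_cons p2610 (crtF_cons p2611 (crtF_cons p2612 (crtF_cons p2613 (crtF_cons p2614 (crtF_cons p2615 (crtF_cons p2616 (crtF_cons p2617 (crtF_cons p2618 (crtF_cons p2619 (crtF_cons p2620 (crtF_cons p2621 (crtF_cons p2622 (crtF_cons p2623 (crtF_cons p2624 (crtF_cons p2625 (crtF_cons p2626 (crtF_cons p2627 (crtF_cons p2628 (crtF_cons p2629 (crtF_cons p2630 (crtF_cons p2631 (crtF_cons p2632 (crtF_cons p2633 (crtF_cons p2634 (crtF_cons p2635 (crtF_cons p2636 (crtF_cons p2637 (crtF_cons p2638 (crtF_cons p2639 (crtF_cons p2640 (crtF_cons p2641 (crtF_cons p2642 (crtF_cons p2643 (crtF_cons p2644 (crtF_cons p2645 (crtF_cons p2646 (crtF_cons p2647 (crtF_cons p2648 (crtF_cons p2649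 (crtF_cons p2650 (crtF_cons p2651 (crtF_cons p2652 (crtF_cons p2653 (crtF_cons p2654 (crtF_cons p2655 (crtF_cons p2656 (crtF_cons p2657 (crtF_cons p2658 (crtF_cons p2659 (crtF_cons p2660 (crtF_cons p2661 (crtF_cons p2662 (crtF_cons p2663 (crtF_cons p2664 (crtF_cons p2665 (crtF_cons p2666 (crtF_cons p2667 (crtF_cons p2668 (crtF_cons p2669 (crtF_cons p2670 (crtF_cons p2671 (crtF_cons p2672 (crtF_cons p2673 (crtF_cons p2674 (crtF_cons p2675 (crtF_cons p2676 (crtF_cons p2677 (crtF_cons p2678 (crtF_cons p2679 (crtF_cons p2680 (crtF_cons p2681 (crtF_cons p2682 (crtF_cons p2683 (crtF_cons p2684 (crtF_cons p2685 (crtF_cons p2686 (crtF_cons p2687 crtF_nil)))))))))))))))))))))))))))))))))))))))))))))))))))))))))))))))))))))))))))))))))))))))))))))))))))))))))))))))))))))))))))))))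

theorem ch : chT 73 73 TCm s0_020 L = true := by decide +kernel

end Vale.Agent.P032X.Cert.XP.B1.R0H020
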