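import Vale.Agent.P032X.H892.LtH
import Vale.Agent.P032X.H286.W73
import Vale.Agent.P032X.Cert.XP.B1.R0T
import Vale.Agent.P032X.Cert.XP.B1.R0Q127
import Vale.Agent.P032X.Cert.XP.B1.R0Q128
import Vale.Agent.P032X.Cert.XP.B1.R0Q129
import Vale.Agent.P032X.Cert.XP.B1.R0Q130
import Vale.Agent.P032X.Cert.XP.B1.R0Q131
import Vale.Agent.P032X.Cert.XP.B1.R0Q132
import Vale.Agent.P032X.Cert.XP.B1.R0Q133

set_option maxRecDepth 1000000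

namespace Vale.Agent.P032X.Cert.XP.B1.R0H021

open Vale.Agent.P032.H820.K Vale.Agent.P032.H357.MK Vale.Agent.P032.H286.E Vale.Agent.P032.H61 Vale.Agent.P032X.Cert.XP.B1

noncomputable abbrev Fm : ℕ → List ℕ := Vale.Agent.P032.Fam.fam2 (Vale.Agent.P032.Fam.im0)

def CB : List ℕ := [0, 4, 8, 12, 16, 20, 24]

theorem eB : Vale.Agent.P032.Lt.eqLL (CB.map Fm) R0Q127.E = true := by decide +kernel

theorem p2688 : Pat 73 73 TBm TCm (CB.map Fm) R0Q127.P2688 R0Q127.I2688 := Vale.Agent.P032.Lt.pat_eq (E' := R0Q127.E) eB (pat_step (by decide +kernel) (q_cons (Vale.Agent.P032.Lt.q R0Q127.q2688_0) (q_cons (Vale.Agent.P032.Lt.q R0Q127.q2688_1) (q_cons (Vale.Agent.P032.Lt.q R0Q127.q2688_2) q_nil))))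

theorem p2689 : Pat 73 73 TBm TCm (CB.map Fm) R0Q127.P2689 R0Q127.I2689 := Vale.Agent.P032.Lt.pat_eq (E' := R0Q127.E) eB (pat_step (by decide +kernel) (q_cons (Vale.Agent.P032.Lt.q R0Q127.q2689_0) (q_cons (Vale.Agent.P032.Lt.q R0Q127.q2689_1) (q_cons (Vale.Agent.P032.Lt.q R0Q127.q2689_2) (q_cons (Vale.Agent.P032.Lt.q R0Q127.q2689_3) (q_cons (Vale.Agent.P032.Lt.q R0Q127.q2689_4) (q_cons (Vale.Agent.P032.Lt.q R0Q127.q2689_5) (q_cons (Vale.Agent.P032.Lt.q R0Q127.q2689_6) q_nil))))))))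

theorem p2690 : Pat 73 73 TBm TCm (CB.map Fm) R0Q127.P2690 R0Q127.I2690 := Vale.Agent.P032.Lt.pat_eq (E' := R0Q127.E) eB (pat_step (by decide +kernel) (q_cons (Vale.Agent.P032.Lt.q R0Q127.q2690_0) (q_cons (Vale.Agent.P032.Lt.q R0Q127.q2690_1) (q_cons (Vale.Agent.P032.Lt.q R0Q127.q2690_2) q_nil))))

theorem p2691 : Pat 73 73 TBm TCm (CB.map Fm) R0Q127.P2691 R0Q127.I2691 := Vale.Agent.P032.Lt.pat_eq (E' := R0Q127.E) eB (pat_step (by decide +kernel) (q_cons (Vale.Agent.P032.Lt.q R0Q127.q2691_0) (q_cons (Vale.Agent.P032.Lt.q R0Q127.q2691_1) (q_cons (Vale.Agent.P032.Lt.q R0Q127.q2691_2) (q_cons (Vale.Agent.P032.Lt.q R0Q127.q2691_3) (q_cons (Vale.Agent.P032.Lt.q R0Q127.q2691_4) (q_cons (Vale.Agent.P032.Lt.q R0Q127.q2691_5) (q_cons (Vale.Agent.P032.Lt.q R0Q127.q2691_6) (q_cons (Vale.Agent.P032.Lt.q R0Q127.q2691_7) (q_cons (Vale.Agent.P032.Lt.q R0Q127.q2691_8)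 q_nil))))))))))

theorem p2692 : Pat 73 73 TBm TCm (CB.map Fm) R0Q127.P2692 R0Q127.I2692 := Vale.Agent.P032.Lt.pat_eq (E' := R0Q127.E) eB (pat_step (by decide +kernel) (q_cons (Vale.Agent.P032.Lt.q R0Q127.q2692_0) (q_cons (Vale.Agent.P032.Lt.q R0Q127.q2692_1) q_nil)))

theorem p2693 : Pat 73 73 TBm TCm (CB.map Fm) R0Q127.P2693 R0Q127.I2693 := Vale.Agent.P032.Lt.pat_eq (E' := R0Q127.E) eB (pat_step (by decide +kernel) (q_cons (Vale.Agent.P032.Lt.q R0Q127.q2693_0) (q_cons (Vale.Agent.P032.Lt.q R0Q127.q2693_1) (q_cons (Vale.Agent.P032.Lt.q R0Q127.q2693_2) (q_cons (Vale.Agent.P032.Lt.q R0Q127.q2693_3) q_nil)))))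

theorem p2694 : Pat 73 73 TBm TCm (CB.map Fm) R0Q127.P2694 R0Q127.I2694 := Vale.Agent.P032.Lt.pat_eq (E' := R0Q127.E) eB (pat_step (by decide +kernel) (q_cons (Vale.Agent.P032.Lt.q R0Q127.q2694_0) (q_cons (Vale.Agent.P032.Lt.q R0Q127.q2694_1) (q_cons (Vale.Agent.P032.Lt.q R0Q127.q2694_2) q_nil))))

theorem p2695 : Pat 73 73 TBm TCm (CB.map Fm) R0Q127.P2695 R0Q127.I2695 := Vale.Agent.P032.Lt.pat_eq (E' := R0Q127.E) eB (pat_step (by decide +kernel) (q_cons (Vale.Agent.P032.Lt.q R0Q127.q2695_0) (q_cons (Vale.Agent.P032.Lt.q R0Q127.q2695_1) q_nil)))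

theorem p2696 : Pat 73 73 TBm TCm (CB.map Fm) R0Q127.P2696 R0Q127.I2696 := Vale.Agent.P032.Lt.pat_eq (E' := R0Q127.E) eB (pat_step (by decide +kernel) (q_cons (Vale.Agent.P032.Lt.q R0Q127.q2696_0) (q_cons (Vale.Agent.P032.Lt.q R0Q127.q2696_1) (q_cons (Vale.Agent.P032.Lt.q R0Q127.q2696_2) (q_cons (Vale.Agent.P032.Lt.q R0Q127.q2696_3) (q_cons (Vale.Agent.P032.Lt.q R0Q127.q2696_4) (q_cons (Vale.Agent.P032.Lt.q R0Q127.q2696_5) q_nil)))))))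

theorem p2697 : Pat 73 73 TBm TCm (CB.map Fm) R0Q127.P2697 R0Q127.I2697 := Vale.Agent.P032.Lt.pat_eq (E' := R0Q127.E) eB (pat_step (by decide +kernel) (q_cons (Vale.Agent.P032.Lt.q R0Q127.q2697_0) q_nil))

theorem p2698 : Pat 73 73 TBm TCm (CB.map Fm) R0Q127.P2698 R0Q127.I2698 := Vale.Agent.P032.Lt.pat_eq (E' := R0Q127.E) eB (pat_step (by decide +kernel) (q_cons (Vale.Agent.P032.Lt.q R0Q127.q2698_0) (q_cons (Vale.Agent.P032.Lt.q R0Q127.q2698_1) (q_cons (Vale.Agent.P032.Lt.q R0Q127.q2698_2) (q_cons (Vale.Agent.P032.Lt.q R0Q127.q2698_3) (q_cons (Vale.Agent.P032.Lt.q R0Q127.q2698_4) (q_cons (Vale.Agent.P032.Lt.q R0Q127.q2698_5) (q_cons (Vale.Agent.P032.Lt.q R0Q127.q2698_6) (q_cons (Vale.Agent.P032.Lt.q R0Q127.q2698_7) (q_cons (Vale.Agent.P032.Lt.q R0Q127.q2698_8) (q_cons (Vale.Agent.P032.Lt.q R0Q127.q2698_9) (q_cons (Vale.Agent.P032.Lt.q R0Q127.q2698_10)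 q_nil))))))))))))

theorem p2699 : Pat 73 73 TBm TCm (CB.map Fm) R0Q127.P2699 R0Q127.I2699 := Vale.Agent.P032.Lt.pat_eq (E' := R0Q127.E) eB (pat_step (by decide +kernel) (q_cons (Vale.Agent.P032.Lt.q R0Q127.q2699_0) (q_cons (Vale.Agent.P032.Lt.q R0Q127.q2699_1) (q_cons (Vale.Agent.P032.Lt.q R0Q127.q2699_2) q_nil))))

theorem p2700 : Pat 73 73 TBm TCm (CB.map Fm) R0Q127.P2700 R0Q127.I2700 := Vale.Agent.P032.Lt.pat_eq (E' := R0Q127.E) eB (pat_step (by decide +kernel) (q_cons (Vale.Agent.P032.Lt.q R0Q127.q2700_0) (q_cons (Vale.Agent.P032.Lt.q R0Q127.q2700_1) (q_cons (Vale.Agent.P032.Lt.q R0Q127.q2700_2) (q_cons (Vale.Agent.P032.Lt.q R0Q127.q2700_3) (q_cons (Vale.Agent.P032.Lt.q R0Q127.q2700_4) (q_cons (Vale.Agent.P032.Lt.q R0Q127.q2700_5) (q_cons (Vale.Agent.P032.Lt.q R0Q127.q2700_6) q_nil))))))))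

theorem p2701 : Pat 73 73 TBm TCm (CB.map Fm) R0Q127.P2701 R0Q127.I2701 := Vale.Agent.P032.Lt.pat_eq (E' := R0Q127.E) eB (pat_step (by decide +kernel) (q_cons (Vale.Agent.P032.Lt.q R0Q127.q2701_0) (q_cons (Vale.Agent.P032.Lt.q R0Q127.q2701_1) (q_cons (Vale.Agent.P032.Lt.q R0Q127.q2701_2) (q_cons (Vale.Agent.P032.Lt.q R0Q127.q2701_3) (q_cons (Vale.Agent.P032.Lt.q R0Q127.q2701_4) (q_cons (Vale.Agent.P032.Lt.q R0Q127.q2701_5) q_nil)))))))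

theorem p2702 : Pat 73 73 TBm TCm (CB.map Fm) R0Q127.P2702 R0Q127.I2702 := Vale.Agent.P032.Lt.pat_eq (E' := R0Q127.E) eB (pat_step (by decide +kernel) (q_cons (Vale.Agent.P032.Lt.q R0Q127.q2702_0) (q_cons (Vale.Agent.P032.Lt.q R0Q127.q2702_1) (q_cons (Vale.Agent.P032.Lt.q R0Q127.q2702_2) (q_cons (Vale.Agent.P032.Lt.q R0Q127.q2702_3) (q_cons (Vale.Agent.P032.Lt.q R0Q127.q2702_4) (q_cons (Vale.Agent.P032.Lt.q R0Q127.q2702_5) (q_cons (Vale.Agent.P032.Lt.q R0Q127.q2702_6) (q_cons (Vale.Agent.P032.Lt.q R0Q127.q2702_7) (q_cons (Vale.Agent.P032.Lt.q R0Q127.q2702_8) (q_cons (Vale.Agent.P032.Lt.q R0Q127.q2702_9) (q_cons (Vale.Agent.P032.Lt.q R0Q127.q2702_10) (q_cons (Vale.Agent.P032.Lt.q R0Q127.q2702_11) (q_cons (Vale.Agent.P032.Lt.q R0Q127.q2702_12) q_nil))))))))))))))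

theorem p2703 : Pat 73 73 TBm TCm (CB.map Fm) R0Q128.P2703 R0Q128.I2703 := Vale.Agent.P032.Lt.pat_eq (E' := R0Q128.E) eB (pat_step (by decide +kernel) (q_cons (Vale.Agent.P032.Lt.q R0Q128.q2703_0) (q_cons (Vale.Agent.P032.Lt.q R0Q128.q2703_1) (q_cons (Vale.Agent.P032.Lt.q R0Q128.q2703_2) (q_cons (Vale.Agent.P032.Lt.q R0Q128.q2703_3) (q_cons (Vale.Agent.P032.Lt.q R0Q128.q2703_4) (q_cons (Vale.Agent.P032.Lt.q R0Q128.q2703_5) (q_cons (Vale.Agent.P032.Lt.q R0Q128.q2703_6) (q_cons (Vale.Agent.P032.Lt.q R0Q128.q2703_7) (q_cons (Vale.Agent.P032.Lt.q R0Q128.q2703_8) (q_cons (Vale.Agent.P032.Lt.q R0Q128.q2703_9) (q_cons (Vale.Agent.P032.Lt.q R0Q128.q2703_10) (q_cons (Vale.Agent.P032.Lt.q R0Q128.q2703_11) (q_cons (Vale.Agent.P032.Lt.q R0Q128.q2703_12) (q_cons (Vale.Agent.P032.Lt.q R0Q128.q2703_13) (q_cons (Vale.Agent.P032.Lt.q R0Q128.q2703_14) (q_cons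 (Vale.Agent.P032.Lt.q R0Q128.q2703_15) (q_cons (Vale.Agent.P032.Lt.q R0Q128.q2703_16) (q_cons (Vale.Agent.P032.Lt.q R0Q128.q2703_17) (q_cons (Vale.Agent.P032.Lt.q R0Q128.q2703_18) (q_cons (Vale.Agent.P032.Lt.q R0Q128.q2703_19) (q_cons (Vale.Agent.P032.Lt.q R0Q128.q2703_20) (q_cons (Vale.Agent.P032.Lt.q R0Q128.q2703_21) (q_cons (Vale.Agent.P032.Lt.q R0Q128.q2703_22) (q_cons (Vale.Agent.P032.Lt.q R0Q128.q2703_23) (q_cons (Vale.Agent.P032.Lt.q R0Q128.q2703_24) (q_cons (Vale.Agent.P032.Lt.q R0Q128.q2703_25) (q_cons (Vale.Agent.P032.Lt.q R0Q128.q2703_26) (q_cons (Vale.Agent.P032.Lt.q R0Q128.q2703_27) (q_cons (Vale.Agent.P032.Lt.q R0Q128.q2703_28) (q_cons (Vale.Agent.P032.Lt.q R0Q128.q2703_29) (q_cons (Vale.Agent.P032.Lt.q R0Q128.q2703_30) (q_cons (Vale.Agent.P032.Lt.q R0Q128.q2703_31) (q_cons (Vale.Agent.P032.Lt.q R0Q128.q2703_32) (q_cons (Vale.Agent.P032.Lt.q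 R0Q128.q2703_33) (q_cons (Vale.Agent.P032.Lt.q R0Q128.q2703_34) (q_cons (Vale.Agent.P032.Lt.q R0Q128.q2703_35) (q_cons (Vale.Agent.P032.Lt.q R0Q128.q2703_36) (q_cons (Vale.Agent.P032.Lt.q R0Q128.q2703_37) (q_cons (Vale.Agent.P032.Lt.q R0Q128.q2703_38) (q_cons (Vale.Agent.P032.Lt.q R0Q128.q2703_39) (q_cons (Vale.Agent.P032.Lt.q R0Q128.q2703_40) (q_cons (Vale.Agent.P032.Lt.q R0Q128.q2703_41) q_nil)))))))))))))))))))))))))))))))))))))))))))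

theorem p2704 : Pat 73 73 TBm TCm (CB.map Fm) R0Q128.P2704 R0Q128.I2704 := Vale.Agent.P032.Lt.pat_eq (E' := R0Q128.E) eB (pat_step (by decide +kernel) (q_cons (Vale.Agent.P032.Lt.q R0Q128.q2704_0) (q_cons (Vale.Agent.P032.Lt.q R0Q128.q2704_1) (q_cons (Vale.Agent.P032.Lt.q R0Q128.q2704_2) (q_cons (Vale.Agent.P032.Lt.q R0Q128.q2704_3) (q_cons (Vale.Agent.P032.Lt.q R0Q128.q2704_4) (q_cons (Vale.Agent.P032.Lt.q R0Q128.q2704_5) (q_cons (Vale.Agent.P032.Lt.q R0Q128.q2704_6) (q_cons (Vale.Agent.P032.Lt.q R0Q128.q2704_7) (q_cons (Vale.Agent.P032.Lt.q R0Q128.q2704_8) (q_cons (Vale.Agent.P032.Lt.q R0Q128.q2704_9) (q_cons (Vale.Agent.P032.Lt.q R0Q128.q2704_10) (q_cons (Vale.Agent.P032.Lt.q R0Q128.q2704_11) q_nil)))))))))))))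

theorem p2705 : Pat 73 73 TBm TCm (CB.map Fm) R0Q128.P2705 R0Q128.I2705 := Vale.Agent.P032.Lt.pat_eq (E' := R0Q128.E) eB (pat_step (by decide +kernel) (q_cons (Vale.Agent.P032.Lt.q R0Q128.q2705_0) (q_cons (Vale.Agent.P032.Lt.q R0Q128.q2705_1) (q_cons (Vale.Agent.P032.Lt.q R0Q128.q2705_2) (q_cons (Vale.Agent.P032.Lt.q R0Q128.q2705_3) (q_cons (Vale.Agent.P032.Lt.q R0Q128.q2705_4) (q_cons (Vale.Agent.P032.Lt.q R0Q128.q2705_5) (q_cons (Vale.Agent.P032.Lt.q R0Q128.q2705_6) (q_cons (Vale.Agent.P032.Lt.q R0Q128.q2705_7) (q_cons (Vale.Agent.P032.Lt.q R0Q128.q2705_8) (q_cons (Vale.Agent.P032.Lt.q R0Q128.q2705_9) (q_cons (Vale.Agent.P032.Lt.q R0Q128.q2705_10) (q_cons (Vale.Agent.P032.Lt.q R0Q128.q2705_11) (q_cons (Vale.Agent.P032.Lt.q R0Q128.q2705_12) (q_cons (Vale.Agent.P032.Lt.q R0Q128.q2705_13) (q_cons (Vale.Agent.P032.Lt.q R0Q128.q2705_14) (q_cons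 (Vale.Agent.P032.Lt.q R0Q128.q2705_15) (q_cons (Vale.Agent.P032.Lt.q R0Q128.q2705_16) (q_cons (Vale.Agent.P032.Lt.q R0Q128.q2705_17) (q_cons (Vale.Agent.P032.Lt.q R0Q128.q2705_18) (q_cons (Vale.Agent.P032.Lt.q R0Q128.q2705_19) (q_cons (Vale.Agent.P032.Lt.q R0Q128.q2705_20) (q_cons (Vale.Agent.P032.Lt.q R0Q128.q2705_21) (q_cons (Vale.Agent.P032.Lt.q R0Q128.q2705_22) (q_cons (Vale.Agent.P032.Lt.q R0Q128.q2705_23) (q_cons (Vale.Agent.P032.Lt.q R0Q128.q2705_24) (q_cons (Vale.Agent.P032.Lt.q R0Q128.q2705_25) q_nil)))))))))))))))))))))))))))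

theorem p2706 : Pat 73 73 TBm TCm (CB.map Fm) R0Q128.P2706 R0Q128.I2706 := Vale.Agent.P032.Lt.pat_eq (E' := R0Q128.E) eB (pat_step (by decide +kernel) (q_cons (Vale.Agent.P032.Lt.q R0Q128.q2706_0) (q_cons (Vale.Agent.P032.Lt.q R0Q128.q2706_1) (q_cons (Vale.Agent.P032.Lt.q R0Q128.q2706_2) (q_cons (Vale.Agent.P032.Lt.q R0Q128.q2706_3) (q_cons (Vale.Agent.P032.Lt.q R0Q128.q2706_4) (q_cons (Vale.Agent.P032.Lt.q R0Q128.q2706_5) (q_cons (Vale.Agent.P032.Lt.q R0Q128.q2706_6) (q_cons (Vale.Agent.P032.Lt.q R0Q128.q2706_7) (q_cons (Vale.Agent.P032.Lt.q R0Q128.q2706_8) (q_cons (Vale.Agent.P032.Lt.q R0Q128.q2706_9) (q_cons (Vale.Agent.P032.Lt.q R0Q128.q2706_10) (q_cons (Vale.Agent.P032.Lt.q R0Q128.q2706_11) (q_cons (Vale.Agent.P032.Lt.q R0Q128.q2706_12) (q_cons (Vale.Agent.P032.Lt.q R0Q128.q2706_13) (q_cons (Vale.Agent.P032.Lt.q R0Q128.q2706_14) (q_cons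 (Vale.Agent.P032.Lt.q R0Q128.q2706_15) (q_cons (Vale.Agent.P032.Lt.q R0Q128.q2706_16) (q_cons (Vale.Agent.P032.Lt.q R0Q128.q2706_17) (q_cons (Vale.Agent.P032.Lt.q R0Q128.q2706_18) (q_cons (Vale.Agent.P032.Lt.q R0Q128.q2706_19) (q_cons (Vale.Agent.P032.Lt.q R0Q128.q2706_20) (q_cons (Vale.Agent.P032.Lt.q R0Q128.q2706_21) (q_cons (Vale.Agent.P032.Lt.q R0Q128.q2706_22) (q_cons (Vale.Agent.P032.Lt.q R0Q128.q2706_23) (q_cons (Vale.Agent.P032.Lt.q R0Q128.q2706_24) (q_cons (Vale.Agent.P032.Lt.q R0Q128.q2706_25) (q_cons (Vale.Agent.P032.Lt.q R0Q128.q2706_26) (q_cons (Vale.Agent.P032.Lt.q R0Q128.q2706_27) (q_cons (Vale.Agent.P032.Lt.q R0Q128.q2706_28) (q_cons (Vale.Agent.P032.Lt.q R0Q128.q2706_29) (q_cons (Vale.Agent.P032.Lt.q R0Q128.q2706_30) (q_cons (Vale.Agent.P032.Lt.q R0Q128.q2706_31) (q_cons (Vale.Agent.P032.Lt.q R0Q128.q2706_32) (q_cons (Vale.Agent.P032.Lt.q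 R0Q128.q2706_33) (q_cons (Vale.Agent.P032.Lt.q R0Q128.q2706_34) (q_cons (Vale.Agent.P032.Lt.q R0Q128.q2706_35) (q_cons (Vale.Agent.P032.Lt.q R0Q128.q2706_36) (q_cons (Vale.Agent.P032.Lt.q R0Q128.q2706_37) (q_cons (Vale.Agent.P032.Lt.q R0Q128.q2706_38) (q_cons (Vale.Agent.P032.Lt.q R0Q128.q2706_39) (q_cons (Vale.Agent.P032.Lt.q R0Q128.q2706_40) (q_cons (Vale.Agent.P032.Lt.q R0Q128.q2706_41) (q_cons (Vale.Agent.P032.Lt.q R0Q128.q2706_42) (q_cons (Vale.Agent.P032.Lt.q R0Q128.q2706_43) (q_cons (Vale.Agent.P032.Lt.q R0Q128.q2706_44) (q_cons (Vale.Agent.P032.Lt.q R0Q128.q2706_45) (q_cons (Vale.Agent.P032.Lt.q R0Q128.q2706_46) (q_cons (Vale.Agent.P032.Lt.q R0Q128.q2706_47) (q_cons (Vale.Agent.P032.Lt.q R0Q128.q2706_48) (q_cons (Vale.Agent.P032.Lt.q R0Q128.q2706_49) (q_cons (Vale.Agent.P032.Lt.q R0Q128.q2706_50) (q_cons (Vale.Agent.P032.Lt.q R0Q128.q2706_51)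 (q_cons (Vale.Agent.P032.Lt.q R0Q128.q2706_52) (q_cons (Vale.Agent.P032.Lt.q R0Q128.q2706_53) (q_cons (Vale.Agent.P032.Lt.q R0Q128.q2706_54) q_nil))))))))))))))))))))))))))))))))))))))))))))))))))))))))

theorem p2707 : Pat 73 73 TBm TCm (CB.map Fm) R0Q128.P2707 R0Q128.I2707 := Vale.Agent.P032.Lt.pat_eq (E' := R0Q128.E) eB (pat_step (by decide +kernel) (q_cons (Vale.Agent.P032.Lt.q R0Q128.q2707_0) (q_cons (Vale.Agent.P032.Lt.q R0Q128.q2707_1) (q_cons (Vale.Agent.P032.Lt.q R0Q128.q2707_2) (q_cons (Vale.Agent.P032.Lt.q R0Q128.q2707_3) (q_cons (Vale.Agent.P032.Lt.q R0Q128.q2707_4) q_nil))))))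

theorem p2708 : Pat 73 73 TBm TCm (CB.map Fm) R0Q128.P2708 R0Q128.I2708 := Vale.Agent.P032.Lt.pat_eq (E' := R0Q128.E) eB (pat_step (by decide +kernel) (q_cons (Vale.Agent.P032.Lt.q R0Q128.q2708_0) (q_cons (Vale.Agent.P032.Lt.q R0Q128.q2708_1) (q_cons (Vale.Agent.P032.Lt.q R0Q128.q2708_2) (q_cons (Vale.Agent.P032.Lt.q R0Q128.q2708_3) (q_cons (Vale.Agent.P032.Lt.q R0Q128.q2708_4) (q_cons (Vale.Agent.P032.Lt.q R0Q128.q2708_5) (q_cons (Vale.Agent.P032.Lt.q R0Q128.q2708_6) (q_cons (Vale.Agent.P032.Lt.q R0Q128.q2708_7) (q_cons (Vale.Agent.P032.Lt.q R0Q128.q2708_8) (q_cons (Vale.Agent.P032.Lt.q R0Q128.q2708_9) (q_cons (Vale.Agent.P032.Lt.q R0Q128.q2708_10) (q_cons (Vale.Agent.P032.Lt.q R0Q128.q2708_11) (q_cons (Vale.Agent.P032.Lt.q R0Q128.q2708_12) (q_cons (Vale.Agent.P032.Lt.q R0Q128.q2708_13) (q_cons (Vale.Agent.P032.Lt.q R0Q128.q2708_14) (q_cons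 (Vale.Agent.P032.Lt.q R0Q128.q2708_15) (q_cons (Vale.Agent.P032.Lt.q R0Q128.q2708_16) (q_cons (Vale.Agent.P032.Lt.q R0Q128.q2708_17) (q_cons (Vale.Agent.P032.Lt.q R0Q128.q2708_18) (q_cons (Vale.Agent.P032.Lt.q R0Q128.q2708_19) (q_cons (Vale.Agent.P032.Lt.q R0Q128.q2708_20) (q_cons (Vale.Agent.P032.Lt.q R0Q128.q2708_21) (q_cons (Vale.Agent.P032.Lt.q R0Q128.q2708_22) q_nil))))))))))))))))))))))))

theorem p2709 : Pat 73 73 TBm TCm (CB.map Fm) R0Q128.P2709 R0Q128.I2709 := Vale.Agent.P032.Lt.pat_eq (E' := R0Q128.E) eB (pat_step (by decide +kernel) (q_cons (Vale.Agent.P032.Lt.q R0Q128.q2709_0) (q_cons (Vale.Agent.P032.Lt.q R0Q128.q2709_1) (q_cons (Vale.Agent.P032.Lt.q R0Q128.q2709_2) (q_cons (Vale.Agent.P032.Lt.q R0Q128.q2709_3) (q_cons (Vale.Agent.P032.Lt.q R0Q128.q2709_4) (q_cons (Vale.Agent.P032.Lt.q R0Q128.q2709_5) (q_cons (Vale.Agent.P032.Lt.q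 R0Q128.q2709_6) (q_cons (Vale.Agent.P032.Lt.q R0Q128.q2709_7) (q_cons (Vale.Agent.P032.Lt.q R0Q128.q2709_8) (q_cons (Vale.Agent.P032.Lt.q R0Q128.q2709_9) (q_cons (Vale.Agent.P032.Lt.q R0Q128.q2709_10) (q_cons (Vale.Agent.P032.Lt.q R0Q128.q2709_11) (q_cons (Vale.Agent.P032.Lt.q R0Q128.q2709_12) (q_cons (Vale.Agent.P032.Lt.q R0Q128.q2709_13) (q_cons (Vale.Agent.P032.Lt.q R0Q128.q2709_14) (q_cons (Vale.Agent.P032.Lt.q R0Q128.q2709_15) (q_cons (Vale.Agent.P032.Lt.q R0Q128.q2709_16) (q_cons (Vale.Agent.P032.Lt.q R0Q128.q2709_17) (q_cons (Vale.Agent.P032.Lt.q R0Q128.q2709_18) (q_cons (Vale.Agent.P032.Lt.q R0Q128.q2709_19) (q_cons (Vale.Agent.P032.Lt.q R0Q128.q2709_20) (q_cons (Vale.Agent.P032.Lt.q R0Q128.q2709_21) (q_cons (Vale.Agent.P032.Lt.q R0Q128.q2709_22) (q_cons (Vale.Agent.P032.Lt.q R0Q128.q2709_23) (q_cons (Vale.Agent.P032.Lt.q R0Q128.q2709_24)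 (q_cons (Vale.Agent.P032.Lt.q R0Q128.q2709_25) (q_cons (Vale.Agent.P032.Lt.q R0Q128.q2709_26) (q_cons (Vale.Agent.P032.Lt.q R0Q128.q2709_27) (q_cons (Vale.Agent.P032.Lt.q R0Q128.q2709_28) (q_cons (Vale.Agent.P032.Lt.q R0Q128.q2709_29) (q_cons (Vale.Agent.P032.Lt.q R0Q128.q2709_30) (q_cons (Vale.Agent.P032.Lt.q R0Q128.q2709_31) (q_cons (Vale.Agent.P032.Lt.q R0Q128.q2709_32) (q_cons (Vale.Agent.P032.Lt.q R0Q128.q2709_33) (q_cons (Vale.Agent.P032.Lt.q R0Q128.q2709_34) q_nil))))))))))))))))))))))))))))))))))))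

theorem p2710 : Pat 73 73 TBm TCm (CB.map Fm) R0Q128.P2710 R0Q128.I2710 := Vale.Agent.P032.Lt.pat_eq (E' := R0Q128.E) eB (pat_step (by decide +kernel) (q_cons (Vale.Agent.P032.Lt.q R0Q128.q2710_0) (q_cons (Vale.Agent.P032.Lt.q R0Q128.q2710_1) (q_cons (Vale.Agent.P032.Lt.q R0Q128.q2710_2) (q_cons (Vale.Agent.P032.Lt.q R0Q128.q2710_3) q_nil)))))

theorem p2711 : Pat 73 73 TBm TCm (CB.map Fm) R0Q129.P2711 R0Q129.I2711 := Vale.Agent.P032.Lt.pat_eq (E' := R0Q129.E) eB (pat_step (by decide +kernel) (q_cons (Vale.Agent.P032.Lt.q R0Q129.q2711_0) (q_cons (Vale.Agent.P032.Lt.q R0Q129.q2711_1) (q_cons (Vale.Agent.P032.Lt.q R0Q129.q2711_2) (q_cons (Vale.Agent.P032.Lt.q R0Q129.q2711_3) (q_cons (Vale.Agent.P032.Lt.q R0Q129.q2711_4) (q_cons (Vale.Agent.P032.Lt.q R0Q129.q2711_5) (q_cons (Vale.Agent.P032.Lt.q R0Q129.q2711_6) (q_cons (Vale.Agent.P032.Lt.q R0Q129.q2711_7)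 (q_cons (Vale.Agent.P032.Lt.q R0Q129.q2711_8) (q_cons (Vale.Agent.P032.Lt.q R0Q129.q2711_9) (q_cons (Vale.Agent.P032.Lt.q R0Q129.q2711_10) (q_cons (Vale.Agent.P032.Lt.q R0Q129.q2711_11) (q_cons (Vale.Agent.P032.Lt.q R0Q129.q2711_12) (q_cons (Vale.Agent.P032.Lt.q R0Q129.q2711_13) (q_cons (Vale.Agent.P032.Lt.q R0Q129.q2711_14) (q_cons (Vale.Agent.P032.Lt.q R0Q129.q2711_15) (q_cons (Vale.Agent.P032.Lt.q R0Q129.q2711_16) (q_cons (Vale.Agent.P032.Lt.q R0Q129.q2711_17) (q_cons (Vale.Agent.P032.Lt.q R0Q129.q2711_18) (q_cons (Vale.Agent.P032.Lt.q R0Q129.q2711_19) (q_cons (Vale.Agent.P032.Lt.q R0Q129.q2711_20) (q_cons (Vale.Agent.P032.Lt.q R0Q129.q2711_21) (q_cons (Vale.Agent.P032.Lt.q R0Q129.q2711_22) (q_cons (Vale.Agent.P032.Lt.q R0Q129.q2711_23) (q_cons (Vale.Agent.P032.Lt.q R0Q129.q2711_24) (q_cons (Vale.Agent.P032.Lt.q R0Q129.q2711_25) (q_cons (Vale.Agent.P032.Lt.q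 R0Q129.q2711_26) (q_cons (Vale.Agent.P032.Lt.q R0Q129.q2711_27) (q_cons (Vale.Agent.P032.Lt.q R0Q129.q2711_28) (q_cons (Vale.Agent.P032.Lt.q R0Q129.q2711_29) (q_cons (Vale.Agent.P032.Lt.q R0Q129.q2711_30) (q_cons (Vale.Agent.P032.Lt.q R0Q129.q2711_31) (q_cons (Vale.Agent.P032.Lt.q R0Q129.q2711_32) (q_cons (Vale.Agent.P032.Lt.q R0Q129.q2711_33) (q_cons (Vale.Agent.P032.Lt.q R0Q129.q2711_34) (q_cons (Vale.Agent.P032.Lt.q R0Q129.q2711_35) (q_cons (Vale.Agent.P032.Lt.q R0Q129.q2711_36) (q_cons (Vale.Agent.P032.Lt.q R0Q129.q2711_37) (q_cons (Vale.Agent.P032.Lt.q R0Q129.q2711_38) (q_cons (Vale.Agent.P032.Lt.q R0Q129.q2711_39) (q_cons (Vale.Agent.P032.Lt.q R0Q129.q2711_40) (q_cons (Vale.Agent.P032.Lt.q R0Q129.q2711_41) (q_cons (Vale.Agent.P032.Lt.q R0Q129.q2711_42) (q_cons (Vale.Agent.P032.Lt.q R0Q129.q2711_43) (q_cons (Vale.Agent.P032.Lt.q R0Q129.q2711_44)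 (q_cons (Vale.Agent.P032.Lt.q R0Q129.q2711_45) (q_cons (Vale.Agent.P032.Lt.q R0Q129.q2711_46) (q_cons (Vale.Agent.P032.Lt.q R0Q129.q2711_47) (q_cons (Vale.Agent.P032.Lt.q R0Q129.q2711_48) (q_cons (Vale.Agent.P032.Lt.q R0Q129.q2711_49) (q_cons (Vale.Agent.P032.Lt.q R0Q129.q2711_50) (q_cons (Vale.Agent.P032.Lt.q R0Q129.q2711_51) (q_cons (Vale.Agent.P032.Lt.q R0Q129.q2711_52) (q_cons (Vale.Agent.P032.Lt.q R0Q129.q2711_53) (q_cons (Vale.Agent.P032.Lt.q R0Q129.q2711_54) (q_cons (Vale.Agent.P032.Lt.q R0Q129.q2711_55) (q_cons (Vale.Agent.P032.Lt.q R0Q129.q2711_56) (q_cons (Vale.Agent.P032.Lt.q R0Q129.q2711_57) (q_cons (Vale.Agent.P032.Lt.q R0Q129.q2711_58) (q_cons (Vale.Agent.P032.Lt.q R0Q129.q2711_59) (q_cons (Vale.Agent.P032.Lt.q R0Q129.q2711_60) q_nil))))))))))))))))))))))))))))))))))))))))))))))))))))))))))))))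

theorem p2712 : Pat 73 73 TBm TCm (CB.map Fm) R0Q129.P2712 R0Q129.I2712 := Vale.Agent.P032.Lt.pat_eq (E' := R0Q129.E) eB (pat_step (by decide +kernel) (q_cons (Vale.Agent.P032.Lt.q R0Q129.q2712_0) (q_cons (Vale.Agent.P032.Lt.q R0Q129.q2712_1) (q_cons (Vale.Agent.P032.Lt.q R0Q129.q2712_2) (q_cons (Vale.Agent.P032.Lt.q R0Q129.q2712_3) q_nil)))))

theorem p2713 : Pat 73 73 TBm TCm (CB.map Fm) R0Q129.P2713 R0Q129.I2713 := Vale.Agent.P032.Lt.pat_eq (E' := R0Q129.E) eB (pat_step (by decide +kernel) (q_cons (Vale.Agent.P032.Lt.q R0Q129.q2713_0) (q_cons (Vale.Agent.P032.Lt.q R0Q129.q2713_1) (q_cons (Vale.Agent.P032.Lt.q R0Q129.q2713_2) (q_cons (Vale.Agent.P032.Lt.q R0Q129.q2713_3) q_nil)))))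

theorem p2714 : Pat 73 73 TBm TCm (CB.map Fm) R0Q129.P2714 R0Q129.I2714 := Vale.Agent.P032.Lt.pat_eq (E' := R0Q129.E) eB (pat_step (by decide +kernel) (q_cons (Vale.Agent.P032.Lt.q R0Q129.q2714_0) (q_cons (Vale.Agent.P032.Lt.q R0Q129.q2714_1) (q_cons (Vale.Agent.P032.Lt.q R0Q129.q2714_2) (q_cons (Vale.Agent.P032.Lt.q R0Q129.q2714_3) (q_cons (Vale.Agent.P032.Lt.q R0Q129.q2714_4) (q_cons (Vale.Agent.P032.Lt.q R0Q129.q2714_5) (q_cons (Vale.Agent.P032.Lt.q R0Q129.q2714_6) (q_cons (Vale.Agent.P032.Lt.q R0Q129.q2714_7) (q_cons (Vale.Agent.P032.Lt.q R0Q129.q2714_8) (q_cons (Vale.Agent.P032.Lt.q R0Q129.q2714_9) (q_cons (Vale.Agent.P032.Lt.q R0Q129.q2714_10) q_nil))))))))))))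

theorem p2715 : Pat 73 73 TBm TCm (CB.map Fm) R0Q129.P2715 R0Q129.I2715 := Vale.Agent.P032.Lt.pat_eq (E' := R0Q129.E) eB (pat_step (by decide +kernel) (q_cons (Vale.Agent.P032.Lt.q R0Q129.q2715_0) (q_cons (Vale.Agent.P032.Lt.q R0Q129.q2715_1) (q_cons (Vale.Agent.P032.Lt.q R0Q129.q2715_2) (q_cons (Vale.Agent.P032.Lt.q R0Q129.q2715_3) (q_cons (Vale.Agent.P032.Lt.q R0Q129.q2715_4) (q_cons (Vale.Agent.P032.Lt.q R0Q129.q2715_5) (q_cons (Vale.Agent.P032.Lt.q R0Q129.q2715_6) q_nil))))))))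

theorem p2716 : Pat 73 73 TBm TCm (CB.map Fm) R0Q129.P2716 R0Q129.I2716 := Vale.Agent.P032.Lt.pat_eq (E' := R0Q129.E) eB (pat_step (by decide +kernel) (q_cons (Vale.Agent.P032.Lt.q R0Q129.q2716_0) (q_cons (Vale.Agent.P032.Lt.q R0Q129.q2716_1) q_nil)))

theorem p2717 : Pat 73 73 TBm TCm (CB.map Fm) R0Q129.P2717 R0Q129.I2717 := Vale.Agent.P032.Lt.pat_eq (E' := R0Q129.E) eB (pat_step (by decide +kernel) (q_cons (Vale.Agent.P032.Lt.q R0Q129.q2717_0) (q_cons (Vale.Agent.P032.Lt.q R0Q129.q2717_1) q_nil)))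

theorem p2718 : Pat 73 73 TBm TCm (CB.map Fm) R0Q129.P2718 R0Q129.I2718 := Vale.Agent.P032.Lt.pat_eq (E' := R0Q129.E) eB (pat_step (by decide +kernel) (q_cons (Vale.Agent.P032.Lt.q R0Q129.q2718_0) (q_cons (Vale.Agent.P032.Lt.q R0Q129.q2718_1) q_nil)))

theorem p2719 : Pat 73 73 TBm TCm (CB.map Fm) R0Q129.P2719 R0Q129.I2719 := Vale.Agent.P032.Lt.pat_eq (E' := R0Q129.E) eB (pat_step (by decide +kernel) (q_cons (Vale.Agent.P032.Lt.q R0Q129.q2719_0) (q_cons (Vale.Agent.P032.Lt.q R0Q129.q2719_1) (q_cons (Vale.Agent.P032.Lt.q R0Q129.q2719_2) (q_cons (Vale.Agent.P032.Lt.q R0Q129.q2719_3) (q_cons (Vale.Agent.P032.Lt.q R0Q129.q2719_4) (q_cons (Vale.Agent.P032.Lt.q R0Q129.q2719_5) (q_cons (Vale.Agent.P032.Lt.q R0Q129.q2719_6) (q_cons (Vale.Agent.P032.Lt.q R0Q129.q2719_7) (q_cons (Vale.Agent.P032.Lt.q R0Q129.q2719_8) (q_cons (Vale.Agent.P032.Lt.q R0Q129.q2719_9)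 (q_cons (Vale.Agent.P032.Lt.q R0Q129.q2719_10) (q_cons (Vale.Agent.P032.Lt.q R0Q129.q2719_11) (q_cons (Vale.Agent.P032.Lt.q R0Q129.q2719_12) (q_cons (Vale.Agent.P032.Lt.q R0Q129.q2719_13) (q_cons (Vale.Agent.P032.Lt.q R0Q129.q2719_14) (q_cons (Vale.Agent.P032.Lt.q R0Q129.q2719_15) (q_cons (Vale.Agent.P032.Lt.q R0Q129.q2719_16) (q_cons (Vale.Agent.P032.Lt.q R0Q129.q2719_17) (q_cons (Vale.Agent.P032.Lt.q R0Q129.q2719_18) (q_cons (Vale.Agent.P032.Lt.q R0Q129.q2719_19) (q_cons (Vale.Agent.P032.Lt.q R0Q129.q2719_20) (q_cons (Vale.Agent.P032.Lt.q R0Q129.q2719_21) (q_cons (Vale.Agent.P032.Lt.q R0Q129.q2719_22) (q_cons (Vale.Agent.P032.Lt.q R0Q129.q2719_23) (q_cons (Vale.Agent.P032.Lt.q R0Q129.q2719_24) (q_cons (Vale.Agent.P032.Lt.q R0Q129.q2719_25) (q_cons (Vale.Agent.P032.Lt.q R0Q129.q2719_26) (q_cons (Vale.Agent.P032.Lt.q R0Q129.q2719_27) (q_cons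 (Vale.Agent.P032.Lt.q R0Q129.q2719_28) (q_cons (Vale.Agent.P032.Lt.q R0Q129.q2719_29) (q_cons (Vale.Agent.P032.Lt.q R0Q129.q2719_30) (q_cons (Vale.Agent.P032.Lt.q R0Q129.q2719_31) (q_cons (Vale.Agent.P032.Lt.q R0Q129.q2719_32) (q_cons (Vale.Agent.P032.Lt.q R0Q129.q2719_33) (q_cons (Vale.Agent.P032.Lt.q R0Q129.q2719_34) q_nil))))))))))))))))))))))))))))))))))))

theorem p2720 : Pat 73 73 TBm TCm (CB.map Fm) R0Q130.P2720 R0Q130.I2720 := Vale.Agent.P032.Lt.pat_eq (E' := R0Q130.E) eB (pat_step (by decide +kernel) (q_cons (Vale.Agent.P032.Lt.q R0Q130.q2720_0) (q_cons (Vale.Agent.P032.Lt.q R0Q130.q2720_1) (q_cons (Vale.Agent.P032.Lt.q R0Q130.q2720_2) (q_cons (Vale.Agent.P032.Lt.q R0Q130.q2720_3) (q_cons (Vale.Agent.P032.Lt.q R0Q130.q2720_4) (q_cons (Vale.Agent.P032.Lt.q R0Q130.q2720_5) (q_cons (Vale.Agent.P032.Lt.q R0Q130.q2720_6) (q_cons (Vale.Agent.P032.Lt.q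 R0Q130.q2720_7) (q_cons (Vale.Agent.P032.Lt.q R0Q130.q2720_8) (q_cons (Vale.Agent.P032.Lt.q R0Q130.q2720_9) (q_cons (Vale.Agent.P032.Lt.q R0Q130.q2720_10) (q_cons (Vale.Agent.P032.Lt.q R0Q130.q2720_11) (q_cons (Vale.Agent.P032.Lt.q R0Q130.q2720_12) (q_cons (Vale.Agent.P032.Lt.q R0Q130.q2720_13) (q_cons (Vale.Agent.P032.Lt.q R0Q130.q2720_14) (q_cons (Vale.Agent.P032.Lt.q R0Q130.q2720_15) q_nil)))))))))))))))))

theorem p2721 : Pat 73 73 TBm TCm (CB.map Fm) R0Q130.P2721 R0Q130.I2721 := Vale.Agent.P032.Lt.pat_eq (E' := R0Q130.E) eB (pat_step (by decide +kernel) (q_cons (Vale.Agent.P032.Lt.q R0Q130.q2721_0) (q_cons (Vale.Agent.P032.Lt.q R0Q130.q2721_1) (q_cons (Vale.Agent.P032.Lt.q R0Q130.q2721_2) (q_cons (Vale.Agent.P032.Lt.q R0Q130.q2721_3) q_nil)))))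

theorem p2722 : Pat 73 73 TBm TCm (CB.map Fm) R0Q130.P2722 R0Q130.I2722 := Vale.Agent.P032.Lt.pat_eq (E' := R0Q130.E) eB (pat_step (by decide +kernel) (q_cons (Vale.Agent.P032.Lt.q R0Q130.q2722_0) (q_cons (Vale.Agent.P032.Lt.q R0Q130.q2722_1) (q_cons (Vale.Agent.P032.Lt.q R0Q130.q2722_2) (q_cons (Vale.Agent.P032.Lt.q R0Q130.q2722_3) q_nil)))))

theorem p2723 : Pat 73 73 TBm TCm (CB.map Fm) R0Q130.P2723 R0Q130.I2723 := Vale.Agent.P032.Lt.pat_eq (E' := R0Q130.E) eB (pat_step (by decide +kernel) (q_cons (Vale.Agent.P032.Lt.q R0Q130.q2723_0) (q_cons (Vale.Agent.P032.Lt.q R0Q130.q2723_1) q_nil)))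

theorem p2724 : Pat 73 73 TBm TCm (CB.map Fm) R0Q130.P2724 R0Q130.I2724 := Vale.Agent.P032.Lt.pat_eq (E' := R0Q130.E) eB (pat_step (by decide +kernel) (q_cons (Vale.Agent.P032.Lt.q R0Q130.q2724_0) q_nil))

theorem p2725 : Pat 73 73 TBm TCm (CB.map Fm) R0Q130.P2725 R0Q130.I2725 := Vale.Agent.P032.Lt.pat_eq (E' := R0Q130.E) eB (pat_step (by decide +kernel) (q_cons (Vale.Agent.P032.Lt.q R0Q130.q2725_0) (q_cons (Vale.Agent.P032.Lt.q R0Q130.q2725_1) (q_cons (Vale.Agent.P032.Lt.q R0Q130.q2725_2) (q_cons (Vale.Agent.P032.Lt.q R0Q130.q2725_3) (q_cons (Vale.Agent.P032.Lt.q R0Q130.q2725_4) (q_cons (Vale.Agent.P032.Lt.q R0Q130.q2725_5) (q_cons (Vale.Agent.P032.Lt.q R0Q130.q2725_6) (q_cons (Vale.Agent.P032.Lt.q R0Q130.q2725_7) q_nil)))))))))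

theorem p2726 : Pat 73 73 TBm TCm (CB.map Fm) R0Q130.P2726 R0Q130.I2726 := Vale.Agent.P032.Lt.pat_eq (E' := R0Q130.E) eB (pat_step (by decide +kernel) (q_cons (Vale.Agent.P032.Lt.q R0Q130.q2726_0) (q_cons (Vale.Agent.P032.Lt.q R0Q130.q2726_1) q_nil)))

def C2727 : List ℕ := [0, 4, 8, 12, 16, 20, 24, 476161]
theorem p2727 : Pat 73 73 TBm TCm (C2727.map Fm) R0Q130.P2727 R0Q130.I2727 := Vale.Agent.P032.Lt.pat_eq (E' := R0Q130.E2727) (by decide +kernel) (pat_step (by decide +kernel) (q_cons (Vale.Agent.P032.Lt.q R0Q130.q2727_0) (q_cons (Vale.Agent.P032.Lt.q R0Q130.q2727_1) (q_cons (Vale.Agent.P032.Lt.q R0Q130.q2727_2) q_nil))))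

theorem p2728 : Pat 73 73 TBm TCm (CB.map Fm) R0Q130.P2728 R0Q130.I2728 := Vale.Agent.P032.Lt.pat_eq (E' := R0Q130.E) eB (pat_step (by decide +kernel) (q_cons (Vale.Agent.P032.Lt.q R0Q130.q2728_0) (q_cons (Vale.Agent.P032.Lt.q R0Q130.q2728_1) (q_cons (Vale.Agent.P032.Lt.q R0Q130.q2728_2) (q_cons (Vale.Agent.P032.Lt.q R0Q130.q2728_3) (q_cons (Vale.Agent.P032.Lt.q R0Q130.q2728_4) (q_cons (Vale.Agent.P032.Lt.q R0Q130.q2728_5) q_nil)))))))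

theorem p2729 : Pat 73 73 TBm TCm (CB.map Fm) R0Q130.P2729 R0Q130.I2729 := Vale.Agent.P032.Lt.pat_eq (E' := R0Q130.E) eB (pat_step (by decide +kernel) (q_cons (Vale.Agent.P032.Lt.q R0Q130.q2729_0) (q_cons (Vale.Agent.P032.Lt.q R0Q130.q2729_1) (q_cons (Vale.Agent.P032.Lt.q R0Q130.q2729_2) (q_cons (Vale.Agent.P032.Lt.q R0Q130.q2729_3) (q_cons (Vale.Agent.P032.Lt.q R0Q130.q2729_4) (q_cons (Vale.Agent.P032.Lt.q R0Q130.q2729_5) (q_cons (Vale.Agent.P032.Lt.q R0Q130.q2729_6) (q_cons (Vale.Agent.P032.Lt.q R0Q130.q2729_7) (q_cons (Vale.Agent.P032.Lt.q R0Q130.q2729_8) q_nil))))))))))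

theorem p2730 : Pat 73 73 TBm TCm (CB.map Fm) R0Q130.P2730 R0Q130.I2730 := Vale.Agent.P032.Lt.pat_eq (E' := R0Q130.E) eB (pat_step (by decide +kernel) (q_cons (Vale.Agent.P032.Lt.q R0Q130.q2730_0) (q_cons (Vale.Agent.P032.Lt.q R0Q130.q2730_1) (q_cons (Vale.Agent.P032.Lt.q R0Q130.q2730_2) (q_cons (Vale.Agent.P032.Lt.q R0Q130.q2730_3) (q_cons (Vale.Agent.P032.Lt.q R0Q130.q2730_4) (q_cons (Vale.Agent.P032.Lt.q R0Q130.q2730_5) (q_cons (Vale.Agent.P032.Lt.q R0Q130.q2730_6) (q_cons (Vale.Agent.P032.Lt.q R0Q130.q2730_7) (q_cons (Vale.Agent.P032.Lt.q R0Q130.q2730_8) (q_cons (Vale.Agent.P032.Lt.q R0Q130.q2730_9) q_nil)))))))))))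

theorem p2731 : Pat 73 73 TBm TCm (CB.map Fm) R0Q130.P2731 R0Q130.I2731 := Vale.Agent.P032.Lt.pat_eq (E' := R0Q130.E) eB (pat_step (by decide +kernel) (q_cons (Vale.Agent.P032.Lt.q R0Q130.q2731_0) (q_cons (Vale.Agent.P032.Lt.q R0Q130.q2731_1) q_nil)))

def C2732 : List ℕ := [0, 4, 8, 12, 16, 20, 24, 347137, 606209, 737281]
theorem p2732 : Pat 73 73 TBm TCm (C2732.map Fm) R0Q130.P2732 R0Q130.I2732 := Vale.Agent.P032.Lt.pat_eq (E' := R0Q130.E2732) (by decide +kernel) (pat_step (by decide +kernel) (q_cons (Vale.Agent.P032.Lt.q R0Q130.q2732_0) (q_cons (Vale.Agent.P032.Lt.q R0Q130.q2732_1) (q_cons (Vale.Agent.P032.Lt.q R0Q130.q2732_2) (q_cons (Vale.Agent.P032.Lt.q R0Q130.q2732_3) (q_cons (Vale.Agent.P032.Lt.q R0Q130.q2732_4) (q_cons (Vale.Agent.P032.Lt.q R0Q130.q2732_5) (q_cons (Vale.Agent.P032.Lt.q R0Q130.q2732_6) (q_cons (Vale.Agent.P032.Lt.q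 R0Q130.q2732_7) (q_cons (Vale.Agent.P032.Lt.q R0Q130.q2732_8) (q_cons (Vale.Agent.P032.Lt.q R0Q130.q2732_9) (q_cons (Vale.Agent.P032.Lt.q R0Q130.q2732_10) q_nil))))))))))))

theorem p2733 : Pat 73 73 TBm TCm (CB.map Fm) R0Q130.P2733 R0Q130.I2733 := Vale.Agent.P032.Lt.pat_eq (E' := R0Q130.E) eB (pat_step (by decide +kernel) (q_cons (Vale.Agent.P032.Lt.q R0Q130.q2733_0) (q_cons (Vale.Agent.P032.Lt.q R0Q130.q2733_1) (q_cons (Vale.Agent.P032.Lt.q R0Q130.q2733_2) q_nil))))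

theorem p2734 : Pat 73 73 TBm TCm (CB.map Fm) R0Q130.P2734 R0Q130.I2734 := Vale.Agent.P032.Lt.pat_eq (E' := R0Q130.E) eB (pat_step (by decide +kernel) (q_cons (Vale.Agent.P032.Lt.q R0Q130.q2734_0) (q_cons (Vale.Agent.P032.Lt.q R0Q130.q2734_1) (q_cons (Vale.Agent.P032.Lt.q R0Q130.q2734_2) (q_cons (Vale.Agent.P032.Lt.q R0Q130.q2734_3) q_nil)))))

theorem p2735 : Pat 73 73 TBm TCm (CB.map Fm) R0Q130.P2735 R0Q130.I2735 := Vale.Agent.P032.Lt.pat_eq (E' := R0Q130.E) eB (pat_step (by decide +kernel) (q_cons (Vale.Agent.P032.Lt.q R0Q130.q2735_0) (q_cons (Vale.Agent.P032.Lt.q R0Q130.q2735_1) (q_cons (Vale.Agent.P032.Lt.q R0Q130.q2735_2) (q_cons (Vale.Agent.P032.Lt.q R0Q130.q2735_3) (q_cons (Vale.Agent.P032.Lt.q R0Q130.q2735_4) (q_cons (Vale.Agent.P032.Lt.q R0Q130.q2735_5) (q_cons (Vale.Agent.P032.Lt.q R0Q130.q2735_6) q_nil))))))))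

theorem p2736 : Pat 73 73 TBm TCm (CB.map Fm) R0Q130.P2736 R0Q130.I2736 := Vale.Agent.P032.Lt.pat_eq (E' := R0Q130.E) eB (pat_step (by decide +kernel) (q_cons (Vale.Agent.P032.Lt.q R0Q130.q2736_0) (q_cons (Vale.Agent.P032.Lt.q R0Q130.q2736_1) (q_cons (Vale.Agent.P032.Lt.q R0Q130.q2736_2) (q_cons (Vale.Agent.P032.Lt.q R0Q130.q2736_3) (q_cons (Vale.Agent.P032.Lt.q R0Q130.q2736_4) (q_cons (Vale.Agent.P032.Lt.q R0Q130.q2736_5) (q_cons (Vale.Agent.P032.Lt.q R0Q130.q2736_6) (q_cons (Vale.Agent.P032.Lt.q R0Q130.q2736_7) (q_cons (Vale.Agent.P032.Lt.q R0Q130.q2736_8) (q_cons (Vale.Agent.P032.Lt.q R0Q130.q2736_9) (q_cons (Vale.Agent.P032.Lt.q R0Q130.q2736_10) (q_cons (Vale.Agent.P032.Lt.q R0Q130.q2736_11) (q_cons (Vale.Agent.P032.Lt.q R0Q130.q2736_12) (q_cons (Vale.Agent.P032.Lt.q R0Q130.q2736_13) (q_cons (Vale.Agent.P032.Lt.q R0Q130.q2736_14) (q_cons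 (Vale.Agent.P032.Lt.q R0Q130.q2736_15) (q_cons (Vale.Agent.P032.Lt.q R0Q130.q2736_16) (q_cons (Vale.Agent.P032.Lt.q R0Q130.q2736_17) (q_cons (Vale.Agent.P032.Lt.q R0Q130.q2736_18) (q_cons (Vale.Agent.P032.Lt.q R0Q130.q2736_19) (q_cons (Vale.Agent.P032.Lt.q R0Q130.q2736_20) (q_cons (Vale.Agent.P032.Lt.q R0Q130.q2736_21) (q_cons (Vale.Agent.P032.Lt.q R0Q130.q2736_22) (q_cons (Vale.Agent.P032.Lt.q R0Q130.q2736_23) q_nil)))))))))))))))))))))))))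

theorem p2737 : Pat 73 73 TBm TCm (CB.map Fm) R0Q130.P2737 R0Q130.I2737 := Vale.Agent.P032.Lt.pat_eq (E' := R0Q130.E) eB (pat_step (by decide +kernel) (q_cons (Vale.Agent.P032.Lt.q R0Q130.q2737_0) (q_cons (Vale.Agent.P032.Lt.q R0Q130.q2737_1) (q_cons (Vale.Agent.P032.Lt.q R0Q130.q2737_2) (q_cons (Vale.Agent.P032.Lt.q R0Q130.q2737_3) (q_cons (Vale.Agent.P032.Lt.q R0Q130.q2737_4) (q_cons (Vale.Agent.P032.Lt.q R0Q130.q2737_5) (q_cons (Vale.Agent.P032.Lt.q R0Q130.q2737_6) (q_cons (Vale.Agent.P032.Lt.q R0Q130.q2737_7) (q_cons (Vale.Agent.P032.Lt.q R0Q130.q2737_8) (q_cons (Vale.Agent.P032.Lt.q R0Q130.q2737_9) (q_cons (Vale.Agent.P032.Lt.q R0Q130.q2737_10) (q_cons (Vale.Agent.P032.Lt.q R0Q130.q2737_11) (q_cons (Vale.Agent.P032.Lt.q R0Q130.q2737_12) q_nil))))))))))))))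

theorem p2738 : Pat 73 73 TBm TCm (CB.map Fm) R0Q131.P2738 R0Q131.I2738 := Vale.Agent.P032.Lt.pat_eq (E' := R0Q131.E) eB (pat_step (by decide +kernel) (q_cons (Vale.Agent.P032.Lt.q R0Q131.q2738_0) (q_cons (Vale.Agent.P032.Lt.q R0Q131.q2738_1) (q_cons (Vale.Agent.P032.Lt.q R0Q131.q2738_2) (q_cons (Vale.Agent.P032.Lt.q R0Q131.q2738_3) (q_cons (Vale.Agent.P032.Lt.q R0Q131.q2738_4) (q_cons (Vale.Agent.P032.Lt.q R0Q131.q2738_5) (q_cons (Vale.Agent.P032.Lt.q R0Q131.q2738_6) (q_cons (Vale.Agent.P032.Lt.q R0Q131.q2738_7) (q_cons (Vale.Agent.P032.Lt.q R0Q131.q2738_8) (q_cons (Vale.Agent.P032.Lt.q R0Q131.q2738_9) (q_cons (Vale.Agent.P032.Lt.q R0Q131.q2738_10) (q_cons (Vale.Agent.P032.Lt.q R0Q131.q2738_11) (q_cons (Vale.Agent.P032.Lt.q R0Q131.q2738_12) (q_cons (Vale.Agent.P032.Lt.q R0Q131.q2738_13) (q_cons (Vale.Agent.P032.Lt.q R0Q131.q2738_14) (q_cons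 (Vale.Agent.P032.Lt.q R0Q131.q2738_15) (q_cons (Vale.Agent.P032.Lt.q R0Q131.q2738_16) (q_cons (Vale.Agent.P032.Lt.q R0Q131.q2738_17) (q_cons (Vale.Agent.P032.Lt.q R0Q131.q2738_18) (q_cons (Vale.Agent.P032.Lt.q R0Q131.q2738_19) (q_cons (Vale.Agent.P032.Lt.q R0Q131.q2738_20) (q_cons (Vale.Agent.P032.Lt.q R0Q131.q2738_21) (q_cons (Vale.Agent.P032.Lt.q R0Q131.q2738_22) (q_cons (Vale.Agent.P032.Lt.q R0Q131.q2738_23) (q_cons (Vale.Agent.P032.Lt.q R0Q131.q2738_24) (q_cons (Vale.Agent.P032.Lt.q R0Q131.q2738_25) (q_cons (Vale.Agent.P032.Lt.q R0Q131.q2738_26) (q_cons (Vale.Agent.P032.Lt.q R0Q131.q2738_27) (q_cons (Vale.Agent.P032.Lt.q R0Q131.q2738_28) (q_cons (Vale.Agent.P032.Lt.q R0Q131.q2738_29) (q_cons (Vale.Agent.P032.Lt.q R0Q131.q2738_30) (q_cons (Vale.Agent.P032.Lt.q R0Q131.q2738_31) q_nil)))))))))))))))))))))))))))))))))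

theorem p2739 : Pat 73 73 TBm TCm (CB.map Fm) R0Q131.P2739 R0Q131.I2739 := Vale.Agent.P032.Lt.pat_eq (E' := R0Q131.E) eB (pat_step (by decide +kernel) (q_cons (Vale.Agent.P032.Lt.q R0Q131.q2739_0) (q_cons (Vale.Agent.P032.Lt.q R0Q131.q2739_1) (q_cons (Vale.Agent.P032.Lt.q R0Q131.q2739_2) (q_cons (Vale.Agent.P032.Lt.q R0Q131.q2739_3) (q_cons (Vale.Agent.P032.Lt.q R0Q131.q2739_4) (q_cons (Vale.Agent.P032.Lt.q R0Q131.q2739_5) (q_cons (Vale.Agent.P032.Lt.q R0Q131.q2739_6) (q_cons (Vale.Agent.P032.Lt.q R0Q131.q2739_7) (q_cons (Vale.Agent.P032.Lt.q R0Q131.q2739_8) (q_cons (Vale.Agent.P032.Lt.q R0Q131.q2739_9) (q_cons (Vale.Agent.P032.Lt.q R0Q131.q2739_10) (q_cons (Vale.Agent.P032.Lt.q R0Q131.q2739_11) q_nil)))))))))))))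

theorem p2740 : Pat 73 73 TBm TCm (CB.map Fm) R0Q131.P2740 R0Q131.I2740 := Vale.Agent.P032.Lt.pat_eq (E' := R0Q131.E) eB (pat_step (by decide +kernel) (q_cons (Vale.Agent.P032.Lt.q R0Q131.q2740_0) (q_cons (Vale.Agent.P032.Lt.q R0Q131.q2740_1) (q_cons (Vale.Agent.P032.Lt.q R0Q131.q2740_2) (q_cons (Vale.Agent.P032.Lt.q R0Q131.q2740_3) (q_cons (Vale.Agent.P032.Lt.q R0Q131.q2740_4) (q_cons (Vale.Agent.P032.Lt.q R0Q131.q2740_5) q_nil)))))))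

theorem p2741 : Pat 73 73 TBm TCm (CB.map Fm) R0Q131.P2741 R0Q131.I2741 := Vale.Agent.P032.Lt.pat_eq (E' := R0Q131.E) eB (pat_step (by decide +kernel) (q_cons (Vale.Agent.P032.Lt.q R0Q131.q2741_0) (q_cons (Vale.Agent.P032.Lt.q R0Q131.q2741_1) (q_cons (Vale.Agent.P032.Lt.q R0Q131.q2741_2) (q_cons (Vale.Agent.P032.Lt.q R0Q131.q2741_3) q_nil)))))

def C2742 : List ℕ := [0, 4, 8, 12, 16, 20, 24, 212993, 344065, 475137, 737281]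
theorem p2742 : Pat 73 73 TBm TCm (C2742.map Fm) R0Q131.P2742 R0Q131.I2742 := Vale.Agent.P032.Lt.pat_eq (E' := R0Q131.E2742) (by decide +kernel) (pat_step (by decide +kernel) (q_cons (Vale.Agent.P032.Lt.q R0Q131.q2742_0) (q_cons (Vale.Agent.P032.Lt.q R0Q131.q2742_1) (q_cons (Vale.Agent.P032.Lt.q R0Q131.q2742_2) (q_cons (Vale.Agent.P032.Lt.q R0Q131.q2742_3) q_nil)))))

theorem p2743 : Pat 73 73 TBm TCm (CB.map Fm) R0Q131.P2743 R0Q131.I2743 := Vale.Agent.P032.Lt.pat_eq (E' := R0Q131.E) eB (pat_step (by decide +kernel) (q_cons (Vale.Agent.P032.Lt.q R0Q131.q2743_0) (q_cons (Vale.Agent.P032.Lt.q R0Q131.q2743_1) (q_cons (Vale.Agent.P032.Lt.q R0Q131.q2743_2) (q_cons (Vale.Agent.P032.Lt.q R0Q131.q2743_3) q_nil)))))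

theorem p2744 : Pat 73 73 TBm TCm (CB.map Fm) R0Q131.P2744 R0Q131.I2744 := Vale.Agent.P032.Lt.pat_eq (E' := R0Q131.E) eB (pat_step (by decide +kernel) (q_cons (Vale.Agent.P032.Lt.q R0Q131.q2744_0) (q_cons (Vale.Agent.P032.Lt.q R0Q131.q2744_1) (q_cons (Vale.Agent.P032.Lt.q R0Q131.q2744_2) q_nil))))

def C2745 : List ℕ := [0, 4, 8, 12, 16, 20, 24, 737281]
theorem p2745 : Pat 73 73 TBm TCm (C2745.map Fm) R0Q131.P2745 R0Q131.I2745 := Vale.Agent.P032.Lt.pat_eq (E' := R0Q131.E2745) (by decide +kernel) (pat_step (by decide +kernel) (q_cons (Vale.Agent.P032.Lt.q R0Q131.q2745_0) (q_cons (Vale.Agent.P032.Lt.q R0Q131.q2745_1) (q_cons (Vale.Agent.P032.Lt.q R0Q131.q2745_2) (q_cons (Vale.Agent.P032.Lt.q R0Q131.q2745_3) (q_cons (Vale.Agent.P032.Lt.q R0Q131.q2745_4) (q_cons (Vale.Agent.P032.Lt.q R0Q131.q2745_5) q_nil)))))))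

theorem p2746 : Pat 73 73 TBm TCm (CB.map Fm) R0Q131.P2746 R0Q131.I2746 := Vale.Agent.P032.Lt.pat_eq (E' := R0Q131.E) eB (pat_step (by decide +kernel) (q_cons (Vale.Agent.P032.Lt.q R0Q131.q2746_0) (q_cons (Vale.Agent.P032.Lt.q R0Q131.q2746_1) (q_cons (Vale.Agent.P032.Lt.q R0Q131.q2746_2) (q_cons (Vale.Agent.P032.Lt.q R0Q131.q2746_3) (q_cons (Vale.Agent.P032.Lt.q R0Q131.q2746_4) (q_cons (Vale.Agent.P032.Lt.q R0Q131.q2746_5) (q_cons (Vale.Agent.P032.Lt.q R0Q131.q2746_6) (q_cons (Vale.Agent.P032.Lt.q R0Q131.q2746_7) q_nil)))))))))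

def C2747 : List ℕ := [0, 4, 8, 12, 16, 20, 24, 212993, 475137, 737281]
theorem p2747 : Pat 73 73 TBm TCm (C2747.map Fm) R0Q131.P2747 R0Q131.I2747 := Vale.Agent.P032.Lt.pat_eq (E' := R0Q131.E2747) (by decide +kernel) (pat_step (by decide +kernel) (q_cons (Vale.Agent.P032.Lt.q R0Q131.q2747_0) (q_cons (Vale.Agent.P032.Lt.q R0Q131.q2747_1) q_nil)))

def C2748 : List ℕ := [0, 4, 8, 12, 16, 20, 24, 347137, 737281]
theorem p2748 : Pat 73 73 TBm TCm (C2748.map Fm) R0Q131.P2748 R0Q131.I2748 := Vale.Agent.P032.Lt.pat_eq (E' := R0Q131.E2748) (by decide +kernel) (pat_step (by decide +kernel) (q_cons (Vale.Agent.P032.Lt.q R0Q131.q2748_0) (q_cons (Vale.Agent.P032.Lt.q R0Q131.q2748_1) (q_cons (Vale.Agent.P032.Lt.q R0Q131.q2748_2) (q_cons (Vale.Agent.P032.Lt.q R0Q131.q2748_3) (q_cons (Vale.Agent.P032.Lt.q R0Q131.q2748_4) q_nil))))))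

theorem p2749 : Pat 73 73 TBm TCm (CB.map Fm) R0Q131.P2749 R0Q131.I2749 := Vale.Agent.P032.Lt.pat_eq (E' := R0Q131.E) eB (pat_step (by decide +kernel) (q_cons (Vale.Agent.P032.Lt.q R0Q131.q2749_0) (q_cons (Vale.Agent.P032.Lt.q R0Q131.q2749_1) (q_cons (Vale.Agent.P032.Lt.q R0Q131.q2749_2) (q_cons (Vale.Agent.P032.Lt.q R0Q131.q2749_3) (q_cons (Vale.Agent.P032.Lt.q R0Q131.q2749_4) (q_cons (Vale.Agent.P032.Lt.q R0Q131.q2749_5) (q_cons (Vale.Agent.P032.Lt.q R0Q131.q2749_6) q_nil))))))))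

def C2750 : List ℕ := [0, 4, 8, 12, 16, 20, 24, 212993, 344065, 606209, 737281]
theorem p2750 : Pat 73 73 TBm TCm (C2750.map Fm) R0Q131.P2750 R0Q131.I2750 := Vale.Agent.P032.Lt.pat_eq (E' := R0Q131.E2750) (by decide +kernel) (pat_step (by decide +kernel) (q_cons (Vale.Agent.P032.Lt.q R0Q131.q2750_0) q_nil))

theorem p2751 : Pat 73 73 TBm TCm (CB.map Fm) R0Q131.P2751 R0Q131.I2751 := Vale.Agent.P032.Lt.pat_eq (E' := R0Q131.E) eB (pat_step (by decide +kernel) (q_cons (Vale.Agent.P032.Lt.q R0Q131.q2751_0) q_nil))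

theorem p2752 : Pat 73 73 TBm TCm (CB.map Fm) R0Q131.P2752 R0Q131.I2752 := Vale.Agent.P032.Lt.pat_eq (E' := R0Q131.E) eB (pat_step (by decide +kernel) (q_cons (Vale.Agent.P032.Lt.q R0Q131.q2752_0) (q_cons (Vale.Agent.P032.Lt.q R0Q131.q2752_1) (q_cons (Vale.Agent.P032.Lt.q R0Q131.q2752_2) (q_cons (Vale.Agent.P032.Lt.q R0Q131.q2752_3) (q_cons (Vale.Agent.P032.Lt.q R0Q131.q2752_4) (q_cons (Vale.Agent.P032.Lt.q R0Q131.q2752_5) q_nil)))))))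

theorem p2753 : Pat 73 73 TBm TCm (CB.map Fm) R0Q131.P2753 R0Q131.I2753 := Vale.Agent.P032.Lt.pat_eq (E' := R0Q131.E) eB (pat_step (by decide +kernel) (q_cons (Vale.Agent.P032.Lt.q R0Q131.q2753_0) (q_cons (Vale.Agent.P032.Lt.q R0Q131.q2753_1) q_nil)))

theorem p2754 : Pat 73 73 TBm TCm (CB.map Fm) R0Q131.P2754 R0Q131.I2754 := Vale.Agent.P032.Lt.pat_eq (E' := R0Q131.E) eB (pat_step (by decide +kernel) (q_cons (Vale.Agent.P032.Lt.q R0Q131.q2754_0) (q_cons (Vale.Agent.P032.Lt.q R0Q131.q2754_1) q_nil)))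

theorem p2755 : Pat 73 73 TBm TCm (CB.map Fm) R0Q131.P2755 [[]] := Vale.Agent.P032.Lt.pat_eq (E' := R0Q131.E) eB (pat_start (by decide +kernel) (Vale.Agent.P032.Lt.q R0Q131.q2755))

theorem p2756 : Pat 73 73 TBm TCm (CB.map Fm) R0Q131.P2756 R0Q131.I2756 := Vale.Agent.P032.Lt.pat_eq (E' := R0Q131.E) eB (pat_step (by decide +kernel) (q_cons (Vale.Agent.P032.Lt.q R0Q131.q2756_0) (q_cons (Vale.Agent.P032.Lt.q R0Q131.q2756_1) (q_cons (Vale.Agent.P032.Lt.q R0Q131.q2756_2) (q_cons (Vale.Agent.P032.Lt.q R0Q131.q2756_3) (q_cons (Vale.Agent.P032.Lt.q R0Q131.q2756_4) (q_cons (Vale.Agent.P032.Lt.q R0Q131.q2756_5) (q_cons (Vale.Agent.P032.Lt.q R0Q131.q2756_6) q_nil))))))))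

theorem p2757 : Pat 73 73 TBm TCm (CB.map Fm) R0Q131.P2757 R0Q131.I2757 := Vale.Agent.P032.Lt.pat_eq (E' := R0Q131.E) eB (pat_step (by decide +kernel) (q_cons (Vale.Agent.P032.Lt.q R0Q131.q2757_0) (q_cons (Vale.Agent.P032.Lt.q R0Q131.q2757_1) (q_cons (Vale.Agent.P032.Lt.q R0Q131.q2757_2) (q_cons (Vale.Agent.P032.Lt.q R0Q131.q2757_3) q_nil)))))

theorem p2758 : Pat 73 73 TBm TCm (CB.map Fm) R0Q131.P2758 R0Q131.I2758 := Vale.Agent.P032.Lt.pat_eq (E' := R0Q131.E) eB (pat_step (by decide +kernel) (q_cons (Vale.Agent.P032.Lt.q R0Q131.q2758_0) (q_cons (Vale.Agent.P032.Lt.q R0Q131.q2758_1) q_nil)))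

theorem p2759 : Pat 73 73 TBm TCm (CB.map Fm) R0Q131.P2759 R0Q131.I2759 := Vale.Agent.P032.Lt.pat_eq (E' := R0Q131.E) eB (pat_step (by decide +kernel) (q_cons (Vale.Agent.P032.Lt.q R0Q131.q2759_0) (q_cons (Vale.Agent.P032.Lt.q R0Q131.q2759_1) q_nil)))

theorem p2760 : Pat 73 73 TBm TCm (CB.map Fm) R0Q131.P2760 R0Q131.I2760 := Vale.Agent.P032.Lt.pat_eq (E' := R0Q131.E) eB (pat_step (by decide +kernel) (q_cons (Vale.Agent.P032.Lt.q R0Q131.q2760_0) q_nil))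

theorem p2761 : Pat 73 73 TBm TCm (CB.map Fm) R0Q131.P2761 R0Q131.I2761 := Vale.Agent.P032.Lt.pat_eq (E' := R0Q131.E) eB (pat_step (by decide +kernel) (q_cons (Vale.Agent.P032.Lt.q R0Q131.q2761_0) q_nil))

theorem p2762 : Pat 73 73 TBm TCm (CB.map Fm) R0Q131.P2762 R0Q131.I2762 := Vale.Agent.P032.Lt.pat_eq (E' := R0Q131.E) eB (pat_step (by decide +kernel) (q_cons (Vale.Agent.P032.Lt.q R0Q131.q2762_0) (q_cons (Vale.Agent.P032.Lt.q R0Q131.q2762_1) (q_cons (Vale.Agent.P032.Lt.q R0Q131.q2762_2) (q_cons (Vale.Agent.P032.Lt.q R0Q131.q2762_3) (q_cons (Vale.Agent.P032.Lt.q R0Q131.q2762_4) (q_cons (Vale.Agent.P032.Lt.q R0Q131.q2762_5) q_nil)))))))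

theorem p2763 : Pat 73 73 TBm TCm (CB.map Fm) R0Q131.P2763 R0Q131.I2763 := Vale.Agent.P032.Lt.pat_eq (E' := R0Q131.E) eB (pat_step (by decide +kernel) (q_cons (Vale.Agent.P032.Lt.q R0Q131.q2763_0) (q_cons (Vale.Agent.P032.Lt.q R0Q131.q2763_1) (q_cons (Vale.Agent.P032.Lt.q R0Q131.q2763_2) (q_cons (Vale.Agent.P032.Lt.q R0Q131.q2763_3) q_nil)))))

theorem p2764 : Pat 73 73 TBm TCm (CB.map Fm) R0Q131.P2764 R0Q131.I2764 := Vale.Agent.P032.Lt.pat_eq (E' := R0Q131.E) eB (pat_step (by decide +kernel) (q_cons (Vale.Agent.P032.Lt.q R0Q131.q2764_0) (q_cons (Vale.Agent.P032.Lt.q R0Q131.q2764_1) (q_cons (Vale.Agent.P032.Lt.q R0Q131.q2764_2) (q_cons (Vale.Agent.P032.Lt.q R0Q131.q2764_3) (q_cons (Vale.Agent.P032.Lt.q R0Q131.q2764_4) q_nil))))))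

theorem p2765 : Pat 73 73 TBm TCm (CB.map Fm) R0Q131.P2765 R0Q131.I2765 := Vale.Agent.P032.Lt.pat_eq (E' := R0Q131.E) eB (pat_step (by decide +kernel) (q_cons (Vale.Agent.P032.Lt.q R0Q131.q2765_0) (q_cons (Vale.Agent.P032.Lt.q R0Q131.q2765_1) (q_cons (Vale.Agent.P032.Lt.q R0Q131.q2765_2) (q_cons (Vale.Agent.P032.Lt.q R0Q131.q2765_3) (q_cons (Vale.Agent.P032.Lt.q R0Q131.q2765_4) q_nil))))))

theorem p2766 : Pat 73 73 TBm TCm (CB.map Fm) R0Q131.P2766 R0Q131.I2766 := Vale.Agent.P032.Lt.pat_eq (E' := R0Q131.E) eB (pat_step (by decide +kernel) (q_cons (Vale.Agent.P032.Lt.q R0Q131.q2766_0) (q_cons (Vale.Agent.P032.Lt.q R0Q131.q2766_1) (q_cons (Vale.Agent.P032.Lt.q R0Q131.q2766_2) (q_cons (Vale.Agent.P032.Lt.q R0Q131.q2766_3) (q_cons (Vale.Agent.P032.Lt.q R0Q131.q2766_4) (q_cons (Vale.Agent.P032.Lt.q R0Q131.q2766_5) (q_cons (Vale.Agent.P032.Lt.q R0Q131.q2766_6)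 (q_cons (Vale.Agent.P032.Lt.q R0Q131.q2766_7) (q_cons (Vale.Agent.P032.Lt.q R0Q131.q2766_8) q_nil))))))))))

theorem p2767 : Pat 73 73 TBm TCm (CB.map Fm) R0Q131.P2767 R0Q131.I2767 := Vale.Agent.P032.Lt.pat_eq (E' := R0Q131.E) eB (pat_step (by decide +kernel) (q_cons (Vale.Agent.P032.Lt.q R0Q131.q2767_0) (q_cons (Vale.Agent.P032.Lt.q R0Q131.q2767_1) (q_cons (Vale.Agent.P032.Lt.q R0Q131.q2767_2) (q_cons (Vale.Agent.P032.Lt.q R0Q131.q2767_3) q_nil)))))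

theorem p2768 : Pat 73 73 TBm TCm (CB.map Fm) R0Q131.P2768 R0Q131.I2768 := Vale.Agent.P032.Lt.pat_eq (E' := R0Q131.E) eB (pat_step (by decide +kernel) (q_cons (Vale.Agent.P032.Lt.q R0Q131.q2768_0) q_nil))

def C2769 : List ℕ := [0, 4, 8, 12, 16, 20, 24, 212993, 224257, 344065, 475137]
theorem p2769 : Pat 73 73 TBm TCm (C2769.map Fm) R0Q132.P2769 R0Q132.I2769 := Vale.Agent.P032.Lt.pat_eq (E' := R0Q132.E2769) (by decide +kernel) (pat_step (by decide +kernel) (q_cons (Vale.Agent.P032.Lt.q R0Q132.q2769_0) (q_cons (Vale.Agent.P032.Lt.q R0Q132.q2769_1) (q_cons (Vale.Agent.P032.Lt.q R0Q132.q2769_2) (q_cons (Vale.Agent.P032.Lt.q R0Q132.q2769_3) (q_cons (Vale.Agent.P032.Lt.q R0Q132.q2769_4) (q_cons (Vale.Agent.P032.Lt.q R0Q132.q2769_5) q_nil)))))))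

theorem p2770 : Pat 73 73 TBm TCm (CB.map Fm) R0Q132.P2770 R0Q132.I2770 := Vale.Agent.P032.Lt.pat_eq (E' := R0Q132.E) eB (pat_step (by decide +kernel) (q_cons (Vale.Agent.P032.Lt.q R0Q132.q2770_0) (q_cons (Vale.Agent.P032.Lt.q R0Q132.q2770_1) q_nil)))

def C2771 : List ℕ := [0, 4, 8, 12, 16, 20, 24, 224257, 475137]
theorem p2771 : Pat 73 73 TBm TCm (C2771.map Fm) R0Q132.P2771 R0Q132.I2771 := Vale.Agent.P032.Lt.pat_eq (E' := R0Q132.E2771) (by decide +kernel) (pat_step (by decide +kernel) (q_cons (Vale.Agent.P032.Lt.q R0Q132.q2771_0) (q_cons (Vale.Agent.P032.Lt.q R0Q132.q2771_1) (q_cons (Vale.Agent.P032.Lt.q R0Q132.q2771_2) q_nil))))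

theorem p2772 : Pat 73 73 TBm TCm (CB.map Fm) R0Q132.P2772 R0Q132.I2772 := Vale.Agent.P032.Lt.pat_eq (E' := R0Q132.E) eB (pat_step (by decide +kernel) (q_cons (Vale.Agent.P032.Lt.q R0Q132.q2772_0) (q_cons (Vale.Agent.P032.Lt.q R0Q132.q2772_1) q_nil)))

theorem p2773 : Pat 73 73 TBm TCm (CB.map Fm) R0Q132.P2773 R0Q132.I2773 := Vale.Agent.P032.Lt.pat_eq (E' := R0Q132.E) eB (pat_step (by decide +kernel) (q_cons (Vale.Agent.P032.Lt.q R0Q132.q2773_0) (q_cons (Vale.Agent.P032.Lt.q R0Q132.q2773_1) (q_cons (Vale.Agent.P032.Lt.q R0Q132.q2773_2) (q_cons (Vale.Agent.P032.Lt.q R0Q132.q2773_3) (q_cons (Vale.Agent.P032.Lt.q R0Q132.q2773_4) (q_cons (Vale.Agent.P032.Lt.q R0Q132.q2773_5) q_nil)))))))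

theorem p2774 : Pat 73 73 TBm TCm (CB.map Fm) R0Q132.P2774 R0Q132.I2774 := Vale.Agent.P032.Lt.pat_eq (E' := R0Q132.E) eB (pat_step (by decide +kernel) (q_cons (Vale.Agent.P032.Lt.q R0Q132.q2774_0) (q_cons (Vale.Agent.P032.Lt.q R0Q132.q2774_1) q_nil)))

theorem p2775 : Pat 73 73 TBm TCm (CB.map Fm) R0Q132.P2775 R0Q132.I2775 := Vale.Agent.P032.Lt.pat_eq (E' := R0Q132.E) eB (pat_step (by decide +kernel) (q_cons (Vale.Agent.P032.Lt.q R0Q132.q2775_0) q_nil))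

def C2776 : List ℕ := [0, 4, 8, 12, 16, 20, 24, 82945, 212993, 215041, 606209, 617473]
theorem p2776 : Pat 73 73 TBm TCm (C2776.map Fm) R0Q132.P2776 R0Q132.I2776 := Vale.Agent.P032.Lt.pat_eq (E' := R0Q132.E2776) (by decide +kernel) (pat_step (by decide +kernel) (q_cons (Vale.Agent.P032.Lt.q R0Q132.q2776_0) (q_cons (Vale.Agent.P032.Lt.q R0Q132.q2776_1) q_nil)))

theorem p2777 : Pat 73 73 TBm TCm (CB.map Fm) R0Q132.P2777 R0Q132.I2777 := Vale.Agent.P032.Lt.pat_eq (E' := R0Q132.E) eB (pat_step (by decide +kernel) (q_cons (Vale.Agent.P032.Lt.q R0Q132.q2777_0) (q_cons (Vale.Agent.P032.Lt.q R0Q132.q2777_1) (q_cons (Vale.Agent.P032.Lt.q R0Q132.q2777_2) (q_cons (Vale.Agent.P032.Lt.q R0Q132.q2777_3) (q_cons (Vale.Agent.P032.Lt.q R0Q132.q2777_4) (q_cons (Vale.Agent.P032.Lt.q R0Q132.q2777_5) (q_cons (Vale.Agent.P032.Lt.q R0Q132.q2777_6) (q_cons (Vale.Agent.P032.Lt.q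 R0Q132.q2777_7) (q_cons (Vale.Agent.P032.Lt.q R0Q132.q2777_8) q_nil))))))))))

theorem p2778 : Pat 73 73 TBm TCm (CB.map Fm) R0Q132.P2778 R0Q132.I2778 := Vale.Agent.P032.Lt.pat_eq (E' := R0Q132.E) eB (pat_step (by decide +kernel) (q_cons (Vale.Agent.P032.Lt.q R0Q132.q2778_0) (q_cons (Vale.Agent.P032.Lt.q R0Q132.q2778_1) (q_cons (Vale.Agent.P032.Lt.q R0Q132.q2778_2) (q_cons (Vale.Agent.P032.Lt.q R0Q132.q2778_3) (q_cons (Vale.Agent.P032.Lt.q R0Q132.q2778_4) (q_cons (Vale.Agent.P032.Lt.q R0Q132.q2778_5) (q_cons (Vale.Agent.P032.Lt.q R0Q132.q2778_6) (q_cons (Vale.Agent.P032.Lt.q R0Q132.q2778_7) (q_cons (Vale.Agent.P032.Lt.q R0Q132.q2778_8) q_nil))))))))))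

def C2779 : List ℕ := [0, 4, 8, 12, 16, 20, 24, 82945]
theorem p2779 : Pat 73 73 TBm TCm (C2779.map Fm) R0Q132.P2779 R0Q132.I2779 := Vale.Agent.P032.Lt.pat_eq (E' := R0Q132.E2779) (by decide +kernel) (pat_step (by decide +kernel) (q_cons (Vale.Agent.P032.Lt.q R0Q132.q2779_0) (q_cons (Vale.Agent.P032.Lt.q R0Q132.q2779_1) (q_cons (Vale.Agent.P032.Lt.q R0Q132.q2779_2) (q_cons (Vale.Agent.P032.Lt.q R0Q132.q2779_3) (q_cons (Vale.Agent.P032.Lt.q R0Q132.q2779_4) (q_cons (Vale.Agent.P032.Lt.q R0Q132.q2779_5) (q_cons (Vale.Agent.P032.Lt.q R0Q132.q2779_6) (q_cons (Vale.Agent.P032.Lt.q R0Q132.q2779_7) (q_cons (Vale.Agent.P032.Lt.q R0Q132.q2779_8) (q_cons (Vale.Agent.P032.Lt.q R0Q132.q2779_9) (q_cons (Vale.Agent.P032.Lt.q R0Q132.q2779_10) (q_cons (Vale.Agent.P032.Lt.q R0Q132.q2779_11) (q_cons (Vale.Agent.P032.Lt.q R0Q132.q2779_12) (q_cons (Vale.Agent.P032.Lt.q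 R0Q132.q2779_13) (q_cons (Vale.Agent.P032.Lt.q R0Q132.q2779_14) (q_cons (Vale.Agent.P032.Lt.q R0Q132.q2779_15) (q_cons (Vale.Agent.P032.Lt.q R0Q132.q2779_16) (q_cons (Vale.Agent.P032.Lt.q R0Q132.q2779_17) (q_cons (Vale.Agent.P032.Lt.q R0Q132.q2779_18) (q_cons (Vale.Agent.P032.Lt.q R0Q132.q2779_19) (q_cons (Vale.Agent.P032.Lt.q R0Q132.q2779_20) (q_cons (Vale.Agent.P032.Lt.q R0Q132.q2779_21) (q_cons (Vale.Agent.P032.Lt.q R0Q132.q2779_22) (q_cons (Vale.Agent.P032.Lt.q R0Q132.q2779_23) (q_cons (Vale.Agent.P032.Lt.q R0Q132.q2779_24) (q_cons (Vale.Agent.P032.Lt.q R0Q132.q2779_25) (q_cons (Vale.Agent.P032.Lt.q R0Q132.q2779_26) (q_cons (Vale.Agent.P032.Lt.q R0Q132.q2779_27) (q_cons (Vale.Agent.P032.Lt.q R0Q132.q2779_28) q_nil))))))))))))))))))))))))))))))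

def C2780 : List ℕ := [0, 4, 8, 12, 16, 20, 24, 355329, 606209, 737281]
theorem p2780 : Pat 73 73 TBm TCm (C2780.map Fm) R0Q132.P2780 R0Q132.I2780 := Vale.Agent.P032.Lt.pat_eq (E' := R0Q132.E2780) (by decide +kernel) (pat_step (by decide +kernel) (q_cons (Vale.Agent.P032.Lt.q R0Q132.q2780_0) (q_cons (Vale.Agent.P032.Lt.q R0Q132.q2780_1) (q_cons (Vale.Agent.P032.Lt.q R0Q132.q2780_2) (q_cons (Vale.Agent.P032.Lt.q R0Q132.q2780_3) (q_cons (Vale.Agent.P032.Lt.q R0Q132.q2780_4) (q_cons (Vale.Agent.P032.Lt.q R0Q132.q2780_5) (q_cons (Vale.Agent.P032.Lt.q R0Q132.q2780_6) (q_cons (Vale.Agent.P032.Lt.q R0Q132.q2780_7) (q_cons (Vale.Agent.P032.Lt.q R0Q132.q2780_8) q_nil))))))))))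

def C2781 : List ℕ := [0, 4, 8, 12, 16, 20, 24, 82945, 475137, 737281]
theorem p2781 : Pat 73 73 TBm TCm (C2781.map Fm) R0Q132.P2781 R0Q132.I2781 := Vale.Agent.P032.Lt.pat_eq (E' := R0Q132.E2781) (by decide +kernel) (pat_step (by decide +kernel) (q_cons (Vale.Agent.P032.Lt.q R0Q132.q2781_0) (q_cons (Vale.Agent.P032.Lt.q R0Q132.q2781_1) (q_cons (Vale.Agent.P032.Lt.q R0Q132.q2781_2) (q_cons (Vale.Agent.P032.Lt.q R0Q132.q2781_3) (q_cons (Vale.Agent.P032.Lt.q R0Q132.q2781_4) (q_cons (Vale.Agent.P032.Lt.q R0Q132.q2781_5) (q_cons (Vale.Agent.P032.Lt.q R0Q132.q2781_6) q_nil))))))))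

def C2782 : List ℕ := [0, 4, 8, 12, 16, 20, 24, 81921, 82945, 212993, 475137, 617473, 737281]
theorem p2782 : Pat 73 73 TBm TCm (C2782.map Fm) R0Q132.P2782 R0Q132.I2782 := Vale.Agent.P032.Lt.pat_eq (E' := R0Q132.E2782) (by decide +kernel) (pat_step (by decide +kernel) (q_cons (Vale.Agent.P032.Lt.q R0Q132.q2782_0) (q_cons (Vale.Agent.P032.Lt.q R0Q132.q2782_1) (q_cons (Vale.Agent.P032.Lt.q R0Q132.q2782_2) (q_cons (Vale.Agent.P032.Lt.q R0Q132.q2782_3) (q_cons (Vale.Agent.P032.Lt.q R0Q132.q2782_4) (q_cons (Vale.Agent.P032.Lt.q R0Q132.q2782_5) q_nil)))))))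

theorem p2783 : Pat 73 73 TBm TCm (CB.map Fm) R0Q132.P2783 R0Q132.I2783 := Vale.Agent.P032.Lt.pat_eq (E' := R0Q132.E) eB (pat_step (by decide +kernel) (q_cons (Vale.Agent.P032.Lt.q R0Q132.q2783_0) (q_cons (Vale.Agent.P032.Lt.q R0Q132.q2783_1) (q_cons (Vale.Agent.P032.Lt.q R0Q132.q2783_2) (q_cons (Vale.Agent.P032.Lt.q R0Q132.q2783_3) (q_cons (Vale.Agent.P032.Lt.q R0Q132.q2783_4) (q_cons (Vale.Agent.P032.Lt.q R0Q132.q2783_5) q_nil)))))))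

def C2784 : List ℕ := [0, 4, 8, 12, 16, 20, 24, 82945, 89089, 212993, 475137, 737281]
theorem p2784 : Pat 73 73 TBm TCm (C2784.map Fm) R0Q132.P2784 R0Q132.I2784 := Vale.Agent.P032.Lt.pat_eq (E' := R0Q132.E2784) (by decide +kernel) (pat_step (by decide +kernel) (q_cons (Vale.Agent.P032.Lt.q R0Q132.q2784_0) (q_cons (Vale.Agent.P032.Lt.q R0Q132.q2784_1) (q_cons (Vale.Agent.P032.Lt.q R0Q132.q2784_2) (q_cons (Vale.Agent.P032.Lt.q R0Q132.q2784_3) (q_cons (Vale.Agent.P032.Lt.q R0Q132.q2784_4) (q_cons (Vale.Agent.P032.Lt.q R0Q132.q2784_5) (q_cons (Vale.Agent.P032.Lt.q R0Q132.q2784_6) q_nil))))))))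

theorem p2785 : Pat 73 73 TBm TCm (CB.map Fm) R0Q132.P2785 R0Q132.I2785 := Vale.Agent.P032.Lt.pat_eq (E' := R0Q132.E) eB (pat_step (by decide +kernel) (q_cons (Vale.Agent.P032.Lt.q R0Q132.q2785_0) (q_cons (Vale.Agent.P032.Lt.q R0Q132.q2785_1) (q_cons (Vale.Agent.P032.Lt.q R0Q132.q2785_2) (q_cons (Vale.Agent.P032.Lt.q R0Q132.q2785_3) (q_cons (Vale.Agent.P032.Lt.q R0Q132.q2785_4) (q_cons (Vale.Agent.P032.Lt.q R0Q132.q2785_5) (q_cons (Vale.Agent.P032.Lt.q R0Q132.q2785_6) (q_cons (Vale.Agent.P032.Lt.q R0Q132.q2785_7) q_nil)))))))))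

theorem p2786 : Pat 73 73 TBm TCm (CB.map Fm) R0Q132.P2786 R0Q132.I2786 := Vale.Agent.P032.Lt.pat_eq (E' := R0Q132.E) eB (pat_step (by decide +kernel) (q_cons (Vale.Agent.P032.Lt.q R0Q132.q2786_0) q_nil))

theorem p2787 : Pat 73 73 TBm TCm (CB.map Fm) R0Q133.P2787 R0Q133.I2787 := Vale.Agent.P032.Lt.pat_eq (E' := R0Q133.E) eB (pat_step (by decide +kernel) (q_cons (Vale.Agent.P032.Lt.q R0Q133.q2787_0) (q_cons (Vale.Agent.P032.Lt.q R0Q133.q2787_1) (q_cons (Vale.Agent.P032.Lt.q R0Q133.q2787_2) (q_cons (Vale.Agent.P032.Lt.q R0Q133.q2787_3) (q_cons (Vale.Agent.P032.Lt.q R0Q133.q2787_4) (q_cons (Vale.Agent.P032.Lt.q R0Q133.q2787_5) (q_cons (Vale.Agent.P032.Lt.q R0Q133.q2787_6) (q_cons (Vale.Agent.P032.Lt.q R0Q133.q2787_7) (q_cons (Vale.Agent.P032.Lt.q R0Q133.q2787_8) (q_cons (Vale.Agent.P032.Lt.q R0Q133.q2787_9) (q_cons (Vale.Agent.P032.Lt.q R0Q133.q2787_10)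 (q_cons (Vale.Agent.P032.Lt.q R0Q133.q2787_11) (q_cons (Vale.Agent.P032.Lt.q R0Q133.q2787_12) q_nil))))))))))))))

theorem p2788 : Pat 73 73 TBm TCm (CB.map Fm) R0Q133.P2788 R0Q133.I2788 := Vale.Agent.P032.Lt.pat_eq (E' := R0Q133.E) eB (pat_step (by decide +kernel) (q_cons (Vale.Agent.P032.Lt.q R0Q133.q2788_0) (q_cons (Vale.Agent.P032.Lt.q R0Q133.q2788_1) (q_cons (Vale.Agent.P032.Lt.q R0Q133.q2788_2) (q_cons (Vale.Agent.P032.Lt.q R0Q133.q2788_3) (q_cons (Vale.Agent.P032.Lt.q R0Q133.q2788_4) (q_cons (Vale.Agent.P032.Lt.q R0Q133.q2788_5) (q_cons (Vale.Agent.P032.Lt.q R0Q133.q2788_6) q_nil))))))))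

theorem p2789 : Pat 73 73 TBm TCm (CB.map Fm) R0Q133.P2789 R0Q133.I2789 := Vale.Agent.P032.Lt.pat_eq (E' := R0Q133.E) eB (pat_step (by decide +kernel) (q_cons (Vale.Agent.P032.Lt.q R0Q133.q2789_0) q_nil))

theorem p2790 : Pat 73 73 TBm TCm (CB.map Fm) R0Q133.P2790 R0Q133.I2790 := Vale.Agent.P032.Lt.pat_eq (E' := R0Q133.E) eB (pat_step (by decide +kernel) (q_cons (Vale.Agent.P032.Lt.q R0Q133.q2790_0) (q_cons (Vale.Agent.P032.Lt.q R0Q133.q2790_1) (q_cons (Vale.Agent.P032.Lt.q R0Q133.q2790_2) q_nil))))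

theorem p2791 : Pat 73 73 TBm TCm (CB.map Fm) R0Q133.P2791 R0Q133.I2791 := Vale.Agent.P032.Lt.pat_eq (E' := R0Q133.E) eB (pat_step (by decide +kernel) (q_cons (Vale.Agent.P032.Lt.q R0Q133.q2791_0) (q_cons (Vale.Agent.P032.Lt.q R0Q133.q2791_1) (q_cons (Vale.Agent.P032.Lt.q R0Q133.q2791_2) (q_cons (Vale.Agent.P032.Lt.q R0Q133.q2791_3) (q_cons (Vale.Agent.P032.Lt.q R0Q133.q2791_4) (q_cons (Vale.Agent.P032.Lt.q R0Q133.q2791_5) (q_cons (Vale.Agent.P032.Lt.q R0Q133.q2791_6) (q_cons (Vale.Agent.P032.Lt.q R0Q133.q2791_7) (q_cons (Vale.Agent.P032.Lt.q R0Q133.q2791_8) (q_cons (Vale.Agent.P032.Lt.q R0Q133.q2791_9) (q_cons (Vale.Agent.P032.Lt.q R0Q133.q2791_10) (q_cons (Vale.Agent.P032.Lt.q R0Q133.q2791_11) (q_cons (Vale.Agent.P032.Lt.q R0Q133.q2791_12) (q_cons (Vale.Agent.P032.Lt.q R0Q133.q2791_13) (q_cons (Vale.Agent.P032.Lt.q R0Q133.q2791_14) (q_cons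 (Vale.Agent.P032.Lt.q R0Q133.q2791_15) q_nil)))))))))))))))))

theorem p2792 : Pat 73 73 TBm TCm (CB.map Fm) R0Q133.P2792 R0Q133.I2792 := Vale.Agent.P032.Lt.pat_eq (E' := R0Q133.E) eB (pat_step (by decide +kernel) (q_cons (Vale.Agent.P032.Lt.q R0Q133.q2792_0) (q_cons (Vale.Agent.P032.Lt.q R0Q133.q2792_1) (q_cons (Vale.Agent.P032.Lt.q R0Q133.q2792_2) (q_cons (Vale.Agent.P032.Lt.q R0Q133.q2792_3) (q_cons (Vale.Agent.P032.Lt.q R0Q133.q2792_4) (q_cons (Vale.Agent.P032.Lt.q R0Q133.q2792_5) (q_cons (Vale.Agent.P032.Lt.q R0Q133.q2792_6) (q_cons (Vale.Agent.P032.Lt.q R0Q133.q2792_7) (q_cons (Vale.Agent.P032.Lt.q R0Q133.q2792_8) q_nil))))))))))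

theorem p2793 : Pat 73 73 TBm TCm (CB.map Fm) R0Q133.P2793 R0Q133.I2793 := Vale.Agent.P032.Lt.pat_eq (E' := R0Q133.E) eB (pat_step (by decide +kernel) (q_cons (Vale.Agent.P032.Lt.q R0Q133.q2793_0) (q_cons (Vale.Agent.P032.Lt.q R0Q133.q2793_1) (q_cons (Vale.Agent.P032.Lt.q R0Q133.q2793_2) (q_cons (Vale.Agent.P032.Lt.q R0Q133.q2793_3) (q_cons (Vale.Agent.P032.Lt.q R0Q133.q2793_4) (q_cons (Vale.Agent.P032.Lt.q R0Q133.q2793_5) (q_cons (Vale.Agent.P032.Lt.q R0Q133.q2793_6) (q_cons (Vale.Agent.P032.Lt.q R0Q133.q2793_7) (q_cons (Vale.Agent.P032.Lt.q R0Q133.q2793_8) q_nil))))))))))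

theorem p2794 : Pat 73 73 TBm TCm (CB.map Fm) R0Q133.P2794 R0Q133.I2794 := Vale.Agent.P032.Lt.pat_eq (E' := R0Q133.E) eB (pat_step (by decide +kernel) (q_cons (Vale.Agent.P032.Lt.q R0Q133.q2794_0) (q_cons (Vale.Agent.P032.Lt.q R0Q133.q2794_1) (q_cons (Vale.Agent.P032.Lt.q R0Q133.q2794_2) (q_cons (Vale.Agent.P032.Lt.q R0Q133.q2794_3) (q_cons (Vale.Agent.P032.Lt.q R0Q133.q2794_4) (q_cons (Vale.Agent.P032.Lt.q R0Q133.q2794_5) (q_cons (Vale.Agent.P032.Lt.q R0Q133.q2794_6) (q_cons (Vale.Agent.P032.Lt.q R0Q133.q2794_7) q_nil)))))))))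

theorem p2795 : Pat 73 73 TBm TCm (CB.map Fm) R0Q133.P2795 R0Q133.I2795 := Vale.Agent.P032.Lt.pat_eq (E' := R0Q133.E) eB (pat_step (by decide +kernel) (q_cons (Vale.Agent.P032.Lt.q R0Q133.q2795_0) (q_cons (Vale.Agent.P032.Lt.q R0Q133.q2795_1) (q_cons (Vale.Agent.P032.Lt.q R0Q133.q2795_2) (q_cons (Vale.Agent.P032.Lt.q R0Q133.q2795_3) q_nil)))))

theorem p2796 : Pat 73 73 TBm TCm (CB.map Fm) R0Q133.P2796 R0Q133.I2796 := Vale.Agent.P032.Lt.pat_eq (E' := R0Q133.E) eB (pat_step (by decide +kernel) (q_cons (Vale.Agent.P032.Lt.q R0Q133.q2796_0) (q_cons (Vale.Agent.P032.Lt.q R0Q133.q2796_1) (q_cons (Vale.Agent.P032.Lt.q R0Q133.q2796_2) q_nil))))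

theorem p2797 : Pat 73 73 TBm TCm (CB.map Fm) R0Q133.P2797 R0Q133.I2797 := Vale.Agent.P032.Lt.pat_eq (E' := R0Q133.E) eB (pat_step (by decide +kernel) (q_cons (Vale.Agent.P032.Lt.q R0Q133.q2797_0) (q_cons (Vale.Agent.P032.Lt.q R0Q133.q2797_1) (q_cons (Vale.Agent.P032.Lt.q R0Q133.q2797_2) q_nil))))

theorem p2798 : Pat 73 73 TBm TCm (CB.map Fm) R0Q133.P2798 R0Q133.I2798 := Vale.Agent.P032.Lt.pat_eq (E' := R0Q133.E) eB (pat_step (by decide +kernel) (q_cons (Vale.Agent.P032.Lt.q R0Q133.q2798_0) q_nil))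

theorem p2799 : Pat 73 73 TBm TCm (CB.map Fm) R0Q133.P2799 R0Q133.I2799 := Vale.Agent.P032.Lt.pat_eq (E' := R0Q133.E) eB (pat_step (by decide +kernel) (q_cons (Vale.Agent.P032.Lt.q R0Q133.q2799_0) q_nil))

theorem p2800 : Pat 73 73 TBm TCm (CB.map Fm) R0Q133.P2800 R0Q133.I2800 := Vale.Agent.P032.Lt.pat_eq (E' := R0Q133.E) eB (pat_step (by decide +kernel) (q_cons (Vale.Agent.P032.Lt.q R0Q133.q2800_0) (q_cons (Vale.Agent.P032.Lt.q R0Q133.q2800_1) (q_cons (Vale.Agent.P032.Lt.q R0Q133.q2800_2) (q_cons (Vale.Agent.P032.Lt.q R0Q133.q2800_3) (q_cons (Vale.Agent.P032.Lt.q R0Q133.q2800_4) (q_cons (Vale.Agent.P032.Lt.q R0Q133.q2800_5) (q_cons (Vale.Agent.P032.Lt.q R0Q133.q2800_6) (q_cons (Vale.Agent.P032.Lt.q R0Q133.q2800_7) (q_cons (Vale.Agent.P032.Lt.q R0Q133.q2800_8) (q_cons (Vale.Agent.P032.Lt.q R0Q133.q2800_9) (q_cons (Vale.Agent.P032.Lt.q R0Q133.q2800_10)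 (q_cons (Vale.Agent.P032.Lt.q R0Q133.q2800_11) (q_cons (Vale.Agent.P032.Lt.q R0Q133.q2800_12) (q_cons (Vale.Agent.P032.Lt.q R0Q133.q2800_13) (q_cons (Vale.Agent.P032.Lt.q R0Q133.q2800_14) (q_cons (Vale.Agent.P032.Lt.q R0Q133.q2800_15) (q_cons (Vale.Agent.P032.Lt.q R0Q133.q2800_16) (q_cons (Vale.Agent.P032.Lt.q R0Q133.q2800_17) (q_cons (Vale.Agent.P032.Lt.q R0Q133.q2800_18) (q_cons (Vale.Agent.P032.Lt.q R0Q133.q2800_19) q_nil)))))))))))))))))))))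

theorem p2801 : Pat 73 73 TBm TCm (CB.map Fm) R0Q133.P2801 R0Q133.I2801 := Vale.Agent.P032.Lt.pat_eq (E' := R0Q133.E) eB (pat_step (by decide +kernel) (q_cons (Vale.Agent.P032.Lt.q R0Q133.q2801_0) (q_cons (Vale.Agent.P032.Lt.q R0Q133.q2801_1) (q_cons (Vale.Agent.P032.Lt.q R0Q133.q2801_2) (q_cons (Vale.Agent.P032.Lt.q R0Q133.q2801_3) (q_cons (Vale.Agent.P032.Lt.q R0Q133.q2801_4) (q_cons (Vale.Agent.P032.Lt.q R0Q133.q2801_5) (q_cons (Vale.Agent.P032.Lt.q R0Q133.q2801_6) q_nil))))))))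

theorem p2802 : Pat 73 73 TBm TCm (CB.map Fm) R0Q133.P2802 R0Q133.I2802 := Vale.Agent.P032.Lt.pat_eq (E' := R0Q133.E) eB (pat_step (by decide +kernel) (q_cons (Vale.Agent.P032.Lt.q R0Q133.q2802_0) (q_cons (Vale.Agent.P032.Lt.q R0Q133.q2802_1) q_nil)))

theorem p2803 : Pat 73 73 TBm TCm (CB.map Fm) R0Q133.P2803 R0Q133.I2803 := Vale.Agent.P032.Lt.pat_eq (E' := R0Q133.E) eB (pat_step (by decide +kernel) (q_cons (Vale.Agent.P032.Lt.q R0Q133.q2803_0) (q_cons (Vale.Agent.P032.Lt.q R0Q133.q2803_1) q_nil)))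

theorem p2804 : Pat 73 73 TBm TCm (CB.map Fm) R0Q133.P2804 R0Q133.I2804 := Vale.Agent.P032.Lt.pat_eq (E' := R0Q133.E) eB (pat_step (by decide +kernel) (q_cons (Vale.Agent.P032.Lt.q R0Q133.q2804_0) q_nil))

theorem p2805 : Pat 73 73 TBm TCm (CB.map Fm) R0Q133.P2805 R0Q133.I2805 := Vale.Agent.P032.Lt.pat_eq (E' := R0Q133.E) eB (pat_step (by decide +kernel) (q_cons (Vale.Agent.P032.Lt.q R0Q133.q2805_0) (q_cons (Vale.Agent.P032.Lt.q R0Q133.q2805_1) (q_cons (Vale.Agent.P032.Lt.q R0Q133.q2805_2) (q_cons (Vale.Agent.P032.Lt.q R0Q133.q2805_3) (q_cons (Vale.Agent.P032.Lt.q R0Q133.q2805_4) (q_cons (Vale.Agent.P032.Lt.q R0Q133.q2805_5) (q_cons (Vale.Agent.P032.Lt.q R0Q133.q2805_6) q_nil))))))))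

def C2806 : List ℕ := [0, 4, 8, 12, 16, 20, 24, 220161, 344065, 475137, 737281]
theorem p2806 : Pat 73 73 TBm TCm (C2806.map Fm) R0Q133.P2806 R0Q133.I2806 := Vale.Agent.P032.Lt.pat_eq (E' := R0Q133.E2806) (by decide +kernel) (pat_step (by decide +kernel) (q_cons (Vale.Agent.P032.Lt.q R0Q133.q2806_0) (q_cons (Vale.Agent.P032.Lt.q R0Q133.q2806_1) (q_cons (Vale.Agent.P032.Lt.q R0Q133.q2806_2) (q_cons (Vale.Agent.P032.Lt.q R0Q133.q2806_3) q_nil)))))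

theorem p2807 : Pat 73 73 TBm TCm (CB.map Fm) R0Q133.P2807 R0Q133.I2807 := Vale.Agent.P032.Lt.pat_eq (E' := R0Q133.E) eB (pat_step (by decide +kernel) (q_cons (Vale.Agent.P032.Lt.q R0Q133.q2807_0) (q_cons (Vale.Agent.P032.Lt.q R0Q133.q2807_1) (q_cons (Vale.Agent.P032.Lt.q R0Q133.q2807_2) (q_cons (Vale.Agent.P032.Lt.q R0Q133.q2807_3) q_nil)))))

theorem p2808 : Pat 73 73 TBm TCm (CB.map Fm) R0Q133.P2808 R0Q133.I2808 := Vale.Agent.P032.Lt.pat_eq (E' := R0Q133.E) eB (pat_step (by decide +kernel) (q_cons (Vale.Agent.P032.Lt.q R0Q133.q2808_0) (q_cons (Vale.Agent.P032.Lt.q R0Q133.q2808_1) q_nil)))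

theorem p2809 : Pat 73 73 TBm TCm (CB.map Fm) R0Q133.P2809 R0Q133.I2809 := Vale.Agent.P032.Lt.pat_eq (E' := R0Q133.E) eB (pat_step (by decide +kernel) (q_cons (Vale.Agent.P032.Lt.q R0Q133.q2809_0) (q_cons (Vale.Agent.P032.Lt.q R0Q133.q2809_1) (q_cons (Vale.Agent.P032.Lt.q R0Q133.q2809_2) (q_cons (Vale.Agent.P032.Lt.q R0Q133.q2809_3) (q_cons (Vale.Agent.P032.Lt.q R0Q133.q2809_4) (q_cons (Vale.Agent.P032.Lt.q R0Q133.q2809_5) q_nil)))))))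

theorem p2810 : Pat 73 73 TBm TCm (CB.map Fm) R0Q133.P2810 [] := Vale.Agent.P032.Lt.pat_eq (E' := R0Q133.E) eB (pat_end (by decide +kernel) (Vale.Agent.P032.Lt.q R0Q133.q2810))

theorem p2811 : Pat 73 73 TBm TCm (CB.map Fm) R0Q133.P2811 R0Q133.I2811 := Vale.Agent.P032.Lt.pat_eq (E' := R0Q133.E) eB (pat_step (by decide +kernel) (q_cons (Vale.Agent.P032.Lt.q R0Q133.q2811_0) (q_cons (Vale.Agent.P032.Lt.q R0Q133.q2811_1) q_nil)))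

theorem p2812 : Pat 73 73 TBm TCm (CB.map Fm) R0Q133.P2812 R0Q133.I2812 := Vale.Agent.P032.Lt.pat_eq (E' := R0Q133.E) eB (pat_step (by decide +kernel) (q_cons (Vale.Agent.P032.Lt.q R0Q133.q2812_0) (q_cons (Vale.Agent.P032.Lt.q R0Q133.q2812_1) (q_cons (Vale.Agent.P032.Lt.q R0Q133.q2812_2) (q_cons (Vale.Agent.P032.Lt.q R0Q133.q2812_3) (q_cons (Vale.Agent.P032.Lt.q R0Q133.q2812_4) (q_cons (Vale.Agent.P032.Lt.q R0Q133.q2812_5) (q_cons (Vale.Agent.P032.Lt.q R0Q133.q2812_6) (q_cons (Vale.Agent.P032.Lt.q R0Q133.q2812_7) q_nil)))))))))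

theorem p2813 : Pat 73 73 TBm TCm (CB.map Fm) R0Q133.P2813 R0Q133.I2813 := Vale.Agent.P032.Lt.pat_eq (E' := R0Q133.E) eB (pat_step (by decide +kernel) (q_cons (Vale.Agent.P032.Lt.q R0Q133.q2813_0) (q_cons (Vale.Agent.P032.Lt.q R0Q133.q2813_1) (q_cons (Vale.Agent.P032.Lt.q R0Q133.q2813_2) q_nil))))

theorem p2814 : Pat 73 73 TBm TCm (CB.map Fm) R0Q133.P2814 R0Q133.I2814 := Vale.Agent.P032.Lt.pat_eq (E' := R0Q133.E) eB (pat_step (by decide +kernel) (q_cons (Vale.Agent.P032.Lt.q R0Q133.q2814_0) (q_cons (Vale.Agent.P032.Lt.q R0Q133.q2814_1) q_nil)))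

theorem p2815 : Pat 73 73 TBm TCm (CB.map Fm) R0Q133.P2815 R0Q133.I2815 := Vale.Agent.P032.Lt.pat_eq (E' := R0Q133.E) eB (pat_step (by decide +kernel) (q_cons (Vale.Agent.P032.Lt.q R0Q133.q2815_0) (q_cons (Vale.Agent.P032.Lt.q R0Q133.q2815_1) q_nil)))

def L : List (List ℕ) := [R0Q127.P2688, R0Q127.P2689, R0Q127.P2690, R0Q127.P2691, R0Q127.P2692, R0Q127.P2693, R0Q127.P2694, R0Q127.P2695, R0Q127.P2696, R0Q127.P2697, R0Q127.P2698, R0Q127.P2699, R0Q127.P2700, R0Q127.P2701, R0Q127.P2702, R0Q128.P2703, R0Q128.P2704, R0Q128.P2705, R0Q128.P2706, R0Q128.P2707, R0Q128.P2708, R0Q128.P2709, R0Q128.P2710, R0Q129.P2711, R0Q129.P2712, R0Q129.P2713, R0Q129.P2714, R0Q129.P2715, R0Q129.P2716, R0Q129.P2717, R0Q129.P2718, R0Q129.P2719, R0Q130.P2720, R0Q130.P2721, R0Q130.P2722, R0Q130.P2723, R0Q130.P2724, R0Q130.P2725, R0Q130.P2726, R0Q130.P2727, R0Q130.P2728,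 R0Q130.P2729, R0Q130.P2730, R0Q130.P2731, R0Q130.P2732, R0Q130.P2733, R0Q130.P2734, R0Q130.P2735, R0Q130.P2736, R0Q130.P2737, R0Q131.P2738, R0Q131.P2739, R0Q131.P2740, R0Q131.P2741, R0Q131.P2742, R0Q131.P2743, R0Q131.P2744, R0Q131.P2745, R0Q131.P2746, R0Q131.P2747, R0Q131.P2748, R0Q131.P2749, R0Q131.P2750, R0Q131.P2751, R0Q131.P2752, R0Q131.P2753, R0Q131.P2754, R0Q131.P2755, R0Q131.P2756, R0Q131.P2757, R0Q131.P2758, R0Q131.P2759, R0Q131.P2760, R0Q131.P2761, R0Q131.P2762, R0Q131.P2763, R0Q131.P2764, R0Q131.P2765, R0Q131.P2766, R0Q131.P2767, R0Q131.P2768, R0Q132.P2769, R0Q132.P2770, R0Q132.P2771, R0Q132.P2772, R0Q132.P2773, R0Q132.P2774, R0Q132.P2775, R0Q132.P2776, R0Q132.P2777, R0Q132.P2778, R0Q132.P2779, R0Q132.P2780, R0Q132.P2781, R0Q132.P2782, R0Q132.P2783, R0Q132.P2784, R0Q132.P2785, R0Q132.P2786, R0Q133.P2787, R0Q133.P2788, R0Q133.P2789,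 R0Q133.P2790, R0Q133.P2791, R0Q133.P2792, R0Q133.P2793, R0Q133.P2794, R0Q133.P2795, R0Q133.P2796, R0Q133.P2797, R0Q133.P2798, R0Q133.P2799, R0Q133.P2800, R0Q133.P2801, R0Q133.P2802, R0Q133.P2803, R0Q133.P2804, R0Q133.P2805, R0Q133.P2806, R0Q133.P2807, R0Q133.P2808, R0Q133.P2809, R0Q133.P2810, R0Q133.P2811, R0Q133.P2812, R0Q133.P2813, R0Q133.P2814, R0Q133.P2815]

theorem all : ∀ P ∈ L, CrtF 73 73 TBm TCm (Vale.Agent.P032.Fam.fam2 (Vale.Agent.P032.Fam.im0)) P := crtF_cons p2688 (crtF_cons p2689 (crtF_cons p2690 (crtF_cons p2691 (crtF_cons p2692 (crtF_cons p2693 (crtF_cons p2694 (crtF_cons p2695 (crtF_cons p2696 (crtF_cons p2697 (crtF_cons p2698 (crtF_cons p2699 (crtF_cons p2700 (crtF_cons p2701 (crtF_cons p2702 (crtF_cons p2703 (crtF_cons p2704 (crtF_cons p2705 (crtF_cons p2706 (crtF_cons p2707 (crtF_cons p2708 (crtF_cons p2709 (crtF_cons p2710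 (crtF_cons p2711 (crtF_cons p2712 (crtF_cons p2713 (crtF_cons p2714 (crtF_cons p2715 (crtF_cons p2716 (crtF_cons p2717 (crtF_cons p2718 (crtF_cons p2719 (crtF_cons p2720 (crtF_cons p2721 (crtF_cons p2722 (crtF_cons p2723 (crtF_cons p2724 (crtF_cons p2725 (crtF_cons p2726 (crtF_cons p2727 (crtF_cons p2728 (crtF_cons p2729 (crtF_cons p2730 (crtF_cons p2731 (crtF_cons p2732 (crtF_cons p2733 (crtF_cons p2734 (crtF_cons p2735 (crtF_cons p2736 (crtF_cons p2737 (crtF_cons p2738 (crtF_cons p2739 (crtF_cons p2740 (crtF_cons p2741 (crtF_cons p2742 (crtF_cons p2743 (crtF_cons p2744 (crtF_cons p2745 (crtF_cons p2746 (crtF_cons p2747 (crtF_cons p2748 (crtF_cons p2749 (crtF_cons p2750 (crtF_cons p2751 (crtF_cons p2752 (crtF_cons p2753 (crtF_cons p2754 (crtF_cons p2755 (crtF_cons p2756 (crtF_cons p2757 (crtF_cons p2758 (crtF_cons p2759 (crtF_cons p2760 (crtF_cons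 p2761 (crtF_cons p2762 (crtF_cons p2763 (crtF_cons p2764 (crtF_cons p2765 (crtF_cons p2766 (crtF_cons p2767 (crtF_cons p2768 (crtF_cons p2769 (crtF_cons p2770 (crtF_cons p2771 (crtF_cons p2772 (crtF_cons p2773 (crtF_cons p2774 (crtF_cons p2775 (crtF_cons p2776 (crtF_cons p2777 (crtF_cons p2778 (crtF_cons p2779 (crtF_cons p2780 (crtF_cons p2781 (crtF_cons p2782 (crtF_cons p2783 (crtF_cons p2784 (crtF_cons p2785 (crtF_cons p2786 (crtF_cons p2787 (crtF_cons p2788 (crtF_cons p2789 (crtF_cons p2790 (crtF_cons p2791 (crtF_cons p2792 (crtF_cons p2793 (crtF_cons p2794 (crtF_cons p2795 (crtF_cons p2796 (crtF_cons p2797 (crtF_cons p2798 (crtF_cons p2799 (crtF_cons p2800 (crtF_cons p2801 (crtF_cons p2802 (crtF_cons p2803 (crtF_cons p2804 (crtF_cons p2805 (crtF_cons p2806 (crtF_cons p2807 (crtF_cons p2808 (crtF_cons p2809 (crtF_cons p2810 (crtF_cons p2811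 (crtF_cons p2812 (crtF_cons p2813 (crtF_cons p2814 (crtF_cons p2815 crtF_nil)))))))))))))))))))))))))))))))))))))))))))))))))))))))))))))))))))))))))))))))))))))))))))))))))))))))))))))))))))))))))))))))

theorem ch : chT 73 73 TCm s0_021 L = true := by decide +kernel

end Vale.Agent.P032X.Cert.XP.B1.R0H021
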