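import Vale.Agent.P032X.H892.LtH
import Vale.Agent.P032X.H286.W73
import Vale.Agent.P032X.Cert.XP.B1.R0T
import Vale.Agent.P032X.Cert.XP.B1.R0Q134
import Vale.Agent.P032X.Cert.XP.B1.R0Q135
import Vale.Agent.P032X.Cert.XP.B1.R0Q136
import Vale.Agent.P032X.Cert.XP.B1.R0Q137
import Vale.Agent.P032X.Cert.XP.B1.R0Q138
import Vale.Agent.P032X.Cert.XP.B1.R0Q139

set_option maxRecDepth 1000000

namespace Vale.Agent.P032X.Cert.XP.B1.R0H022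

open Vale.Agent.P032.H820.K Vale.Agent.P032.H357.MK Vale.Agent.P032.H286.E Vale.Agent.P032.H61 Vale.Agent.P032X.Cert.XP.B1

noncomputable abbrev Fm : ℕ → List ℕ := Vale.Agent.P032.Fam.fam2 (Vale.Agent.P032.Fam.im0)

def CB : List ℕ := [0, 4, 8, 12, 16, 20, 24]

theorem eB : Vale.Agent.P032.Lt.eqLL (CB.map Fm) R0Q134.E = true := by decide +kernel

theorem p2816 : Pat 73 73 TBm TCm (CB.map Fm) R0Q134.P2816 R0Q134.I2816 := Vale.Agent.P032.Lt.pat_eq (E' := R0Q134.E) eB (pat_step (by decide +kernel) (q_cons (Vale.Agent.P032.Lt.q R0Q134.q2816_0) q_nil))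

theorem p2817 : Pat 73 73 TBm TCm (CB.map Fm) R0Q134.P2817 R0Q134.I2817 := Vale.Agent.P032.Lt.pat_eq (E' := R0Q134.E) eB (pat_step (by decide +kernel) (q_cons (Vale.Agent.P032.Lt.q R0Q134.q2817_0) (q_cons (Vale.Agent.P032.Lt.q R0Q134.q2817_1) (q_cons (Vale.Agent.P032.Lt.q R0Q134.q2817_2) q_nil))))

theorem p2818 : Pat 73 73 TBm TCm (CB.map Fm) R0Q134.P2818 R0Q134.I2818 := Vale.Agent.P032.Lt.pat_eq (E' := R0Q134.E) eB (pat_step (by decide +kernel) (q_cons (Vale.Agent.P032.Lt.q R0Q134.q2818_0) q_nil))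

theorem p2819 : Pat 73 73 TBm TCm (CB.map Fm) R0Q134.P2819 R0Q134.I2819 := Vale.Agent.P032.Lt.pat_eq (E' := R0Q134.E) eB (pat_step (by decide +kernel) (q_cons (Vale.Agent.P032.Lt.q R0Q134.q2819_0) (q_cons (Vale.Agent.P032.Lt.q R0Q134.q2819_1) (q_cons (Vale.Agent.P032.Lt.q R0Q134.q2819_2) (q_cons (Vale.Agent.P032.Lt.q R0Q134.q2819_3) q_nil)))))

def C2820 : List ℕ := [0, 4, 8, 12, 16, 20, 24, 86017, 216065, 349185, 741377]
theorem p2820 : Pat 73 73 TBm TCm (C2820.map Fm) R0Q134.P2820 R0Q134.I2820 := Vale.Agent.P032.Lt.pat_eq (E' := R0Q134.E2820) (by decide +kernel) (pat_step (by decide +kernel) (q_cons (Vale.Agent.P032.Lt.q R0Q134.q2820_0) (q_cons (Vale.Agent.P032.Lt.q R0Q134.q2820_1) (q_cons (Vale.Agent.P032.Lt.q R0Q134.q2820_2) (q_cons (Vale.Agent.P032.Lt.q R0Q134.q2820_3) (q_cons (Vale.Agent.P032.Lt.q R0Q134.q2820_4) (q_cons (Vale.Agent.P032.Lt.q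 R0Q134.q2820_5) (q_cons (Vale.Agent.P032.Lt.q R0Q134.q2820_6) q_nil))))))))

def C2821 : List ℕ := [0, 4, 8, 12, 16, 20, 24, 216065, 217089, 610305, 741377]
theorem p2821 : Pat 73 73 TBm TCm (C2821.map Fm) R0Q134.P2821 R0Q134.I2821 := Vale.Agent.P032.Lt.pat_eq (E' := R0Q134.E2821) (by decide +kernel) (pat_step (by decide +kernel) (q_cons (Vale.Agent.P032.Lt.q R0Q134.q2821_0) (q_cons (Vale.Agent.P032.Lt.q R0Q134.q2821_1) (q_cons (Vale.Agent.P032.Lt.q R0Q134.q2821_2) (q_cons (Vale.Agent.P032.Lt.q R0Q134.q2821_3) (q_cons (Vale.Agent.P032.Lt.q R0Q134.q2821_4) (q_cons (Vale.Agent.P032.Lt.q R0Q134.q2821_5) (q_cons (Vale.Agent.P032.Lt.q R0Q134.q2821_6) (q_cons (Vale.Agent.P032.Lt.q R0Q134.q2821_7) (q_cons (Vale.Agent.P032.Lt.q R0Q134.q2821_8) q_nil))))))))))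

def C2822 : List ℕ := [0, 4, 8, 12, 16, 20, 24, 86017, 479233, 741377]
theorem p2822 : Pat 73 73 TBm TCm (C2822.map Fm) R0Q134.P2822 R0Q134.I2822 := Vale.Agent.P032.Lt.pat_eq (E' := R0Q134.E2822) (by decide +kernel) (pat_step (by decide +kernel) (q_cons (Vale.Agent.P032.Lt.q R0Q134.q2822_0) (q_cons (Vale.Agent.P032.Lt.q R0Q134.q2822_1) (q_cons (Vale.Agent.P032.Lt.q R0Q134.q2822_2) (q_cons (Vale.Agent.P032.Lt.q R0Q134.q2822_3) (q_cons (Vale.Agent.P032.Lt.q R0Q134.q2822_4) (q_cons (Vale.Agent.P032.Lt.q R0Q134.q2822_5) q_nil)))))))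

theorem p2823 : Pat 73 73 TBm TCm (CB.map Fm) R0Q134.P2823 R0Q134.I2823 := Vale.Agent.P032.Lt.pat_eq (E' := R0Q134.E) eB (pat_step (by decide +kernel) (q_cons (Vale.Agent.P032.Lt.q R0Q134.q2823_0) (q_cons (Vale.Agent.P032.Lt.q R0Q134.q2823_1) (q_cons (Vale.Agent.P032.Lt.q R0Q134.q2823_2) (q_cons (Vale.Agent.P032.Lt.q R0Q134.q2823_3) (q_cons (Vale.Agent.P032.Lt.q R0Q134.q2823_4) (q_cons (Vale.Agent.P032.Lt.q R0Q134.q2823_5) q_nil)))))))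

theorem p2824 : Pat 73 73 TBm TCm (CB.map Fm) R0Q134.P2824 R0Q134.I2824 := Vale.Agent.P032.Lt.pat_eq (E' := R0Q134.E) eB (pat_step (by decide +kernel) (q_cons (Vale.Agent.P032.Lt.q R0Q134.q2824_0) (q_cons (Vale.Agent.P032.Lt.q R0Q134.q2824_1) (q_cons (Vale.Agent.P032.Lt.q R0Q134.q2824_2) q_nil))))

theorem p2825 : Pat 73 73 TBm TCm (CB.map Fm) R0Q134.P2825 R0Q134.I2825 := Vale.Agent.P032.Lt.pat_eq (E' := R0Q134.E) eB (pat_step (by decide +kernel) (q_cons (Vale.Agent.P032.Lt.q R0Q134.q2825_0) (q_cons (Vale.Agent.P032.Lt.q R0Q134.q2825_1) (q_cons (Vale.Agent.P032.Lt.q R0Q134.q2825_2) q_nil))))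

theorem p2826 : Pat 73 73 TBm TCm (CB.map Fm) R0Q134.P2826 R0Q134.I2826 := Vale.Agent.P032.Lt.pat_eq (E' := R0Q134.E) eB (pat_step (by decide +kernel) (q_cons (Vale.Agent.P032.Lt.q R0Q134.q2826_0) (q_cons (Vale.Agent.P032.Lt.q R0Q134.q2826_1) (q_cons (Vale.Agent.P032.Lt.q R0Q134.q2826_2) q_nil))))

def C2827 : List ℕ := [0, 4, 8, 12, 16, 20, 24, 355329, 737281]
theorem p2827 : Pat 73 73 TBm TCm (C2827.map Fm) R0Q134.P2827 R0Q134.I2827 := Vale.Agent.P032.Lt.pat_eq (E' := R0Q134.E2827) (by decide +kernel) (pat_step (by decide +kernel) (q_cons (Vale.Agent.P032.Lt.q R0Q134.q2827_0) (q_cons (Vale.Agent.P032.Lt.q R0Q134.q2827_1) (q_cons (Vale.Agent.P032.Lt.q R0Q134.q2827_2) (q_cons (Vale.Agent.P032.Lt.q R0Q134.q2827_3) (q_cons (Vale.Agent.P032.Lt.q R0Q134.q2827_4) (q_cons (Vale.Agent.P032.Lt.q R0Q134.q2827_5) (q_cons (Vale.Agent.P032.Lt.q R0Q134.q2827_6)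 q_nil))))))))

theorem p2828 : Pat 73 73 TBm TCm (CB.map Fm) R0Q134.P2828 R0Q134.I2828 := Vale.Agent.P032.Lt.pat_eq (E' := R0Q134.E) eB (pat_step (by decide +kernel) (q_cons (Vale.Agent.P032.Lt.q R0Q134.q2828_0) q_nil))

theorem p2829 : Pat 73 73 TBm TCm (CB.map Fm) R0Q134.P2829 R0Q134.I2829 := Vale.Agent.P032.Lt.pat_eq (E' := R0Q134.E) eB (pat_step (by decide +kernel) (q_cons (Vale.Agent.P032.Lt.q R0Q134.q2829_0) (q_cons (Vale.Agent.P032.Lt.q R0Q134.q2829_1) (q_cons (Vale.Agent.P032.Lt.q R0Q134.q2829_2) q_nil))))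

theorem p2830 : Pat 73 73 TBm TCm (CB.map Fm) R0Q134.P2830 R0Q134.I2830 := Vale.Agent.P032.Lt.pat_eq (E' := R0Q134.E) eB (pat_step (by decide +kernel) (q_cons (Vale.Agent.P032.Lt.q R0Q134.q2830_0) (q_cons (Vale.Agent.P032.Lt.q R0Q134.q2830_1) q_nil)))

def C2831 : List ℕ := [0, 4, 8, 12, 16, 20, 24, 344065]
theorem p2831 : Pat 73 73 TBm TCm (C2831.map Fm) R0Q134.P2831 R0Q134.I2831 := Vale.Agent.P032.Lt.pat_eq (E' := R0Q134.E2831) (by decide +kernel) (pat_step (by decide +kernel) (q_cons (Vale.Agent.P032.Lt.q R0Q134.q2831_0) (q_cons (Vale.Agent.P032.Lt.q R0Q134.q2831_1) (q_cons (Vale.Agent.P032.Lt.q R0Q134.q2831_2) q_nil))))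

def C2832 : List ℕ := [0, 4, 8, 12, 16, 20, 24, 81921, 212993, 475137, 737281]
theorem p2832 : Pat 73 73 TBm TCm (C2832.map Fm) R0Q134.P2832 R0Q134.I2832 := Vale.Agent.P032.Lt.pat_eq (E' := R0Q134.E2832) (by decide +kernel) (pat_step (by decide +kernel) (q_cons (Vale.Agent.P032.Lt.q R0Q134.q2832_0) (q_cons (Vale.Agent.P032.Lt.q R0Q134.q2832_1) (q_cons (Vale.Agent.P032.Lt.q R0Q134.q2832_2) (q_cons (Vale.Agent.P032.Lt.q R0Q134.q2832_3) (q_cons (Vale.Agent.P032.Lt.q R0Q134.q2832_4) (q_cons (Vale.Agent.P032.Lt.q R0Q134.q2832_5) (q_cons (Vale.Agent.P032.Lt.q R0Q134.q2832_6) q_nil))))))))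

theorem p2833 : Pat 73 73 TBm TCm (CB.map Fm) R0Q134.P2833 R0Q134.I2833 := Vale.Agent.P032.Lt.pat_eq (E' := R0Q134.E) eB (pat_step (by decide +kernel) (q_cons (Vale.Agent.P032.Lt.q R0Q134.q2833_0) (q_cons (Vale.Agent.P032.Lt.q R0Q134.q2833_1) (q_cons (Vale.Agent.P032.Lt.q R0Q134.q2833_2) (q_cons (Vale.Agent.P032.Lt.q R0Q134.q2833_3) (q_cons (Vale.Agent.P032.Lt.q R0Q134.q2833_4) (q_cons (Vale.Agent.P032.Lt.q R0Q134.q2833_5) q_nil)))))))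

theorem p2834 : Pat 73 73 TBm TCm (CB.map Fm) R0Q134.P2834 R0Q134.I2834 := Vale.Agent.P032.Lt.pat_eq (E' := R0Q134.E) eB (pat_step (by decide +kernel) (q_cons (Vale.Agent.P032.Lt.q R0Q134.q2834_0) q_nil))

theorem p2835 : Pat 73 73 TBm TCm (CB.map Fm) R0Q134.P2835 R0Q134.I2835 := Vale.Agent.P032.Lt.pat_eq (E' := R0Q134.E) eB (pat_step (by decide +kernel) (q_cons (Vale.Agent.P032.Lt.q R0Q134.q2835_0) (q_cons (Vale.Agent.P032.Lt.q R0Q134.q2835_1) q_nil)))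

theorem p2836 : Pat 73 73 TBm TCm (CB.map Fm) R0Q134.P2836 R0Q134.I2836 := Vale.Agent.P032.Lt.pat_eq (E' := R0Q134.E) eB (pat_step (by decide +kernel) (q_cons (Vale.Agent.P032.Lt.q R0Q134.q2836_0) q_nil))

theorem p2837 : Pat 73 73 TBm TCm (CB.map Fm) R0Q134.P2837 R0Q134.I2837 := Vale.Agent.P032.Lt.pat_eq (E' := R0Q134.E) eB (pat_step (by decide +kernel) (q_cons (Vale.Agent.P032.Lt.q R0Q134.q2837_0) (q_cons (Vale.Agent.P032.Lt.q R0Q134.q2837_1) (q_cons (Vale.Agent.P032.Lt.q R0Q134.q2837_2) q_nil))))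

theorem p2838 : Pat 73 73 TBm TCm (CB.map Fm) R0Q134.P2838 R0Q134.I2838 := Vale.Agent.P032.Lt.pat_eq (E' := R0Q134.E) eB (pat_step (by decide +kernel) (q_cons (Vale.Agent.P032.Lt.q R0Q134.q2838_0) (q_cons (Vale.Agent.P032.Lt.q R0Q134.q2838_1) (q_cons (Vale.Agent.P032.Lt.q R0Q134.q2838_2) (q_cons (Vale.Agent.P032.Lt.q R0Q134.q2838_3) (q_cons (Vale.Agent.P032.Lt.q R0Q134.q2838_4) (q_cons (Vale.Agent.P032.Lt.q R0Q134.q2838_5) (q_cons (Vale.Agent.P032.Lt.q R0Q134.q2838_6) (q_cons (Vale.Agent.P032.Lt.q R0Q134.q2838_7) (q_cons (Vale.Agent.P032.Lt.q R0Q134.q2838_8) q_nil))))))))))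

theorem p2839 : Pat 73 73 TBm TCm (CB.map Fm) R0Q134.P2839 R0Q134.I2839 := Vale.Agent.P032.Lt.pat_eq (E' := R0Q134.E) eB (pat_step (by decide +kernel) (q_cons (Vale.Agent.P032.Lt.q R0Q134.q2839_0) (q_cons (Vale.Agent.P032.Lt.q R0Q134.q2839_1) (q_cons (Vale.Agent.P032.Lt.q R0Q134.q2839_2) q_nil))))

theorem p2840 : Pat 73 73 TBm TCm (CB.map Fm) R0Q135.P2840 R0Q135.I2840 := Vale.Agent.P032.Lt.pat_eq (E' := R0Q135.E) eB (pat_step (by decide +kernel) (q_cons (Vale.Agent.P032.Lt.q R0Q135.q2840_0) q_nil))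

theorem p2841 : Pat 73 73 TBm TCm (CB.map Fm) R0Q135.P2841 R0Q135.I2841 := Vale.Agent.P032.Lt.pat_eq (E' := R0Q135.E) eB (pat_step (by decide +kernel) (q_cons (Vale.Agent.P032.Lt.q R0Q135.q2841_0) (q_cons (Vale.Agent.P032.Lt.q R0Q135.q2841_1) (q_cons (Vale.Agent.P032.Lt.q R0Q135.q2841_2) q_nil))))

theorem p2842 : Pat 73 73 TBm TCm (CB.map Fm) R0Q135.P2842 R0Q135.I2842 := Vale.Agent.P032.Lt.pat_eq (E' := R0Q135.E) eB (pat_step (by decide +kernel) (q_cons (Vale.Agent.P032.Lt.q R0Q135.q2842_0) q_nil))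

theorem p2843 : Pat 73 73 TBm TCm (CB.map Fm) R0Q135.P2843 R0Q135.I2843 := Vale.Agent.P032.Lt.pat_eq (E' := R0Q135.E) eB (pat_step (by decide +kernel) (q_cons (Vale.Agent.P032.Lt.q R0Q135.q2843_0) (q_cons (Vale.Agent.P032.Lt.q R0Q135.q2843_1) (q_cons (Vale.Agent.P032.Lt.q R0Q135.q2843_2) q_nil))))

theorem p2844 : Pat 73 73 TBm TCm (CB.map Fm) R0Q135.P2844 R0Q135.I2844 := Vale.Agent.P032.Lt.pat_eq (E' := R0Q135.E) eB (pat_step (by decide +kernel) (q_cons (Vale.Agent.P032.Lt.q R0Q135.q2844_0) (q_cons (Vale.Agent.P032.Lt.q R0Q135.q2844_1) q_nil)))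

theorem p2845 : Pat 73 73 TBm TCm (CB.map Fm) R0Q135.P2845 R0Q135.I2845 := Vale.Agent.P032.Lt.pat_eq (E' := R0Q135.E) eB (pat_step (by decide +kernel) (q_cons (Vale.Agent.P032.Lt.q R0Q135.q2845_0) (q_cons (Vale.Agent.P032.Lt.q R0Q135.q2845_1) (q_cons (Vale.Agent.P032.Lt.q R0Q135.q2845_2) (q_cons (Vale.Agent.P032.Lt.q R0Q135.q2845_3) (q_cons (Vale.Agent.P032.Lt.q R0Q135.q2845_4) (q_cons (Vale.Agent.P032.Lt.q R0Q135.q2845_5) (q_cons (Vale.Agent.P032.Lt.q R0Q135.q2845_6) (q_cons (Vale.Agent.P032.Lt.q R0Q135.q2845_7) (q_cons (Vale.Agent.P032.Lt.q R0Q135.q2845_8) (q_cons (Vale.Agent.P032.Lt.q R0Q135.q2845_9) (q_cons (Vale.Agent.P032.Lt.q R0Q135.q2845_10) (q_cons (Vale.Agent.P032.Lt.q R0Q135.q2845_11) (q_cons (Vale.Agent.P032.Lt.q R0Q135.q2845_12) (q_cons (Vale.Agent.P032.Lt.q R0Q135.q2845_13) (q_cons (Vale.Agent.P032.Lt.q R0Q135.q2845_14) q_nil))))))))))))))))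

theorem p2846 : Pat 73 73 TBm TCm (CB.map Fm) R0Q135.P2846 R0Q135.I2846 := Vale.Agent.P032.Lt.pat_eq (E' := R0Q135.E) eB (pat_step (by decide +kernel) (q_cons (Vale.Agent.P032.Lt.q R0Q135.q2846_0) (q_cons (Vale.Agent.P032.Lt.q R0Q135.q2846_1) (q_cons (Vale.Agent.P032.Lt.q R0Q135.q2846_2) (q_cons (Vale.Agent.P032.Lt.q R0Q135.q2846_3) (q_cons (Vale.Agent.P032.Lt.q R0Q135.q2846_4) (q_cons (Vale.Agent.P032.Lt.q R0Q135.q2846_5) q_nil)))))))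

theorem p2847 : Pat 73 73 TBm TCm (CB.map Fm) R0Q135.P2847 R0Q135.I2847 := Vale.Agent.P032.Lt.pat_eq (E' := R0Q135.E) eB (pat_step (by decide +kernel) (q_cons (Vale.Agent.P032.Lt.q R0Q135.q2847_0) (q_cons (Vale.Agent.P032.Lt.q R0Q135.q2847_1) q_nil)))

theorem p2848 : Pat 73 73 TBm TCm (CB.map Fm) R0Q135.P2848 R0Q135.I2848 := Vale.Agent.P032.Lt.pat_eq (E' := R0Q135.E) eB (pat_step (by decide +kernel) (q_cons (Vale.Agent.P032.Lt.q R0Q135.q2848_0) q_nil))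

theorem p2849 : Pat 73 73 TBm TCm (CB.map Fm) R0Q135.P2849 R0Q135.I2849 := Vale.Agent.P032.Lt.pat_eq (E' := R0Q135.E) eB (pat_step (by decide +kernel) (q_cons (Vale.Agent.P032.Lt.q R0Q135.q2849_0) q_nil))

theorem p2850 : Pat 73 73 TBm TCm (CB.map Fm) R0Q135.P2850 R0Q135.I2850 := Vale.Agent.P032.Lt.pat_eq (E' := R0Q135.E) eB (pat_step (by decide +kernel) (q_cons (Vale.Agent.P032.Lt.q R0Q135.q2850_0) (q_cons (Vale.Agent.P032.Lt.q R0Q135.q2850_1) (q_cons (Vale.Agent.P032.Lt.q R0Q135.q2850_2) (q_cons (Vale.Agent.P032.Lt.q R0Q135.q2850_3) (q_cons (Vale.Agent.P032.Lt.q R0Q135.q2850_4) q_nil))))))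

theorem p2851 : Pat 73 73 TBm TCm (CB.map Fm) R0Q135.P2851 R0Q135.I2851 := Vale.Agent.P032.Lt.pat_eq (E' := R0Q135.E) eB (pat_step (by decide +kernel) (q_cons (Vale.Agent.P032.Lt.q R0Q135.q2851_0) q_nil))

theorem p2852 : Pat 73 73 TBm TCm (CB.map Fm) R0Q135.P2852 R0Q135.I2852 := Vale.Agent.P032.Lt.pat_eq (E' := R0Q135.E) eB (pat_step (by decide +kernel) (q_cons (Vale.Agent.P032.Lt.q R0Q135.q2852_0) (q_cons (Vale.Agent.P032.Lt.q R0Q135.q2852_1) (q_cons (Vale.Agent.P032.Lt.q R0Q135.q2852_2) (q_cons (Vale.Agent.P032.Lt.q R0Q135.q2852_3) (q_cons (Vale.Agent.P032.Lt.q R0Q135.q2852_4) (q_cons (Vale.Agent.P032.Lt.q R0Q135.q2852_5) q_nil)))))))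

def C2853 : List ℕ := [0, 4, 8, 12, 16, 20, 24, 82945, 215041, 216065]
theorem p2853 : Pat 73 73 TBm TCm (C2853.map Fm) R0Q135.P2853 R0Q135.I2853 := Vale.Agent.P032.Lt.pat_eq (E' := R0Q135.E2853) (by decide +kernel) (pat_step (by decide +kernel) (q_cons (Vale.Agent.P032.Lt.q R0Q135.q2853_0) (q_cons (Vale.Agent.P032.Lt.q R0Q135.q2853_1) (q_cons (Vale.Agent.P032.Lt.q R0Q135.q2853_2) q_nil))))

theorem p2854 : Pat 73 73 TBm TCm (CB.map Fm) R0Q135.P2854 R0Q135.I2854 := Vale.Agent.P032.Lt.pat_eq (E' := R0Q135.E) eB (pat_step (by decide +kernel) (q_cons (Vale.Agent.P032.Lt.q R0Q135.q2854_0) (q_cons (Vale.Agent.P032.Lt.q R0Q135.q2854_1) (q_cons (Vale.Agent.P032.Lt.q R0Q135.q2854_2) q_nil))))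

theorem p2855 : Pat 73 73 TBm TCm (CB.map Fm) R0Q135.P2855 R0Q135.I2855 := Vale.Agent.P032.Lt.pat_eq (E' := R0Q135.E) eB (pat_step (by decide +kernel) (q_cons (Vale.Agent.P032.Lt.q R0Q135.q2855_0) (q_cons (Vale.Agent.P032.Lt.q R0Q135.q2855_1) (q_cons (Vale.Agent.P032.Lt.q R0Q135.q2855_2) (q_cons (Vale.Agent.P032.Lt.q R0Q135.q2855_3) (q_cons (Vale.Agent.P032.Lt.q R0Q135.q2855_4) q_nil))))))

theorem p2856 : Pat 73 73 TBm TCm (CB.map Fm) R0Q135.P2856 R0Q135.I2856 := Vale.Agent.P032.Lt.pat_eq (E' := R0Q135.E) eB (pat_step (by decide +kernel) (q_cons (Vale.Agent.P032.Lt.q R0Q135.q2856_0) q_nil))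

theorem p2857 : Pat 73 73 TBm TCm (CB.map Fm) R0Q135.P2857 R0Q135.I2857 := Vale.Agent.P032.Lt.pat_eq (E' := R0Q135.E) eB (pat_step (by decide +kernel) (q_cons (Vale.Agent.P032.Lt.q R0Q135.q2857_0) (q_cons (Vale.Agent.P032.Lt.q R0Q135.q2857_1) (q_cons (Vale.Agent.P032.Lt.q R0Q135.q2857_2) (q_cons (Vale.Agent.P032.Lt.q R0Q135.q2857_3) q_nil)))))

theorem p2858 : Pat 73 73 TBm TCm (CB.map Fm) R0Q135.P2858 R0Q135.I2858 := Vale.Agent.P032.Lt.pat_eq (E' := R0Q135.E) eB (pat_step (by decide +kernel) (q_cons (Vale.Agent.P032.Lt.q R0Q135.q2858_0) q_nil))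

theorem p2859 : Pat 73 73 TBm TCm (CB.map Fm) R0Q135.P2859 R0Q135.I2859 := Vale.Agent.P032.Lt.pat_eq (E' := R0Q135.E) eB (pat_step (by decide +kernel) (q_cons (Vale.Agent.P032.Lt.q R0Q135.q2859_0) (q_cons (Vale.Agent.P032.Lt.q R0Q135.q2859_1) (q_cons (Vale.Agent.P032.Lt.q R0Q135.q2859_2) q_nil))))

theorem p2860 : Pat 73 73 TBm TCm (CB.map Fm) R0Q135.P2860 R0Q135.I2860 := Vale.Agent.P032.Lt.pat_eq (E' := R0Q135.E) eB (pat_step (by decide +kernel) (q_cons (Vale.Agent.P032.Lt.q R0Q135.q2860_0) (q_cons (Vale.Agent.P032.Lt.q R0Q135.q2860_1) q_nil)))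

theorem p2861 : Pat 73 73 TBm TCm (CB.map Fm) R0Q135.P2861 R0Q135.I2861 := Vale.Agent.P032.Lt.pat_eq (E' := R0Q135.E) eB (pat_step (by decide +kernel) (q_cons (Vale.Agent.P032.Lt.q R0Q135.q2861_0) (q_cons (Vale.Agent.P032.Lt.q R0Q135.q2861_1) (q_cons (Vale.Agent.P032.Lt.q R0Q135.q2861_2) (q_cons (Vale.Agent.P032.Lt.q R0Q135.q2861_3) (q_cons (Vale.Agent.P032.Lt.q R0Q135.q2861_4) (q_cons (Vale.Agent.P032.Lt.q R0Q135.q2861_5) q_nil)))))))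

theorem p2862 : Pat 73 73 TBm TCm (CB.map Fm) R0Q135.P2862 R0Q135.I2862 := Vale.Agent.P032.Lt.pat_eq (E' := R0Q135.E) eB (pat_step (by decide +kernel) (q_cons (Vale.Agent.P032.Lt.q R0Q135.q2862_0) (q_cons (Vale.Agent.P032.Lt.q R0Q135.q2862_1) (q_cons (Vale.Agent.P032.Lt.q R0Q135.q2862_2) (q_cons (Vale.Agent.P032.Lt.q R0Q135.q2862_3) (q_cons (Vale.Agent.P032.Lt.q R0Q135.q2862_4) (q_cons (Vale.Agent.P032.Lt.q R0Q135.q2862_5) (q_cons (Vale.Agent.P032.Lt.q R0Q135.q2862_6) (q_cons (Vale.Agent.P032.Lt.q R0Q135.q2862_7) (q_cons (Vale.Agent.P032.Lt.q R0Q135.q2862_8) q_nil))))))))))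

theorem p2863 : Pat 73 73 TBm TCm (CB.map Fm) R0Q135.P2863 R0Q135.I2863 := Vale.Agent.P032.Lt.pat_eq (E' := R0Q135.E) eB (pat_step (by decide +kernel) (q_cons (Vale.Agent.P032.Lt.q R0Q135.q2863_0) q_nil))

theorem p2864 : Pat 73 73 TBm TCm (CB.map Fm) R0Q135.P2864 R0Q135.I2864 := Vale.Agent.P032.Lt.pat_eq (E' := R0Q135.E) eB (pat_step (by decide +kernel) (q_cons (Vale.Agent.P032.Lt.q R0Q135.q2864_0) (q_cons (Vale.Agent.P032.Lt.q R0Q135.q2864_1) (q_cons (Vale.Agent.P032.Lt.q R0Q135.q2864_2) (q_cons (Vale.Agent.P032.Lt.q R0Q135.q2864_3) (q_cons (Vale.Agent.P032.Lt.q R0Q135.q2864_4) (q_cons (Vale.Agent.P032.Lt.q R0Q135.q2864_5) q_nil)))))))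

theorem p2865 : Pat 73 73 TBm TCm (CB.map Fm) R0Q135.P2865 R0Q135.I2865 := Vale.Agent.P032.Lt.pat_eq (E' := R0Q135.E) eB (pat_step (by decide +kernel) (q_cons (Vale.Agent.P032.Lt.q R0Q135.q2865_0) q_nil))

def C2866 : List ℕ := [0, 4, 8, 12, 16, 20, 24, 84993]
theorem p2866 : Pat 73 73 TBm TCm (C2866.map Fm) R0Q135.P2866 R0Q135.I2866 := Vale.Agent.P032.Lt.pat_eq (E' := R0Q135.E2866) (by decide +kernel) (pat_step (by decide +kernel) (q_cons (Vale.Agent.P032.Lt.q R0Q135.q2866_0) q_nil))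

theorem p2867 : Pat 73 73 TBm TCm (CB.map Fm) R0Q135.P2867 R0Q135.I2867 := Vale.Agent.P032.Lt.pat_eq (E' := R0Q135.E) eB (pat_step (by decide +kernel) (q_cons (Vale.Agent.P032.Lt.q R0Q135.q2867_0) (q_cons (Vale.Agent.P032.Lt.q R0Q135.q2867_1) (q_cons (Vale.Agent.P032.Lt.q R0Q135.q2867_2) q_nil))))

theorem p2868 : Pat 73 73 TBm TCm (CB.map Fm) R0Q135.P2868 R0Q135.I2868 := Vale.Agent.P032.Lt.pat_eq (E' := R0Q135.E) eB (pat_step (by decide +kernel) (q_cons (Vale.Agent.P032.Lt.q R0Q135.q2868_0) (q_cons (Vale.Agent.P032.Lt.q R0Q135.q2868_1) (q_cons (Vale.Agent.P032.Lt.q R0Q135.q2868_2) q_nil))))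

theorem p2869 : Pat 73 73 TBm TCm (CB.map Fm) R0Q135.P2869 R0Q135.I2869 := Vale.Agent.P032.Lt.pat_eq (E' := R0Q135.E) eB (pat_step (by decide +kernel) (q_cons (Vale.Agent.P032.Lt.q R0Q135.q2869_0) (q_cons (Vale.Agent.P032.Lt.q R0Q135.q2869_1) (q_cons (Vale.Agent.P032.Lt.q R0Q135.q2869_2) (q_cons (Vale.Agent.P032.Lt.q R0Q135.q2869_3) q_nil)))))

theorem p2870 : Pat 73 73 TBm TCm (CB.map Fm) R0Q135.P2870 R0Q135.I2870 := Vale.Agent.P032.Lt.pat_eq (E' := R0Q135.E) eB (pat_step (by decide +kernel) (q_cons (Vale.Agent.P032.Lt.q R0Q135.q2870_0) q_nil))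

theorem p2871 : Pat 73 73 TBm TCm (CB.map Fm) R0Q136.P2871 R0Q136.I2871 := Vale.Agent.P032.Lt.pat_eq (E' := R0Q136.E) eB (pat_step (by decide +kernel) (q_cons (Vale.Agent.P032.Lt.q R0Q136.q2871_0) q_nil))

theorem p2872 : Pat 73 73 TBm TCm (CB.map Fm) R0Q136.P2872 R0Q136.I2872 := Vale.Agent.P032.Lt.pat_eq (E' := R0Q136.E) eB (pat_step (by decide +kernel) (q_cons (Vale.Agent.P032.Lt.q R0Q136.q2872_0) (q_cons (Vale.Agent.P032.Lt.q R0Q136.q2872_1) (q_cons (Vale.Agent.P032.Lt.q R0Q136.q2872_2) (q_cons (Vale.Agent.P032.Lt.q R0Q136.q2872_3) q_nil)))))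

theorem p2873 : Pat 73 73 TBm TCm (CB.map Fm) R0Q136.P2873 R0Q136.I2873 := Vale.Agent.P032.Lt.pat_eq (E' := R0Q136.E) eB (pat_step (by decide +kernel) (q_cons (Vale.Agent.P032.Lt.q R0Q136.q2873_0) q_nil))

theorem p2874 : Pat 73 73 TBm TCm (CB.map Fm) R0Q136.P2874 R0Q136.I2874 := Vale.Agent.P032.Lt.pat_eq (E' := R0Q136.E) eB (pat_step (by decide +kernel) (q_cons (Vale.Agent.P032.Lt.q R0Q136.q2874_0) q_nil))

theorem p2875 : Pat 73 73 TBm TCm (CB.map Fm) R0Q136.P2875 R0Q136.I2875 := Vale.Agent.P032.Lt.pat_eq (E' := R0Q136.E) eB (pat_step (by decide +kernel) (q_cons (Vale.Agent.P032.Lt.q R0Q136.q2875_0) (q_cons (Vale.Agent.P032.Lt.q R0Q136.q2875_1) (q_cons (Vale.Agent.P032.Lt.q R0Q136.q2875_2) q_nil))))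

theorem p2876 : Pat 73 73 TBm TCm (CB.map Fm) R0Q136.P2876 R0Q136.I2876 := Vale.Agent.P032.Lt.pat_eq (E' := R0Q136.E) eB (pat_step (by decide +kernel) (q_cons (Vale.Agent.P032.Lt.q R0Q136.q2876_0) (q_cons (Vale.Agent.P032.Lt.q R0Q136.q2876_1) q_nil)))

theorem p2877 : Pat 73 73 TBm TCm (CB.map Fm) R0Q136.P2877 R0Q136.I2877 := Vale.Agent.P032.Lt.pat_eq (E' := R0Q136.E) eB (pat_step (by decide +kernel) (q_cons (Vale.Agent.P032.Lt.q R0Q136.q2877_0) (q_cons (Vale.Agent.P032.Lt.q R0Q136.q2877_1) (q_cons (Vale.Agent.P032.Lt.q R0Q136.q2877_2) q_nil))))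

theorem p2878 : Pat 73 73 TBm TCm (CB.map Fm) R0Q136.P2878 R0Q136.I2878 := Vale.Agent.P032.Lt.pat_eq (E' := R0Q136.E) eB (pat_step (by decide +kernel) (q_cons (Vale.Agent.P032.Lt.q R0Q136.q2878_0) (q_cons (Vale.Agent.P032.Lt.q R0Q136.q2878_1) (q_cons (Vale.Agent.P032.Lt.q R0Q136.q2878_2) (q_cons (Vale.Agent.P032.Lt.q R0Q136.q2878_3) (q_cons (Vale.Agent.P032.Lt.q R0Q136.q2878_4) (q_cons (Vale.Agent.P032.Lt.q R0Q136.q2878_5) (q_cons (Vale.Agent.P032.Lt.q R0Q136.q2878_6) (q_cons (Vale.Agent.P032.Lt.q R0Q136.q2878_7) q_nil)))))))))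

def C2879 : List ℕ := [0, 4, 8, 12, 16, 20, 24, 81921, 220161, 475137, 611329, 737281]
theorem p2879 : Pat 73 73 TBm TCm (C2879.map Fm) R0Q136.P2879 R0Q136.I2879 := Vale.Agent.P032.Lt.pat_eq (E' := R0Q136.E2879) (by decide +kernel) (pat_step (by decide +kernel) (q_cons (Vale.Agent.P032.Lt.q R0Q136.q2879_0) (q_cons (Vale.Agent.P032.Lt.q R0Q136.q2879_1) q_nil)))

theorem p2880 : Pat 73 73 TBm TCm (CB.map Fm) R0Q136.P2880 R0Q136.I2880 := Vale.Agent.P032.Lt.pat_eq (E' := R0Q136.E) eB (pat_step (by decide +kernel) (q_cons (Vale.Agent.P032.Lt.q R0Q136.q2880_0) (q_cons (Vale.Agent.P032.Lt.q R0Q136.q2880_1) (q_cons (Vale.Agent.P032.Lt.q R0Q136.q2880_2) (q_cons (Vale.Agent.P032.Lt.q R0Q136.q2880_3) (q_cons (Vale.Agent.P032.Lt.q R0Q136.q2880_4) (q_cons (Vale.Agent.P032.Lt.q R0Q136.q2880_5) (q_cons (Vale.Agent.P032.Lt.q R0Q136.q2880_6) q_nil))))))))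

theorem p2881 : Pat 73 73 TBm TCm (CB.map Fm) R0Q136.P2881 R0Q136.I2881 := Vale.Agent.P032.Lt.pat_eq (E' := R0Q136.E) eB (pat_step (by decide +kernel) (q_cons (Vale.Agent.P032.Lt.q R0Q136.q2881_0) (q_cons (Vale.Agent.P032.Lt.q R0Q136.q2881_1) (q_cons (Vale.Agent.P032.Lt.q R0Q136.q2881_2) q_nil))))

theorem p2882 : Pat 73 73 TBm TCm (CB.map Fm) R0Q136.P2882 R0Q136.I2882 := Vale.Agent.P032.Lt.pat_eq (E' := R0Q136.E) eB (pat_step (by decide +kernel) (q_cons (Vale.Agent.P032.Lt.q R0Q136.q2882_0) (q_cons (Vale.Agent.P032.Lt.q R0Q136.q2882_1) (q_cons (Vale.Agent.P032.Lt.q R0Q136.q2882_2) (q_cons (Vale.Agent.P032.Lt.q R0Q136.q2882_3) q_nil)))))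

theorem p2883 : Pat 73 73 TBm TCm (CB.map Fm) R0Q136.P2883 R0Q136.I2883 := Vale.Agent.P032.Lt.pat_eq (E' := R0Q136.E) eB (pat_step (by decide +kernel) (q_cons (Vale.Agent.P032.Lt.q R0Q136.q2883_0) (q_cons (Vale.Agent.P032.Lt.q R0Q136.q2883_1) (q_cons (Vale.Agent.P032.Lt.q R0Q136.q2883_2) (q_cons (Vale.Agent.P032.Lt.q R0Q136.q2883_3) (q_cons (Vale.Agent.P032.Lt.q R0Q136.q2883_4) q_nil))))))

theorem p2884 : Pat 73 73 TBm TCm (CB.map Fm) R0Q136.P2884 R0Q136.I2884 := Vale.Agent.P032.Lt.pat_eq (E' := R0Q136.E) eB (pat_step (by decide +kernel) (q_cons (Vale.Agent.P032.Lt.q R0Q136.q2884_0) (q_cons (Vale.Agent.P032.Lt.q R0Q136.q2884_1) (q_cons (Vale.Agent.P032.Lt.q R0Q136.q2884_2) (q_cons (Vale.Agent.P032.Lt.q R0Q136.q2884_3) (q_cons (Vale.Agent.P032.Lt.q R0Q136.q2884_4) (q_cons (Vale.Agent.P032.Lt.q R0Q136.q2884_5) (q_cons (Vale.Agent.P032.Lt.q R0Q136.q2884_6)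 (q_cons (Vale.Agent.P032.Lt.q R0Q136.q2884_7) q_nil)))))))))

theorem p2885 : Pat 73 73 TBm TCm (CB.map Fm) R0Q136.P2885 R0Q136.I2885 := Vale.Agent.P032.Lt.pat_eq (E' := R0Q136.E) eB (pat_step (by decide +kernel) (q_cons (Vale.Agent.P032.Lt.q R0Q136.q2885_0) (q_cons (Vale.Agent.P032.Lt.q R0Q136.q2885_1) (q_cons (Vale.Agent.P032.Lt.q R0Q136.q2885_2) q_nil))))

def C2886 : List ℕ := [0, 4, 8, 12, 16, 20, 24, 606209, 737281]
theorem p2886 : Pat 73 73 TBm TCm (C2886.map Fm) R0Q136.P2886 R0Q136.I2886 := Vale.Agent.P032.Lt.pat_eq (E' := R0Q136.E2886) (by decide +kernel) (pat_step (by decide +kernel) (q_cons (Vale.Agent.P032.Lt.q R0Q136.q2886_0) q_nil))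

theorem p2887 : Pat 73 73 TBm TCm (CB.map Fm) R0Q136.P2887 R0Q136.I2887 := Vale.Agent.P032.Lt.pat_eq (E' := R0Q136.E) eB (pat_step (by decide +kernel) (q_cons (Vale.Agent.P032.Lt.q R0Q136.q2887_0) (q_cons (Vale.Agent.P032.Lt.q R0Q136.q2887_1) (q_cons (Vale.Agent.P032.Lt.q R0Q136.q2887_2) (q_cons (Vale.Agent.P032.Lt.q R0Q136.q2887_3) (q_cons (Vale.Agent.P032.Lt.q R0Q136.q2887_4) (q_cons (Vale.Agent.P032.Lt.q R0Q136.q2887_5) q_nil)))))))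

theorem p2888 : Pat 73 73 TBm TCm (CB.map Fm) R0Q136.P2888 R0Q136.I2888 := Vale.Agent.P032.Lt.pat_eq (E' := R0Q136.E) eB (pat_step (by decide +kernel) (q_cons (Vale.Agent.P032.Lt.q R0Q136.q2888_0) (q_cons (Vale.Agent.P032.Lt.q R0Q136.q2888_1) (q_cons (Vale.Agent.P032.Lt.q R0Q136.q2888_2) q_nil))))

theorem p2889 : Pat 73 73 TBm TCm (CB.map Fm) R0Q136.P2889 R0Q136.I2889 := Vale.Agent.P032.Lt.pat_eq (E' := R0Q136.E) eB (pat_step (by decide +kernel) (q_cons (Vale.Agent.P032.Lt.q R0Q136.q2889_0) (q_cons (Vale.Agent.P032.Lt.q R0Q136.q2889_1) q_nil)))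

theorem p2890 : Pat 73 73 TBm TCm (CB.map Fm) R0Q136.P2890 R0Q136.I2890 := Vale.Agent.P032.Lt.pat_eq (E' := R0Q136.E) eB (pat_step (by decide +kernel) (q_cons (Vale.Agent.P032.Lt.q R0Q136.q2890_0) (q_cons (Vale.Agent.P032.Lt.q R0Q136.q2890_1) q_nil)))

theorem p2891 : Pat 73 73 TBm TCm (CB.map Fm) R0Q136.P2891 R0Q136.I2891 := Vale.Agent.P032.Lt.pat_eq (E' := R0Q136.E) eB (pat_step (by decide +kernel) (q_cons (Vale.Agent.P032.Lt.q R0Q136.q2891_0) (q_cons (Vale.Agent.P032.Lt.q R0Q136.q2891_1) (q_cons (Vale.Agent.P032.Lt.q R0Q136.q2891_2) (q_cons (Vale.Agent.P032.Lt.q R0Q136.q2891_3) (q_cons (Vale.Agent.P032.Lt.q R0Q136.q2891_4) q_nil))))))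

theorem p2892 : Pat 73 73 TBm TCm (CB.map Fm) R0Q136.P2892 R0Q136.I2892 := Vale.Agent.P032.Lt.pat_eq (E' := R0Q136.E) eB (pat_step (by decide +kernel) (q_cons (Vale.Agent.P032.Lt.q R0Q136.q2892_0) (q_cons (Vale.Agent.P032.Lt.q R0Q136.q2892_1) (q_cons (Vale.Agent.P032.Lt.q R0Q136.q2892_2) (q_cons (Vale.Agent.P032.Lt.q R0Q136.q2892_3) (q_cons (Vale.Agent.P032.Lt.q R0Q136.q2892_4) (q_cons (Vale.Agent.P032.Lt.q R0Q136.q2892_5) (q_cons (Vale.Agent.P032.Lt.q R0Q136.q2892_6) (q_cons (Vale.Agent.P032.Lt.q R0Q136.q2892_7) (q_cons (Vale.Agent.P032.Lt.q R0Q136.q2892_8) (q_cons (Vale.Agent.P032.Lt.q R0Q136.q2892_9) (q_cons (Vale.Agent.P032.Lt.q R0Q136.q2892_10) (q_cons (Vale.Agent.P032.Lt.q R0Q136.q2892_11) q_nil)))))))))))))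

theorem p2893 : Pat 73 73 TBm TCm (CB.map Fm) R0Q136.P2893 R0Q136.I2893 := Vale.Agent.P032.Lt.pat_eq (E' := R0Q136.E) eB (pat_step (by decide +kernel) (q_cons (Vale.Agent.P032.Lt.q R0Q136.q2893_0) (q_cons (Vale.Agent.P032.Lt.q R0Q136.q2893_1) (q_cons (Vale.Agent.P032.Lt.q R0Q136.q2893_2) (q_cons (Vale.Agent.P032.Lt.q R0Q136.q2893_3) (q_cons (Vale.Agent.P032.Lt.q R0Q136.q2893_4) (q_cons (Vale.Agent.P032.Lt.q R0Q136.q2893_5) (q_cons (Vale.Agent.P032.Lt.q R0Q136.q2893_6) (q_cons (Vale.Agent.P032.Lt.q R0Q136.q2893_7) (q_cons (Vale.Agent.P032.Lt.q R0Q136.q2893_8) (q_cons (Vale.Agent.P032.Lt.q R0Q136.q2893_9) q_nil)))))))))))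

theorem p2894 : Pat 73 73 TBm TCm (CB.map Fm) R0Q136.P2894 R0Q136.I2894 := Vale.Agent.P032.Lt.pat_eq (E' := R0Q136.E) eB (pat_step (by decide +kernel) (q_cons (Vale.Agent.P032.Lt.q R0Q136.q2894_0) (q_cons (Vale.Agent.P032.Lt.q R0Q136.q2894_1) (q_cons (Vale.Agent.P032.Lt.q R0Q136.q2894_2) (q_cons (Vale.Agent.P032.Lt.q R0Q136.q2894_3) (q_cons (Vale.Agent.P032.Lt.q R0Q136.q2894_4) (q_cons (Vale.Agent.P032.Lt.q R0Q136.q2894_5) (q_cons (Vale.Agent.P032.Lt.q R0Q136.q2894_6) (q_cons (Vale.Agent.P032.Lt.q R0Q136.q2894_7) q_nil)))))))))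

theorem p2895 : Pat 73 73 TBm TCm (CB.map Fm) R0Q136.P2895 R0Q136.I2895 := Vale.Agent.P032.Lt.pat_eq (E' := R0Q136.E) eB (pat_step (by decide +kernel) (q_cons (Vale.Agent.P032.Lt.q R0Q136.q2895_0) (q_cons (Vale.Agent.P032.Lt.q R0Q136.q2895_1) (q_cons (Vale.Agent.P032.Lt.q R0Q136.q2895_2) (q_cons (Vale.Agent.P032.Lt.q R0Q136.q2895_3) q_nil)))))

theorem p2896 : Pat 73 73 TBm TCm (CB.map Fm) R0Q136.P2896 R0Q136.I2896 := Vale.Agent.P032.Lt.pat_eq (E' := R0Q136.E) eB (pat_step (by decide +kernel) (q_cons (Vale.Agent.P032.Lt.q R0Q136.q2896_0) (q_cons (Vale.Agent.P032.Lt.q R0Q136.q2896_1) (q_cons (Vale.Agent.P032.Lt.q R0Q136.q2896_2) q_nil))))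

theorem p2897 : Pat 73 73 TBm TCm (CB.map Fm) R0Q136.P2897 R0Q136.I2897 := Vale.Agent.P032.Lt.pat_eq (E' := R0Q136.E) eB (pat_step (by decide +kernel) (q_cons (Vale.Agent.P032.Lt.q R0Q136.q2897_0) (q_cons (Vale.Agent.P032.Lt.q R0Q136.q2897_1) (q_cons (Vale.Agent.P032.Lt.q R0Q136.q2897_2) (q_cons (Vale.Agent.P032.Lt.q R0Q136.q2897_3) q_nil)))))

theorem p2898 : Pat 73 73 TBm TCm (CB.map Fm) R0Q136.P2898 R0Q136.I2898 := Vale.Agent.P032.Lt.pat_eq (E' := R0Q136.E) eB (pat_step (by decide +kernel) (q_cons (Vale.Agent.P032.Lt.q R0Q136.q2898_0) (q_cons (Vale.Agent.P032.Lt.q R0Q136.q2898_1) (q_cons (Vale.Agent.P032.Lt.q R0Q136.q2898_2) q_nil))))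

theorem p2899 : Pat 73 73 TBm TCm (CB.map Fm) R0Q136.P2899 R0Q136.I2899 := Vale.Agent.P032.Lt.pat_eq (E' := R0Q136.E) eB (pat_step (by decide +kernel) (q_cons (Vale.Agent.P032.Lt.q R0Q136.q2899_0) q_nil))

theorem p2900 : Pat 73 73 TBm TCm (CB.map Fm) R0Q137.P2900 R0Q137.I2900 := Vale.Agent.P032.Lt.pat_eq (E' := R0Q137.E) eB (pat_step (by decide +kernel) (q_cons (Vale.Agent.P032.Lt.q R0Q137.q2900_0) (q_cons (Vale.Agent.P032.Lt.q R0Q137.q2900_1) (q_cons (Vale.Agent.P032.Lt.q R0Q137.q2900_2) (q_cons (Vale.Agent.P032.Lt.q R0Q137.q2900_3) (q_cons (Vale.Agent.P032.Lt.q R0Q137.q2900_4) q_nil))))))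

theorem p2901 : Pat 73 73 TBm TCm (CB.map Fm) R0Q137.P2901 R0Q137.I2901 := Vale.Agent.P032.Lt.pat_eq (E' := R0Q137.E) eB (pat_step (by decide +kernel) (q_cons (Vale.Agent.P032.Lt.q R0Q137.q2901_0) q_nil))

theorem p2902 : Pat 73 73 TBm TCm (CB.map Fm) R0Q137.P2902 R0Q137.I2902 := Vale.Agent.P032.Lt.pat_eq (E' := R0Q137.E) eB (pat_step (by decide +kernel) (q_cons (Vale.Agent.P032.Lt.q R0Q137.q2902_0) (q_cons (Vale.Agent.P032.Lt.q R0Q137.q2902_1) q_nil)))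

def C2903 : List ℕ := [0, 4, 8, 12, 16, 20, 24, 606209, 737281]
theorem p2903 : Pat 73 73 TBm TCm (C2903.map Fm) R0Q137.P2903 R0Q137.I2903 := Vale.Agent.P032.Lt.pat_eq (E' := R0Q137.E2903) (by decide +kernel) (pat_step (by decide +kernel) (q_cons (Vale.Agent.P032.Lt.q R0Q137.q2903_0) q_nil))

theorem p2904 : Pat 73 73 TBm TCm (CB.map Fm) R0Q137.P2904 R0Q137.I2904 := Vale.Agent.P032.Lt.pat_eq (E' := R0Q137.E) eB (pat_step (by decide +kernel) (q_cons (Vale.Agent.P032.Lt.q R0Q137.q2904_0) (q_cons (Vale.Agent.P032.Lt.q R0Q137.q2904_1) (q_cons (Vale.Agent.P032.Lt.q R0Q137.q2904_2) (q_cons (Vale.Agent.P032.Lt.q R0Q137.q2904_3) q_nil)))))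

theorem p2905 : Pat 73 73 TBm TCm (CB.map Fm) R0Q137.P2905 R0Q137.I2905 := Vale.Agent.P032.Lt.pat_eq (E' := R0Q137.E) eB (pat_step (by decide +kernel) (q_cons (Vale.Agent.P032.Lt.q R0Q137.q2905_0) (q_cons (Vale.Agent.P032.Lt.q R0Q137.q2905_1) (q_cons (Vale.Agent.P032.Lt.q R0Q137.q2905_2) q_nil))))

theorem p2906 : Pat 73 73 TBm TCm (CB.map Fm) R0Q137.P2906 R0Q137.I2906 := Vale.Agent.P032.Lt.pat_eq (E' := R0Q137.E) eB (pat_step (by decide +kernel) (q_cons (Vale.Agent.P032.Lt.q R0Q137.q2906_0) q_nil))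

theorem p2907 : Pat 73 73 TBm TCm (CB.map Fm) R0Q137.P2907 R0Q137.I2907 := Vale.Agent.P032.Lt.pat_eq (E' := R0Q137.E) eB (pat_step (by decide +kernel) (q_cons (Vale.Agent.P032.Lt.q R0Q137.q2907_0) q_nil))

theorem p2908 : Pat 73 73 TBm TCm (CB.map Fm) R0Q137.P2908 R0Q137.I2908 := Vale.Agent.P032.Lt.pat_eq (E' := R0Q137.E) eB (pat_step (by decide +kernel) (q_cons (Vale.Agent.P032.Lt.q R0Q137.q2908_0) (q_cons (Vale.Agent.P032.Lt.q R0Q137.q2908_1) q_nil)))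

theorem p2909 : Pat 73 73 TBm TCm (CB.map Fm) R0Q137.P2909 R0Q137.I2909 := Vale.Agent.P032.Lt.pat_eq (E' := R0Q137.E) eB (pat_step (by decide +kernel) (q_cons (Vale.Agent.P032.Lt.q R0Q137.q2909_0) q_nil))

theorem p2910 : Pat 73 73 TBm TCm (CB.map Fm) R0Q137.P2910 R0Q137.I2910 := Vale.Agent.P032.Lt.pat_eq (E' := R0Q137.E) eB (pat_step (by decide +kernel) (q_cons (Vale.Agent.P032.Lt.q R0Q137.q2910_0) q_nil))

theorem p2911 : Pat 73 73 TBm TCm (CB.map Fm) R0Q137.P2911 R0Q137.I2911 := Vale.Agent.P032.Lt.pat_eq (E' := R0Q137.E) eB (pat_step (by decide +kernel) (q_cons (Vale.Agent.P032.Lt.q R0Q137.q2911_0) (q_cons (Vale.Agent.P032.Lt.q R0Q137.q2911_1) (q_cons (Vale.Agent.P032.Lt.q R0Q137.q2911_2) (q_cons (Vale.Agent.P032.Lt.q R0Q137.q2911_3) (q_cons (Vale.Agent.P032.Lt.q R0Q137.q2911_4) (q_cons (Vale.Agent.P032.Lt.q R0Q137.q2911_5) q_nil)))))))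

theorem p2912 : Pat 73 73 TBm TCm (CB.map Fm) R0Q137.P2912 R0Q137.I2912 := Vale.Agent.P032.Lt.pat_eq (E' := R0Q137.E) eB (pat_step (by decide +kernel) (q_cons (Vale.Agent.P032.Lt.q R0Q137.q2912_0) (q_cons (Vale.Agent.P032.Lt.q R0Q137.q2912_1) (q_cons (Vale.Agent.P032.Lt.q R0Q137.q2912_2) (q_cons (Vale.Agent.P032.Lt.q R0Q137.q2912_3) (q_cons (Vale.Agent.P032.Lt.q R0Q137.q2912_4) (q_cons (Vale.Agent.P032.Lt.q R0Q137.q2912_5) (q_cons (Vale.Agent.P032.Lt.q R0Q137.q2912_6) (q_cons (Vale.Agent.P032.Lt.q R0Q137.q2912_7) q_nil)))))))))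

theorem p2913 : Pat 73 73 TBm TCm (CB.map Fm) R0Q137.P2913 R0Q137.I2913 := Vale.Agent.P032.Lt.pat_eq (E' := R0Q137.E) eB (pat_step (by decide +kernel) (q_cons (Vale.Agent.P032.Lt.q R0Q137.q2913_0) (q_cons (Vale.Agent.P032.Lt.q R0Q137.q2913_1) (q_cons (Vale.Agent.P032.Lt.q R0Q137.q2913_2) (q_cons (Vale.Agent.P032.Lt.q R0Q137.q2913_3) (q_cons (Vale.Agent.P032.Lt.q R0Q137.q2913_4) q_nil))))))

theorem p2914 : Pat 73 73 TBm TCm (CB.map Fm) R0Q137.P2914 R0Q137.I2914 := Vale.Agent.P032.Lt.pat_eq (E' := R0Q137.E) eB (pat_step (by decide +kernel) (q_cons (Vale.Agent.P032.Lt.q R0Q137.q2914_0) q_nil))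

theorem p2915 : Pat 73 73 TBm TCm (CB.map Fm) R0Q137.P2915 R0Q137.I2915 := Vale.Agent.P032.Lt.pat_eq (E' := R0Q137.E) eB (pat_step (by decide +kernel) (q_cons (Vale.Agent.P032.Lt.q R0Q137.q2915_0) (q_cons (Vale.Agent.P032.Lt.q R0Q137.q2915_1) (q_cons (Vale.Agent.P032.Lt.q R0Q137.q2915_2) (q_cons (Vale.Agent.P032.Lt.q R0Q137.q2915_3) (q_cons (Vale.Agent.P032.Lt.q R0Q137.q2915_4) (q_cons (Vale.Agent.P032.Lt.q R0Q137.q2915_5) q_nil)))))))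

theorem p2916 : Pat 73 73 TBm TCm (CB.map Fm) R0Q137.P2916 R0Q137.I2916 := Vale.Agent.P032.Lt.pat_eq (E' := R0Q137.E) eB (pat_step (by decide +kernel) (q_cons (Vale.Agent.P032.Lt.q R0Q137.q2916_0) (q_cons (Vale.Agent.P032.Lt.q R0Q137.q2916_1) (q_cons (Vale.Agent.P032.Lt.q R0Q137.q2916_2) q_nil))))

theorem p2917 : Pat 73 73 TBm TCm (CB.map Fm) R0Q137.P2917 R0Q137.I2917 := Vale.Agent.P032.Lt.pat_eq (E' := R0Q137.E) eB (pat_step (by decide +kernel) (q_cons (Vale.Agent.P032.Lt.q R0Q137.q2917_0) (q_cons (Vale.Agent.P032.Lt.q R0Q137.q2917_1) (q_cons (Vale.Agent.P032.Lt.q R0Q137.q2917_2) (q_cons (Vale.Agent.P032.Lt.q R0Q137.q2917_3) (q_cons (Vale.Agent.P032.Lt.q R0Q137.q2917_4) (q_cons (Vale.Agent.P032.Lt.q R0Q137.q2917_5) (q_cons (Vale.Agent.P032.Lt.q R0Q137.q2917_6) (q_cons (Vale.Agent.P032.Lt.q R0Q137.q2917_7) (q_cons (Vale.Agent.P032.Lt.q R0Q137.q2917_8)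 (q_cons (Vale.Agent.P032.Lt.q R0Q137.q2917_9) q_nil)))))))))))

theorem p2918 : Pat 73 73 TBm TCm (CB.map Fm) R0Q137.P2918 R0Q137.I2918 := Vale.Agent.P032.Lt.pat_eq (E' := R0Q137.E) eB (pat_step (by decide +kernel) (q_cons (Vale.Agent.P032.Lt.q R0Q137.q2918_0) (q_cons (Vale.Agent.P032.Lt.q R0Q137.q2918_1) (q_cons (Vale.Agent.P032.Lt.q R0Q137.q2918_2) (q_cons (Vale.Agent.P032.Lt.q R0Q137.q2918_3) (q_cons (Vale.Agent.P032.Lt.q R0Q137.q2918_4) (q_cons (Vale.Agent.P032.Lt.q R0Q137.q2918_5) (q_cons (Vale.Agent.P032.Lt.q R0Q137.q2918_6) q_nil))))))))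

theorem p2919 : Pat 73 73 TBm TCm (CB.map Fm) R0Q137.P2919 R0Q137.I2919 := Vale.Agent.P032.Lt.pat_eq (E' := R0Q137.E) eB (pat_step (by decide +kernel) (q_cons (Vale.Agent.P032.Lt.q R0Q137.q2919_0) q_nil))

theorem p2920 : Pat 73 73 TBm TCm (CB.map Fm) R0Q137.P2920 R0Q137.I2920 := Vale.Agent.P032.Lt.pat_eq (E' := R0Q137.E) eB (pat_step (by decide +kernel) (q_cons (Vale.Agent.P032.Lt.q R0Q137.q2920_0) q_nil))

theorem p2921 : Pat 73 73 TBm TCm (CB.map Fm) R0Q137.P2921 R0Q137.I2921 := Vale.Agent.P032.Lt.pat_eq (E' := R0Q137.E) eB (pat_step (by decide +kernel) (q_cons (Vale.Agent.P032.Lt.q R0Q137.q2921_0) (q_cons (Vale.Agent.P032.Lt.q R0Q137.q2921_1) (q_cons (Vale.Agent.P032.Lt.q R0Q137.q2921_2) (q_cons (Vale.Agent.P032.Lt.q R0Q137.q2921_3) (q_cons (Vale.Agent.P032.Lt.q R0Q137.q2921_4) q_nil))))))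

def C2922 : List ℕ := [0, 4, 8, 12, 16, 20, 24, 222209, 353281, 615425]
theorem p2922 : Pat 73 73 TBm TCm (C2922.map Fm) R0Q137.P2922 R0Q137.I2922 := Vale.Agent.P032.Lt.pat_eq (E' := R0Q137.E2922) (by decide +kernel) (pat_step (by decide +kernel) (q_cons (Vale.Agent.P032.Lt.q R0Q137.q2922_0) q_nil))

theorem p2923 : Pat 73 73 TBm TCm (CB.map Fm) R0Q137.P2923 R0Q137.I2923 := Vale.Agent.P032.Lt.pat_eq (E' := R0Q137.E) eB (pat_step (by decide +kernel) (q_cons (Vale.Agent.P032.Lt.q R0Q137.q2923_0) (q_cons (Vale.Agent.P032.Lt.q R0Q137.q2923_1) (q_cons (Vale.Agent.P032.Lt.q R0Q137.q2923_2) (q_cons (Vale.Agent.P032.Lt.q R0Q137.q2923_3) (q_cons (Vale.Agent.P032.Lt.q R0Q137.q2923_4) q_nil))))))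

theorem p2924 : Pat 73 73 TBm TCm (CB.map Fm) R0Q137.P2924 R0Q137.I2924 := Vale.Agent.P032.Lt.pat_eq (E' := R0Q137.E) eB (pat_step (by decide +kernel) (q_cons (Vale.Agent.P032.Lt.q R0Q137.q2924_0) (q_cons (Vale.Agent.P032.Lt.q R0Q137.q2924_1) (q_cons (Vale.Agent.P032.Lt.q R0Q137.q2924_2) (q_cons (Vale.Agent.P032.Lt.q R0Q137.q2924_3) (q_cons (Vale.Agent.P032.Lt.q R0Q137.q2924_4) (q_cons (Vale.Agent.P032.Lt.q R0Q137.q2924_5) (q_cons (Vale.Agent.P032.Lt.q R0Q137.q2924_6) (q_cons (Vale.Agent.P032.Lt.q R0Q137.q2924_7) (q_cons (Vale.Agent.P032.Lt.q R0Q137.q2924_8) (q_cons (Vale.Agent.P032.Lt.q R0Q137.q2924_9) (q_cons (Vale.Agent.P032.Lt.q R0Q137.q2924_10) (q_cons (Vale.Agent.P032.Lt.q R0Q137.q2924_11) (q_cons (Vale.Agent.P032.Lt.q R0Q137.q2924_12) (q_cons (Vale.Agent.P032.Lt.q R0Q137.q2924_13) (q_cons (Vale.Agent.P032.Lt.q R0Q137.q2924_14) q_nil))))))))))))))))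

theorem p2925 : Pat 73 73 TBm TCm (CB.map Fm) R0Q137.P2925 R0Q137.I2925 := Vale.Agent.P032.Lt.pat_eq (E' := R0Q137.E) eB (pat_step (by decide +kernel) (q_cons (Vale.Agent.P032.Lt.q R0Q137.q2925_0) (q_cons (Vale.Agent.P032.Lt.q R0Q137.q2925_1) (q_cons (Vale.Agent.P032.Lt.q R0Q137.q2925_2) (q_cons (Vale.Agent.P032.Lt.q R0Q137.q2925_3) (q_cons (Vale.Agent.P032.Lt.q R0Q137.q2925_4) (q_cons (Vale.Agent.P032.Lt.q R0Q137.q2925_5) (q_cons (Vale.Agent.P032.Lt.q R0Q137.q2925_6) (q_cons (Vale.Agent.P032.Lt.q R0Q137.q2925_7) (q_cons (Vale.Agent.P032.Lt.q R0Q137.q2925_8) (q_cons (Vale.Agent.P032.Lt.q R0Q137.q2925_9) q_nil)))))))))))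

theorem p2926 : Pat 73 73 TBm TCm (CB.map Fm) R0Q138.P2926 R0Q138.I2926 := Vale.Agent.P032.Lt.pat_eq (E' := R0Q138.E) eB (pat_step (by decide +kernel) (q_cons (Vale.Agent.P032.Lt.q R0Q138.q2926_0) (q_cons (Vale.Agent.P032.Lt.q R0Q138.q2926_1) (q_cons (Vale.Agent.P032.Lt.q R0Q138.q2926_2) (q_cons (Vale.Agent.P032.Lt.q R0Q138.q2926_3) (q_cons (Vale.Agent.P032.Lt.q R0Q138.q2926_4) (q_cons (Vale.Agent.P032.Lt.q R0Q138.q2926_5) (q_cons (Vale.Agent.P032.Lt.q R0Q138.q2926_6) (q_cons (Vale.Agent.P032.Lt.q R0Q138.q2926_7) (q_cons (Vale.Agent.P032.Lt.q R0Q138.q2926_8) (q_cons (Vale.Agent.P032.Lt.q R0Q138.q2926_9) (q_cons (Vale.Agent.P032.Lt.q R0Q138.q2926_10) (q_cons (Vale.Agent.P032.Lt.q R0Q138.q2926_11) (q_cons (Vale.Agent.P032.Lt.q R0Q138.q2926_12) (q_cons (Vale.Agent.P032.Lt.q R0Q138.q2926_13) (q_cons (Vale.Agent.P032.Lt.q R0Q138.q2926_14) (q_cons (Vale.Agent.P032.Lt.q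 R0Q138.q2926_15) (q_cons (Vale.Agent.P032.Lt.q R0Q138.q2926_16) (q_cons (Vale.Agent.P032.Lt.q R0Q138.q2926_17) (q_cons (Vale.Agent.P032.Lt.q R0Q138.q2926_18) (q_cons (Vale.Agent.P032.Lt.q R0Q138.q2926_19) (q_cons (Vale.Agent.P032.Lt.q R0Q138.q2926_20) (q_cons (Vale.Agent.P032.Lt.q R0Q138.q2926_21) (q_cons (Vale.Agent.P032.Lt.q R0Q138.q2926_22) (q_cons (Vale.Agent.P032.Lt.q R0Q138.q2926_23) (q_cons (Vale.Agent.P032.Lt.q R0Q138.q2926_24) (q_cons (Vale.Agent.P032.Lt.q R0Q138.q2926_25) (q_cons (Vale.Agent.P032.Lt.q R0Q138.q2926_26) (q_cons (Vale.Agent.P032.Lt.q R0Q138.q2926_27) (q_cons (Vale.Agent.P032.Lt.q R0Q138.q2926_28) (q_cons (Vale.Agent.P032.Lt.q R0Q138.q2926_29) (q_cons (Vale.Agent.P032.Lt.q R0Q138.q2926_30) (q_cons (Vale.Agent.P032.Lt.q R0Q138.q2926_31) (q_cons (Vale.Agent.P032.Lt.q R0Q138.q2926_32) (q_cons (Vale.Agent.P032.Lt.q R0Q138.q2926_33)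 (q_cons (Vale.Agent.P032.Lt.q R0Q138.q2926_34) (q_cons (Vale.Agent.P032.Lt.q R0Q138.q2926_35) (q_cons (Vale.Agent.P032.Lt.q R0Q138.q2926_36) (q_cons (Vale.Agent.P032.Lt.q R0Q138.q2926_37) (q_cons (Vale.Agent.P032.Lt.q R0Q138.q2926_38) (q_cons (Vale.Agent.P032.Lt.q R0Q138.q2926_39) (q_cons (Vale.Agent.P032.Lt.q R0Q138.q2926_40) (q_cons (Vale.Agent.P032.Lt.q R0Q138.q2926_41) (q_cons (Vale.Agent.P032.Lt.q R0Q138.q2926_42) (q_cons (Vale.Agent.P032.Lt.q R0Q138.q2926_43) (q_cons (Vale.Agent.P032.Lt.q R0Q138.q2926_44) (q_cons (Vale.Agent.P032.Lt.q R0Q138.q2926_45) (q_cons (Vale.Agent.P032.Lt.q R0Q138.q2926_46) (q_cons (Vale.Agent.P032.Lt.q R0Q138.q2926_47) (q_cons (Vale.Agent.P032.Lt.q R0Q138.q2926_48) (q_cons (Vale.Agent.P032.Lt.q R0Q138.q2926_49) (q_cons (Vale.Agent.P032.Lt.q R0Q138.q2926_50) (q_cons (Vale.Agent.P032.Lt.q R0Q138.q2926_51) (q_cons (Vale.Agent.P032.Lt.q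 R0Q138.q2926_52) (q_cons (Vale.Agent.P032.Lt.q R0Q138.q2926_53) (q_cons (Vale.Agent.P032.Lt.q R0Q138.q2926_54) (q_cons (Vale.Agent.P032.Lt.q R0Q138.q2926_55) (q_cons (Vale.Agent.P032.Lt.q R0Q138.q2926_56) (q_cons (Vale.Agent.P032.Lt.q R0Q138.q2926_57) (q_cons (Vale.Agent.P032.Lt.q R0Q138.q2926_58) (q_cons (Vale.Agent.P032.Lt.q R0Q138.q2926_59) (q_cons (Vale.Agent.P032.Lt.q R0Q138.q2926_60) (q_cons (Vale.Agent.P032.Lt.q R0Q138.q2926_61) (q_cons (Vale.Agent.P032.Lt.q R0Q138.q2926_62) (q_cons (Vale.Agent.P032.Lt.q R0Q138.q2926_63) (q_cons (Vale.Agent.P032.Lt.q R0Q138.q2926_64) (q_cons (Vale.Agent.P032.Lt.q R0Q138.q2926_65) (q_cons (Vale.Agent.P032.Lt.q R0Q138.q2926_66) (q_cons (Vale.Agent.P032.Lt.q R0Q138.q2926_67) (q_cons (Vale.Agent.P032.Lt.q R0Q138.q2926_68) (q_cons (Vale.Agent.P032.Lt.q R0Q138.q2926_69) (q_cons (Vale.Agent.P032.Lt.q R0Q138.q2926_70)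 (q_cons (Vale.Agent.P032.Lt.q R0Q138.q2926_71) (q_cons (Vale.Agent.P032.Lt.q R0Q138.q2926_72) (q_cons (Vale.Agent.P032.Lt.q R0Q138.q2926_73) (q_cons (Vale.Agent.P032.Lt.q R0Q138.q2926_74) (q_cons (Vale.Agent.P032.Lt.q R0Q138.q2926_75) (q_cons (Vale.Agent.P032.Lt.q R0Q138.q2926_76) (q_cons (Vale.Agent.P032.Lt.q R0Q138.q2926_77) (q_cons (Vale.Agent.P032.Lt.q R0Q138.q2926_78) (q_cons (Vale.Agent.P032.Lt.q R0Q138.q2926_79) (q_cons (Vale.Agent.P032.Lt.q R0Q138.q2926_80) (q_cons (Vale.Agent.P032.Lt.q R0Q138.q2926_81) (q_cons (Vale.Agent.P032.Lt.q R0Q138.q2926_82) (q_cons (Vale.Agent.P032.Lt.q R0Q138.q2926_83) (q_cons (Vale.Agent.P032.Lt.q R0Q138.q2926_84) (q_cons (Vale.Agent.P032.Lt.q R0Q138.q2926_85) (q_cons (Vale.Agent.P032.Lt.q R0Q138.q2926_86) (q_cons (Vale.Agent.P032.Lt.q R0Q138.q2926_87) (q_cons (Vale.Agent.P032.Lt.q R0Q138.q2926_88) (q_cons (Vale.Agent.P032.Lt.q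 R0Q138.q2926_89) (q_cons (Vale.Agent.P032.Lt.q R0Q138.q2926_90) (q_cons (Vale.Agent.P032.Lt.q R0Q138.q2926_91) (q_cons (Vale.Agent.P032.Lt.q R0Q138.q2926_92) (q_cons (Vale.Agent.P032.Lt.q R0Q138.q2926_93) (q_cons (Vale.Agent.P032.Lt.q R0Q138.q2926_94) (q_cons (Vale.Agent.P032.Lt.q R0Q138.q2926_95) (q_cons (Vale.Agent.P032.Lt.q R0Q138.q2926_96) (q_cons (Vale.Agent.P032.Lt.q R0Q138.q2926_97) (q_cons (Vale.Agent.P032.Lt.q R0Q138.q2926_98) (q_cons (Vale.Agent.P032.Lt.q R0Q138.q2926_99) (q_cons (Vale.Agent.P032.Lt.q R0Q138.q2926_100) (q_cons (Vale.Agent.P032.Lt.q R0Q138.q2926_101) (q_cons (Vale.Agent.P032.Lt.q R0Q138.q2926_102) (q_cons (Vale.Agent.P032.Lt.q R0Q138.q2926_103) (q_cons (Vale.Agent.P032.Lt.q R0Q138.q2926_104) q_nil))))))))))))))))))))))))))))))))))))))))))))))))))))))))))))))))))))))))))))))))))))))))))))))))))))))))))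

theorem p2927 : Pat 73 73 TBm TCm (CB.map Fm) R0Q138.P2927 R0Q138.I2927 := Vale.Agent.P032.Lt.pat_eq (E' := R0Q138.E) eB (pat_step (by decide +kernel) (q_cons (Vale.Agent.P032.Lt.q R0Q138.q2927_0) (q_cons (Vale.Agent.P032.Lt.q R0Q138.q2927_1) (q_cons (Vale.Agent.P032.Lt.q R0Q138.q2927_2) (q_cons (Vale.Agent.P032.Lt.q R0Q138.q2927_3) q_nil)))))

theorem p2928 : Pat 73 73 TBm TCm (CB.map Fm) R0Q138.P2928 R0Q138.I2928 := Vale.Agent.P032.Lt.pat_eq (E' := R0Q138.E) eB (pat_step (by decide +kernel) (q_cons (Vale.Agent.P032.Lt.q R0Q138.q2928_0) (q_cons (Vale.Agent.P032.Lt.q R0Q138.q2928_1) (q_cons (Vale.Agent.P032.Lt.q R0Q138.q2928_2) (q_cons (Vale.Agent.P032.Lt.q R0Q138.q2928_3) (q_cons (Vale.Agent.P032.Lt.q R0Q138.q2928_4) (q_cons (Vale.Agent.P032.Lt.q R0Q138.q2928_5) (q_cons (Vale.Agent.P032.Lt.q R0Q138.q2928_6) q_nil))))))))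

theorem p2929 : Pat 73 73 TBm TCm (CB.map Fm) R0Q138.P2929 R0Q138.I2929 := Vale.Agent.P032.Lt.pat_eq (E' := R0Q138.E) eB (pat_step (by decide +kernel) (q_cons (Vale.Agent.P032.Lt.q R0Q138.q2929_0) q_nil))

theorem p2930 : Pat 73 73 TBm TCm (CB.map Fm) R0Q138.P2930 R0Q138.I2930 := Vale.Agent.P032.Lt.pat_eq (E' := R0Q138.E) eB (pat_step (by decide +kernel) (q_cons (Vale.Agent.P032.Lt.q R0Q138.q2930_0) (q_cons (Vale.Agent.P032.Lt.q R0Q138.q2930_1) q_nil)))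

theorem p2931 : Pat 73 73 TBm TCm (CB.map Fm) R0Q138.P2931 R0Q138.I2931 := Vale.Agent.P032.Lt.pat_eq (E' := R0Q138.E) eB (pat_step (by decide +kernel) (q_cons (Vale.Agent.P032.Lt.q R0Q138.q2931_0) (q_cons (Vale.Agent.P032.Lt.q R0Q138.q2931_1) (q_cons (Vale.Agent.P032.Lt.q R0Q138.q2931_2) (q_cons (Vale.Agent.P032.Lt.q R0Q138.q2931_3) (q_cons (Vale.Agent.P032.Lt.q R0Q138.q2931_4) (q_cons (Vale.Agent.P032.Lt.q R0Q138.q2931_5) q_nil)))))))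

theorem p2932 : Pat 73 73 TBm TCm (CB.map Fm) R0Q138.P2932 R0Q138.I2932 := Vale.Agent.P032.Lt.pat_eq (E' := R0Q138.E) eB (pat_step (by decide +kernel) (q_cons (Vale.Agent.P032.Lt.q R0Q138.q2932_0) q_nil))

def C2933 : List ℕ := [0, 4, 8, 12, 16, 20, 24, 475137, 606209, 737281]
theorem p2933 : Pat 73 73 TBm TCm (C2933.map Fm) R0Q138.P2933 R0Q138.I2933 := Vale.Agent.P032.Lt.pat_eq (E' := R0Q138.E2933) (by decide +kernel) (pat_step (by decide +kernel) (q_cons (Vale.Agent.P032.Lt.q R0Q138.q2933_0) (q_cons (Vale.Agent.P032.Lt.q R0Q138.q2933_1) (q_cons (Vale.Agent.P032.Lt.q R0Q138.q2933_2) (q_cons (Vale.Agent.P032.Lt.q R0Q138.q2933_3) (q_cons (Vale.Agent.P032.Lt.q R0Q138.q2933_4) q_nil))))))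

theorem p2934 : Pat 73 73 TBm TCm (CB.map Fm) R0Q138.P2934 R0Q138.I2934 := Vale.Agent.P032.Lt.pat_eq (E' := R0Q138.E) eB (pat_step (by decide +kernel) (q_cons (Vale.Agent.P032.Lt.q R0Q138.q2934_0) (q_cons (Vale.Agent.P032.Lt.q R0Q138.q2934_1) (q_cons (Vale.Agent.P032.Lt.q R0Q138.q2934_2) (q_cons (Vale.Agent.P032.Lt.q R0Q138.q2934_3) (q_cons (Vale.Agent.P032.Lt.q R0Q138.q2934_4) (q_cons (Vale.Agent.P032.Lt.q R0Q138.q2934_5) (q_cons (Vale.Agent.P032.Lt.q R0Q138.q2934_6) (q_cons (Vale.Agent.P032.Lt.q R0Q138.q2934_7) (q_cons (Vale.Agent.P032.Lt.q R0Q138.q2934_8) q_nil))))))))))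

theorem p2935 : Pat 73 73 TBm TCm (CB.map Fm) R0Q138.P2935 R0Q138.I2935 := Vale.Agent.P032.Lt.pat_eq (E' := R0Q138.E) eB (pat_step (by decide +kernel) (q_cons (Vale.Agent.P032.Lt.q R0Q138.q2935_0) (q_cons (Vale.Agent.P032.Lt.q R0Q138.q2935_1) q_nil)))

def C2936 : List ℕ := [0, 4, 8, 12, 16, 20, 24, 737281]
theorem p2936 : Pat 73 73 TBm TCm (C2936.map Fm) R0Q138.P2936 R0Q138.I2936 := Vale.Agent.P032.Lt.pat_eq (E' := R0Q138.E2936) (by decide +kernel) (pat_step (by decide +kernel) (q_cons (Vale.Agent.P032.Lt.q R0Q138.q2936_0) (q_cons (Vale.Agent.P032.Lt.q R0Q138.q2936_1) (q_cons (Vale.Agent.P032.Lt.q R0Q138.q2936_2) (q_cons (Vale.Agent.P032.Lt.q R0Q138.q2936_3) (q_cons (Vale.Agent.P032.Lt.q R0Q138.q2936_4) q_nil))))))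

theorem p2937 : Pat 73 73 TBm TCm (CB.map Fm) R0Q138.P2937 R0Q138.I2937 := Vale.Agent.P032.Lt.pat_eq (E' := R0Q138.E) eB (pat_step (by decide +kernel) (q_cons (Vale.Agent.P032.Lt.q R0Q138.q2937_0) (q_cons (Vale.Agent.P032.Lt.q R0Q138.q2937_1) q_nil)))

theorem p2938 : Pat 73 73 TBm TCm (CB.map Fm) R0Q138.P2938 R0Q138.I2938 := Vale.Agent.P032.Lt.pat_eq (E' := R0Q138.E) eB (pat_step (by decide +kernel) (q_cons (Vale.Agent.P032.Lt.q R0Q138.q2938_0) (q_cons (Vale.Agent.P032.Lt.q R0Q138.q2938_1) (q_cons (Vale.Agent.P032.Lt.q R0Q138.q2938_2) (q_cons (Vale.Agent.P032.Lt.q R0Q138.q2938_3) (q_cons (Vale.Agent.P032.Lt.q R0Q138.q2938_4) (q_cons (Vale.Agent.P032.Lt.q R0Q138.q2938_5) (q_cons (Vale.Agent.P032.Lt.q R0Q138.q2938_6) (q_cons (Vale.Agent.P032.Lt.q R0Q138.q2938_7) q_nil)))))))))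

theorem p2939 : Pat 73 73 TBm TCm (CB.map Fm) R0Q138.P2939 R0Q138.I2939 := Vale.Agent.P032.Lt.pat_eq (E' := R0Q138.E) eB (pat_step (by decide +kernel) (q_cons (Vale.Agent.P032.Lt.q R0Q138.q2939_0) (q_cons (Vale.Agent.P032.Lt.q R0Q138.q2939_1) (q_cons (Vale.Agent.P032.Lt.q R0Q138.q2939_2) (q_cons (Vale.Agent.P032.Lt.q R0Q138.q2939_3) q_nil)))))

theorem p2940 : Pat 73 73 TBm TCm (CB.map Fm) R0Q138.P2940 R0Q138.I2940 := Vale.Agent.P032.Lt.pat_eq (E' := R0Q138.E) eB (pat_step (by decide +kernel) (q_cons (Vale.Agent.P032.Lt.q R0Q138.q2940_0) (q_cons (Vale.Agent.P032.Lt.q R0Q138.q2940_1) (q_cons (Vale.Agent.P032.Lt.q R0Q138.q2940_2) (q_cons (Vale.Agent.P032.Lt.q R0Q138.q2940_3) (q_cons (Vale.Agent.P032.Lt.q R0Q138.q2940_4) (q_cons (Vale.Agent.P032.Lt.q R0Q138.q2940_5) (q_cons (Vale.Agent.P032.Lt.q R0Q138.q2940_6) (q_cons (Vale.Agent.P032.Lt.q R0Q138.q2940_7)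 q_nil)))))))))

theorem p2941 : Pat 73 73 TBm TCm (CB.map Fm) R0Q138.P2941 R0Q138.I2941 := Vale.Agent.P032.Lt.pat_eq (E' := R0Q138.E) eB (pat_step (by decide +kernel) (q_cons (Vale.Agent.P032.Lt.q R0Q138.q2941_0) (q_cons (Vale.Agent.P032.Lt.q R0Q138.q2941_1) (q_cons (Vale.Agent.P032.Lt.q R0Q138.q2941_2) (q_cons (Vale.Agent.P032.Lt.q R0Q138.q2941_3) q_nil)))))

theorem p2942 : Pat 73 73 TBm TCm (CB.map Fm) R0Q139.P2942 R0Q139.I2942 := Vale.Agent.P032.Lt.pat_eq (E' := R0Q139.E) eB (pat_step (by decide +kernel) (q_cons (Vale.Agent.P032.Lt.q R0Q139.q2942_0) (q_cons (Vale.Agent.P032.Lt.q R0Q139.q2942_1) (q_cons (Vale.Agent.P032.Lt.q R0Q139.q2942_2) (q_cons (Vale.Agent.P032.Lt.q R0Q139.q2942_3) (q_cons (Vale.Agent.P032.Lt.q R0Q139.q2942_4) (q_cons (Vale.Agent.P032.Lt.q R0Q139.q2942_5) (q_cons (Vale.Agent.P032.Lt.q R0Q139.q2942_6) (q_cons (Vale.Agent.P032.Lt.q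 R0Q139.q2942_7) (q_cons (Vale.Agent.P032.Lt.q R0Q139.q2942_8) (q_cons (Vale.Agent.P032.Lt.q R0Q139.q2942_9) (q_cons (Vale.Agent.P032.Lt.q R0Q139.q2942_10) (q_cons (Vale.Agent.P032.Lt.q R0Q139.q2942_11) (q_cons (Vale.Agent.P032.Lt.q R0Q139.q2942_12) (q_cons (Vale.Agent.P032.Lt.q R0Q139.q2942_13) (q_cons (Vale.Agent.P032.Lt.q R0Q139.q2942_14) (q_cons (Vale.Agent.P032.Lt.q R0Q139.q2942_15) (q_cons (Vale.Agent.P032.Lt.q R0Q139.q2942_16) (q_cons (Vale.Agent.P032.Lt.q R0Q139.q2942_17) (q_cons (Vale.Agent.P032.Lt.q R0Q139.q2942_18) (q_cons (Vale.Agent.P032.Lt.q R0Q139.q2942_19) (q_cons (Vale.Agent.P032.Lt.q R0Q139.q2942_20) (q_cons (Vale.Agent.P032.Lt.q R0Q139.q2942_21) (q_cons (Vale.Agent.P032.Lt.q R0Q139.q2942_22) (q_cons (Vale.Agent.P032.Lt.q R0Q139.q2942_23) (q_cons (Vale.Agent.P032.Lt.q R0Q139.q2942_24) (q_cons (Vale.Agent.P032.Lt.q R0Q139.q2942_25)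 (q_cons (Vale.Agent.P032.Lt.q R0Q139.q2942_26) (q_cons (Vale.Agent.P032.Lt.q R0Q139.q2942_27) (q_cons (Vale.Agent.P032.Lt.q R0Q139.q2942_28) (q_cons (Vale.Agent.P032.Lt.q R0Q139.q2942_29) (q_cons (Vale.Agent.P032.Lt.q R0Q139.q2942_30) (q_cons (Vale.Agent.P032.Lt.q R0Q139.q2942_31) (q_cons (Vale.Agent.P032.Lt.q R0Q139.q2942_32) (q_cons (Vale.Agent.P032.Lt.q R0Q139.q2942_33) (q_cons (Vale.Agent.P032.Lt.q R0Q139.q2942_34) (q_cons (Vale.Agent.P032.Lt.q R0Q139.q2942_35) q_nil)))))))))))))))))))))))))))))))))))))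

theorem p2943 : Pat 73 73 TBm TCm (CB.map Fm) R0Q139.P2943 R0Q139.I2943 := Vale.Agent.P032.Lt.pat_eq (E' := R0Q139.E) eB (pat_step (by decide +kernel) (q_cons (Vale.Agent.P032.Lt.q R0Q139.q2943_0) (q_cons (Vale.Agent.P032.Lt.q R0Q139.q2943_1) (q_cons (Vale.Agent.P032.Lt.q R0Q139.q2943_2) (q_cons (Vale.Agent.P032.Lt.q R0Q139.q2943_3) q_nil)))))

def L : List (List ℕ) := [R0Q134.P2816, R0Q134.P2817, R0Q134.P2818, R0Q134.P2819, R0Q134.P2820, R0Q134.P2821, R0Q134.P2822, R0Q134.P2823, R0Q134.P2824, R0Q134.P2825, R0Q134.P2826, R0Q134.P2827, R0Q134.P2828, R0Q134.P2829, R0Q134.P2830, R0Q134.P2831, R0Q134.P2832, R0Q134.P2833, R0Q134.P2834, R0Q134.P2835, R0Q134.P2836, R0Q134.P2837, R0Q134.P2838, R0Q134.P2839, R0Q135.P2840, R0Q135.P2841, R0Q135.P2842, R0Q135.P2843, R0Q135.P2844, R0Q135.P2845, R0Q135.P2846, R0Q135.P2847, R0Q135.P2848, R0Q135.P2849, R0Q135.P2850,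 R0Q135.P2851, R0Q135.P2852, R0Q135.P2853, R0Q135.P2854, R0Q135.P2855, R0Q135.P2856, R0Q135.P2857, R0Q135.P2858, R0Q135.P2859, R0Q135.P2860, R0Q135.P2861, R0Q135.P2862, R0Q135.P2863, R0Q135.P2864, R0Q135.P2865, R0Q135.P2866, R0Q135.P2867, R0Q135.P2868, R0Q135.P2869, R0Q135.P2870, R0Q136.P2871, R0Q136.P2872, R0Q136.P2873, R0Q136.P2874, R0Q136.P2875, R0Q136.P2876, R0Q136.P2877, R0Q136.P2878, R0Q136.P2879, R0Q136.P2880, R0Q136.P2881, R0Q136.P2882, R0Q136.P2883, R0Q136.P2884, R0Q136.P2885, R0Q136.P2886, R0Q136.P2887, R0Q136.P2888, R0Q136.P2889, R0Q136.P2890, R0Q136.P2891, R0Q136.P2892, R0Q136.P2893, R0Q136.P2894, R0Q136.P2895, R0Q136.P2896, R0Q136.P2897, R0Q136.P2898, R0Q136.P2899, R0Q137.P2900, R0Q137.P2901, R0Q137.P2902, R0Q137.P2903, R0Q137.P2904, R0Q137.P2905, R0Q137.P2906, R0Q137.P2907, R0Q137.P2908, R0Q137.P2909, R0Q137.P2910, R0Q137.P2911, R0Q137.P2912,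 R0Q137.P2913, R0Q137.P2914, R0Q137.P2915, R0Q137.P2916, R0Q137.P2917, R0Q137.P2918, R0Q137.P2919, R0Q137.P2920, R0Q137.P2921, R0Q137.P2922, R0Q137.P2923, R0Q137.P2924, R0Q137.P2925, R0Q138.P2926, R0Q138.P2927, R0Q138.P2928, R0Q138.P2929, R0Q138.P2930, R0Q138.P2931, R0Q138.P2932, R0Q138.P2933, R0Q138.P2934, R0Q138.P2935, R0Q138.P2936, R0Q138.P2937, R0Q138.P2938, R0Q138.P2939, R0Q138.P2940, R0Q138.P2941, R0Q139.P2942, R0Q139.P2943]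

theorem all : ∀ P ∈ L, CrtF 73 73 TBm TCm (Vale.Agent.P032.Fam.fam2 (Vale.Agent.P032.Fam.im0)) P := crtF_cons p2816 (crtF_cons p2817 (crtF_cons p2818 (crtF_cons p2819 (crtF_cons p2820 (crtF_cons p2821 (crtF_cons p2822 (crtF_cons p2823 (crtF_cons p2824 (crtF_cons p2825 (crtF_cons p2826 (crtF_cons p2827 (crtF_cons p2828 (crtF_cons p2829 (crtF_cons p2830 (crtF_cons p2831 (crtF_cons p2832 (crtF_cons p2833 (crtF_cons p2834 (crtF_cons p2835 (crtF_cons p2836 (crtF_cons p2837 (crtF_cons p2838 (crtF_cons p2839 (crtF_cons p2840 (crtF_cons p2841 (crtF_cons p2842 (crtF_cons p2843 (crtF_cons p2844 (crtF_cons p2845 (crtF_cons p2846 (crtF_cons p2847 (crtF_cons p2848 (crtF_cons p2849 (crtF_cons p2850 (crtF_cons p2851 (crtF_cons p2852 (crtF_cons p2853 (crtF_cons p2854 (crtF_cons p2855 (crtF_cons p2856 (crtF_cons p2857 (crtF_cons p2858 (crtF_cons p2859 (crtF_cons p2860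 (crtF_cons p2861 (crtF_cons p2862 (crtF_cons p2863 (crtF_cons p2864 (crtF_cons p2865 (crtF_cons p2866 (crtF_cons p2867 (crtF_cons p2868 (crtF_cons p2869 (crtF_cons p2870 (crtF_cons p2871 (crtF_cons p2872 (crtF_cons p2873 (crtF_cons p2874 (crtF_cons p2875 (crtF_cons p2876 (crtF_cons p2877 (crtF_cons p2878 (crtF_cons p2879 (crtF_cons p2880 (crtF_cons p2881 (crtF_cons p2882 (crtF_cons p2883 (crtF_cons p2884 (crtF_cons p2885 (crtF_cons p2886 (crtF_cons p2887 (crtF_cons p2888 (crtF_cons p2889 (crtF_cons p2890 (crtF_cons p2891 (crtF_cons p2892 (crtF_cons p2893 (crtF_cons p2894 (crtF_cons p2895 (crtF_cons p2896 (crtF_cons p2897 (crtF_cons p2898 (crtF_cons p2899 (crtF_cons p2900 (crtF_cons p2901 (crtF_cons p2902 (crtF_cons p2903 (crtF_cons p2904 (crtF_cons p2905 (crtF_cons p2906 (crtF_cons p2907 (crtF_cons p2908 (crtF_cons p2909 (crtF_cons p2910 (crtF_cons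 p2911 (crtF_cons p2912 (crtF_cons p2913 (crtF_cons p2914 (crtF_cons p2915 (crtF_cons p2916 (crtF_cons p2917 (crtF_cons p2918 (crtF_cons p2919 (crtF_cons p2920 (crtF_cons p2921 (crtF_cons p2922 (crtF_cons p2923 (crtF_cons p2924 (crtF_cons p2925 (crtF_cons p2926 (crtF_cons p2927 (crtF_cons p2928 (crtF_cons p2929 (crtF_cons p2930 (crtF_cons p2931 (crtF_cons p2932 (crtF_cons p2933 (crtF_cons p2934 (crtF_cons p2935 (crtF_cons p2936 (crtF_cons p2937 (crtF_cons p2938 (crtF_cons p2939 (crtF_cons p2940 (crtF_cons p2941 (crtF_cons p2942 (crtF_cons p2943 crtF_nil)))))))))))))))))))))))))))))))))))))))))))))))))))))))))))))))))))))))))))))))))))))))))))))))))))))))))))))))))))))))))))))))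

theorem ch : chT 73 73 TCm s0_022 L = true := by decide +kernel

end Vale.Agent.P032X.Cert.XP.B1.R0H022
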