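import Vale.Agent.P032X.H892.LtH
import Vale.Agent.P032X.H286.W73
import Vale.Agent.P032X.Cert.XP.B1.R0T
import Vale.Agent.P032X.Cert.XP.B1.R0Q140
import Vale.Agent.P032X.Cert.XP.B1.R0Q141
import Vale.Agent.P032X.Cert.XP.B1.R0Q142
import Vale.Agent.P032X.Cert.XP.B1.R0Q143
import Vale.Agent.P032X.Cert.XP.B1.R0Q144
import Vale.Agent.P032X.Cert.XP.B1.R0Q145
import Vale.Agent.P032X.Cert.XP.B1.R0Q146
import Vale.Agent.P032X.Cert.XP.B1.R0Q147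

set_option maxRecDepth 1000000

namespace Vale.Agent.P032X.Cert.XP.B1.R0H023

open Vale.Agent.P032.H820.K Vale.Agent.P032.H357.MK Vale.Agent.P032.H286.E Vale.Agent.P032.H61 Vale.Agent.P032X.Cert.XP.B1

noncomputable abbrev Fm : ℕ → List ℕ := Vale.Agent.P032.Fam.fam2 (Vale.Agent.P032.Fam.im0)

def CB : List ℕ := [0, 4, 8, 12, 16, 20, 24]

theorem eB : Vale.Agent.P032.Lt.eqLL (CB.map Fm) R0Q140.E = true := by decide +kernel

theorem p2944 : Pat 73 73 TBm TCm (CB.map Fm) R0Q140.P2944 R0Q140.I2944 := Vale.Agent.P032.Lt.pat_eq (E' := R0Q140.E) eB (pat_step (by decide +kernel) (q_cons (Vale.Agent.P032.Lt.q R0Q140.q2944_0) (q_cons (Vale.Agent.P032.Lt.q R0Q140.q2944_1) q_nil)))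

theorem p2945 : Pat 73 73 TBm TCm (CB.map Fm) R0Q140.P2945 R0Q140.I2945 := Vale.Agent.P032.Lt.pat_eq (E' := R0Q140.E) eB (pat_step (by decide +kernel) (q_cons (Vale.Agent.P032.Lt.q R0Q140.q2945_0) (q_cons (Vale.Agent.P032.Lt.q R0Q140.q2945_1) q_nil)))

theorem p2946 : Pat 73 73 TBm TCm (CB.map Fm) R0Q140.P2946 R0Q140.I2946 := Vale.Agent.P032.Lt.pat_eq (E' := R0Q140.E) eB (pat_step (by decide +kernel) (q_cons (Vale.Agent.P032.Lt.q R0Q140.q2946_0) (q_cons (Vale.Agent.P032.Lt.q R0Q140.q2946_1) q_nil)))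

theorem p2947 : Pat 73 73 TBm TCm (CB.map Fm) R0Q140.P2947 R0Q140.I2947 := Vale.Agent.P032.Lt.pat_eq (E' := R0Q140.E) eB (pat_step (by decide +kernel) (q_cons (Vale.Agent.P032.Lt.q R0Q140.q2947_0) (q_cons (Vale.Agent.P032.Lt.q R0Q140.q2947_1) (q_cons (Vale.Agent.P032.Lt.q R0Q140.q2947_2) q_nil))))

theorem p2948 : Pat 73 73 TBm TCm (CB.map Fm) R0Q140.P2948 R0Q140.I2948 := Vale.Agent.P032.Lt.pat_eq (E' := R0Q140.E) eB (pat_step (by decide +kernel) (q_cons (Vale.Agent.P032.Lt.q R0Q140.q2948_0) (q_cons (Vale.Agent.P032.Lt.q R0Q140.q2948_1) (q_cons (Vale.Agent.P032.Lt.q R0Q140.q2948_2) (q_cons (Vale.Agent.P032.Lt.q R0Q140.q2948_3) (q_cons (Vale.Agent.P032.Lt.q R0Q140.q2948_4) (q_cons (Vale.Agent.P032.Lt.q R0Q140.q2948_5) (q_cons (Vale.Agent.P032.Lt.q R0Q140.q2948_6) q_nil))))))))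

def C2949 : List ℕ := [0, 4, 8, 12, 16, 20, 24, 349185]
theorem p2949 : Pat 73 73 TBm TCm (C2949.map Fm) R0Q140.P2949 R0Q140.I2949 := Vale.Agent.P032.Lt.pat_eq (E' := R0Q140.E2949) (by decide +kernel) (pat_step (by decide +kernel) (q_cons (Vale.Agent.P032.Lt.q R0Q140.q2949_0) (q_cons (Vale.Agent.P032.Lt.q R0Q140.q2949_1) (q_cons (Vale.Agent.P032.Lt.q R0Q140.q2949_2) (q_cons (Vale.Agent.P032.Lt.q R0Q140.q2949_3) q_nil)))))

theorem p2950 : Pat 73 73 TBm TCm (CB.map Fm) R0Q140.P2950 R0Q140.I2950 := Vale.Agent.P032.Lt.pat_eq (E' := R0Q140.E) eB (pat_step (by decide +kernel) (q_cons (Vale.Agent.P032.Lt.q R0Q140.q2950_0) (q_cons (Vale.Agent.P032.Lt.q R0Q140.q2950_1) (q_cons (Vale.Agent.P032.Lt.q R0Q140.q2950_2) (q_cons (Vale.Agent.P032.Lt.q R0Q140.q2950_3) q_nil)))))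

theorem p2951 : Pat 73 73 TBm TCm (CB.map Fm) R0Q140.P2951 R0Q140.I2951 := Vale.Agent.P032.Lt.pat_eq (E' := R0Q140.E) eB (pat_step (by decide +kernel) (q_cons (Vale.Agent.P032.Lt.q R0Q140.q2951_0) (q_cons (Vale.Agent.P032.Lt.q R0Q140.q2951_1) (q_cons (Vale.Agent.P032.Lt.q R0Q140.q2951_2) (q_cons (Vale.Agent.P032.Lt.q R0Q140.q2951_3) q_nil)))))

theorem p2952 : Pat 73 73 TBm TCm (CB.map Fm) R0Q140.P2952 R0Q140.I2952 := Vale.Agent.P032.Lt.pat_eq (E' := R0Q140.E) eB (pat_step (by decide +kernel) (q_cons (Vale.Agent.P032.Lt.q R0Q140.q2952_0) (q_cons (Vale.Agent.P032.Lt.q R0Q140.q2952_1) (q_cons (Vale.Agent.P032.Lt.q R0Q140.q2952_2) (q_cons (Vale.Agent.P032.Lt.q R0Q140.q2952_3) (q_cons (Vale.Agent.P032.Lt.q R0Q140.q2952_4) (q_cons (Vale.Agent.P032.Lt.q R0Q140.q2952_5) (q_cons (Vale.Agent.P032.Lt.q R0Q140.q2952_6) (q_cons (Vale.Agent.P032.Lt.q R0Q140.q2952_7)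 (q_cons (Vale.Agent.P032.Lt.q R0Q140.q2952_8) (q_cons (Vale.Agent.P032.Lt.q R0Q140.q2952_9) (q_cons (Vale.Agent.P032.Lt.q R0Q140.q2952_10) (q_cons (Vale.Agent.P032.Lt.q R0Q140.q2952_11) (q_cons (Vale.Agent.P032.Lt.q R0Q140.q2952_12) (q_cons (Vale.Agent.P032.Lt.q R0Q140.q2952_13) q_nil)))))))))))))))

theorem p2953 : Pat 73 73 TBm TCm (CB.map Fm) R0Q140.P2953 R0Q140.I2953 := Vale.Agent.P032.Lt.pat_eq (E' := R0Q140.E) eB (pat_step (by decide +kernel) (q_cons (Vale.Agent.P032.Lt.q R0Q140.q2953_0) (q_cons (Vale.Agent.P032.Lt.q R0Q140.q2953_1) q_nil)))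

theorem p2954 : Pat 73 73 TBm TCm (CB.map Fm) R0Q140.P2954 R0Q140.I2954 := Vale.Agent.P032.Lt.pat_eq (E' := R0Q140.E) eB (pat_step (by decide +kernel) (q_cons (Vale.Agent.P032.Lt.q R0Q140.q2954_0) (q_cons (Vale.Agent.P032.Lt.q R0Q140.q2954_1) (q_cons (Vale.Agent.P032.Lt.q R0Q140.q2954_2) (q_cons (Vale.Agent.P032.Lt.q R0Q140.q2954_3) (q_cons (Vale.Agent.P032.Lt.q R0Q140.q2954_4) (q_cons (Vale.Agent.P032.Lt.q R0Q140.q2954_5) q_nil)))))))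

theorem p2955 : Pat 73 73 TBm TCm (CB.map Fm) R0Q140.P2955 R0Q140.I2955 := Vale.Agent.P032.Lt.pat_eq (E' := R0Q140.E) eB (pat_step (by decide +kernel) (q_cons (Vale.Agent.P032.Lt.q R0Q140.q2955_0) (q_cons (Vale.Agent.P032.Lt.q R0Q140.q2955_1) (q_cons (Vale.Agent.P032.Lt.q R0Q140.q2955_2) (q_cons (Vale.Agent.P032.Lt.q R0Q140.q2955_3) (q_cons (Vale.Agent.P032.Lt.q R0Q140.q2955_4) (q_cons (Vale.Agent.P032.Lt.q R0Q140.q2955_5) (q_cons (Vale.Agent.P032.Lt.q R0Q140.q2955_6) q_nil))))))))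

theorem p2956 : Pat 73 73 TBm TCm (CB.map Fm) R0Q140.P2956 R0Q140.I2956 := Vale.Agent.P032.Lt.pat_eq (E' := R0Q140.E) eB (pat_step (by decide +kernel) (q_cons (Vale.Agent.P032.Lt.q R0Q140.q2956_0) (q_cons (Vale.Agent.P032.Lt.q R0Q140.q2956_1) (q_cons (Vale.Agent.P032.Lt.q R0Q140.q2956_2) q_nil))))

theorem p2957 : Pat 73 73 TBm TCm (CB.map Fm) R0Q140.P2957 R0Q140.I2957 := Vale.Agent.P032.Lt.pat_eq (E' := R0Q140.E) eB (pat_step (by decide +kernel) (q_cons (Vale.Agent.P032.Lt.q R0Q140.q2957_0) (q_cons (Vale.Agent.P032.Lt.q R0Q140.q2957_1) (q_cons (Vale.Agent.P032.Lt.q R0Q140.q2957_2) (q_cons (Vale.Agent.P032.Lt.q R0Q140.q2957_3) (q_cons (Vale.Agent.P032.Lt.q R0Q140.q2957_4) (q_cons (Vale.Agent.P032.Lt.q R0Q140.q2957_5) q_nil)))))))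

theorem p2958 : Pat 73 73 TBm TCm (CB.map Fm) R0Q140.P2958 R0Q140.I2958 := Vale.Agent.P032.Lt.pat_eq (E' := R0Q140.E) eB (pat_step (by decide +kernel) (q_cons (Vale.Agent.P032.Lt.q R0Q140.q2958_0) (q_cons (Vale.Agent.P032.Lt.q R0Q140.q2958_1) (q_cons (Vale.Agent.P032.Lt.q R0Q140.q2958_2) (q_cons (Vale.Agent.P032.Lt.q R0Q140.q2958_3) (q_cons (Vale.Agent.P032.Lt.q R0Q140.q2958_4) (q_cons (Vale.Agent.P032.Lt.q R0Q140.q2958_5) (q_cons (Vale.Agent.P032.Lt.q R0Q140.q2958_6) q_nil))))))))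

theorem p2959 : Pat 73 73 TBm TCm (CB.map Fm) R0Q140.P2959 R0Q140.I2959 := Vale.Agent.P032.Lt.pat_eq (E' := R0Q140.E) eB (pat_step (by decide +kernel) (q_cons (Vale.Agent.P032.Lt.q R0Q140.q2959_0) (q_cons (Vale.Agent.P032.Lt.q R0Q140.q2959_1) (q_cons (Vale.Agent.P032.Lt.q R0Q140.q2959_2) (q_cons (Vale.Agent.P032.Lt.q R0Q140.q2959_3) (q_cons (Vale.Agent.P032.Lt.q R0Q140.q2959_4) (q_cons (Vale.Agent.P032.Lt.q R0Q140.q2959_5) q_nil)))))))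

theorem p2960 : Pat 73 73 TBm TCm (CB.map Fm) R0Q140.P2960 R0Q140.I2960 := Vale.Agent.P032.Lt.pat_eq (E' := R0Q140.E) eB (pat_step (by decide +kernel) (q_cons (Vale.Agent.P032.Lt.q R0Q140.q2960_0) (q_cons (Vale.Agent.P032.Lt.q R0Q140.q2960_1) (q_cons (Vale.Agent.P032.Lt.q R0Q140.q2960_2) (q_cons (Vale.Agent.P032.Lt.q R0Q140.q2960_3) (q_cons (Vale.Agent.P032.Lt.q R0Q140.q2960_4) q_nil))))))

theorem p2961 : Pat 73 73 TBm TCm (CB.map Fm) R0Q140.P2961 R0Q140.I2961 := Vale.Agent.P032.Lt.pat_eq (E' := R0Q140.E) eB (pat_step (by decide +kernel) (q_cons (Vale.Agent.P032.Lt.q R0Q140.q2961_0) (q_cons (Vale.Agent.P032.Lt.q R0Q140.q2961_1) (q_cons (Vale.Agent.P032.Lt.q R0Q140.q2961_2) (q_cons (Vale.Agent.P032.Lt.q R0Q140.q2961_3) q_nil)))))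

theorem p2962 : Pat 73 73 TBm TCm (CB.map Fm) R0Q140.P2962 R0Q140.I2962 := Vale.Agent.P032.Lt.pat_eq (E' := R0Q140.E) eB (pat_step (by decide +kernel) (q_cons (Vale.Agent.P032.Lt.q R0Q140.q2962_0) q_nil))

theorem p2963 : Pat 73 73 TBm TCm (CB.map Fm) R0Q140.P2963 R0Q140.I2963 := Vale.Agent.P032.Lt.pat_eq (E' := R0Q140.E) eB (pat_step (by decide +kernel) (q_cons (Vale.Agent.P032.Lt.q R0Q140.q2963_0) (q_cons (Vale.Agent.P032.Lt.q R0Q140.q2963_1) (q_cons (Vale.Agent.P032.Lt.q R0Q140.q2963_2) (q_cons (Vale.Agent.P032.Lt.q R0Q140.q2963_3) (q_cons (Vale.Agent.P032.Lt.q R0Q140.q2963_4) (q_cons (Vale.Agent.P032.Lt.q R0Q140.q2963_5) (q_cons (Vale.Agent.P032.Lt.q R0Q140.q2963_6) (q_cons (Vale.Agent.P032.Lt.q R0Q140.q2963_7) (q_cons (Vale.Agent.P032.Lt.q R0Q140.q2963_8) (q_cons (Vale.Agent.P032.Lt.q R0Q140.q2963_9) (q_cons (Vale.Agent.P032.Lt.q R0Q140.q2963_10)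 (q_cons (Vale.Agent.P032.Lt.q R0Q140.q2963_11) (q_cons (Vale.Agent.P032.Lt.q R0Q140.q2963_12) (q_cons (Vale.Agent.P032.Lt.q R0Q140.q2963_13) (q_cons (Vale.Agent.P032.Lt.q R0Q140.q2963_14) (q_cons (Vale.Agent.P032.Lt.q R0Q140.q2963_15) (q_cons (Vale.Agent.P032.Lt.q R0Q140.q2963_16) (q_cons (Vale.Agent.P032.Lt.q R0Q140.q2963_17) q_nil)))))))))))))))))))

theorem p2964 : Pat 73 73 TBm TCm (CB.map Fm) R0Q140.P2964 R0Q140.I2964 := Vale.Agent.P032.Lt.pat_eq (E' := R0Q140.E) eB (pat_step (by decide +kernel) (q_cons (Vale.Agent.P032.Lt.q R0Q140.q2964_0) (q_cons (Vale.Agent.P032.Lt.q R0Q140.q2964_1) (q_cons (Vale.Agent.P032.Lt.q R0Q140.q2964_2) (q_cons (Vale.Agent.P032.Lt.q R0Q140.q2964_3) (q_cons (Vale.Agent.P032.Lt.q R0Q140.q2964_4) (q_cons (Vale.Agent.P032.Lt.q R0Q140.q2964_5) (q_cons (Vale.Agent.P032.Lt.q R0Q140.q2964_6) (q_cons (Vale.Agent.P032.Lt.q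 R0Q140.q2964_7) (q_cons (Vale.Agent.P032.Lt.q R0Q140.q2964_8) (q_cons (Vale.Agent.P032.Lt.q R0Q140.q2964_9) q_nil)))))))))))

theorem p2965 : Pat 73 73 TBm TCm (CB.map Fm) R0Q140.P2965 R0Q140.I2965 := Vale.Agent.P032.Lt.pat_eq (E' := R0Q140.E) eB (pat_step (by decide +kernel) (q_cons (Vale.Agent.P032.Lt.q R0Q140.q2965_0) (q_cons (Vale.Agent.P032.Lt.q R0Q140.q2965_1) (q_cons (Vale.Agent.P032.Lt.q R0Q140.q2965_2) (q_cons (Vale.Agent.P032.Lt.q R0Q140.q2965_3) (q_cons (Vale.Agent.P032.Lt.q R0Q140.q2965_4) (q_cons (Vale.Agent.P032.Lt.q R0Q140.q2965_5) (q_cons (Vale.Agent.P032.Lt.q R0Q140.q2965_6) (q_cons (Vale.Agent.P032.Lt.q R0Q140.q2965_7) q_nil)))))))))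

theorem p2966 : Pat 73 73 TBm TCm (CB.map Fm) R0Q140.P2966 R0Q140.I2966 := Vale.Agent.P032.Lt.pat_eq (E' := R0Q140.E) eB (pat_step (by decide +kernel) (q_cons (Vale.Agent.P032.Lt.q R0Q140.q2966_0) (q_cons (Vale.Agent.P032.Lt.q R0Q140.q2966_1) (q_cons (Vale.Agent.P032.Lt.q R0Q140.q2966_2) q_nil))))

theorem p2967 : Pat 73 73 TBm TCm (CB.map Fm) R0Q140.P2967 R0Q140.I2967 := Vale.Agent.P032.Lt.pat_eq (E' := R0Q140.E) eB (pat_step (by decide +kernel) (q_cons (Vale.Agent.P032.Lt.q R0Q140.q2967_0) (q_cons (Vale.Agent.P032.Lt.q R0Q140.q2967_1) (q_cons (Vale.Agent.P032.Lt.q R0Q140.q2967_2) q_nil))))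

theorem p2968 : Pat 73 73 TBm TCm (CB.map Fm) R0Q140.P2968 R0Q140.I2968 := Vale.Agent.P032.Lt.pat_eq (E' := R0Q140.E) eB (pat_step (by decide +kernel) (q_cons (Vale.Agent.P032.Lt.q R0Q140.q2968_0) (q_cons (Vale.Agent.P032.Lt.q R0Q140.q2968_1) (q_cons (Vale.Agent.P032.Lt.q R0Q140.q2968_2) q_nil))))

theorem p2969 : Pat 73 73 TBm TCm (CB.map Fm) R0Q141.P2969 R0Q141.I2969 := Vale.Agent.P032.Lt.pat_eq (E' := R0Q141.E) eB (pat_step (by decide +kernel) (q_cons (Vale.Agent.P032.Lt.q R0Q141.q2969_0) q_nil))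

theorem p2970 : Pat 73 73 TBm TCm (CB.map Fm) R0Q141.P2970 R0Q141.I2970 := Vale.Agent.P032.Lt.pat_eq (E' := R0Q141.E) eB (pat_step (by decide +kernel) (q_cons (Vale.Agent.P032.Lt.q R0Q141.q2970_0) (q_cons (Vale.Agent.P032.Lt.q R0Q141.q2970_1) (q_cons (Vale.Agent.P032.Lt.q R0Q141.q2970_2) (q_cons (Vale.Agent.P032.Lt.q R0Q141.q2970_3) q_nil)))))

theorem p2971 : Pat 73 73 TBm TCm (CB.map Fm) R0Q141.P2971 R0Q141.I2971 := Vale.Agent.P032.Lt.pat_eq (E' := R0Q141.E) eB (pat_step (by decide +kernel) (q_cons (Vale.Agent.P032.Lt.q R0Q141.q2971_0) (q_cons (Vale.Agent.P032.Lt.q R0Q141.q2971_1) (q_cons (Vale.Agent.P032.Lt.q R0Q141.q2971_2) (q_cons (Vale.Agent.P032.Lt.q R0Q141.q2971_3) q_nil)))))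

theorem p2972 : Pat 73 73 TBm TCm (CB.map Fm) R0Q141.P2972 R0Q141.I2972 := Vale.Agent.P032.Lt.pat_eq (E' := R0Q141.E) eB (pat_step (by decide +kernel) (q_cons (Vale.Agent.P032.Lt.q R0Q141.q2972_0) (q_cons (Vale.Agent.P032.Lt.q R0Q141.q2972_1) (q_cons (Vale.Agent.P032.Lt.q R0Q141.q2972_2) (q_cons (Vale.Agent.P032.Lt.q R0Q141.q2972_3) (q_cons (Vale.Agent.P032.Lt.q R0Q141.q2972_4) (q_cons (Vale.Agent.P032.Lt.q R0Q141.q2972_5) (q_cons (Vale.Agent.P032.Lt.q R0Q141.q2972_6) q_nil))))))))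

theorem p2973 : Pat 73 73 TBm TCm (CB.map Fm) R0Q141.P2973 R0Q141.I2973 := Vale.Agent.P032.Lt.pat_eq (E' := R0Q141.E) eB (pat_step (by decide +kernel) (q_cons (Vale.Agent.P032.Lt.q R0Q141.q2973_0) q_nil))

theorem p2974 : Pat 73 73 TBm TCm (CB.map Fm) R0Q141.P2974 R0Q141.I2974 := Vale.Agent.P032.Lt.pat_eq (E' := R0Q141.E) eB (pat_step (by decide +kernel) (q_cons (Vale.Agent.P032.Lt.q R0Q141.q2974_0) q_nil))

theorem p2975 : Pat 73 73 TBm TCm (CB.map Fm) R0Q141.P2975 R0Q141.I2975 := Vale.Agent.P032.Lt.pat_eq (E' := R0Q141.E) eB (pat_step (by decide +kernel) (q_cons (Vale.Agent.P032.Lt.q R0Q141.q2975_0) q_nil))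

theorem p2976 : Pat 73 73 TBm TCm (CB.map Fm) R0Q141.P2976 R0Q141.I2976 := Vale.Agent.P032.Lt.pat_eq (E' := R0Q141.E) eB (pat_step (by decide +kernel) (q_cons (Vale.Agent.P032.Lt.q R0Q141.q2976_0) (q_cons (Vale.Agent.P032.Lt.q R0Q141.q2976_1) (q_cons (Vale.Agent.P032.Lt.q R0Q141.q2976_2) (q_cons (Vale.Agent.P032.Lt.q R0Q141.q2976_3) (q_cons (Vale.Agent.P032.Lt.q R0Q141.q2976_4) (q_cons (Vale.Agent.P032.Lt.q R0Q141.q2976_5) (q_cons (Vale.Agent.P032.Lt.q R0Q141.q2976_6) (q_cons (Vale.Agent.P032.Lt.q R0Q141.q2976_7) (q_cons (Vale.Agent.P032.Lt.q R0Q141.q2976_8) (q_cons (Vale.Agent.P032.Lt.q R0Q141.q2976_9) (q_cons (Vale.Agent.P032.Lt.q R0Q141.q2976_10) (q_cons (Vale.Agent.P032.Lt.q R0Q141.q2976_11) (q_cons (Vale.Agent.P032.Lt.q R0Q141.q2976_12) (q_cons (Vale.Agent.P032.Lt.q R0Q141.q2976_13) (q_cons (Vale.Agent.P032.Lt.q R0Q141.q2976_14) q_nil))))))))))))))))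

theorem p2977 : Pat 73 73 TBm TCm (CB.map Fm) R0Q141.P2977 R0Q141.I2977 := Vale.Agent.P032.Lt.pat_eq (E' := R0Q141.E) eB (pat_step (by decide +kernel) (q_cons (Vale.Agent.P032.Lt.q R0Q141.q2977_0) (q_cons (Vale.Agent.P032.Lt.q R0Q141.q2977_1) (q_cons (Vale.Agent.P032.Lt.q R0Q141.q2977_2) (q_cons (Vale.Agent.P032.Lt.q R0Q141.q2977_3) (q_cons (Vale.Agent.P032.Lt.q R0Q141.q2977_4) q_nil))))))

theorem p2978 : Pat 73 73 TBm TCm (CB.map Fm) R0Q141.P2978 R0Q141.I2978 := Vale.Agent.P032.Lt.pat_eq (E' := R0Q141.E) eB (pat_step (by decide +kernel) (q_cons (Vale.Agent.P032.Lt.q R0Q141.q2978_0) (q_cons (Vale.Agent.P032.Lt.q R0Q141.q2978_1) (q_cons (Vale.Agent.P032.Lt.q R0Q141.q2978_2) (q_cons (Vale.Agent.P032.Lt.q R0Q141.q2978_3) (q_cons (Vale.Agent.P032.Lt.q R0Q141.q2978_4) (q_cons (Vale.Agent.P032.Lt.q R0Q141.q2978_5) (q_cons (Vale.Agent.P032.Lt.q R0Q141.q2978_6)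 (q_cons (Vale.Agent.P032.Lt.q R0Q141.q2978_7) (q_cons (Vale.Agent.P032.Lt.q R0Q141.q2978_8) (q_cons (Vale.Agent.P032.Lt.q R0Q141.q2978_9) (q_cons (Vale.Agent.P032.Lt.q R0Q141.q2978_10) q_nil))))))))))))

theorem p2979 : Pat 73 73 TBm TCm (CB.map Fm) R0Q141.P2979 R0Q141.I2979 := Vale.Agent.P032.Lt.pat_eq (E' := R0Q141.E) eB (pat_step (by decide +kernel) (q_cons (Vale.Agent.P032.Lt.q R0Q141.q2979_0) (q_cons (Vale.Agent.P032.Lt.q R0Q141.q2979_1) (q_cons (Vale.Agent.P032.Lt.q R0Q141.q2979_2) (q_cons (Vale.Agent.P032.Lt.q R0Q141.q2979_3) (q_cons (Vale.Agent.P032.Lt.q R0Q141.q2979_4) (q_cons (Vale.Agent.P032.Lt.q R0Q141.q2979_5) (q_cons (Vale.Agent.P032.Lt.q R0Q141.q2979_6) (q_cons (Vale.Agent.P032.Lt.q R0Q141.q2979_7) (q_cons (Vale.Agent.P032.Lt.q R0Q141.q2979_8) (q_cons (Vale.Agent.P032.Lt.q R0Q141.q2979_9) (q_cons (Vale.Agent.P032.Lt.q R0Q141.q2979_10)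 (q_cons (Vale.Agent.P032.Lt.q R0Q141.q2979_11) (q_cons (Vale.Agent.P032.Lt.q R0Q141.q2979_12) (q_cons (Vale.Agent.P032.Lt.q R0Q141.q2979_13) (q_cons (Vale.Agent.P032.Lt.q R0Q141.q2979_14) (q_cons (Vale.Agent.P032.Lt.q R0Q141.q2979_15) (q_cons (Vale.Agent.P032.Lt.q R0Q141.q2979_16) (q_cons (Vale.Agent.P032.Lt.q R0Q141.q2979_17) (q_cons (Vale.Agent.P032.Lt.q R0Q141.q2979_18) (q_cons (Vale.Agent.P032.Lt.q R0Q141.q2979_19) (q_cons (Vale.Agent.P032.Lt.q R0Q141.q2979_20) (q_cons (Vale.Agent.P032.Lt.q R0Q141.q2979_21) q_nil)))))))))))))))))))))))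

theorem p2980 : Pat 73 73 TBm TCm (CB.map Fm) R0Q141.P2980 R0Q141.I2980 := Vale.Agent.P032.Lt.pat_eq (E' := R0Q141.E) eB (pat_step (by decide +kernel) (q_cons (Vale.Agent.P032.Lt.q R0Q141.q2980_0) (q_cons (Vale.Agent.P032.Lt.q R0Q141.q2980_1) (q_cons (Vale.Agent.P032.Lt.q R0Q141.q2980_2) q_nil))))

theorem p2981 : Pat 73 73 TBm TCm (CB.map Fm) R0Q141.P2981 R0Q141.I2981 := Vale.Agent.P032.Lt.pat_eq (E' := R0Q141.E) eB (pat_step (by decide +kernel) (q_cons (Vale.Agent.P032.Lt.q R0Q141.q2981_0) (q_cons (Vale.Agent.P032.Lt.q R0Q141.q2981_1) (q_cons (Vale.Agent.P032.Lt.q R0Q141.q2981_2) (q_cons (Vale.Agent.P032.Lt.q R0Q141.q2981_3) q_nil)))))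

theorem p2982 : Pat 73 73 TBm TCm (CB.map Fm) R0Q141.P2982 R0Q141.I2982 := Vale.Agent.P032.Lt.pat_eq (E' := R0Q141.E) eB (pat_step (by decide +kernel) (q_cons (Vale.Agent.P032.Lt.q R0Q141.q2982_0) (q_cons (Vale.Agent.P032.Lt.q R0Q141.q2982_1) (q_cons (Vale.Agent.P032.Lt.q R0Q141.q2982_2) (q_cons (Vale.Agent.P032.Lt.q R0Q141.q2982_3) (q_cons (Vale.Agent.P032.Lt.q R0Q141.q2982_4) (q_cons (Vale.Agent.P032.Lt.q R0Q141.q2982_5) (q_cons (Vale.Agent.P032.Lt.q R0Q141.q2982_6) (q_cons (Vale.Agent.P032.Lt.q R0Q141.q2982_7) q_nil)))))))))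

theorem p2983 : Pat 73 73 TBm TCm (CB.map Fm) R0Q141.P2983 R0Q141.I2983 := Vale.Agent.P032.Lt.pat_eq (E' := R0Q141.E) eB (pat_step (by decide +kernel) (q_cons (Vale.Agent.P032.Lt.q R0Q141.q2983_0) q_nil))

theorem p2984 : Pat 73 73 TBm TCm (CB.map Fm) R0Q141.P2984 R0Q141.I2984 := Vale.Agent.P032.Lt.pat_eq (E' := R0Q141.E) eB (pat_step (by decide +kernel) (q_cons (Vale.Agent.P032.Lt.q R0Q141.q2984_0) (q_cons (Vale.Agent.P032.Lt.q R0Q141.q2984_1) q_nil)))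

def C2985 : List ℕ := [0, 4, 8, 12, 16, 20, 24, 617473]
theorem p2985 : Pat 73 73 TBm TCm (C2985.map Fm) R0Q141.P2985 R0Q141.I2985 := Vale.Agent.P032.Lt.pat_eq (E' := R0Q141.E2985) (by decide +kernel) (pat_step (by decide +kernel) (q_cons (Vale.Agent.P032.Lt.q R0Q141.q2985_0) q_nil))

theorem p2986 : Pat 73 73 TBm TCm (CB.map Fm) R0Q141.P2986 R0Q141.I2986 := Vale.Agent.P032.Lt.pat_eq (E' := R0Q141.E) eB (pat_step (by decide +kernel) (q_cons (Vale.Agent.P032.Lt.q R0Q141.q2986_0) (q_cons (Vale.Agent.P032.Lt.q R0Q141.q2986_1) q_nil)))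

def C2987 : List ℕ := [0, 4, 8, 12, 16, 20, 24, 82945, 214017, 344065, 475137, 606209, 737281]
theorem p2987 : Pat 73 73 TBm TCm (C2987.map Fm) R0Q141.P2987 R0Q141.I2987 := Vale.Agent.P032.Lt.pat_eq (E' := R0Q141.E2987) (by decide +kernel) (pat_step (by decide +kernel) (q_cons (Vale.Agent.P032.Lt.q R0Q141.q2987_0) q_nil))

theorem p2988 : Pat 73 73 TBm TCm (CB.map Fm) R0Q142.P2988 R0Q142.I2988 := Vale.Agent.P032.Lt.pat_eq (E' := R0Q142.E) eB (pat_step (by decide +kernel) (q_cons (Vale.Agent.P032.Lt.q R0Q142.q2988_0) q_nil))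

def C2989 : List ℕ := [0, 4, 8, 12, 16, 20, 24, 86017, 89089, 91137, 220161, 344065, 351233, 480257, 606209, 737281, 741377]
theorem p2989 : Pat 73 73 TBm TCm (C2989.map Fm) R0Q143.P2989 R0Q143.I2989 := Vale.Agent.P032.Lt.pat_eq (E' := R0Q143.E2989) (by decide +kernel) (pat_step (by decide +kernel) (q_cons (Vale.Agent.P032.Lt.q R0Q143.q2989_0) q_nil))

theorem p2990 : Pat 73 73 TBm TCm (CB.map Fm) R0Q143.P2990 R0Q143.I2990 := Vale.Agent.P032.Lt.pat_eq (E' := R0Q143.E) eB (pat_step (by decide +kernel) (q_cons (Vale.Agent.P032.Lt.q R0Q143.q2990_0) (q_cons (Vale.Agent.P032.Lt.q R0Q143.q2990_1) (q_cons (Vale.Agent.P032.Lt.q R0Q143.q2990_2) (q_cons (Vale.Agent.P032.Lt.q R0Q143.q2990_3) (q_cons (Vale.Agent.P032.Lt.q R0Q143.q2990_4) (q_cons (Vale.Agent.P032.Lt.q R0Q143.q2990_5) (q_cons (Vale.Agent.P032.Lt.q R0Q143.q2990_6) q_nil))))))))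

theorem p2991 : Pat 73 73 TBm TCm (CB.map Fm) R0Q143.P2991 R0Q143.I2991 := Vale.Agent.P032.Lt.pat_eq (E' := R0Q143.E) eB (pat_step (by decide +kernel) (q_cons (Vale.Agent.P032.Lt.q R0Q143.q2991_0) (q_cons (Vale.Agent.P032.Lt.q R0Q143.q2991_1) q_nil)))

theorem p2992 : Pat 73 73 TBm TCm (CB.map Fm) R0Q143.P2992 R0Q143.I2992 := Vale.Agent.P032.Lt.pat_eq (E' := R0Q143.E) eB (pat_step (by decide +kernel) (q_cons (Vale.Agent.P032.Lt.q R0Q143.q2992_0) (q_cons (Vale.Agent.P032.Lt.q R0Q143.q2992_1) (q_cons (Vale.Agent.P032.Lt.q R0Q143.q2992_2) q_nil))))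

theorem p2993 : Pat 73 73 TBm TCm (CB.map Fm) R0Q143.P2993 R0Q143.I2993 := Vale.Agent.P032.Lt.pat_eq (E' := R0Q143.E) eB (pat_step (by decide +kernel) (q_cons (Vale.Agent.P032.Lt.q R0Q143.q2993_0) (q_cons (Vale.Agent.P032.Lt.q R0Q143.q2993_1) (q_cons (Vale.Agent.P032.Lt.q R0Q143.q2993_2) (q_cons (Vale.Agent.P032.Lt.q R0Q143.q2993_3) (q_cons (Vale.Agent.P032.Lt.q R0Q143.q2993_4) q_nil))))))

theorem p2994 : Pat 73 73 TBm TCm (CB.map Fm) R0Q143.P2994 R0Q143.I2994 := Vale.Agent.P032.Lt.pat_eq (E' := R0Q143.E) eB (pat_step (by decide +kernel) (q_cons (Vale.Agent.P032.Lt.q R0Q143.q2994_0) (q_cons (Vale.Agent.P032.Lt.q R0Q143.q2994_1) (q_cons (Vale.Agent.P032.Lt.q R0Q143.q2994_2) (q_cons (Vale.Agent.P032.Lt.q R0Q143.q2994_3) (q_cons (Vale.Agent.P032.Lt.q R0Q143.q2994_4) q_nil))))))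

theorem p2995 : Pat 73 73 TBm TCm (CB.map Fm) R0Q143.P2995 R0Q143.I2995 := Vale.Agent.P032.Lt.pat_eq (E' := R0Q143.E) eB (pat_step (by decide +kernel) (q_cons (Vale.Agent.P032.Lt.q R0Q143.q2995_0) (q_cons (Vale.Agent.P032.Lt.q R0Q143.q2995_1) q_nil)))

theorem p2996 : Pat 73 73 TBm TCm (CB.map Fm) R0Q143.P2996 R0Q143.I2996 := Vale.Agent.P032.Lt.pat_eq (E' := R0Q143.E) eB (pat_step (by decide +kernel) (q_cons (Vale.Agent.P032.Lt.q R0Q143.q2996_0) (q_cons (Vale.Agent.P032.Lt.q R0Q143.q2996_1) (q_cons (Vale.Agent.P032.Lt.q R0Q143.q2996_2) q_nil))))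

theorem p2997 : Pat 73 73 TBm TCm (CB.map Fm) R0Q143.P2997 R0Q143.I2997 := Vale.Agent.P032.Lt.pat_eq (E' := R0Q143.E) eB (pat_step (by decide +kernel) (q_cons (Vale.Agent.P032.Lt.q R0Q143.q2997_0) q_nil))

theorem p2998 : Pat 73 73 TBm TCm (CB.map Fm) R0Q143.P2998 R0Q143.I2998 := Vale.Agent.P032.Lt.pat_eq (E' := R0Q143.E) eB (pat_step (by decide +kernel) (q_cons (Vale.Agent.P032.Lt.q R0Q143.q2998_0) (q_cons (Vale.Agent.P032.Lt.q R0Q143.q2998_1) (q_cons (Vale.Agent.P032.Lt.q R0Q143.q2998_2) (q_cons (Vale.Agent.P032.Lt.q R0Q143.q2998_3) q_nil)))))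

theorem p2999 : Pat 73 73 TBm TCm (CB.map Fm) R0Q143.P2999 R0Q143.I2999 := Vale.Agent.P032.Lt.pat_eq (E' := R0Q143.E) eB (pat_step (by decide +kernel) (q_cons (Vale.Agent.P032.Lt.q R0Q143.q2999_0) q_nil))

theorem p3000 : Pat 73 73 TBm TCm (CB.map Fm) R0Q143.P3000 R0Q143.I3000 := Vale.Agent.P032.Lt.pat_eq (E' := R0Q143.E) eB (pat_step (by decide +kernel) (q_cons (Vale.Agent.P032.Lt.q R0Q143.q3000_0) (q_cons (Vale.Agent.P032.Lt.q R0Q143.q3000_1) (q_cons (Vale.Agent.P032.Lt.q R0Q143.q3000_2) (q_cons (Vale.Agent.P032.Lt.q R0Q143.q3000_3) (q_cons (Vale.Agent.P032.Lt.q R0Q143.q3000_4) (q_cons (Vale.Agent.P032.Lt.q R0Q143.q3000_5) (q_cons (Vale.Agent.P032.Lt.q R0Q143.q3000_6) (q_cons (Vale.Agent.P032.Lt.q R0Q143.q3000_7) q_nil)))))))))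

theorem p3001 : Pat 73 73 TBm TCm (CB.map Fm) R0Q143.P3001 R0Q143.I3001 := Vale.Agent.P032.Lt.pat_eq (E' := R0Q143.E) eB (pat_step (by decide +kernel) (q_cons (Vale.Agent.P032.Lt.q R0Q143.q3001_0) (q_cons (Vale.Agent.P032.Lt.q R0Q143.q3001_1) (q_cons (Vale.Agent.P032.Lt.q R0Q143.q3001_2) (q_cons (Vale.Agent.P032.Lt.q R0Q143.q3001_3) (q_cons (Vale.Agent.P032.Lt.q R0Q143.q3001_4) (q_cons (Vale.Agent.P032.Lt.q R0Q143.q3001_5) (q_cons (Vale.Agent.P032.Lt.q R0Q143.q3001_6) (q_cons (Vale.Agent.P032.Lt.q R0Q143.q3001_7) (q_cons (Vale.Agent.P032.Lt.q R0Q143.q3001_8) (q_cons (Vale.Agent.P032.Lt.q R0Q143.q3001_9) (q_cons (Vale.Agent.P032.Lt.q R0Q143.q3001_10) (q_cons (Vale.Agent.P032.Lt.q R0Q143.q3001_11) (q_cons (Vale.Agent.P032.Lt.q R0Q143.q3001_12) (q_cons (Vale.Agent.P032.Lt.q R0Q143.q3001_13) (q_cons (Vale.Agent.P032.Lt.q R0Q143.q3001_14) (q_cons (Vale.Agent.P032.Lt.q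 R0Q143.q3001_15) (q_cons (Vale.Agent.P032.Lt.q R0Q143.q3001_16) (q_cons (Vale.Agent.P032.Lt.q R0Q143.q3001_17) (q_cons (Vale.Agent.P032.Lt.q R0Q143.q3001_18) (q_cons (Vale.Agent.P032.Lt.q R0Q143.q3001_19) (q_cons (Vale.Agent.P032.Lt.q R0Q143.q3001_20) (q_cons (Vale.Agent.P032.Lt.q R0Q143.q3001_21) q_nil)))))))))))))))))))))))

theorem p3002 : Pat 73 73 TBm TCm (CB.map Fm) R0Q143.P3002 R0Q143.I3002 := Vale.Agent.P032.Lt.pat_eq (E' := R0Q143.E) eB (pat_step (by decide +kernel) (q_cons (Vale.Agent.P032.Lt.q R0Q143.q3002_0) (q_cons (Vale.Agent.P032.Lt.q R0Q143.q3002_1) (q_cons (Vale.Agent.P032.Lt.q R0Q143.q3002_2) (q_cons (Vale.Agent.P032.Lt.q R0Q143.q3002_3) (q_cons (Vale.Agent.P032.Lt.q R0Q143.q3002_4) (q_cons (Vale.Agent.P032.Lt.q R0Q143.q3002_5) (q_cons (Vale.Agent.P032.Lt.q R0Q143.q3002_6) (q_cons (Vale.Agent.P032.Lt.q R0Q143.q3002_7) (q_cons (Vale.Agent.P032.Lt.q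 R0Q143.q3002_8) (q_cons (Vale.Agent.P032.Lt.q R0Q143.q3002_9) q_nil)))))))))))

theorem p3003 : Pat 73 73 TBm TCm (CB.map Fm) R0Q143.P3003 R0Q143.I3003 := Vale.Agent.P032.Lt.pat_eq (E' := R0Q143.E) eB (pat_step (by decide +kernel) (q_cons (Vale.Agent.P032.Lt.q R0Q143.q3003_0) (q_cons (Vale.Agent.P032.Lt.q R0Q143.q3003_1) q_nil)))

theorem p3004 : Pat 73 73 TBm TCm (CB.map Fm) R0Q143.P3004 R0Q143.I3004 := Vale.Agent.P032.Lt.pat_eq (E' := R0Q143.E) eB (pat_step (by decide +kernel) (q_cons (Vale.Agent.P032.Lt.q R0Q143.q3004_0) q_nil))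

theorem p3005 : Pat 73 73 TBm TCm (CB.map Fm) R0Q143.P3005 R0Q143.I3005 := Vale.Agent.P032.Lt.pat_eq (E' := R0Q143.E) eB (pat_step (by decide +kernel) (q_cons (Vale.Agent.P032.Lt.q R0Q143.q3005_0) (q_cons (Vale.Agent.P032.Lt.q R0Q143.q3005_1) (q_cons (Vale.Agent.P032.Lt.q R0Q143.q3005_2) (q_cons (Vale.Agent.P032.Lt.q R0Q143.q3005_3) (q_cons (Vale.Agent.P032.Lt.q R0Q143.q3005_4) (q_cons (Vale.Agent.P032.Lt.q R0Q143.q3005_5) (q_cons (Vale.Agent.P032.Lt.q R0Q143.q3005_6) (q_cons (Vale.Agent.P032.Lt.q R0Q143.q3005_7) (q_cons (Vale.Agent.P032.Lt.q R0Q143.q3005_8) (q_cons (Vale.Agent.P032.Lt.q R0Q143.q3005_9) (q_cons (Vale.Agent.P032.Lt.q R0Q143.q3005_10) q_nil))))))))))))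

def C3006 : List ℕ := [0, 4, 8, 12, 16, 20, 24, 82945, 345089, 475137, 738305]
theorem p3006 : Pat 73 73 TBm TCm (C3006.map Fm) R0Q143.P3006 R0Q143.I3006 := Vale.Agent.P032.Lt.pat_eq (E' := R0Q143.E3006) (by decide +kernel) (pat_step (by decide +kernel) (q_cons (Vale.Agent.P032.Lt.q R0Q143.q3006_0) (q_cons (Vale.Agent.P032.Lt.q R0Q143.q3006_1) (q_cons (Vale.Agent.P032.Lt.q R0Q143.q3006_2) (q_cons (Vale.Agent.P032.Lt.q R0Q143.q3006_3) (q_cons (Vale.Agent.P032.Lt.q R0Q143.q3006_4) (q_cons (Vale.Agent.P032.Lt.q R0Q143.q3006_5) (q_cons (Vale.Agent.P032.Lt.q R0Q143.q3006_6) (q_cons (Vale.Agent.P032.Lt.q R0Q143.q3006_7) (q_cons (Vale.Agent.P032.Lt.q R0Q143.q3006_8) (q_cons (Vale.Agent.P032.Lt.q R0Q143.q3006_9) (q_cons (Vale.Agent.P032.Lt.q R0Q143.q3006_10) (q_cons (Vale.Agent.P032.Lt.q R0Q143.q3006_11) (q_cons (Vale.Agent.P032.Lt.q R0Q143.q3006_12) (q_cons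 (Vale.Agent.P032.Lt.q R0Q143.q3006_13) (q_cons (Vale.Agent.P032.Lt.q R0Q143.q3006_14) (q_cons (Vale.Agent.P032.Lt.q R0Q143.q3006_15) (q_cons (Vale.Agent.P032.Lt.q R0Q143.q3006_16) (q_cons (Vale.Agent.P032.Lt.q R0Q143.q3006_17) (q_cons (Vale.Agent.P032.Lt.q R0Q143.q3006_18) (q_cons (Vale.Agent.P032.Lt.q R0Q143.q3006_19) (q_cons (Vale.Agent.P032.Lt.q R0Q143.q3006_20) (q_cons (Vale.Agent.P032.Lt.q R0Q143.q3006_21) (q_cons (Vale.Agent.P032.Lt.q R0Q143.q3006_22) (q_cons (Vale.Agent.P032.Lt.q R0Q143.q3006_23) (q_cons (Vale.Agent.P032.Lt.q R0Q143.q3006_24) (q_cons (Vale.Agent.P032.Lt.q R0Q143.q3006_25) (q_cons (Vale.Agent.P032.Lt.q R0Q143.q3006_26) (q_cons (Vale.Agent.P032.Lt.q R0Q143.q3006_27) (q_cons (Vale.Agent.P032.Lt.q R0Q143.q3006_28) (q_cons (Vale.Agent.P032.Lt.q R0Q143.q3006_29) (q_cons (Vale.Agent.P032.Lt.q R0Q143.q3006_30) (q_cons (Vale.Agent.P032.Lt.q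 R0Q143.q3006_31) (q_cons (Vale.Agent.P032.Lt.q R0Q143.q3006_32) (q_cons (Vale.Agent.P032.Lt.q R0Q143.q3006_33) (q_cons (Vale.Agent.P032.Lt.q R0Q143.q3006_34) (q_cons (Vale.Agent.P032.Lt.q R0Q143.q3006_35) (q_cons (Vale.Agent.P032.Lt.q R0Q143.q3006_36) (q_cons (Vale.Agent.P032.Lt.q R0Q143.q3006_37) (q_cons (Vale.Agent.P032.Lt.q R0Q143.q3006_38) (q_cons (Vale.Agent.P032.Lt.q R0Q143.q3006_39) (q_cons (Vale.Agent.P032.Lt.q R0Q143.q3006_40) (q_cons (Vale.Agent.P032.Lt.q R0Q143.q3006_41) (q_cons (Vale.Agent.P032.Lt.q R0Q143.q3006_42) (q_cons (Vale.Agent.P032.Lt.q R0Q143.q3006_43) (q_cons (Vale.Agent.P032.Lt.q R0Q143.q3006_44) (q_cons (Vale.Agent.P032.Lt.q R0Q143.q3006_45) (q_cons (Vale.Agent.P032.Lt.q R0Q143.q3006_46) (q_cons (Vale.Agent.P032.Lt.q R0Q143.q3006_47) (q_cons (Vale.Agent.P032.Lt.q R0Q143.q3006_48) (q_cons (Vale.Agent.P032.Lt.q R0Q143.q3006_49)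 (q_cons (Vale.Agent.P032.Lt.q R0Q143.q3006_50) (q_cons (Vale.Agent.P032.Lt.q R0Q143.q3006_51) (q_cons (Vale.Agent.P032.Lt.q R0Q143.q3006_52) q_nil))))))))))))))))))))))))))))))))))))))))))))))))))))))

theorem p3007 : Pat 73 73 TBm TCm (CB.map Fm) R0Q143.P3007 R0Q143.I3007 := Vale.Agent.P032.Lt.pat_eq (E' := R0Q143.E) eB (pat_step (by decide +kernel) (q_cons (Vale.Agent.P032.Lt.q R0Q143.q3007_0) (q_cons (Vale.Agent.P032.Lt.q R0Q143.q3007_1) (q_cons (Vale.Agent.P032.Lt.q R0Q143.q3007_2) (q_cons (Vale.Agent.P032.Lt.q R0Q143.q3007_3) (q_cons (Vale.Agent.P032.Lt.q R0Q143.q3007_4) q_nil))))))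

theorem p3008 : Pat 73 73 TBm TCm (CB.map Fm) R0Q143.P3008 R0Q143.I3008 := Vale.Agent.P032.Lt.pat_eq (E' := R0Q143.E) eB (pat_step (by decide +kernel) (q_cons (Vale.Agent.P032.Lt.q R0Q143.q3008_0) (q_cons (Vale.Agent.P032.Lt.q R0Q143.q3008_1) (q_cons (Vale.Agent.P032.Lt.q R0Q143.q3008_2) (q_cons (Vale.Agent.P032.Lt.q R0Q143.q3008_3) (q_cons (Vale.Agent.P032.Lt.q R0Q143.q3008_4) q_nil))))))

def C3009 : List ℕ := [0, 4, 8, 12, 16, 20, 24, 82945]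
theorem p3009 : Pat 73 73 TBm TCm (C3009.map Fm) R0Q144.P3009 R0Q144.I3009 := Vale.Agent.P032.Lt.pat_eq (E' := R0Q144.E3009) (by decide +kernel) (pat_step (by decide +kernel) (q_cons (Vale.Agent.P032.Lt.q R0Q144.q3009_0) (q_cons (Vale.Agent.P032.Lt.q R0Q144.q3009_1) (q_cons (Vale.Agent.P032.Lt.q R0Q144.q3009_2) (q_cons (Vale.Agent.P032.Lt.q R0Q144.q3009_3) (q_cons (Vale.Agent.P032.Lt.q R0Q144.q3009_4) (q_cons (Vale.Agent.P032.Lt.q R0Q144.q3009_5) (q_cons (Vale.Agent.P032.Lt.q R0Q144.q3009_6) (q_cons (Vale.Agent.P032.Lt.q R0Q144.q3009_7) (q_cons (Vale.Agent.P032.Lt.q R0Q144.q3009_8) (q_cons (Vale.Agent.P032.Lt.q R0Q144.q3009_9) (q_cons (Vale.Agent.P032.Lt.q R0Q144.q3009_10) (q_cons (Vale.Agent.P032.Lt.q R0Q144.q3009_11) (q_cons (Vale.Agent.P032.Lt.q R0Q144.q3009_12) (q_cons (Vale.Agent.P032.Lt.q R0Q144.q3009_13) (q_cons (Vale.Agent.P032.Lt.q R0Q144.q3009_14)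 (q_cons (Vale.Agent.P032.Lt.q R0Q144.q3009_15) (q_cons (Vale.Agent.P032.Lt.q R0Q144.q3009_16) (q_cons (Vale.Agent.P032.Lt.q R0Q144.q3009_17) (q_cons (Vale.Agent.P032.Lt.q R0Q144.q3009_18) (q_cons (Vale.Agent.P032.Lt.q R0Q144.q3009_19) (q_cons (Vale.Agent.P032.Lt.q R0Q144.q3009_20) (q_cons (Vale.Agent.P032.Lt.q R0Q144.q3009_21) (q_cons (Vale.Agent.P032.Lt.q R0Q144.q3009_22) (q_cons (Vale.Agent.P032.Lt.q R0Q144.q3009_23) (q_cons (Vale.Agent.P032.Lt.q R0Q144.q3009_24) (q_cons (Vale.Agent.P032.Lt.q R0Q144.q3009_25) (q_cons (Vale.Agent.P032.Lt.q R0Q144.q3009_26) (q_cons (Vale.Agent.P032.Lt.q R0Q144.q3009_27) (q_cons (Vale.Agent.P032.Lt.q R0Q144.q3009_28) (q_cons (Vale.Agent.P032.Lt.q R0Q144.q3009_29) (q_cons (Vale.Agent.P032.Lt.q R0Q144.q3009_30) (q_cons (Vale.Agent.P032.Lt.q R0Q144.q3009_31) (q_cons (Vale.Agent.P032.Lt.q R0Q144.q3009_32) (q_cons (Vale.Agent.P032.Lt.q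 R0Q144.q3009_33) (q_cons (Vale.Agent.P032.Lt.q R0Q144.q3009_34) q_nil))))))))))))))))))))))))))))))))))))

theorem p3010 : Pat 73 73 TBm TCm (CB.map Fm) R0Q144.P3010 R0Q144.I3010 := Vale.Agent.P032.Lt.pat_eq (E' := R0Q144.E) eB (pat_step (by decide +kernel) (q_cons (Vale.Agent.P032.Lt.q R0Q144.q3010_0) (q_cons (Vale.Agent.P032.Lt.q R0Q144.q3010_1) (q_cons (Vale.Agent.P032.Lt.q R0Q144.q3010_2) (q_cons (Vale.Agent.P032.Lt.q R0Q144.q3010_3) (q_cons (Vale.Agent.P032.Lt.q R0Q144.q3010_4) q_nil))))))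

def C3011 : List ℕ := [0, 4, 8, 12, 16, 20, 24, 84993, 212993, 606209, 737281]
theorem p3011 : Pat 73 73 TBm TCm (C3011.map Fm) R0Q144.P3011 R0Q144.I3011 := Vale.Agent.P032.Lt.pat_eq (E' := R0Q144.E3011) (by decide +kernel) (pat_step (by decide +kernel) (q_cons (Vale.Agent.P032.Lt.q R0Q144.q3011_0) (q_cons (Vale.Agent.P032.Lt.q R0Q144.q3011_1) (q_cons (Vale.Agent.P032.Lt.q R0Q144.q3011_2) (q_cons (Vale.Agent.P032.Lt.q R0Q144.q3011_3) (q_cons (Vale.Agent.P032.Lt.q R0Q144.q3011_4) (q_cons (Vale.Agent.P032.Lt.q R0Q144.q3011_5) (q_cons (Vale.Agent.P032.Lt.q R0Q144.q3011_6) q_nil))))))))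

theorem p3012 : Pat 73 73 TBm TCm (CB.map Fm) R0Q144.P3012 R0Q144.I3012 := Vale.Agent.P032.Lt.pat_eq (E' := R0Q144.E) eB (pat_step (by decide +kernel) (q_cons (Vale.Agent.P032.Lt.q R0Q144.q3012_0) q_nil))

theorem p3013 : Pat 73 73 TBm TCm (CB.map Fm) R0Q144.P3013 R0Q144.I3013 := Vale.Agent.P032.Lt.pat_eq (E' := R0Q144.E) eB (pat_step (by decide +kernel) (q_cons (Vale.Agent.P032.Lt.q R0Q144.q3013_0) q_nil))

theorem p3014 : Pat 73 73 TBm TCm (CB.map Fm) R0Q144.P3014 R0Q144.I3014 := Vale.Agent.P032.Lt.pat_eq (E' := R0Q144.E) eB (pat_step (by decide +kernel) (q_cons (Vale.Agent.P032.Lt.q R0Q144.q3014_0) q_nil))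

def C3015 : List ℕ := [0, 4, 8, 12, 16, 20, 24, 84993, 212993, 216065, 347137, 478209, 606209, 737281]
theorem p3015 : Pat 73 73 TBm TCm (C3015.map Fm) R0Q144.P3015 R0Q144.I3015 := Vale.Agent.P032.Lt.pat_eq (E' := R0Q144.E3015) (by decide +kernel) (pat_step (by decide +kernel) (q_cons (Vale.Agent.P032.Lt.q R0Q144.q3015_0) q_nil))

theorem p3016 : Pat 73 73 TBm TCm (CB.map Fm) R0Q144.P3016 R0Q144.I3016 := Vale.Agent.P032.Lt.pat_eq (E' := R0Q144.E) eB (pat_step (by decide +kernel) (q_cons (Vale.Agent.P032.Lt.q R0Q144.q3016_0) (q_cons (Vale.Agent.P032.Lt.q R0Q144.q3016_1) (q_cons (Vale.Agent.P032.Lt.q R0Q144.q3016_2) (q_cons (Vale.Agent.P032.Lt.q R0Q144.q3016_3) (q_cons (Vale.Agent.P032.Lt.q R0Q144.q3016_4) q_nil))))))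

def C3017 : List ℕ := [0, 4, 8, 12, 16, 20, 24, 745473]
theorem p3017 : Pat 73 73 TBm TCm (C3017.map Fm) R0Q144.P3017 R0Q144.I3017 := Vale.Agent.P032.Lt.pat_eq (E' := R0Q144.E3017) (by decide +kernel) (pat_step (by decide +kernel) (q_cons (Vale.Agent.P032.Lt.q R0Q144.q3017_0) (q_cons (Vale.Agent.P032.Lt.q R0Q144.q3017_1) (q_cons (Vale.Agent.P032.Lt.q R0Q144.q3017_2) (q_cons (Vale.Agent.P032.Lt.q R0Q144.q3017_3) (q_cons (Vale.Agent.P032.Lt.q R0Q144.q3017_4) (q_cons (Vale.Agent.P032.Lt.q R0Q144.q3017_5) (q_cons (Vale.Agent.P032.Lt.q R0Q144.q3017_6) (q_cons (Vale.Agent.P032.Lt.q R0Q144.q3017_7) (q_cons (Vale.Agent.P032.Lt.q R0Q144.q3017_8) (q_cons (Vale.Agent.P032.Lt.q R0Q144.q3017_9) (q_cons (Vale.Agent.P032.Lt.q R0Q144.q3017_10) (q_cons (Vale.Agent.P032.Lt.q R0Q144.q3017_11) (q_cons (Vale.Agent.P032.Lt.q R0Q144.q3017_12) q_nil))))))))))))))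

theorem p3018 : Pat 73 73 TBm TCm (CB.map Fm) R0Q144.P3018 R0Q144.I3018 := Vale.Agent.P032.Lt.pat_eq (E' := R0Q144.E) eB (pat_step (by decide +kernel) (q_cons (Vale.Agent.P032.Lt.q R0Q144.q3018_0) (q_cons (Vale.Agent.P032.Lt.q R0Q144.q3018_1) (q_cons (Vale.Agent.P032.Lt.q R0Q144.q3018_2) (q_cons (Vale.Agent.P032.Lt.q R0Q144.q3018_3) (q_cons (Vale.Agent.P032.Lt.q R0Q144.q3018_4) (q_cons (Vale.Agent.P032.Lt.q R0Q144.q3018_5) (q_cons (Vale.Agent.P032.Lt.q R0Q144.q3018_6) (q_cons (Vale.Agent.P032.Lt.q R0Q144.q3018_7) (q_cons (Vale.Agent.P032.Lt.q R0Q144.q3018_8) q_nil))))))))))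

def C3019 : List ℕ := [0, 4, 8, 12, 16, 20, 24, 606209, 737281]
theorem p3019 : Pat 73 73 TBm TCm (C3019.map Fm) R0Q144.P3019 R0Q144.I3019 := Vale.Agent.P032.Lt.pat_eq (E' := R0Q144.E3019) (by decide +kernel) (pat_step (by decide +kernel) (q_cons (Vale.Agent.P032.Lt.q R0Q144.q3019_0) q_nil))

theorem p3020 : Pat 73 73 TBm TCm (CB.map Fm) R0Q144.P3020 R0Q144.I3020 := Vale.Agent.P032.Lt.pat_eq (E' := R0Q144.E) eB (pat_step (by decide +kernel) (q_cons (Vale.Agent.P032.Lt.q R0Q144.q3020_0) (q_cons (Vale.Agent.P032.Lt.q R0Q144.q3020_1) (q_cons (Vale.Agent.P032.Lt.q R0Q144.q3020_2) (q_cons (Vale.Agent.P032.Lt.q R0Q144.q3020_3) (q_cons (Vale.Agent.P032.Lt.q R0Q144.q3020_4) (q_cons (Vale.Agent.P032.Lt.q R0Q144.q3020_5) (q_cons (Vale.Agent.P032.Lt.q R0Q144.q3020_6) (q_cons (Vale.Agent.P032.Lt.q R0Q144.q3020_7) (q_cons (Vale.Agent.P032.Lt.q R0Q144.q3020_8)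 (q_cons (Vale.Agent.P032.Lt.q R0Q144.q3020_9) (q_cons (Vale.Agent.P032.Lt.q R0Q144.q3020_10) (q_cons (Vale.Agent.P032.Lt.q R0Q144.q3020_11) (q_cons (Vale.Agent.P032.Lt.q R0Q144.q3020_12) (q_cons (Vale.Agent.P032.Lt.q R0Q144.q3020_13) (q_cons (Vale.Agent.P032.Lt.q R0Q144.q3020_14) (q_cons (Vale.Agent.P032.Lt.q R0Q144.q3020_15) (q_cons (Vale.Agent.P032.Lt.q R0Q144.q3020_16) (q_cons (Vale.Agent.P032.Lt.q R0Q144.q3020_17) (q_cons (Vale.Agent.P032.Lt.q R0Q144.q3020_18) (q_cons (Vale.Agent.P032.Lt.q R0Q144.q3020_19) q_nil)))))))))))))))))))))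

theorem p3021 : Pat 73 73 TBm TCm (CB.map Fm) R0Q144.P3021 R0Q144.I3021 := Vale.Agent.P032.Lt.pat_eq (E' := R0Q144.E) eB (pat_step (by decide +kernel) (q_cons (Vale.Agent.P032.Lt.q R0Q144.q3021_0) q_nil))

theorem p3022 : Pat 73 73 TBm TCm (CB.map Fm) R0Q144.P3022 R0Q144.I3022 := Vale.Agent.P032.Lt.pat_eq (E' := R0Q144.E) eB (pat_step (by decide +kernel) (q_cons (Vale.Agent.P032.Lt.q R0Q144.q3022_0) (q_cons (Vale.Agent.P032.Lt.q R0Q144.q3022_1) (q_cons (Vale.Agent.P032.Lt.q R0Q144.q3022_2) (q_cons (Vale.Agent.P032.Lt.q R0Q144.q3022_3) (q_cons (Vale.Agent.P032.Lt.q R0Q144.q3022_4) (q_cons (Vale.Agent.P032.Lt.q R0Q144.q3022_5) (q_cons (Vale.Agent.P032.Lt.q R0Q144.q3022_6) (q_cons (Vale.Agent.P032.Lt.q R0Q144.q3022_7) q_nil)))))))))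

theorem p3023 : Pat 73 73 TBm TCm (CB.map Fm) R0Q144.P3023 R0Q144.I3023 := Vale.Agent.P032.Lt.pat_eq (E' := R0Q144.E) eB (pat_step (by decide +kernel) (q_cons (Vale.Agent.P032.Lt.q R0Q144.q3023_0) (q_cons (Vale.Agent.P032.Lt.q R0Q144.q3023_1) (q_cons (Vale.Agent.P032.Lt.q R0Q144.q3023_2) q_nil))))

theorem p3024 : Pat 73 73 TBm TCm (CB.map Fm) R0Q144.P3024 R0Q144.I3024 := Vale.Agent.P032.Lt.pat_eq (E' := R0Q144.E) eB (pat_step (by decide +kernel) (q_cons (Vale.Agent.P032.Lt.q R0Q144.q3024_0) q_nil))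

theorem p3025 : Pat 73 73 TBm TCm (CB.map Fm) R0Q144.P3025 R0Q144.I3025 := Vale.Agent.P032.Lt.pat_eq (E' := R0Q144.E) eB (pat_step (by decide +kernel) (q_cons (Vale.Agent.P032.Lt.q R0Q144.q3025_0) (q_cons (Vale.Agent.P032.Lt.q R0Q144.q3025_1) (q_cons (Vale.Agent.P032.Lt.q R0Q144.q3025_2) (q_cons (Vale.Agent.P032.Lt.q R0Q144.q3025_3) (q_cons (Vale.Agent.P032.Lt.q R0Q144.q3025_4) (q_cons (Vale.Agent.P032.Lt.q R0Q144.q3025_5) (q_cons (Vale.Agent.P032.Lt.q R0Q144.q3025_6) (q_cons (Vale.Agent.P032.Lt.q R0Q144.q3025_7) (q_cons (Vale.Agent.P032.Lt.q R0Q144.q3025_8) q_nil))))))))))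

theorem p3026 : Pat 73 73 TBm TCm (CB.map Fm) R0Q144.P3026 R0Q144.I3026 := Vale.Agent.P032.Lt.pat_eq (E' := R0Q144.E) eB (pat_step (by decide +kernel) (q_cons (Vale.Agent.P032.Lt.q R0Q144.q3026_0) (q_cons (Vale.Agent.P032.Lt.q R0Q144.q3026_1) (q_cons (Vale.Agent.P032.Lt.q R0Q144.q3026_2) (q_cons (Vale.Agent.P032.Lt.q R0Q144.q3026_3) (q_cons (Vale.Agent.P032.Lt.q R0Q144.q3026_4) (q_cons (Vale.Agent.P032.Lt.q R0Q144.q3026_5) (q_cons (Vale.Agent.P032.Lt.q R0Q144.q3026_6) q_nil))))))))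

theorem p3027 : Pat 73 73 TBm TCm (CB.map Fm) R0Q145.P3027 R0Q145.I3027 := Vale.Agent.P032.Lt.pat_eq (E' := R0Q145.E) eB (pat_step (by decide +kernel) (q_cons (Vale.Agent.P032.Lt.q R0Q145.q3027_0) (q_cons (Vale.Agent.P032.Lt.q R0Q145.q3027_1) (q_cons (Vale.Agent.P032.Lt.q R0Q145.q3027_2) (q_cons (Vale.Agent.P032.Lt.q R0Q145.q3027_3) (q_cons (Vale.Agent.P032.Lt.q R0Q145.q3027_4) (q_cons (Vale.Agent.P032.Lt.q R0Q145.q3027_5) (q_cons (Vale.Agent.P032.Lt.q R0Q145.q3027_6) q_nil))))))))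

theorem p3028 : Pat 73 73 TBm TCm (CB.map Fm) R0Q145.P3028 R0Q145.I3028 := Vale.Agent.P032.Lt.pat_eq (E' := R0Q145.E) eB (pat_step (by decide +kernel) (q_cons (Vale.Agent.P032.Lt.q R0Q145.q3028_0) (q_cons (Vale.Agent.P032.Lt.q R0Q145.q3028_1) (q_cons (Vale.Agent.P032.Lt.q R0Q145.q3028_2) (q_cons (Vale.Agent.P032.Lt.q R0Q145.q3028_3) (q_cons (Vale.Agent.P032.Lt.q R0Q145.q3028_4) (q_cons (Vale.Agent.P032.Lt.q R0Q145.q3028_5) (q_cons (Vale.Agent.P032.Lt.q R0Q145.q3028_6) (q_cons (Vale.Agent.P032.Lt.q R0Q145.q3028_7) (q_cons (Vale.Agent.P032.Lt.q R0Q145.q3028_8) (q_cons (Vale.Agent.P032.Lt.q R0Q145.q3028_9) (q_cons (Vale.Agent.P032.Lt.q R0Q145.q3028_10) (q_cons (Vale.Agent.P032.Lt.q R0Q145.q3028_11) (q_cons (Vale.Agent.P032.Lt.q R0Q145.q3028_12) (q_cons (Vale.Agent.P032.Lt.q R0Q145.q3028_13) (q_cons (Vale.Agent.P032.Lt.q R0Q145.q3028_14) (q_cons (Vale.Agent.P032.Lt.q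 R0Q145.q3028_15) (q_cons (Vale.Agent.P032.Lt.q R0Q145.q3028_16) q_nil))))))))))))))))))

theorem p3029 : Pat 73 73 TBm TCm (CB.map Fm) R0Q145.P3029 R0Q145.I3029 := Vale.Agent.P032.Lt.pat_eq (E' := R0Q145.E) eB (pat_step (by decide +kernel) (q_cons (Vale.Agent.P032.Lt.q R0Q145.q3029_0) (q_cons (Vale.Agent.P032.Lt.q R0Q145.q3029_1) q_nil)))

theorem p3030 : Pat 73 73 TBm TCm (CB.map Fm) R0Q145.P3030 R0Q145.I3030 := Vale.Agent.P032.Lt.pat_eq (E' := R0Q145.E) eB (pat_step (by decide +kernel) (q_cons (Vale.Agent.P032.Lt.q R0Q145.q3030_0) q_nil))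

theorem p3031 : Pat 73 73 TBm TCm (CB.map Fm) R0Q145.P3031 R0Q145.I3031 := Vale.Agent.P032.Lt.pat_eq (E' := R0Q145.E) eB (pat_step (by decide +kernel) (q_cons (Vale.Agent.P032.Lt.q R0Q145.q3031_0) q_nil))

theorem p3032 : Pat 73 73 TBm TCm (CB.map Fm) R0Q145.P3032 R0Q145.I3032 := Vale.Agent.P032.Lt.pat_eq (E' := R0Q145.E) eB (pat_step (by decide +kernel) (q_cons (Vale.Agent.P032.Lt.q R0Q145.q3032_0) q_nil))

def C3033 : List ℕ := [0, 4, 8, 12, 16, 20, 24, 82945, 606209, 737281]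
theorem p3033 : Pat 73 73 TBm TCm (C3033.map Fm) R0Q145.P3033 R0Q145.I3033 := Vale.Agent.P032.Lt.pat_eq (E' := R0Q145.E3033) (by decide +kernel) (pat_step (by decide +kernel) (q_cons (Vale.Agent.P032.Lt.q R0Q145.q3033_0) q_nil))

theorem p3034 : Pat 73 73 TBm TCm (CB.map Fm) R0Q145.P3034 R0Q145.I3034 := Vale.Agent.P032.Lt.pat_eq (E' := R0Q145.E) eB (pat_step (by decide +kernel) (q_cons (Vale.Agent.P032.Lt.q R0Q145.q3034_0) (q_cons (Vale.Agent.P032.Lt.q R0Q145.q3034_1) (q_cons (Vale.Agent.P032.Lt.q R0Q145.q3034_2) (q_cons (Vale.Agent.P032.Lt.q R0Q145.q3034_3) (q_cons (Vale.Agent.P032.Lt.q R0Q145.q3034_4) (q_cons (Vale.Agent.P032.Lt.q R0Q145.q3034_5) q_nil)))))))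

theorem p3035 : Pat 73 73 TBm TCm (CB.map Fm) R0Q145.P3035 R0Q145.I3035 := Vale.Agent.P032.Lt.pat_eq (E' := R0Q145.E) eB (pat_step (by decide +kernel) (q_cons (Vale.Agent.P032.Lt.q R0Q145.q3035_0) (q_cons (Vale.Agent.P032.Lt.q R0Q145.q3035_1) q_nil)))

theorem p3036 : Pat 73 73 TBm TCm (CB.map Fm) R0Q145.P3036 R0Q145.I3036 := Vale.Agent.P032.Lt.pat_eq (E' := R0Q145.E) eB (pat_step (by decide +kernel) (q_cons (Vale.Agent.P032.Lt.q R0Q145.q3036_0) (q_cons (Vale.Agent.P032.Lt.q R0Q145.q3036_1) (q_cons (Vale.Agent.P032.Lt.q R0Q145.q3036_2) (q_cons (Vale.Agent.P032.Lt.q R0Q145.q3036_3) (q_cons (Vale.Agent.P032.Lt.q R0Q145.q3036_4) (q_cons (Vale.Agent.P032.Lt.q R0Q145.q3036_5) (q_cons (Vale.Agent.P032.Lt.q R0Q145.q3036_6) (q_cons (Vale.Agent.P032.Lt.q R0Q145.q3036_7) (q_cons (Vale.Agent.P032.Lt.q R0Q145.q3036_8) (q_cons (Vale.Agent.P032.Lt.q R0Q145.q3036_9)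 (q_cons (Vale.Agent.P032.Lt.q R0Q145.q3036_10) (q_cons (Vale.Agent.P032.Lt.q R0Q145.q3036_11) (q_cons (Vale.Agent.P032.Lt.q R0Q145.q3036_12) q_nil))))))))))))))

theorem p3037 : Pat 73 73 TBm TCm (CB.map Fm) R0Q145.P3037 R0Q145.I3037 := Vale.Agent.P032.Lt.pat_eq (E' := R0Q145.E) eB (pat_step (by decide +kernel) (q_cons (Vale.Agent.P032.Lt.q R0Q145.q3037_0) (q_cons (Vale.Agent.P032.Lt.q R0Q145.q3037_1) (q_cons (Vale.Agent.P032.Lt.q R0Q145.q3037_2) (q_cons (Vale.Agent.P032.Lt.q R0Q145.q3037_3) q_nil)))))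

theorem p3038 : Pat 73 73 TBm TCm (CB.map Fm) R0Q145.P3038 R0Q145.I3038 := Vale.Agent.P032.Lt.pat_eq (E' := R0Q145.E) eB (pat_step (by decide +kernel) (q_cons (Vale.Agent.P032.Lt.q R0Q145.q3038_0) (q_cons (Vale.Agent.P032.Lt.q R0Q145.q3038_1) (q_cons (Vale.Agent.P032.Lt.q R0Q145.q3038_2) q_nil))))

theorem p3039 : Pat 73 73 TBm TCm (CB.map Fm) R0Q145.P3039 R0Q145.I3039 := Vale.Agent.P032.Lt.pat_eq (E' := R0Q145.E) eB (pat_step (by decide +kernel) (q_cons (Vale.Agent.P032.Lt.q R0Q145.q3039_0) (q_cons (Vale.Agent.P032.Lt.q R0Q145.q3039_1) (q_cons (Vale.Agent.P032.Lt.q R0Q145.q3039_2) (q_cons (Vale.Agent.P032.Lt.q R0Q145.q3039_3) (q_cons (Vale.Agent.P032.Lt.q R0Q145.q3039_4) (q_cons (Vale.Agent.P032.Lt.q R0Q145.q3039_5) (q_cons (Vale.Agent.P032.Lt.q R0Q145.q3039_6) (q_cons (Vale.Agent.P032.Lt.q R0Q145.q3039_7) q_nil)))))))))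

theorem p3040 : Pat 73 73 TBm TCm (CB.map Fm) R0Q145.P3040 R0Q145.I3040 := Vale.Agent.P032.Lt.pat_eq (E' := R0Q145.E) eB (pat_step (by decide +kernel) (q_cons (Vale.Agent.P032.Lt.q R0Q145.q3040_0) (q_cons (Vale.Agent.P032.Lt.q R0Q145.q3040_1) (q_cons (Vale.Agent.P032.Lt.q R0Q145.q3040_2) (q_cons (Vale.Agent.P032.Lt.q R0Q145.q3040_3) (q_cons (Vale.Agent.P032.Lt.q R0Q145.q3040_4) (q_cons (Vale.Agent.P032.Lt.q R0Q145.q3040_5) (q_cons (Vale.Agent.P032.Lt.q R0Q145.q3040_6) (q_cons (Vale.Agent.P032.Lt.q R0Q145.q3040_7) (q_cons (Vale.Agent.P032.Lt.q R0Q145.q3040_8) (q_cons (Vale.Agent.P032.Lt.q R0Q145.q3040_9) (q_cons (Vale.Agent.P032.Lt.q R0Q145.q3040_10) (q_cons (Vale.Agent.P032.Lt.q R0Q145.q3040_11) q_nil)))))))))))))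

theorem p3041 : Pat 73 73 TBm TCm (CB.map Fm) R0Q145.P3041 R0Q145.I3041 := Vale.Agent.P032.Lt.pat_eq (E' := R0Q145.E) eB (pat_step (by decide +kernel) (q_cons (Vale.Agent.P032.Lt.q R0Q145.q3041_0) (q_cons (Vale.Agent.P032.Lt.q R0Q145.q3041_1) (q_cons (Vale.Agent.P032.Lt.q R0Q145.q3041_2) (q_cons (Vale.Agent.P032.Lt.q R0Q145.q3041_3) (q_cons (Vale.Agent.P032.Lt.q R0Q145.q3041_4) (q_cons (Vale.Agent.P032.Lt.q R0Q145.q3041_5) (q_cons (Vale.Agent.P032.Lt.q R0Q145.q3041_6) (q_cons (Vale.Agent.P032.Lt.q R0Q145.q3041_7) (q_cons (Vale.Agent.P032.Lt.q R0Q145.q3041_8) (q_cons (Vale.Agent.P032.Lt.q R0Q145.q3041_9) (q_cons (Vale.Agent.P032.Lt.q R0Q145.q3041_10) (q_cons (Vale.Agent.P032.Lt.q R0Q145.q3041_11) (q_cons (Vale.Agent.P032.Lt.q R0Q145.q3041_12) (q_cons (Vale.Agent.P032.Lt.q R0Q145.q3041_13) (q_cons (Vale.Agent.P032.Lt.q R0Q145.q3041_14) (q_cons (Vale.Agent.P032.Lt.q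 R0Q145.q3041_15) (q_cons (Vale.Agent.P032.Lt.q R0Q145.q3041_16) (q_cons (Vale.Agent.P032.Lt.q R0Q145.q3041_17) (q_cons (Vale.Agent.P032.Lt.q R0Q145.q3041_18) q_nil))))))))))))))))))))

theorem p3042 : Pat 73 73 TBm TCm (CB.map Fm) R0Q145.P3042 R0Q145.I3042 := Vale.Agent.P032.Lt.pat_eq (E' := R0Q145.E) eB (pat_step (by decide +kernel) (q_cons (Vale.Agent.P032.Lt.q R0Q145.q3042_0) (q_cons (Vale.Agent.P032.Lt.q R0Q145.q3042_1) (q_cons (Vale.Agent.P032.Lt.q R0Q145.q3042_2) q_nil))))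

theorem p3043 : Pat 73 73 TBm TCm (CB.map Fm) R0Q145.P3043 R0Q145.I3043 := Vale.Agent.P032.Lt.pat_eq (E' := R0Q145.E) eB (pat_step (by decide +kernel) (q_cons (Vale.Agent.P032.Lt.q R0Q145.q3043_0) q_nil))

theorem p3044 : Pat 73 73 TBm TCm (CB.map Fm) R0Q145.P3044 R0Q145.I3044 := Vale.Agent.P032.Lt.pat_eq (E' := R0Q145.E) eB (pat_step (by decide +kernel) (q_cons (Vale.Agent.P032.Lt.q R0Q145.q3044_0) q_nil))

theorem p3045 : Pat 73 73 TBm TCm (CB.map Fm) R0Q145.P3045 R0Q145.I3045 := Vale.Agent.P032.Lt.pat_eq (E' := R0Q145.E) eB (pat_step (by decide +kernel) (q_cons (Vale.Agent.P032.Lt.q R0Q145.q3045_0) (q_cons (Vale.Agent.P032.Lt.q R0Q145.q3045_1) (q_cons (Vale.Agent.P032.Lt.q R0Q145.q3045_2) (q_cons (Vale.Agent.P032.Lt.q R0Q145.q3045_3) (q_cons (Vale.Agent.P032.Lt.q R0Q145.q3045_4) (q_cons (Vale.Agent.P032.Lt.q R0Q145.q3045_5) (q_cons (Vale.Agent.P032.Lt.q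 R0Q145.q3045_6) q_nil))))))))

theorem p3046 : Pat 73 73 TBm TCm (CB.map Fm) R0Q145.P3046 R0Q145.I3046 := Vale.Agent.P032.Lt.pat_eq (E' := R0Q145.E) eB (pat_step (by decide +kernel) (q_cons (Vale.Agent.P032.Lt.q R0Q145.q3046_0) (q_cons (Vale.Agent.P032.Lt.q R0Q145.q3046_1) (q_cons (Vale.Agent.P032.Lt.q R0Q145.q3046_2) q_nil))))

theorem p3047 : Pat 73 73 TBm TCm (CB.map Fm) R0Q146.P3047 R0Q146.I3047 := Vale.Agent.P032.Lt.pat_eq (E' := R0Q146.E) eB (pat_step (by decide +kernel) (q_cons (Vale.Agent.P032.Lt.q R0Q146.q3047_0) q_nil))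

theorem p3048 : Pat 73 73 TBm TCm (CB.map Fm) R0Q146.P3048 R0Q146.I3048 := Vale.Agent.P032.Lt.pat_eq (E' := R0Q146.E) eB (pat_step (by decide +kernel) (q_cons (Vale.Agent.P032.Lt.q R0Q146.q3048_0) (q_cons (Vale.Agent.P032.Lt.q R0Q146.q3048_1) (q_cons (Vale.Agent.P032.Lt.q R0Q146.q3048_2) (q_cons (Vale.Agent.P032.Lt.q R0Q146.q3048_3) q_nil)))))

theorem p3049 : Pat 73 73 TBm TCm (CB.map Fm) R0Q146.P3049 R0Q146.I3049 := Vale.Agent.P032.Lt.pat_eq (E' := R0Q146.E) eB (pat_step (by decide +kernel) (q_cons (Vale.Agent.P032.Lt.q R0Q146.q3049_0) (q_cons (Vale.Agent.P032.Lt.q R0Q146.q3049_1) (q_cons (Vale.Agent.P032.Lt.q R0Q146.q3049_2) (q_cons (Vale.Agent.P032.Lt.q R0Q146.q3049_3) (q_cons (Vale.Agent.P032.Lt.q R0Q146.q3049_4) q_nil))))))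

theorem p3050 : Pat 73 73 TBm TCm (CB.map Fm) R0Q146.P3050 R0Q146.I3050 := Vale.Agent.P032.Lt.pat_eq (E' := R0Q146.E) eB (pat_step (by decide +kernel) (q_cons (Vale.Agent.P032.Lt.q R0Q146.q3050_0) (q_cons (Vale.Agent.P032.Lt.q R0Q146.q3050_1) (q_cons (Vale.Agent.P032.Lt.q R0Q146.q3050_2) q_nil))))

theorem p3051 : Pat 73 73 TBm TCm (CB.map Fm) R0Q146.P3051 R0Q146.I3051 := Vale.Agent.P032.Lt.pat_eq (E' := R0Q146.E) eB (pat_step (by decide +kernel) (q_cons (Vale.Agent.P032.Lt.q R0Q146.q3051_0) q_nil))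

theorem p3052 : Pat 73 73 TBm TCm (CB.map Fm) R0Q146.P3052 R0Q146.I3052 := Vale.Agent.P032.Lt.pat_eq (E' := R0Q146.E) eB (pat_step (by decide +kernel) (q_cons (Vale.Agent.P032.Lt.q R0Q146.q3052_0) (q_cons (Vale.Agent.P032.Lt.q R0Q146.q3052_1) q_nil)))

theorem p3053 : Pat 73 73 TBm TCm (CB.map Fm) R0Q146.P3053 R0Q146.I3053 := Vale.Agent.P032.Lt.pat_eq (E' := R0Q146.E) eB (pat_step (by decide +kernel) (q_cons (Vale.Agent.P032.Lt.q R0Q146.q3053_0) (q_cons (Vale.Agent.P032.Lt.q R0Q146.q3053_1) (q_cons (Vale.Agent.P032.Lt.q R0Q146.q3053_2) (q_cons (Vale.Agent.P032.Lt.q R0Q146.q3053_3) (q_cons (Vale.Agent.P032.Lt.q R0Q146.q3053_4) (q_cons (Vale.Agent.P032.Lt.q R0Q146.q3053_5) q_nil)))))))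

theorem p3054 : Pat 73 73 TBm TCm (CB.map Fm) R0Q146.P3054 R0Q146.I3054 := Vale.Agent.P032.Lt.pat_eq (E' := R0Q146.E) eB (pat_step (by decide +kernel) (q_cons (Vale.Agent.P032.Lt.q R0Q146.q3054_0) (q_cons (Vale.Agent.P032.Lt.q R0Q146.q3054_1) q_nil)))

theorem p3055 : Pat 73 73 TBm TCm (CB.map Fm) R0Q146.P3055 R0Q146.I3055 := Vale.Agent.P032.Lt.pat_eq (E' := R0Q146.E) eB (pat_step (by decide +kernel) (q_cons (Vale.Agent.P032.Lt.q R0Q146.q3055_0) (q_cons (Vale.Agent.P032.Lt.q R0Q146.q3055_1) (q_cons (Vale.Agent.P032.Lt.q R0Q146.q3055_2) (q_cons (Vale.Agent.P032.Lt.q R0Q146.q3055_3) q_nil)))))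

theorem p3056 : Pat 73 73 TBm TCm (CB.map Fm) R0Q146.P3056 R0Q146.I3056 := Vale.Agent.P032.Lt.pat_eq (E' := R0Q146.E) eB (pat_step (by decide +kernel) (q_cons (Vale.Agent.P032.Lt.q R0Q146.q3056_0) q_nil))

theorem p3057 : Pat 73 73 TBm TCm (CB.map Fm) R0Q146.P3057 R0Q146.I3057 := Vale.Agent.P032.Lt.pat_eq (E' := R0Q146.E) eB (pat_step (by decide +kernel) (q_cons (Vale.Agent.P032.Lt.q R0Q146.q3057_0) (q_cons (Vale.Agent.P032.Lt.q R0Q146.q3057_1) (q_cons (Vale.Agent.P032.Lt.q R0Q146.q3057_2) q_nil))))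

theorem p3058 : Pat 73 73 TBm TCm (CB.map Fm) R0Q146.P3058 R0Q146.I3058 := Vale.Agent.P032.Lt.pat_eq (E' := R0Q146.E) eB (pat_step (by decide +kernel) (q_cons (Vale.Agent.P032.Lt.q R0Q146.q3058_0) (q_cons (Vale.Agent.P032.Lt.q R0Q146.q3058_1) (q_cons (Vale.Agent.P032.Lt.q R0Q146.q3058_2) (q_cons (Vale.Agent.P032.Lt.q R0Q146.q3058_3) (q_cons (Vale.Agent.P032.Lt.q R0Q146.q3058_4) (q_cons (Vale.Agent.P032.Lt.q R0Q146.q3058_5) (q_cons (Vale.Agent.P032.Lt.q R0Q146.q3058_6) (q_cons (Vale.Agent.P032.Lt.q R0Q146.q3058_7) (q_cons (Vale.Agent.P032.Lt.q R0Q146.q3058_8) (q_cons (Vale.Agent.P032.Lt.q R0Q146.q3058_9) (q_cons (Vale.Agent.P032.Lt.q R0Q146.q3058_10) (q_cons (Vale.Agent.P032.Lt.q R0Q146.q3058_11) (q_cons (Vale.Agent.P032.Lt.q R0Q146.q3058_12) q_nil))))))))))))))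

theorem p3059 : Pat 73 73 TBm TCm (CB.map Fm) R0Q146.P3059 R0Q146.I3059 := Vale.Agent.P032.Lt.pat_eq (E' := R0Q146.E) eB (pat_step (by decide +kernel) (q_cons (Vale.Agent.P032.Lt.q R0Q146.q3059_0) (q_cons (Vale.Agent.P032.Lt.q R0Q146.q3059_1) (q_cons (Vale.Agent.P032.Lt.q R0Q146.q3059_2) (q_cons (Vale.Agent.P032.Lt.q R0Q146.q3059_3) (q_cons (Vale.Agent.P032.Lt.q R0Q146.q3059_4) (q_cons (Vale.Agent.P032.Lt.q R0Q146.q3059_5) (q_cons (Vale.Agent.P032.Lt.q R0Q146.q3059_6) (q_cons (Vale.Agent.P032.Lt.q R0Q146.q3059_7) q_nil)))))))))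

theorem p3060 : Pat 73 73 TBm TCm (CB.map Fm) R0Q146.P3060 R0Q146.I3060 := Vale.Agent.P032.Lt.pat_eq (E' := R0Q146.E) eB (pat_step (by decide +kernel) (q_cons (Vale.Agent.P032.Lt.q R0Q146.q3060_0) q_nil))

theorem p3061 : Pat 73 73 TBm TCm (CB.map Fm) R0Q146.P3061 R0Q146.I3061 := Vale.Agent.P032.Lt.pat_eq (E' := R0Q146.E) eB (pat_step (by decide +kernel) (q_cons (Vale.Agent.P032.Lt.q R0Q146.q3061_0) (q_cons (Vale.Agent.P032.Lt.q R0Q146.q3061_1) (q_cons (Vale.Agent.P032.Lt.q R0Q146.q3061_2) q_nil))))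

def C3062 : List ℕ := [0, 4, 8, 12, 16, 20, 24, 212993, 475137, 737281]
theorem p3062 : Pat 73 73 TBm TCm (C3062.map Fm) R0Q146.P3062 R0Q146.I3062 := Vale.Agent.P032.Lt.pat_eq (E' := R0Q146.E3062) (by decide +kernel) (pat_step (by decide +kernel) (q_cons (Vale.Agent.P032.Lt.q R0Q146.q3062_0) (q_cons (Vale.Agent.P032.Lt.q R0Q146.q3062_1) (q_cons (Vale.Agent.P032.Lt.q R0Q146.q3062_2) (q_cons (Vale.Agent.P032.Lt.q R0Q146.q3062_3) (q_cons (Vale.Agent.P032.Lt.q R0Q146.q3062_4) (q_cons (Vale.Agent.P032.Lt.q R0Q146.q3062_5) (q_cons (Vale.Agent.P032.Lt.q R0Q146.q3062_6) (q_cons (Vale.Agent.P032.Lt.q R0Q146.q3062_7) (q_cons (Vale.Agent.P032.Lt.q R0Q146.q3062_8) (q_cons (Vale.Agent.P032.Lt.q R0Q146.q3062_9) (q_cons (Vale.Agent.P032.Lt.q R0Q146.q3062_10) q_nil))))))))))))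

theorem p3063 : Pat 73 73 TBm TCm (CB.map Fm) R0Q146.P3063 R0Q146.I3063 := Vale.Agent.P032.Lt.pat_eq (E' := R0Q146.E) eB (pat_step (by decide +kernel) (q_cons (Vale.Agent.P032.Lt.q R0Q146.q3063_0) q_nil))

theorem p3064 : Pat 73 73 TBm TCm (CB.map Fm) R0Q146.P3064 R0Q146.I3064 := Vale.Agent.P032.Lt.pat_eq (E' := R0Q146.E) eB (pat_step (by decide +kernel) (q_cons (Vale.Agent.P032.Lt.q R0Q146.q3064_0) (q_cons (Vale.Agent.P032.Lt.q R0Q146.q3064_1) (q_cons (Vale.Agent.P032.Lt.q R0Q146.q3064_2) (q_cons (Vale.Agent.P032.Lt.q R0Q146.q3064_3) (q_cons (Vale.Agent.P032.Lt.q R0Q146.q3064_4) (q_cons (Vale.Agent.P032.Lt.q R0Q146.q3064_5) (q_cons (Vale.Agent.P032.Lt.q R0Q146.q3064_6) (q_cons (Vale.Agent.P032.Lt.q R0Q146.q3064_7) (q_cons (Vale.Agent.P032.Lt.q R0Q146.q3064_8) (q_cons (Vale.Agent.P032.Lt.q R0Q146.q3064_9) (q_cons (Vale.Agent.P032.Lt.q R0Q146.q3064_10)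 (q_cons (Vale.Agent.P032.Lt.q R0Q146.q3064_11) (q_cons (Vale.Agent.P032.Lt.q R0Q146.q3064_12) (q_cons (Vale.Agent.P032.Lt.q R0Q146.q3064_13) (q_cons (Vale.Agent.P032.Lt.q R0Q146.q3064_14) q_nil))))))))))))))))

theorem p3065 : Pat 73 73 TBm TCm (CB.map Fm) R0Q146.P3065 R0Q146.I3065 := Vale.Agent.P032.Lt.pat_eq (E' := R0Q146.E) eB (pat_step (by decide +kernel) (q_cons (Vale.Agent.P032.Lt.q R0Q146.q3065_0) (q_cons (Vale.Agent.P032.Lt.q R0Q146.q3065_1) (q_cons (Vale.Agent.P032.Lt.q R0Q146.q3065_2) (q_cons (Vale.Agent.P032.Lt.q R0Q146.q3065_3) (q_cons (Vale.Agent.P032.Lt.q R0Q146.q3065_4) (q_cons (Vale.Agent.P032.Lt.q R0Q146.q3065_5) q_nil)))))))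

def C3066 : List ℕ := [0, 4, 8, 12, 16, 20, 24, 737281]
theorem p3066 : Pat 73 73 TBm TCm (C3066.map Fm) R0Q146.P3066 R0Q146.I3066 := Vale.Agent.P032.Lt.pat_eq (E' := R0Q146.E3066) (by decide +kernel) (pat_step (by decide +kernel) (q_cons (Vale.Agent.P032.Lt.q R0Q146.q3066_0) (q_cons (Vale.Agent.P032.Lt.q R0Q146.q3066_1) (q_cons (Vale.Agent.P032.Lt.q R0Q146.q3066_2) (q_cons (Vale.Agent.P032.Lt.q R0Q146.q3066_3) (q_cons (Vale.Agent.P032.Lt.q R0Q146.q3066_4) (q_cons (Vale.Agent.P032.Lt.q R0Q146.q3066_5) (q_cons (Vale.Agent.P032.Lt.q R0Q146.q3066_6) (q_cons (Vale.Agent.P032.Lt.q R0Q146.q3066_7) (q_cons (Vale.Agent.P032.Lt.q R0Q146.q3066_8) (q_cons (Vale.Agent.P032.Lt.q R0Q146.q3066_9) (q_cons (Vale.Agent.P032.Lt.q R0Q146.q3066_10) (q_cons (Vale.Agent.P032.Lt.q R0Q146.q3066_11) q_nil)))))))))))))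

theorem p3067 : Pat 73 73 TBm TCm (CB.map Fm) R0Q146.P3067 R0Q146.I3067 := Vale.Agent.P032.Lt.pat_eq (E' := R0Q146.E) eB (pat_step (by decide +kernel) (q_cons (Vale.Agent.P032.Lt.q R0Q146.q3067_0) (q_cons (Vale.Agent.P032.Lt.q R0Q146.q3067_1) (q_cons (Vale.Agent.P032.Lt.q R0Q146.q3067_2) q_nil))))

theorem p3068 : Pat 73 73 TBm TCm (CB.map Fm) R0Q146.P3068 R0Q146.I3068 := Vale.Agent.P032.Lt.pat_eq (E' := R0Q146.E) eB (pat_step (by decide +kernel) (q_cons (Vale.Agent.P032.Lt.q R0Q146.q3068_0) (q_cons (Vale.Agent.P032.Lt.q R0Q146.q3068_1) (q_cons (Vale.Agent.P032.Lt.q R0Q146.q3068_2) (q_cons (Vale.Agent.P032.Lt.q R0Q146.q3068_3) (q_cons (Vale.Agent.P032.Lt.q R0Q146.q3068_4) q_nil))))))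

theorem p3069 : Pat 73 73 TBm TCm (CB.map Fm) R0Q146.P3069 R0Q146.I3069 := Vale.Agent.P032.Lt.pat_eq (E' := R0Q146.E) eB (pat_step (by decide +kernel) (q_cons (Vale.Agent.P032.Lt.q R0Q146.q3069_0) (q_cons (Vale.Agent.P032.Lt.q R0Q146.q3069_1) (q_cons (Vale.Agent.P032.Lt.q R0Q146.q3069_2) q_nil))))

theorem p3070 : Pat 73 73 TBm TCm (CB.map Fm) R0Q147.P3070 R0Q147.I3070 := Vale.Agent.P032.Lt.pat_eq (E' := R0Q147.E) eB (pat_step (by decide +kernel) (q_cons (Vale.Agent.P032.Lt.q R0Q147.q3070_0) (q_cons (Vale.Agent.P032.Lt.q R0Q147.q3070_1) (q_cons (Vale.Agent.P032.Lt.q R0Q147.q3070_2) (q_cons (Vale.Agent.P032.Lt.q R0Q147.q3070_3) (q_cons (Vale.Agent.P032.Lt.q R0Q147.q3070_4) (q_cons (Vale.Agent.P032.Lt.q R0Q147.q3070_5) q_nil)))))))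

def C3071 : List ℕ := [0, 4, 8, 12, 16, 20, 24, 606209, 737281]
theorem p3071 : Pat 73 73 TBm TCm (C3071.map Fm) R0Q147.P3071 R0Q147.I3071 := Vale.Agent.P032.Lt.pat_eq (E' := R0Q147.E3071) (by decide +kernel) (pat_step (by decide +kernel) (q_cons (Vale.Agent.P032.Lt.q R0Q147.q3071_0) (q_cons (Vale.Agent.P032.Lt.q R0Q147.q3071_1) (q_cons (Vale.Agent.P032.Lt.q R0Q147.q3071_2) (q_cons (Vale.Agent.P032.Lt.q R0Q147.q3071_3) (q_cons (Vale.Agent.P032.Lt.q R0Q147.q3071_4) (q_cons (Vale.Agent.P032.Lt.q R0Q147.q3071_5) (q_cons (Vale.Agent.P032.Lt.q R0Q147.q3071_6) (q_cons (Vale.Agent.P032.Lt.q R0Q147.q3071_7) (q_cons (Vale.Agent.P032.Lt.q R0Q147.q3071_8) (q_cons (Vale.Agent.P032.Lt.q R0Q147.q3071_9) (q_cons (Vale.Agent.P032.Lt.q R0Q147.q3071_10) (q_cons (Vale.Agent.P032.Lt.q R0Q147.q3071_11) (q_cons (Vale.Agent.P032.Lt.q R0Q147.q3071_12) q_nil))))))))))))))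

def L : List (List ℕ) := [R0Q140.P2944, R0Q140.P2945, R0Q140.P2946, R0Q140.P2947, R0Q140.P2948, R0Q140.P2949, R0Q140.P2950, R0Q140.P2951, R0Q140.P2952, R0Q140.P2953, R0Q140.P2954, R0Q140.P2955, R0Q140.P2956, R0Q140.P2957, R0Q140.P2958, R0Q140.P2959, R0Q140.P2960, R0Q140.P2961, R0Q140.P2962, R0Q140.P2963, R0Q140.P2964, R0Q140.P2965, R0Q140.P2966, R0Q140.P2967, R0Q140.P2968, R0Q141.P2969, R0Q141.P2970, R0Q141.P2971, R0Q141.P2972, R0Q141.P2973, R0Q141.P2974, R0Q141.P2975, R0Q141.P2976, R0Q141.P2977, R0Q141.P2978, R0Q141.P2979, R0Q141.P2980, R0Q141.P2981, R0Q141.P2982, R0Q141.P2983, R0Q141.P2984, R0Q141.P2985, R0Q141.P2986, R0Q141.P2987, R0Q142.P2988, R0Q143.P2989, R0Q143.P2990, R0Q143.P2991, R0Q143.P2992, R0Q143.P2993, R0Q143.P2994, R0Q143.P2995, R0Q143.P2996, R0Q143.P2997, R0Q143.P2998, R0Q143.P2999, R0Q143.P3000, R0Q143.P3001, R0Q143.P3002, R0Q143.P3003,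 R0Q143.P3004, R0Q143.P3005, R0Q143.P3006, R0Q143.P3007, R0Q143.P3008, R0Q144.P3009, R0Q144.P3010, R0Q144.P3011, R0Q144.P3012, R0Q144.P3013, R0Q144.P3014, R0Q144.P3015, R0Q144.P3016, R0Q144.P3017, R0Q144.P3018, R0Q144.P3019, R0Q144.P3020, R0Q144.P3021, R0Q144.P3022, R0Q144.P3023, R0Q144.P3024, R0Q144.P3025, R0Q144.P3026, R0Q145.P3027, R0Q145.P3028, R0Q145.P3029, R0Q145.P3030, R0Q145.P3031, R0Q145.P3032, R0Q145.P3033, R0Q145.P3034, R0Q145.P3035, R0Q145.P3036, R0Q145.P3037, R0Q145.P3038, R0Q145.P3039, R0Q145.P3040, R0Q145.P3041, R0Q145.P3042, R0Q145.P3043, R0Q145.P3044, R0Q145.P3045, R0Q145.P3046, R0Q146.P3047, R0Q146.P3048, R0Q146.P3049, R0Q146.P3050, R0Q146.P3051, R0Q146.P3052, R0Q146.P3053, R0Q146.P3054, R0Q146.P3055, R0Q146.P3056, R0Q146.P3057, R0Q146.P3058, R0Q146.P3059, R0Q146.P3060, R0Q146.P3061, R0Q146.P3062, R0Q146.P3063, R0Q146.P3064, R0Q146.P3065,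 R0Q146.P3066, R0Q146.P3067, R0Q146.P3068, R0Q146.P3069, R0Q147.P3070, R0Q147.P3071]

theorem all : ∀ P ∈ L, CrtF 73 73 TBm TCm (Vale.Agent.P032.Fam.fam2 (Vale.Agent.P032.Fam.im0)) P := crtF_cons p2944 (crtF_cons p2945 (crtF_cons p2946 (crtF_cons p2947 (crtF_cons p2948 (crtF_cons p2949 (crtF_cons p2950 (crtF_cons p2951 (crtF_cons p2952 (crtF_cons p2953 (crtF_cons p2954 (crtF_cons p2955 (crtF_cons p2956 (crtF_cons p2957 (crtF_cons p2958 (crtF_cons p2959 (crtF_cons p2960 (crtF_cons p2961 (crtF_cons p2962 (crtF_cons p2963 (crtF_cons p2964 (crtF_cons p2965 (crtF_cons p2966 (crtF_cons p2967 (crtF_cons p2968 (crtF_cons p2969 (crtF_cons p2970 (crtF_cons p2971 (crtF_cons p2972 (crtF_cons p2973 (crtF_cons p2974 (crtF_cons p2975 (crtF_cons p2976 (crtF_cons p2977 (crtF_cons p2978 (crtF_cons p2979 (crtF_cons p2980 (crtF_cons p2981 (crtF_cons p2982 (crtF_cons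 p2983 (crtF_cons p2984 (crtF_cons p2985 (crtF_cons p2986 (crtF_cons p2987 (crtF_cons p2988 (crtF_cons p2989 (crtF_cons p2990 (crtF_cons p2991 (crtF_cons p2992 (crtF_cons p2993 (crtF_cons p2994 (crtF_cons p2995 (crtF_cons p2996 (crtF_cons p2997 (crtF_cons p2998 (crtF_cons p2999 (crtF_cons p3000 (crtF_cons p3001 (crtF_cons p3002 (crtF_cons p3003 (crtF_cons p3004 (crtF_cons p3005 (crtF_cons p3006 (crtF_cons p3007 (crtF_cons p3008 (crtF_cons p3009 (crtF_cons p3010 (crtF_cons p3011 (crtF_cons p3012 (crtF_cons p3013 (crtF_cons p3014 (crtF_cons p3015 (crtF_cons p3016 (crtF_cons p3017 (crtF_cons p3018 (crtF_cons p3019 (crtF_cons p3020 (crtF_cons p3021 (crtF_cons p3022 (crtF_cons p3023 (crtF_cons p3024 (crtF_cons p3025 (crtF_cons p3026 (crtF_cons p3027 (crtF_cons p3028 (crtF_cons p3029 (crtF_cons p3030 (crtF_cons p3031 (crtF_cons p3032 (crtF_cons p3033 (crtF_cons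 p3034 (crtF_cons p3035 (crtF_cons p3036 (crtF_cons p3037 (crtF_cons p3038 (crtF_cons p3039 (crtF_cons p3040 (crtF_cons p3041 (crtF_cons p3042 (crtF_cons p3043 (crtF_cons p3044 (crtF_cons p3045 (crtF_cons p3046 (crtF_cons p3047 (crtF_cons p3048 (crtF_cons p3049 (crtF_cons p3050 (crtF_cons p3051 (crtF_cons p3052 (crtF_cons p3053 (crtF_cons p3054 (crtF_cons p3055 (crtF_cons p3056 (crtF_cons p3057 (crtF_cons p3058 (crtF_cons p3059 (crtF_cons p3060 (crtF_cons p3061 (crtF_cons p3062 (crtF_cons p3063 (crtF_cons p3064 (crtF_cons p3065 (crtF_cons p3066 (crtF_cons p3067 (crtF_cons p3068 (crtF_cons p3069 (crtF_cons p3070 (crtF_cons p3071 crtF_nil)))))))))))))))))))))))))))))))))))))))))))))))))))))))))))))))))))))))))))))))))))))))))))))))))))))))))))))))))))))))))))))))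

theorem ch : chT 73 73 TCm s0_023 L = true := by decide +kernel

end Vale.Agent.P032X.Cert.XP.B1.R0H023
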