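import Vale.Agent.P032X.H892.LtH
import Vale.Agent.P032X.H286.W73
import Vale.Agent.P032X.Cert.XP.B1.R0T
import Vale.Agent.P032X.Cert.XP.B1.R0Q148
import Vale.Agent.P032X.Cert.XP.B1.R0Q149
import Vale.Agent.P032X.Cert.XP.B1.R0Q150
import Vale.Agent.P032X.Cert.XP.B1.R0Q151
import Vale.Agent.P032X.Cert.XP.B1.R0Q152
import Vale.Agent.P032X.Cert.XP.B1.R0Q153
import Vale.Agent.P032X.Cert.XP.B1.R0Q154

set_option maxRecDepth 1000000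

namespace Vale.Agent.P032X.Cert.XP.B1.R0H024

open Vale.Agent.P032.H820.K Vale.Agent.P032.H357.MK Vale.Agent.P032.H286.E Vale.Agent.P032.H61 Vale.Agent.P032X.Cert.XP.B1

noncomputable abbrev Fm : ℕ → List ℕ := Vale.Agent.P032.Fam.fam2 (Vale.Agent.P032.Fam.im0)

def CB : List ℕ := [0, 4, 8, 12, 16, 20, 24]

theorem eB : Vale.Agent.P032.Lt.eqLL (CB.map Fm) R0Q148.E = true := by decide +kernel

theorem p3072 : Pat 73 73 TBm TCm (CB.map Fm) R0Q148.P3072 R0Q148.I3072 := Vale.Agent.P032.Lt.pat_eq (E' := R0Q148.E) eB (pat_step (by decide +kernel) (q_cons (Vale.Agent.P032.Lt.q R0Q148.q3072_0) (q_cons (Vale.Agent.P032.Lt.q R0Q148.q3072_1) (q_cons (Vale.Agent.P032.Lt.q R0Q148.q3072_2) (q_cons (Vale.Agent.P032.Lt.q R0Q148.q3072_3) (q_cons (Vale.Agent.P032.Lt.q R0Q148.q3072_4) (q_cons (Vale.Agent.P032.Lt.q R0Q148.q3072_5) (q_cons (Vale.Agent.P032.Lt.q R0Q148.q3072_6)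 (q_cons (Vale.Agent.P032.Lt.q R0Q148.q3072_7) (q_cons (Vale.Agent.P032.Lt.q R0Q148.q3072_8) (q_cons (Vale.Agent.P032.Lt.q R0Q148.q3072_9) (q_cons (Vale.Agent.P032.Lt.q R0Q148.q3072_10) (q_cons (Vale.Agent.P032.Lt.q R0Q148.q3072_11) (q_cons (Vale.Agent.P032.Lt.q R0Q148.q3072_12) (q_cons (Vale.Agent.P032.Lt.q R0Q148.q3072_13) (q_cons (Vale.Agent.P032.Lt.q R0Q148.q3072_14) (q_cons (Vale.Agent.P032.Lt.q R0Q148.q3072_15) (q_cons (Vale.Agent.P032.Lt.q R0Q148.q3072_16) (q_cons (Vale.Agent.P032.Lt.q R0Q148.q3072_17) (q_cons (Vale.Agent.P032.Lt.q R0Q148.q3072_18) (q_cons (Vale.Agent.P032.Lt.q R0Q148.q3072_19) (q_cons (Vale.Agent.P032.Lt.q R0Q148.q3072_20) (q_cons (Vale.Agent.P032.Lt.q R0Q148.q3072_21) (q_cons (Vale.Agent.P032.Lt.q R0Q148.q3072_22) q_nil))))))))))))))))))))))))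

def C3073 : List ℕ := [0, 4, 8, 12, 16, 20, 24, 347137, 353281, 475137, 737281]
theorem p3073 : Pat 73 73 TBm TCm (C3073.map Fm) R0Q148.P3073 R0Q148.I3073 := Vale.Agent.P032.Lt.pat_eq (E' := R0Q148.E3073) (by decide +kernel) (pat_step (by decide +kernel) (q_cons (Vale.Agent.P032.Lt.q R0Q148.q3073_0) (q_cons (Vale.Agent.P032.Lt.q R0Q148.q3073_1) (q_cons (Vale.Agent.P032.Lt.q R0Q148.q3073_2) (q_cons (Vale.Agent.P032.Lt.q R0Q148.q3073_3) (q_cons (Vale.Agent.P032.Lt.q R0Q148.q3073_4) (q_cons (Vale.Agent.P032.Lt.q R0Q148.q3073_5) q_nil)))))))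

theorem p3074 : Pat 73 73 TBm TCm (CB.map Fm) R0Q148.P3074 R0Q148.I3074 := Vale.Agent.P032.Lt.pat_eq (E' := R0Q148.E) eB (pat_step (by decide +kernel) (q_cons (Vale.Agent.P032.Lt.q R0Q148.q3074_0) (q_cons (Vale.Agent.P032.Lt.q R0Q148.q3074_1) (q_cons (Vale.Agent.P032.Lt.q R0Q148.q3074_2) q_nil))))

theorem p3075 : Pat 73 73 TBm TCm (CB.map Fm) R0Q148.P3075 R0Q148.I3075 := Vale.Agent.P032.Lt.pat_eq (E' := R0Q148.E) eB (pat_step (by decide +kernel) (q_cons (Vale.Agent.P032.Lt.q R0Q148.q3075_0) (q_cons (Vale.Agent.P032.Lt.q R0Q148.q3075_1) (q_cons (Vale.Agent.P032.Lt.q R0Q148.q3075_2) (q_cons (Vale.Agent.P032.Lt.q R0Q148.q3075_3) (q_cons (Vale.Agent.P032.Lt.q R0Q148.q3075_4) (q_cons (Vale.Agent.P032.Lt.q R0Q148.q3075_5) (q_cons (Vale.Agent.P032.Lt.q R0Q148.q3075_6) (q_cons (Vale.Agent.P032.Lt.q R0Q148.q3075_7) (q_cons (Vale.Agent.P032.Lt.q R0Q148.q3075_8)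 (q_cons (Vale.Agent.P032.Lt.q R0Q148.q3075_9) (q_cons (Vale.Agent.P032.Lt.q R0Q148.q3075_10) (q_cons (Vale.Agent.P032.Lt.q R0Q148.q3075_11) (q_cons (Vale.Agent.P032.Lt.q R0Q148.q3075_12) (q_cons (Vale.Agent.P032.Lt.q R0Q148.q3075_13) (q_cons (Vale.Agent.P032.Lt.q R0Q148.q3075_14) (q_cons (Vale.Agent.P032.Lt.q R0Q148.q3075_15) (q_cons (Vale.Agent.P032.Lt.q R0Q148.q3075_16) (q_cons (Vale.Agent.P032.Lt.q R0Q148.q3075_17) (q_cons (Vale.Agent.P032.Lt.q R0Q148.q3075_18) (q_cons (Vale.Agent.P032.Lt.q R0Q148.q3075_19) (q_cons (Vale.Agent.P032.Lt.q R0Q148.q3075_20) (q_cons (Vale.Agent.P032.Lt.q R0Q148.q3075_21) q_nil)))))))))))))))))))))))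

theorem p3076 : Pat 73 73 TBm TCm (CB.map Fm) R0Q148.P3076 R0Q148.I3076 := Vale.Agent.P032.Lt.pat_eq (E' := R0Q148.E) eB (pat_step (by decide +kernel) (q_cons (Vale.Agent.P032.Lt.q R0Q148.q3076_0) (q_cons (Vale.Agent.P032.Lt.q R0Q148.q3076_1) (q_cons (Vale.Agent.P032.Lt.q R0Q148.q3076_2) (q_cons (Vale.Agent.P032.Lt.q R0Q148.q3076_3) (q_cons (Vale.Agent.P032.Lt.q R0Q148.q3076_4) (q_cons (Vale.Agent.P032.Lt.q R0Q148.q3076_5) (q_cons (Vale.Agent.P032.Lt.q R0Q148.q3076_6) (q_cons (Vale.Agent.P032.Lt.q R0Q148.q3076_7) (q_cons (Vale.Agent.P032.Lt.q R0Q148.q3076_8) (q_cons (Vale.Agent.P032.Lt.q R0Q148.q3076_9) (q_cons (Vale.Agent.P032.Lt.q R0Q148.q3076_10) (q_cons (Vale.Agent.P032.Lt.q R0Q148.q3076_11) (q_cons (Vale.Agent.P032.Lt.q R0Q148.q3076_12) (q_cons (Vale.Agent.P032.Lt.q R0Q148.q3076_13) (q_cons (Vale.Agent.P032.Lt.q R0Q148.q3076_14) (q_cons (Vale.Agent.P032.Lt.q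 R0Q148.q3076_15) (q_cons (Vale.Agent.P032.Lt.q R0Q148.q3076_16) (q_cons (Vale.Agent.P032.Lt.q R0Q148.q3076_17) (q_cons (Vale.Agent.P032.Lt.q R0Q148.q3076_18) (q_cons (Vale.Agent.P032.Lt.q R0Q148.q3076_19) (q_cons (Vale.Agent.P032.Lt.q R0Q148.q3076_20) (q_cons (Vale.Agent.P032.Lt.q R0Q148.q3076_21) q_nil)))))))))))))))))))))))

theorem p3077 : Pat 73 73 TBm TCm (CB.map Fm) R0Q148.P3077 R0Q148.I3077 := Vale.Agent.P032.Lt.pat_eq (E' := R0Q148.E) eB (pat_step (by decide +kernel) (q_cons (Vale.Agent.P032.Lt.q R0Q148.q3077_0) (q_cons (Vale.Agent.P032.Lt.q R0Q148.q3077_1) (q_cons (Vale.Agent.P032.Lt.q R0Q148.q3077_2) (q_cons (Vale.Agent.P032.Lt.q R0Q148.q3077_3) (q_cons (Vale.Agent.P032.Lt.q R0Q148.q3077_4) q_nil))))))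

def C3078 : List ℕ := [0, 4, 8, 12, 16, 20, 24, 81921, 91137, 212993, 220161, 222209, 353281, 475137, 615425, 617473, 737281]
theorem p3078 : Pat 73 73 TBm TCm (C3078.map Fm) R0Q148.P3078 R0Q148.I3078 := Vale.Agent.P032.Lt.pat_eq (E' := R0Q148.E3078) (by decide +kernel) (pat_step (by decide +kernel) (q_cons (Vale.Agent.P032.Lt.q R0Q148.q3078_0) q_nil))

theorem p3079 : Pat 73 73 TBm TCm (CB.map Fm) R0Q148.P3079 R0Q148.I3079 := Vale.Agent.P032.Lt.pat_eq (E' := R0Q148.E) eB (pat_step (by decide +kernel) (q_cons (Vale.Agent.P032.Lt.q R0Q148.q3079_0) (q_cons (Vale.Agent.P032.Lt.q R0Q148.q3079_1) q_nil)))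

theorem p3080 : Pat 73 73 TBm TCm (CB.map Fm) R0Q148.P3080 R0Q148.I3080 := Vale.Agent.P032.Lt.pat_eq (E' := R0Q148.E) eB (pat_step (by decide +kernel) (q_cons (Vale.Agent.P032.Lt.q R0Q148.q3080_0) (q_cons (Vale.Agent.P032.Lt.q R0Q148.q3080_1) (q_cons (Vale.Agent.P032.Lt.q R0Q148.q3080_2) (q_cons (Vale.Agent.P032.Lt.q R0Q148.q3080_3) q_nil)))))

theorem p3081 : Pat 73 73 TBm TCm (CB.map Fm) R0Q148.P3081 R0Q148.I3081 := Vale.Agent.P032.Lt.pat_eq (E' := R0Q148.E) eB (pat_step (by decide +kernel) (q_cons (Vale.Agent.P032.Lt.q R0Q148.q3081_0) (q_cons (Vale.Agent.P032.Lt.q R0Q148.q3081_1) (q_cons (Vale.Agent.P032.Lt.q R0Q148.q3081_2) (q_cons (Vale.Agent.P032.Lt.q R0Q148.q3081_3) q_nil)))))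

theorem p3082 : Pat 73 73 TBm TCm (CB.map Fm) R0Q148.P3082 R0Q148.I3082 := Vale.Agent.P032.Lt.pat_eq (E' := R0Q148.E) eB (pat_step (by decide +kernel) (q_cons (Vale.Agent.P032.Lt.q R0Q148.q3082_0) (q_cons (Vale.Agent.P032.Lt.q R0Q148.q3082_1) (q_cons (Vale.Agent.P032.Lt.q R0Q148.q3082_2) (q_cons (Vale.Agent.P032.Lt.q R0Q148.q3082_3) q_nil)))))

theorem p3083 : Pat 73 73 TBm TCm (CB.map Fm) R0Q148.P3083 R0Q148.I3083 := Vale.Agent.P032.Lt.pat_eq (E' := R0Q148.E) eB (pat_step (by decide +kernel) (q_cons (Vale.Agent.P032.Lt.q R0Q148.q3083_0) (q_cons (Vale.Agent.P032.Lt.q R0Q148.q3083_1) (q_cons (Vale.Agent.P032.Lt.q R0Q148.q3083_2) q_nil))))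

theorem p3084 : Pat 73 73 TBm TCm (CB.map Fm) R0Q148.P3084 R0Q148.I3084 := Vale.Agent.P032.Lt.pat_eq (E' := R0Q148.E) eB (pat_step (by decide +kernel) (q_cons (Vale.Agent.P032.Lt.q R0Q148.q3084_0) (q_cons (Vale.Agent.P032.Lt.q R0Q148.q3084_1) q_nil)))

theorem p3085 : Pat 73 73 TBm TCm (CB.map Fm) R0Q148.P3085 R0Q148.I3085 := Vale.Agent.P032.Lt.pat_eq (E' := R0Q148.E) eB (pat_step (by decide +kernel) (q_cons (Vale.Agent.P032.Lt.q R0Q148.q3085_0) (q_cons (Vale.Agent.P032.Lt.q R0Q148.q3085_1) (q_cons (Vale.Agent.P032.Lt.q R0Q148.q3085_2) (q_cons (Vale.Agent.P032.Lt.q R0Q148.q3085_3) (q_cons (Vale.Agent.P032.Lt.q R0Q148.q3085_4) (q_cons (Vale.Agent.P032.Lt.q R0Q148.q3085_5) q_nil)))))))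

theorem p3086 : Pat 73 73 TBm TCm (CB.map Fm) R0Q148.P3086 R0Q148.I3086 := Vale.Agent.P032.Lt.pat_eq (E' := R0Q148.E) eB (pat_step (by decide +kernel) (q_cons (Vale.Agent.P032.Lt.q R0Q148.q3086_0) (q_cons (Vale.Agent.P032.Lt.q R0Q148.q3086_1) q_nil)))

def C3087 : List ℕ := [0, 4, 8, 12, 16, 20, 24, 737281]
theorem p3087 : Pat 73 73 TBm TCm (C3087.map Fm) R0Q148.P3087 R0Q148.I3087 := Vale.Agent.P032.Lt.pat_eq (E' := R0Q148.E3087) (by decide +kernel) (pat_step (by decide +kernel) (q_cons (Vale.Agent.P032.Lt.q R0Q148.q3087_0) (q_cons (Vale.Agent.P032.Lt.q R0Q148.q3087_1) (q_cons (Vale.Agent.P032.Lt.q R0Q148.q3087_2) (q_cons (Vale.Agent.P032.Lt.q R0Q148.q3087_3) q_nil)))))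

theorem p3088 : Pat 73 73 TBm TCm (CB.map Fm) R0Q148.P3088 R0Q148.I3088 := Vale.Agent.P032.Lt.pat_eq (E' := R0Q148.E) eB (pat_step (by decide +kernel) (q_cons (Vale.Agent.P032.Lt.q R0Q148.q3088_0) (q_cons (Vale.Agent.P032.Lt.q R0Q148.q3088_1) q_nil)))

theorem p3089 : Pat 73 73 TBm TCm (CB.map Fm) R0Q148.P3089 R0Q148.I3089 := Vale.Agent.P032.Lt.pat_eq (E' := R0Q148.E) eB (pat_step (by decide +kernel) (q_cons (Vale.Agent.P032.Lt.q R0Q148.q3089_0) q_nil))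

theorem p3090 : Pat 73 73 TBm TCm (CB.map Fm) R0Q148.P3090 R0Q148.I3090 := Vale.Agent.P032.Lt.pat_eq (E' := R0Q148.E) eB (pat_step (by decide +kernel) (q_cons (Vale.Agent.P032.Lt.q R0Q148.q3090_0) (q_cons (Vale.Agent.P032.Lt.q R0Q148.q3090_1) q_nil)))

theorem p3091 : Pat 73 73 TBm TCm (CB.map Fm) R0Q148.P3091 R0Q148.I3091 := Vale.Agent.P032.Lt.pat_eq (E' := R0Q148.E) eB (pat_step (by decide +kernel) (q_cons (Vale.Agent.P032.Lt.q R0Q148.q3091_0) (q_cons (Vale.Agent.P032.Lt.q R0Q148.q3091_1) (q_cons (Vale.Agent.P032.Lt.q R0Q148.q3091_2) (q_cons (Vale.Agent.P032.Lt.q R0Q148.q3091_3) (q_cons (Vale.Agent.P032.Lt.q R0Q148.q3091_4) (q_cons (Vale.Agent.P032.Lt.q R0Q148.q3091_5) (q_cons (Vale.Agent.P032.Lt.q R0Q148.q3091_6) q_nil))))))))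

theorem p3092 : Pat 73 73 TBm TCm (CB.map Fm) R0Q148.P3092 R0Q148.I3092 := Vale.Agent.P032.Lt.pat_eq (E' := R0Q148.E) eB (pat_step (by decide +kernel) (q_cons (Vale.Agent.P032.Lt.q R0Q148.q3092_0) (q_cons (Vale.Agent.P032.Lt.q R0Q148.q3092_1) (q_cons (Vale.Agent.P032.Lt.q R0Q148.q3092_2) (q_cons (Vale.Agent.P032.Lt.q R0Q148.q3092_3) (q_cons (Vale.Agent.P032.Lt.q R0Q148.q3092_4) (q_cons (Vale.Agent.P032.Lt.q R0Q148.q3092_5) (q_cons (Vale.Agent.P032.Lt.q R0Q148.q3092_6) q_nil))))))))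

theorem p3093 : Pat 73 73 TBm TCm (CB.map Fm) R0Q148.P3093 R0Q148.I3093 := Vale.Agent.P032.Lt.pat_eq (E' := R0Q148.E) eB (pat_step (by decide +kernel) (q_cons (Vale.Agent.P032.Lt.q R0Q148.q3093_0) (q_cons (Vale.Agent.P032.Lt.q R0Q148.q3093_1) (q_cons (Vale.Agent.P032.Lt.q R0Q148.q3093_2) (q_cons (Vale.Agent.P032.Lt.q R0Q148.q3093_3) (q_cons (Vale.Agent.P032.Lt.q R0Q148.q3093_4) (q_cons (Vale.Agent.P032.Lt.q R0Q148.q3093_5) (q_cons (Vale.Agent.P032.Lt.q R0Q148.q3093_6) (q_cons (Vale.Agent.P032.Lt.q R0Q148.q3093_7) (q_cons (Vale.Agent.P032.Lt.q R0Q148.q3093_8) (q_cons (Vale.Agent.P032.Lt.q R0Q148.q3093_9) (q_cons (Vale.Agent.P032.Lt.q R0Q148.q3093_10) (q_cons (Vale.Agent.P032.Lt.q R0Q148.q3093_11) q_nil)))))))))))))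

theorem p3094 : Pat 73 73 TBm TCm (CB.map Fm) R0Q148.P3094 R0Q148.I3094 := Vale.Agent.P032.Lt.pat_eq (E' := R0Q148.E) eB (pat_step (by decide +kernel) (q_cons (Vale.Agent.P032.Lt.q R0Q148.q3094_0) (q_cons (Vale.Agent.P032.Lt.q R0Q148.q3094_1) (q_cons (Vale.Agent.P032.Lt.q R0Q148.q3094_2) q_nil))))

theorem p3095 : Pat 73 73 TBm TCm (CB.map Fm) R0Q148.P3095 R0Q148.I3095 := Vale.Agent.P032.Lt.pat_eq (E' := R0Q148.E) eB (pat_step (by decide +kernel) (q_cons (Vale.Agent.P032.Lt.q R0Q148.q3095_0) (q_cons (Vale.Agent.P032.Lt.q R0Q148.q3095_1) q_nil)))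

theorem p3096 : Pat 73 73 TBm TCm (CB.map Fm) R0Q148.P3096 R0Q148.I3096 := Vale.Agent.P032.Lt.pat_eq (E' := R0Q148.E) eB (pat_step (by decide +kernel) (q_cons (Vale.Agent.P032.Lt.q R0Q148.q3096_0) (q_cons (Vale.Agent.P032.Lt.q R0Q148.q3096_1) (q_cons (Vale.Agent.P032.Lt.q R0Q148.q3096_2) q_nil))))

theorem p3097 : Pat 73 73 TBm TCm (CB.map Fm) R0Q148.P3097 R0Q148.I3097 := Vale.Agent.P032.Lt.pat_eq (E' := R0Q148.E) eB (pat_step (by decide +kernel) (q_cons (Vale.Agent.P032.Lt.q R0Q148.q3097_0) q_nil))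

def C3098 : List ℕ := [0, 4, 8, 12, 16, 20, 24, 745473]
theorem p3098 : Pat 73 73 TBm TCm (C3098.map Fm) R0Q149.P3098 R0Q149.I3098 := Vale.Agent.P032.Lt.pat_eq (E' := R0Q149.E3098) (by decide +kernel) (pat_step (by decide +kernel) (q_cons (Vale.Agent.P032.Lt.q R0Q149.q3098_0) (q_cons (Vale.Agent.P032.Lt.q R0Q149.q3098_1) (q_cons (Vale.Agent.P032.Lt.q R0Q149.q3098_2) (q_cons (Vale.Agent.P032.Lt.q R0Q149.q3098_3) (q_cons (Vale.Agent.P032.Lt.q R0Q149.q3098_4) (q_cons (Vale.Agent.P032.Lt.q R0Q149.q3098_5) (q_cons (Vale.Agent.P032.Lt.q R0Q149.q3098_6) q_nil))))))))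

theorem p3099 : Pat 73 73 TBm TCm (CB.map Fm) R0Q149.P3099 R0Q149.I3099 := Vale.Agent.P032.Lt.pat_eq (E' := R0Q149.E) eB (pat_step (by decide +kernel) (q_cons (Vale.Agent.P032.Lt.q R0Q149.q3099_0) (q_cons (Vale.Agent.P032.Lt.q R0Q149.q3099_1) (q_cons (Vale.Agent.P032.Lt.q R0Q149.q3099_2) (q_cons (Vale.Agent.P032.Lt.q R0Q149.q3099_3) (q_cons (Vale.Agent.P032.Lt.q R0Q149.q3099_4) (q_cons (Vale.Agent.P032.Lt.q R0Q149.q3099_5) (q_cons (Vale.Agent.P032.Lt.q R0Q149.q3099_6) (q_cons (Vale.Agent.P032.Lt.q R0Q149.q3099_7) (q_cons (Vale.Agent.P032.Lt.q R0Q149.q3099_8) (q_cons (Vale.Agent.P032.Lt.q R0Q149.q3099_9) (q_cons (Vale.Agent.P032.Lt.q R0Q149.q3099_10) (q_cons (Vale.Agent.P032.Lt.q R0Q149.q3099_11) (q_cons (Vale.Agent.P032.Lt.q R0Q149.q3099_12) (q_cons (Vale.Agent.P032.Lt.q R0Q149.q3099_13) (q_cons (Vale.Agent.P032.Lt.q R0Q149.q3099_14) (q_cons (Vale.Agent.P032.Lt.q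 R0Q149.q3099_15) q_nil)))))))))))))))))

def C3100 : List ℕ := [0, 4, 8, 12, 16, 20, 24, 221185, 475137, 737281, 745473]
theorem p3100 : Pat 73 73 TBm TCm (C3100.map Fm) R0Q149.P3100 R0Q149.I3100 := Vale.Agent.P032.Lt.pat_eq (E' := R0Q149.E3100) (by decide +kernel) (pat_step (by decide +kernel) (q_cons (Vale.Agent.P032.Lt.q R0Q149.q3100_0) (q_cons (Vale.Agent.P032.Lt.q R0Q149.q3100_1) (q_cons (Vale.Agent.P032.Lt.q R0Q149.q3100_2) (q_cons (Vale.Agent.P032.Lt.q R0Q149.q3100_3) (q_cons (Vale.Agent.P032.Lt.q R0Q149.q3100_4) (q_cons (Vale.Agent.P032.Lt.q R0Q149.q3100_5) q_nil)))))))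

def C3101 : List ℕ := [0, 4, 8, 12, 16, 20, 24, 349185, 353281, 475137, 737281]
theorem p3101 : Pat 73 73 TBm TCm (C3101.map Fm) R0Q149.P3101 R0Q149.I3101 := Vale.Agent.P032.Lt.pat_eq (E' := R0Q149.E3101) (by decide +kernel) (pat_step (by decide +kernel) (q_cons (Vale.Agent.P032.Lt.q R0Q149.q3101_0) (q_cons (Vale.Agent.P032.Lt.q R0Q149.q3101_1) (q_cons (Vale.Agent.P032.Lt.q R0Q149.q3101_2) (q_cons (Vale.Agent.P032.Lt.q R0Q149.q3101_3) (q_cons (Vale.Agent.P032.Lt.q R0Q149.q3101_4) (q_cons (Vale.Agent.P032.Lt.q R0Q149.q3101_5) (q_cons (Vale.Agent.P032.Lt.q R0Q149.q3101_6) q_nil))))))))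

def C3102 : List ℕ := [0, 4, 8, 12, 16, 20, 24, 82945, 216065]
theorem p3102 : Pat 73 73 TBm TCm (C3102.map Fm) R0Q149.P3102 R0Q149.I3102 := Vale.Agent.P032.Lt.pat_eq (E' := R0Q149.E3102) (by decide +kernel) (pat_step (by decide +kernel) (q_cons (Vale.Agent.P032.Lt.q R0Q149.q3102_0) q_nil))

def C3103 : List ℕ := [0, 4, 8, 12, 16, 20, 24, 82945, 216065]
theorem p3103 : Pat 73 73 TBm TCm (C3103.map Fm) R0Q149.P3103 R0Q149.I3103 := Vale.Agent.P032.Lt.pat_eq (E' := R0Q149.E3103) (by decide +kernel) (pat_step (by decide +kernel) (q_cons (Vale.Agent.P032.Lt.q R0Q149.q3103_0) q_nil))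

theorem p3104 : Pat 73 73 TBm TCm (CB.map Fm) R0Q149.P3104 R0Q149.I3104 := Vale.Agent.P032.Lt.pat_eq (E' := R0Q149.E) eB (pat_step (by decide +kernel) (q_cons (Vale.Agent.P032.Lt.q R0Q149.q3104_0) (q_cons (Vale.Agent.P032.Lt.q R0Q149.q3104_1) q_nil)))

def C3105 : List ℕ := [0, 4, 8, 12, 16, 20, 24, 355329]
theorem p3105 : Pat 73 73 TBm TCm (C3105.map Fm) R0Q149.P3105 R0Q149.I3105 := Vale.Agent.P032.Lt.pat_eq (E' := R0Q149.E3105) (by decide +kernel) (pat_step (by decide +kernel) (q_cons (Vale.Agent.P032.Lt.q R0Q149.q3105_0) q_nil))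

theorem p3106 : Pat 73 73 TBm TCm (CB.map Fm) R0Q149.P3106 R0Q149.I3106 := Vale.Agent.P032.Lt.pat_eq (E' := R0Q149.E) eB (pat_step (by decide +kernel) (q_cons (Vale.Agent.P032.Lt.q R0Q149.q3106_0) (q_cons (Vale.Agent.P032.Lt.q R0Q149.q3106_1) q_nil)))

theorem p3107 : Pat 73 73 TBm TCm (CB.map Fm) R0Q149.P3107 R0Q149.I3107 := Vale.Agent.P032.Lt.pat_eq (E' := R0Q149.E) eB (pat_step (by decide +kernel) (q_cons (Vale.Agent.P032.Lt.q R0Q149.q3107_0) (q_cons (Vale.Agent.P032.Lt.q R0Q149.q3107_1) (q_cons (Vale.Agent.P032.Lt.q R0Q149.q3107_2) (q_cons (Vale.Agent.P032.Lt.q R0Q149.q3107_3) (q_cons (Vale.Agent.P032.Lt.q R0Q149.q3107_4) (q_cons (Vale.Agent.P032.Lt.q R0Q149.q3107_5) (q_cons (Vale.Agent.P032.Lt.q R0Q149.q3107_6) q_nil))))))))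

theorem p3108 : Pat 73 73 TBm TCm (CB.map Fm) R0Q149.P3108 R0Q149.I3108 := Vale.Agent.P032.Lt.pat_eq (E' := R0Q149.E) eB (pat_step (by decide +kernel) (q_cons (Vale.Agent.P032.Lt.q R0Q149.q3108_0) (q_cons (Vale.Agent.P032.Lt.q R0Q149.q3108_1) (q_cons (Vale.Agent.P032.Lt.q R0Q149.q3108_2) (q_cons (Vale.Agent.P032.Lt.q R0Q149.q3108_3) (q_cons (Vale.Agent.P032.Lt.q R0Q149.q3108_4) (q_cons (Vale.Agent.P032.Lt.q R0Q149.q3108_5) (q_cons (Vale.Agent.P032.Lt.q R0Q149.q3108_6) (q_cons (Vale.Agent.P032.Lt.q R0Q149.q3108_7) (q_cons (Vale.Agent.P032.Lt.q R0Q149.q3108_8) q_nil))))))))))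

theorem p3109 : Pat 73 73 TBm TCm (CB.map Fm) R0Q149.P3109 R0Q149.I3109 := Vale.Agent.P032.Lt.pat_eq (E' := R0Q149.E) eB (pat_step (by decide +kernel) (q_cons (Vale.Agent.P032.Lt.q R0Q149.q3109_0) (q_cons (Vale.Agent.P032.Lt.q R0Q149.q3109_1) (q_cons (Vale.Agent.P032.Lt.q R0Q149.q3109_2) q_nil))))

theorem p3110 : Pat 73 73 TBm TCm (CB.map Fm) R0Q149.P3110 R0Q149.I3110 := Vale.Agent.P032.Lt.pat_eq (E' := R0Q149.E) eB (pat_step (by decide +kernel) (q_cons (Vale.Agent.P032.Lt.q R0Q149.q3110_0) (q_cons (Vale.Agent.P032.Lt.q R0Q149.q3110_1) (q_cons (Vale.Agent.P032.Lt.q R0Q149.q3110_2) q_nil))))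

theorem p3111 : Pat 73 73 TBm TCm (CB.map Fm) R0Q149.P3111 R0Q149.I3111 := Vale.Agent.P032.Lt.pat_eq (E' := R0Q149.E) eB (pat_step (by decide +kernel) (q_cons (Vale.Agent.P032.Lt.q R0Q149.q3111_0) (q_cons (Vale.Agent.P032.Lt.q R0Q149.q3111_1) (q_cons (Vale.Agent.P032.Lt.q R0Q149.q3111_2) (q_cons (Vale.Agent.P032.Lt.q R0Q149.q3111_3) (q_cons (Vale.Agent.P032.Lt.q R0Q149.q3111_4) q_nil))))))

theorem p3112 : Pat 73 73 TBm TCm (CB.map Fm) R0Q149.P3112 R0Q149.I3112 := Vale.Agent.P032.Lt.pat_eq (E' := R0Q149.E) eB (pat_step (by decide +kernel) (q_cons (Vale.Agent.P032.Lt.q R0Q149.q3112_0) (q_cons (Vale.Agent.P032.Lt.q R0Q149.q3112_1) (q_cons (Vale.Agent.P032.Lt.q R0Q149.q3112_2) q_nil))))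

theorem p3113 : Pat 73 73 TBm TCm (CB.map Fm) R0Q149.P3113 R0Q149.I3113 := Vale.Agent.P032.Lt.pat_eq (E' := R0Q149.E) eB (pat_step (by decide +kernel) (q_cons (Vale.Agent.P032.Lt.q R0Q149.q3113_0) q_nil))

theorem p3114 : Pat 73 73 TBm TCm (CB.map Fm) R0Q149.P3114 R0Q149.I3114 := Vale.Agent.P032.Lt.pat_eq (E' := R0Q149.E) eB (pat_step (by decide +kernel) (q_cons (Vale.Agent.P032.Lt.q R0Q149.q3114_0) (q_cons (Vale.Agent.P032.Lt.q R0Q149.q3114_1) q_nil)))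

theorem p3115 : Pat 73 73 TBm TCm (CB.map Fm) R0Q149.P3115 R0Q149.I3115 := Vale.Agent.P032.Lt.pat_eq (E' := R0Q149.E) eB (pat_step (by decide +kernel) (q_cons (Vale.Agent.P032.Lt.q R0Q149.q3115_0) (q_cons (Vale.Agent.P032.Lt.q R0Q149.q3115_1) (q_cons (Vale.Agent.P032.Lt.q R0Q149.q3115_2) (q_cons (Vale.Agent.P032.Lt.q R0Q149.q3115_3) (q_cons (Vale.Agent.P032.Lt.q R0Q149.q3115_4) (q_cons (Vale.Agent.P032.Lt.q R0Q149.q3115_5) (q_cons (Vale.Agent.P032.Lt.q R0Q149.q3115_6) (q_cons (Vale.Agent.P032.Lt.q R0Q149.q3115_7) (q_cons (Vale.Agent.P032.Lt.q R0Q149.q3115_8) (q_cons (Vale.Agent.P032.Lt.q R0Q149.q3115_9) (q_cons (Vale.Agent.P032.Lt.q R0Q149.q3115_10) (q_cons (Vale.Agent.P032.Lt.q R0Q149.q3115_11) (q_cons (Vale.Agent.P032.Lt.q R0Q149.q3115_12) (q_cons (Vale.Agent.P032.Lt.q R0Q149.q3115_13) q_nil)))))))))))))))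

theorem p3116 : Pat 73 73 TBm TCm (CB.map Fm) R0Q149.P3116 R0Q149.I3116 := Vale.Agent.P032.Lt.pat_eq (E' := R0Q149.E) eB (pat_step (by decide +kernel) (q_cons (Vale.Agent.P032.Lt.q R0Q149.q3116_0) (q_cons (Vale.Agent.P032.Lt.q R0Q149.q3116_1) (q_cons (Vale.Agent.P032.Lt.q R0Q149.q3116_2) (q_cons (Vale.Agent.P032.Lt.q R0Q149.q3116_3) (q_cons (Vale.Agent.P032.Lt.q R0Q149.q3116_4) (q_cons (Vale.Agent.P032.Lt.q R0Q149.q3116_5) (q_cons (Vale.Agent.P032.Lt.q R0Q149.q3116_6) (q_cons (Vale.Agent.P032.Lt.q R0Q149.q3116_7) (q_cons (Vale.Agent.P032.Lt.q R0Q149.q3116_8) q_nil))))))))))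

theorem p3117 : Pat 73 73 TBm TCm (CB.map Fm) R0Q149.P3117 R0Q149.I3117 := Vale.Agent.P032.Lt.pat_eq (E' := R0Q149.E) eB (pat_step (by decide +kernel) (q_cons (Vale.Agent.P032.Lt.q R0Q149.q3117_0) q_nil))

theorem p3118 : Pat 73 73 TBm TCm (CB.map Fm) R0Q149.P3118 R0Q149.I3118 := Vale.Agent.P032.Lt.pat_eq (E' := R0Q149.E) eB (pat_step (by decide +kernel) (q_cons (Vale.Agent.P032.Lt.q R0Q149.q3118_0) (q_cons (Vale.Agent.P032.Lt.q R0Q149.q3118_1) (q_cons (Vale.Agent.P032.Lt.q R0Q149.q3118_2) (q_cons (Vale.Agent.P032.Lt.q R0Q149.q3118_3) q_nil)))))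

theorem p3119 : Pat 73 73 TBm TCm (CB.map Fm) R0Q149.P3119 R0Q149.I3119 := Vale.Agent.P032.Lt.pat_eq (E' := R0Q149.E) eB (pat_step (by decide +kernel) (q_cons (Vale.Agent.P032.Lt.q R0Q149.q3119_0) (q_cons (Vale.Agent.P032.Lt.q R0Q149.q3119_1) (q_cons (Vale.Agent.P032.Lt.q R0Q149.q3119_2) (q_cons (Vale.Agent.P032.Lt.q R0Q149.q3119_3) q_nil)))))

theorem p3120 : Pat 73 73 TBm TCm (CB.map Fm) R0Q149.P3120 R0Q149.I3120 := Vale.Agent.P032.Lt.pat_eq (E' := R0Q149.E) eB (pat_step (by decide +kernel) (q_cons (Vale.Agent.P032.Lt.q R0Q149.q3120_0) (q_cons (Vale.Agent.P032.Lt.q R0Q149.q3120_1) (q_cons (Vale.Agent.P032.Lt.q R0Q149.q3120_2) (q_cons (Vale.Agent.P032.Lt.q R0Q149.q3120_3) q_nil)))))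

theorem p3121 : Pat 73 73 TBm TCm (CB.map Fm) R0Q149.P3121 R0Q149.I3121 := Vale.Agent.P032.Lt.pat_eq (E' := R0Q149.E) eB (pat_step (by decide +kernel) (q_cons (Vale.Agent.P032.Lt.q R0Q149.q3121_0) (q_cons (Vale.Agent.P032.Lt.q R0Q149.q3121_1) (q_cons (Vale.Agent.P032.Lt.q R0Q149.q3121_2) q_nil))))

theorem p3122 : Pat 73 73 TBm TCm (CB.map Fm) R0Q149.P3122 R0Q149.I3122 := Vale.Agent.P032.Lt.pat_eq (E' := R0Q149.E) eB (pat_step (by decide +kernel) (q_cons (Vale.Agent.P032.Lt.q R0Q149.q3122_0) (q_cons (Vale.Agent.P032.Lt.q R0Q149.q3122_1) (q_cons (Vale.Agent.P032.Lt.q R0Q149.q3122_2) (q_cons (Vale.Agent.P032.Lt.q R0Q149.q3122_3) (q_cons (Vale.Agent.P032.Lt.q R0Q149.q3122_4) q_nil))))))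

theorem p3123 : Pat 73 73 TBm TCm (CB.map Fm) R0Q149.P3123 R0Q149.I3123 := Vale.Agent.P032.Lt.pat_eq (E' := R0Q149.E) eB (pat_step (by decide +kernel) (q_cons (Vale.Agent.P032.Lt.q R0Q149.q3123_0) (q_cons (Vale.Agent.P032.Lt.q R0Q149.q3123_1) (q_cons (Vale.Agent.P032.Lt.q R0Q149.q3123_2) q_nil))))

theorem p3124 : Pat 73 73 TBm TCm (CB.map Fm) R0Q149.P3124 R0Q149.I3124 := Vale.Agent.P032.Lt.pat_eq (E' := R0Q149.E) eB (pat_step (by decide +kernel) (q_cons (Vale.Agent.P032.Lt.q R0Q149.q3124_0) (q_cons (Vale.Agent.P032.Lt.q R0Q149.q3124_1) q_nil)))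

theorem p3125 : Pat 73 73 TBm TCm (CB.map Fm) R0Q149.P3125 R0Q149.I3125 := Vale.Agent.P032.Lt.pat_eq (E' := R0Q149.E) eB (pat_step (by decide +kernel) (q_cons (Vale.Agent.P032.Lt.q R0Q149.q3125_0) (q_cons (Vale.Agent.P032.Lt.q R0Q149.q3125_1) (q_cons (Vale.Agent.P032.Lt.q R0Q149.q3125_2) q_nil))))

theorem p3126 : Pat 73 73 TBm TCm (CB.map Fm) R0Q150.P3126 R0Q150.I3126 := Vale.Agent.P032.Lt.pat_eq (E' := R0Q150.E) eB (pat_step (by decide +kernel) (q_cons (Vale.Agent.P032.Lt.q R0Q150.q3126_0) (q_cons (Vale.Agent.P032.Lt.q R0Q150.q3126_1) (q_cons (Vale.Agent.P032.Lt.q R0Q150.q3126_2) (q_cons (Vale.Agent.P032.Lt.q R0Q150.q3126_3) q_nil)))))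

theorem p3127 : Pat 73 73 TBm TCm (CB.map Fm) R0Q150.P3127 R0Q150.I3127 := Vale.Agent.P032.Lt.pat_eq (E' := R0Q150.E) eB (pat_step (by decide +kernel) (q_cons (Vale.Agent.P032.Lt.q R0Q150.q3127_0) (q_cons (Vale.Agent.P032.Lt.q R0Q150.q3127_1) (q_cons (Vale.Agent.P032.Lt.q R0Q150.q3127_2) q_nil))))

theorem p3128 : Pat 73 73 TBm TCm (CB.map Fm) R0Q150.P3128 R0Q150.I3128 := Vale.Agent.P032.Lt.pat_eq (E' := R0Q150.E) eB (pat_step (by decide +kernel) (q_cons (Vale.Agent.P032.Lt.q R0Q150.q3128_0) q_nil))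

theorem p3129 : Pat 73 73 TBm TCm (CB.map Fm) R0Q150.P3129 R0Q150.I3129 := Vale.Agent.P032.Lt.pat_eq (E' := R0Q150.E) eB (pat_step (by decide +kernel) (q_cons (Vale.Agent.P032.Lt.q R0Q150.q3129_0) (q_cons (Vale.Agent.P032.Lt.q R0Q150.q3129_1) q_nil)))

theorem p3130 : Pat 73 73 TBm TCm (CB.map Fm) R0Q150.P3130 R0Q150.I3130 := Vale.Agent.P032.Lt.pat_eq (E' := R0Q150.E) eB (pat_step (by decide +kernel) (q_cons (Vale.Agent.P032.Lt.q R0Q150.q3130_0) (q_cons (Vale.Agent.P032.Lt.q R0Q150.q3130_1) (q_cons (Vale.Agent.P032.Lt.q R0Q150.q3130_2) (q_cons (Vale.Agent.P032.Lt.q R0Q150.q3130_3) (q_cons (Vale.Agent.P032.Lt.q R0Q150.q3130_4) (q_cons (Vale.Agent.P032.Lt.q R0Q150.q3130_5) (q_cons (Vale.Agent.P032.Lt.q R0Q150.q3130_6) (q_cons (Vale.Agent.P032.Lt.q R0Q150.q3130_7) (q_cons (Vale.Agent.P032.Lt.q R0Q150.q3130_8) (q_cons (Vale.Agent.P032.Lt.q R0Q150.q3130_9)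 (q_cons (Vale.Agent.P032.Lt.q R0Q150.q3130_10) q_nil))))))))))))

theorem p3131 : Pat 73 73 TBm TCm (CB.map Fm) R0Q150.P3131 R0Q150.I3131 := Vale.Agent.P032.Lt.pat_eq (E' := R0Q150.E) eB (pat_step (by decide +kernel) (q_cons (Vale.Agent.P032.Lt.q R0Q150.q3131_0) (q_cons (Vale.Agent.P032.Lt.q R0Q150.q3131_1) (q_cons (Vale.Agent.P032.Lt.q R0Q150.q3131_2) (q_cons (Vale.Agent.P032.Lt.q R0Q150.q3131_3) (q_cons (Vale.Agent.P032.Lt.q R0Q150.q3131_4) (q_cons (Vale.Agent.P032.Lt.q R0Q150.q3131_5) (q_cons (Vale.Agent.P032.Lt.q R0Q150.q3131_6) (q_cons (Vale.Agent.P032.Lt.q R0Q150.q3131_7) q_nil)))))))))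

theorem p3132 : Pat 73 73 TBm TCm (CB.map Fm) R0Q150.P3132 R0Q150.I3132 := Vale.Agent.P032.Lt.pat_eq (E' := R0Q150.E) eB (pat_step (by decide +kernel) (q_cons (Vale.Agent.P032.Lt.q R0Q150.q3132_0) (q_cons (Vale.Agent.P032.Lt.q R0Q150.q3132_1) (q_cons (Vale.Agent.P032.Lt.q R0Q150.q3132_2) (q_cons (Vale.Agent.P032.Lt.q R0Q150.q3132_3) (q_cons (Vale.Agent.P032.Lt.q R0Q150.q3132_4) (q_cons (Vale.Agent.P032.Lt.q R0Q150.q3132_5) (q_cons (Vale.Agent.P032.Lt.q R0Q150.q3132_6) (q_cons (Vale.Agent.P032.Lt.q R0Q150.q3132_7) q_nil)))))))))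

theorem p3133 : Pat 73 73 TBm TCm (CB.map Fm) R0Q150.P3133 R0Q150.I3133 := Vale.Agent.P032.Lt.pat_eq (E' := R0Q150.E) eB (pat_step (by decide +kernel) (q_cons (Vale.Agent.P032.Lt.q R0Q150.q3133_0) (q_cons (Vale.Agent.P032.Lt.q R0Q150.q3133_1) (q_cons (Vale.Agent.P032.Lt.q R0Q150.q3133_2) q_nil))))

theorem p3134 : Pat 73 73 TBm TCm (CB.map Fm) R0Q150.P3134 R0Q150.I3134 := Vale.Agent.P032.Lt.pat_eq (E' := R0Q150.E) eB (pat_step (by decide +kernel) (q_cons (Vale.Agent.P032.Lt.q R0Q150.q3134_0) (q_cons (Vale.Agent.P032.Lt.q R0Q150.q3134_1) (q_cons (Vale.Agent.P032.Lt.q R0Q150.q3134_2) (q_cons (Vale.Agent.P032.Lt.q R0Q150.q3134_3) q_nil)))))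

theorem p3135 : Pat 73 73 TBm TCm (CB.map Fm) R0Q150.P3135 [] := Vale.Agent.P032.Lt.pat_eq (E' := R0Q150.E) eB (pat_end (by decide +kernel) (Vale.Agent.P032.Lt.q R0Q150.q3135))

theorem p3136 : Pat 73 73 TBm TCm (CB.map Fm) R0Q150.P3136 R0Q150.I3136 := Vale.Agent.P032.Lt.pat_eq (E' := R0Q150.E) eB (pat_step (by decide +kernel) (q_cons (Vale.Agent.P032.Lt.q R0Q150.q3136_0) (q_cons (Vale.Agent.P032.Lt.q R0Q150.q3136_1) (q_cons (Vale.Agent.P032.Lt.q R0Q150.q3136_2) (q_cons (Vale.Agent.P032.Lt.q R0Q150.q3136_3) (q_cons (Vale.Agent.P032.Lt.q R0Q150.q3136_4) (q_cons (Vale.Agent.P032.Lt.q R0Q150.q3136_5) q_nil)))))))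

theorem p3137 : Pat 73 73 TBm TCm (CB.map Fm) R0Q150.P3137 R0Q150.I3137 := Vale.Agent.P032.Lt.pat_eq (E' := R0Q150.E) eB (pat_step (by decide +kernel) (q_cons (Vale.Agent.P032.Lt.q R0Q150.q3137_0) (q_cons (Vale.Agent.P032.Lt.q R0Q150.q3137_1) (q_cons (Vale.Agent.P032.Lt.q R0Q150.q3137_2) (q_cons (Vale.Agent.P032.Lt.q R0Q150.q3137_3) (q_cons (Vale.Agent.P032.Lt.q R0Q150.q3137_4) q_nil))))))

theorem p3138 : Pat 73 73 TBm TCm (CB.map Fm) R0Q150.P3138 R0Q150.I3138 := Vale.Agent.P032.Lt.pat_eq (E' := R0Q150.E) eB (pat_step (by decide +kernel) (q_cons (Vale.Agent.P032.Lt.q R0Q150.q3138_0) (q_cons (Vale.Agent.P032.Lt.q R0Q150.q3138_1) (q_cons (Vale.Agent.P032.Lt.q R0Q150.q3138_2) (q_cons (Vale.Agent.P032.Lt.q R0Q150.q3138_3) (q_cons (Vale.Agent.P032.Lt.q R0Q150.q3138_4) (q_cons (Vale.Agent.P032.Lt.q R0Q150.q3138_5) (q_cons (Vale.Agent.P032.Lt.q R0Q150.q3138_6)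 (q_cons (Vale.Agent.P032.Lt.q R0Q150.q3138_7) (q_cons (Vale.Agent.P032.Lt.q R0Q150.q3138_8) q_nil))))))))))

theorem p3139 : Pat 73 73 TBm TCm (CB.map Fm) R0Q150.P3139 R0Q150.I3139 := Vale.Agent.P032.Lt.pat_eq (E' := R0Q150.E) eB (pat_step (by decide +kernel) (q_cons (Vale.Agent.P032.Lt.q R0Q150.q3139_0) (q_cons (Vale.Agent.P032.Lt.q R0Q150.q3139_1) (q_cons (Vale.Agent.P032.Lt.q R0Q150.q3139_2) (q_cons (Vale.Agent.P032.Lt.q R0Q150.q3139_3) (q_cons (Vale.Agent.P032.Lt.q R0Q150.q3139_4) (q_cons (Vale.Agent.P032.Lt.q R0Q150.q3139_5) (q_cons (Vale.Agent.P032.Lt.q R0Q150.q3139_6) (q_cons (Vale.Agent.P032.Lt.q R0Q150.q3139_7) q_nil)))))))))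

theorem p3140 : Pat 73 73 TBm TCm (CB.map Fm) R0Q150.P3140 R0Q150.I3140 := Vale.Agent.P032.Lt.pat_eq (E' := R0Q150.E) eB (pat_step (by decide +kernel) (q_cons (Vale.Agent.P032.Lt.q R0Q150.q3140_0) (q_cons (Vale.Agent.P032.Lt.q R0Q150.q3140_1) q_nil)))

theorem p3141 : Pat 73 73 TBm TCm (CB.map Fm) R0Q150.P3141 R0Q150.I3141 := Vale.Agent.P032.Lt.pat_eq (E' := R0Q150.E) eB (pat_step (by decide +kernel) (q_cons (Vale.Agent.P032.Lt.q R0Q150.q3141_0) (q_cons (Vale.Agent.P032.Lt.q R0Q150.q3141_1) (q_cons (Vale.Agent.P032.Lt.q R0Q150.q3141_2) q_nil))))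

theorem p3142 : Pat 73 73 TBm TCm (CB.map Fm) R0Q150.P3142 R0Q150.I3142 := Vale.Agent.P032.Lt.pat_eq (E' := R0Q150.E) eB (pat_step (by decide +kernel) (q_cons (Vale.Agent.P032.Lt.q R0Q150.q3142_0) q_nil))

theorem p3143 : Pat 73 73 TBm TCm (CB.map Fm) R0Q150.P3143 R0Q150.I3143 := Vale.Agent.P032.Lt.pat_eq (E' := R0Q150.E) eB (pat_step (by decide +kernel) (q_cons (Vale.Agent.P032.Lt.q R0Q150.q3143_0) q_nil))

theorem p3144 : Pat 73 73 TBm TCm (CB.map Fm) R0Q150.P3144 R0Q150.I3144 := Vale.Agent.P032.Lt.pat_eq (E' := R0Q150.E) eB (pat_step (by decide +kernel) (q_cons (Vale.Agent.P032.Lt.q R0Q150.q3144_0) (q_cons (Vale.Agent.P032.Lt.q R0Q150.q3144_1) q_nil)))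

theorem p3145 : Pat 73 73 TBm TCm (CB.map Fm) R0Q150.P3145 R0Q150.I3145 := Vale.Agent.P032.Lt.pat_eq (E' := R0Q150.E) eB (pat_step (by decide +kernel) (q_cons (Vale.Agent.P032.Lt.q R0Q150.q3145_0) (q_cons (Vale.Agent.P032.Lt.q R0Q150.q3145_1) q_nil)))

theorem p3146 : Pat 73 73 TBm TCm (CB.map Fm) R0Q150.P3146 R0Q150.I3146 := Vale.Agent.P032.Lt.pat_eq (E' := R0Q150.E) eB (pat_step (by decide +kernel) (q_cons (Vale.Agent.P032.Lt.q R0Q150.q3146_0) q_nil))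

theorem p3147 : Pat 73 73 TBm TCm (CB.map Fm) R0Q150.P3147 R0Q150.I3147 := Vale.Agent.P032.Lt.pat_eq (E' := R0Q150.E) eB (pat_step (by decide +kernel) (q_cons (Vale.Agent.P032.Lt.q R0Q150.q3147_0) q_nil))

theorem p3148 : Pat 73 73 TBm TCm (CB.map Fm) R0Q150.P3148 R0Q150.I3148 := Vale.Agent.P032.Lt.pat_eq (E' := R0Q150.E) eB (pat_step (by decide +kernel) (q_cons (Vale.Agent.P032.Lt.q R0Q150.q3148_0) q_nil))

theorem p3149 : Pat 73 73 TBm TCm (CB.map Fm) R0Q150.P3149 R0Q150.I3149 := Vale.Agent.P032.Lt.pat_eq (E' := R0Q150.E) eB (pat_step (by decide +kernel) (q_cons (Vale.Agent.P032.Lt.q R0Q150.q3149_0) (q_cons (Vale.Agent.P032.Lt.q R0Q150.q3149_1) (q_cons (Vale.Agent.P032.Lt.q R0Q150.q3149_2) (q_cons (Vale.Agent.P032.Lt.q R0Q150.q3149_3) (q_cons (Vale.Agent.P032.Lt.q R0Q150.q3149_4) (q_cons (Vale.Agent.P032.Lt.q R0Q150.q3149_5) (q_cons (Vale.Agent.P032.Lt.q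 R0Q150.q3149_6) (q_cons (Vale.Agent.P032.Lt.q R0Q150.q3149_7) (q_cons (Vale.Agent.P032.Lt.q R0Q150.q3149_8) q_nil))))))))))

def C3150 : List ℕ := [0, 4, 8, 12, 16, 20, 24, 215041, 344065, 346113, 475137, 477185, 606209, 608257, 739329, 748545]
theorem p3150 : Pat 73 73 TBm TCm (C3150.map Fm) R0Q151.P3150 R0Q151.I3150 := Vale.Agent.P032.Lt.pat_eq (E' := R0Q151.E3150) (by decide +kernel) (pat_step (by decide +kernel) (q_cons (Vale.Agent.P032.Lt.q R0Q151.q3150_0) (q_cons (Vale.Agent.P032.Lt.q R0Q151.q3150_1) (q_cons (Vale.Agent.P032.Lt.q R0Q151.q3150_2) (q_cons (Vale.Agent.P032.Lt.q R0Q151.q3150_3) (q_cons (Vale.Agent.P032.Lt.q R0Q151.q3150_4) (q_cons (Vale.Agent.P032.Lt.q R0Q151.q3150_5) (q_cons (Vale.Agent.P032.Lt.q R0Q151.q3150_6) (q_cons (Vale.Agent.P032.Lt.q R0Q151.q3150_7) q_nil)))))))))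

theorem p3151 : Pat 73 73 TBm TCm (CB.map Fm) R0Q151.P3151 R0Q151.I3151 := Vale.Agent.P032.Lt.pat_eq (E' := R0Q151.E) eB (pat_step (by decide +kernel) (q_cons (Vale.Agent.P032.Lt.q R0Q151.q3151_0) (q_cons (Vale.Agent.P032.Lt.q R0Q151.q3151_1) (q_cons (Vale.Agent.P032.Lt.q R0Q151.q3151_2) (q_cons (Vale.Agent.P032.Lt.q R0Q151.q3151_3) q_nil)))))

theorem p3152 : Pat 73 73 TBm TCm (CB.map Fm) R0Q151.P3152 R0Q151.I3152 := Vale.Agent.P032.Lt.pat_eq (E' := R0Q151.E) eB (pat_step (by decide +kernel) (q_cons (Vale.Agent.P032.Lt.q R0Q151.q3152_0) (q_cons (Vale.Agent.P032.Lt.q R0Q151.q3152_1) (q_cons (Vale.Agent.P032.Lt.q R0Q151.q3152_2) (q_cons (Vale.Agent.P032.Lt.q R0Q151.q3152_3) q_nil)))))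

def C3153 : List ℕ := [0, 4, 8, 12, 16, 20, 24, 344065, 485377, 606209]
theorem p3153 : Pat 73 73 TBm TCm (C3153.map Fm) R0Q151.P3153 R0Q151.I3153 := Vale.Agent.P032.Lt.pat_eq (E' := R0Q151.E3153) (by decide +kernel) (pat_step (by decide +kernel) (q_cons (Vale.Agent.P032.Lt.q R0Q151.q3153_0) (q_cons (Vale.Agent.P032.Lt.q R0Q151.q3153_1) (q_cons (Vale.Agent.P032.Lt.q R0Q151.q3153_2) (q_cons (Vale.Agent.P032.Lt.q R0Q151.q3153_3) (q_cons (Vale.Agent.P032.Lt.q R0Q151.q3153_4) (q_cons (Vale.Agent.P032.Lt.q R0Q151.q3153_5) (q_cons (Vale.Agent.P032.Lt.q R0Q151.q3153_6) (q_cons (Vale.Agent.P032.Lt.q R0Q151.q3153_7) (q_cons (Vale.Agent.P032.Lt.q R0Q151.q3153_8) (q_cons (Vale.Agent.P032.Lt.q R0Q151.q3153_9) q_nil)))))))))))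

theorem p3154 : Pat 73 73 TBm TCm (CB.map Fm) R0Q151.P3154 R0Q151.I3154 := Vale.Agent.P032.Lt.pat_eq (E' := R0Q151.E) eB (pat_step (by decide +kernel) (q_cons (Vale.Agent.P032.Lt.q R0Q151.q3154_0) (q_cons (Vale.Agent.P032.Lt.q R0Q151.q3154_1) (q_cons (Vale.Agent.P032.Lt.q R0Q151.q3154_2) (q_cons (Vale.Agent.P032.Lt.q R0Q151.q3154_3) (q_cons (Vale.Agent.P032.Lt.q R0Q151.q3154_4) (q_cons (Vale.Agent.P032.Lt.q R0Q151.q3154_5) (q_cons (Vale.Agent.P032.Lt.q R0Q151.q3154_6) (q_cons (Vale.Agent.P032.Lt.q R0Q151.q3154_7) (q_cons (Vale.Agent.P032.Lt.q R0Q151.q3154_8) (q_cons (Vale.Agent.P032.Lt.q R0Q151.q3154_9) (q_cons (Vale.Agent.P032.Lt.q R0Q151.q3154_10) (q_cons (Vale.Agent.P032.Lt.q R0Q151.q3154_11) (q_cons (Vale.Agent.P032.Lt.q R0Q151.q3154_12) (q_cons (Vale.Agent.P032.Lt.q R0Q151.q3154_13) q_nil)))))))))))))))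

theorem p3155 : Pat 73 73 TBm TCm (CB.map Fm) R0Q151.P3155 R0Q151.I3155 := Vale.Agent.P032.Lt.pat_eq (E' := R0Q151.E) eB (pat_step (by decide +kernel) (q_cons (Vale.Agent.P032.Lt.q R0Q151.q3155_0) (q_cons (Vale.Agent.P032.Lt.q R0Q151.q3155_1) (q_cons (Vale.Agent.P032.Lt.q R0Q151.q3155_2) q_nil))))

theorem p3156 : Pat 73 73 TBm TCm (CB.map Fm) R0Q151.P3156 R0Q151.I3156 := Vale.Agent.P032.Lt.pat_eq (E' := R0Q151.E) eB (pat_step (by decide +kernel) (q_cons (Vale.Agent.P032.Lt.q R0Q151.q3156_0) (q_cons (Vale.Agent.P032.Lt.q R0Q151.q3156_1) q_nil)))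

theorem p3157 : Pat 73 73 TBm TCm (CB.map Fm) R0Q151.P3157 R0Q151.I3157 := Vale.Agent.P032.Lt.pat_eq (E' := R0Q151.E) eB (pat_step (by decide +kernel) (q_cons (Vale.Agent.P032.Lt.q R0Q151.q3157_0) (q_cons (Vale.Agent.P032.Lt.q R0Q151.q3157_1) (q_cons (Vale.Agent.P032.Lt.q R0Q151.q3157_2) q_nil))))

theorem p3158 : Pat 73 73 TBm TCm (CB.map Fm) R0Q151.P3158 R0Q151.I3158 := Vale.Agent.P032.Lt.pat_eq (E' := R0Q151.E) eB (pat_step (by decide +kernel) (q_cons (Vale.Agent.P032.Lt.q R0Q151.q3158_0) (q_cons (Vale.Agent.P032.Lt.q R0Q151.q3158_1) q_nil)))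

theorem p3159 : Pat 73 73 TBm TCm (CB.map Fm) R0Q151.P3159 R0Q151.I3159 := Vale.Agent.P032.Lt.pat_eq (E' := R0Q151.E) eB (pat_step (by decide +kernel) (q_cons (Vale.Agent.P032.Lt.q R0Q151.q3159_0) (q_cons (Vale.Agent.P032.Lt.q R0Q151.q3159_1) (q_cons (Vale.Agent.P032.Lt.q R0Q151.q3159_2) (q_cons (Vale.Agent.P032.Lt.q R0Q151.q3159_3) q_nil)))))

theorem p3160 : Pat 73 73 TBm TCm (CB.map Fm) R0Q151.P3160 R0Q151.I3160 := Vale.Agent.P032.Lt.pat_eq (E' := R0Q151.E) eB (pat_step (by decide +kernel) (q_cons (Vale.Agent.P032.Lt.q R0Q151.q3160_0) (q_cons (Vale.Agent.P032.Lt.q R0Q151.q3160_1) (q_cons (Vale.Agent.P032.Lt.q R0Q151.q3160_2) (q_cons (Vale.Agent.P032.Lt.q R0Q151.q3160_3) (q_cons (Vale.Agent.P032.Lt.q R0Q151.q3160_4) (q_cons (Vale.Agent.P032.Lt.q R0Q151.q3160_5) (q_cons (Vale.Agent.P032.Lt.q R0Q151.q3160_6) (q_cons (Vale.Agent.P032.Lt.q R0Q151.q3160_7)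 (q_cons (Vale.Agent.P032.Lt.q R0Q151.q3160_8) (q_cons (Vale.Agent.P032.Lt.q R0Q151.q3160_9) (q_cons (Vale.Agent.P032.Lt.q R0Q151.q3160_10) (q_cons (Vale.Agent.P032.Lt.q R0Q151.q3160_11) (q_cons (Vale.Agent.P032.Lt.q R0Q151.q3160_12) (q_cons (Vale.Agent.P032.Lt.q R0Q151.q3160_13) (q_cons (Vale.Agent.P032.Lt.q R0Q151.q3160_14) (q_cons (Vale.Agent.P032.Lt.q R0Q151.q3160_15) (q_cons (Vale.Agent.P032.Lt.q R0Q151.q3160_16) (q_cons (Vale.Agent.P032.Lt.q R0Q151.q3160_17) (q_cons (Vale.Agent.P032.Lt.q R0Q151.q3160_18) (q_cons (Vale.Agent.P032.Lt.q R0Q151.q3160_19) (q_cons (Vale.Agent.P032.Lt.q R0Q151.q3160_20) (q_cons (Vale.Agent.P032.Lt.q R0Q151.q3160_21) (q_cons (Vale.Agent.P032.Lt.q R0Q151.q3160_22) (q_cons (Vale.Agent.P032.Lt.q R0Q151.q3160_23) (q_cons (Vale.Agent.P032.Lt.q R0Q151.q3160_24) (q_cons (Vale.Agent.P032.Lt.q R0Q151.q3160_25) (q_cons (Vale.Agent.P032.Lt.q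 R0Q151.q3160_26) (q_cons (Vale.Agent.P032.Lt.q R0Q151.q3160_27) (q_cons (Vale.Agent.P032.Lt.q R0Q151.q3160_28) (q_cons (Vale.Agent.P032.Lt.q R0Q151.q3160_29) (q_cons (Vale.Agent.P032.Lt.q R0Q151.q3160_30) (q_cons (Vale.Agent.P032.Lt.q R0Q151.q3160_31) (q_cons (Vale.Agent.P032.Lt.q R0Q151.q3160_32) (q_cons (Vale.Agent.P032.Lt.q R0Q151.q3160_33) (q_cons (Vale.Agent.P032.Lt.q R0Q151.q3160_34) q_nil))))))))))))))))))))))))))))))))))))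

theorem p3161 : Pat 73 73 TBm TCm (CB.map Fm) R0Q151.P3161 R0Q151.I3161 := Vale.Agent.P032.Lt.pat_eq (E' := R0Q151.E) eB (pat_step (by decide +kernel) (q_cons (Vale.Agent.P032.Lt.q R0Q151.q3161_0) (q_cons (Vale.Agent.P032.Lt.q R0Q151.q3161_1) q_nil)))

theorem p3162 : Pat 73 73 TBm TCm (CB.map Fm) R0Q151.P3162 R0Q151.I3162 := Vale.Agent.P032.Lt.pat_eq (E' := R0Q151.E) eB (pat_step (by decide +kernel) (q_cons (Vale.Agent.P032.Lt.q R0Q151.q3162_0) (q_cons (Vale.Agent.P032.Lt.q R0Q151.q3162_1) (q_cons (Vale.Agent.P032.Lt.q R0Q151.q3162_2) q_nil))))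

theorem p3163 : Pat 73 73 TBm TCm (CB.map Fm) R0Q151.P3163 [] := Vale.Agent.P032.Lt.pat_eq (E' := R0Q151.E) eB (pat_end (by decide +kernel) (Vale.Agent.P032.Lt.q R0Q151.q3163))

def C3164 : List ℕ := [0, 4, 8, 12, 16, 20, 24, 82945, 475137, 738305]
theorem p3164 : Pat 73 73 TBm TCm (C3164.map Fm) R0Q152.P3164 R0Q152.I3164 := Vale.Agent.P032.Lt.pat_eq (E' := R0Q152.E3164) (by decide +kernel) (pat_step (by decide +kernel) (q_cons (Vale.Agent.P032.Lt.q R0Q152.q3164_0) (q_cons (Vale.Agent.P032.Lt.q R0Q152.q3164_1) (q_cons (Vale.Agent.P032.Lt.q R0Q152.q3164_2) (q_cons (Vale.Agent.P032.Lt.q R0Q152.q3164_3) (q_cons (Vale.Agent.P032.Lt.q R0Q152.q3164_4) (q_cons (Vale.Agent.P032.Lt.q R0Q152.q3164_5) (q_cons (Vale.Agent.P032.Lt.q R0Q152.q3164_6) (q_cons (Vale.Agent.P032.Lt.q R0Q152.q3164_7) (q_cons (Vale.Agent.P032.Lt.q R0Q152.q3164_8) (q_cons (Vale.Agent.P032.Lt.q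 R0Q152.q3164_9) (q_cons (Vale.Agent.P032.Lt.q R0Q152.q3164_10) (q_cons (Vale.Agent.P032.Lt.q R0Q152.q3164_11) (q_cons (Vale.Agent.P032.Lt.q R0Q152.q3164_12) (q_cons (Vale.Agent.P032.Lt.q R0Q152.q3164_13) (q_cons (Vale.Agent.P032.Lt.q R0Q152.q3164_14) (q_cons (Vale.Agent.P032.Lt.q R0Q152.q3164_15) (q_cons (Vale.Agent.P032.Lt.q R0Q152.q3164_16) (q_cons (Vale.Agent.P032.Lt.q R0Q152.q3164_17) (q_cons (Vale.Agent.P032.Lt.q R0Q152.q3164_18) (q_cons (Vale.Agent.P032.Lt.q R0Q152.q3164_19) (q_cons (Vale.Agent.P032.Lt.q R0Q152.q3164_20) (q_cons (Vale.Agent.P032.Lt.q R0Q152.q3164_21) (q_cons (Vale.Agent.P032.Lt.q R0Q152.q3164_22) (q_cons (Vale.Agent.P032.Lt.q R0Q152.q3164_23) (q_cons (Vale.Agent.P032.Lt.q R0Q152.q3164_24) (q_cons (Vale.Agent.P032.Lt.q R0Q152.q3164_25) (q_cons (Vale.Agent.P032.Lt.q R0Q152.q3164_26) (q_cons (Vale.Agent.P032.Lt.q R0Q152.q3164_27)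 (q_cons (Vale.Agent.P032.Lt.q R0Q152.q3164_28) (q_cons (Vale.Agent.P032.Lt.q R0Q152.q3164_29) (q_cons (Vale.Agent.P032.Lt.q R0Q152.q3164_30) (q_cons (Vale.Agent.P032.Lt.q R0Q152.q3164_31) (q_cons (Vale.Agent.P032.Lt.q R0Q152.q3164_32) (q_cons (Vale.Agent.P032.Lt.q R0Q152.q3164_33) (q_cons (Vale.Agent.P032.Lt.q R0Q152.q3164_34) (q_cons (Vale.Agent.P032.Lt.q R0Q152.q3164_35) (q_cons (Vale.Agent.P032.Lt.q R0Q152.q3164_36) (q_cons (Vale.Agent.P032.Lt.q R0Q152.q3164_37) (q_cons (Vale.Agent.P032.Lt.q R0Q152.q3164_38) (q_cons (Vale.Agent.P032.Lt.q R0Q152.q3164_39) (q_cons (Vale.Agent.P032.Lt.q R0Q152.q3164_40) (q_cons (Vale.Agent.P032.Lt.q R0Q152.q3164_41) (q_cons (Vale.Agent.P032.Lt.q R0Q152.q3164_42) (q_cons (Vale.Agent.P032.Lt.q R0Q152.q3164_43) (q_cons (Vale.Agent.P032.Lt.q R0Q152.q3164_44) (q_cons (Vale.Agent.P032.Lt.q R0Q152.q3164_45) (q_cons (Vale.Agent.P032.Lt.q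 R0Q152.q3164_46) (q_cons (Vale.Agent.P032.Lt.q R0Q152.q3164_47) (q_cons (Vale.Agent.P032.Lt.q R0Q152.q3164_48) (q_cons (Vale.Agent.P032.Lt.q R0Q152.q3164_49) (q_cons (Vale.Agent.P032.Lt.q R0Q152.q3164_50) (q_cons (Vale.Agent.P032.Lt.q R0Q152.q3164_51) (q_cons (Vale.Agent.P032.Lt.q R0Q152.q3164_52) (q_cons (Vale.Agent.P032.Lt.q R0Q152.q3164_53) (q_cons (Vale.Agent.P032.Lt.q R0Q152.q3164_54) (q_cons (Vale.Agent.P032.Lt.q R0Q152.q3164_55) (q_cons (Vale.Agent.P032.Lt.q R0Q152.q3164_56) (q_cons (Vale.Agent.P032.Lt.q R0Q152.q3164_57) (q_cons (Vale.Agent.P032.Lt.q R0Q152.q3164_58) (q_cons (Vale.Agent.P032.Lt.q R0Q152.q3164_59) (q_cons (Vale.Agent.P032.Lt.q R0Q152.q3164_60) (q_cons (Vale.Agent.P032.Lt.q R0Q152.q3164_61) (q_cons (Vale.Agent.P032.Lt.q R0Q152.q3164_62) (q_cons (Vale.Agent.P032.Lt.q R0Q152.q3164_63) (q_cons (Vale.Agent.P032.Lt.q R0Q152.q3164_64)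 (q_cons (Vale.Agent.P032.Lt.q R0Q152.q3164_65) (q_cons (Vale.Agent.P032.Lt.q R0Q152.q3164_66) (q_cons (Vale.Agent.P032.Lt.q R0Q152.q3164_67) (q_cons (Vale.Agent.P032.Lt.q R0Q152.q3164_68) (q_cons (Vale.Agent.P032.Lt.q R0Q152.q3164_69) (q_cons (Vale.Agent.P032.Lt.q R0Q152.q3164_70) (q_cons (Vale.Agent.P032.Lt.q R0Q152.q3164_71) (q_cons (Vale.Agent.P032.Lt.q R0Q152.q3164_72) (q_cons (Vale.Agent.P032.Lt.q R0Q152.q3164_73) (q_cons (Vale.Agent.P032.Lt.q R0Q152.q3164_74) (q_cons (Vale.Agent.P032.Lt.q R0Q152.q3164_75) (q_cons (Vale.Agent.P032.Lt.q R0Q152.q3164_76) (q_cons (Vale.Agent.P032.Lt.q R0Q152.q3164_77) (q_cons (Vale.Agent.P032.Lt.q R0Q152.q3164_78) (q_cons (Vale.Agent.P032.Lt.q R0Q152.q3164_79) (q_cons (Vale.Agent.P032.Lt.q R0Q152.q3164_80) (q_cons (Vale.Agent.P032.Lt.q R0Q152.q3164_81) (q_cons (Vale.Agent.P032.Lt.q R0Q152.q3164_82) (q_cons (Vale.Agent.P032.Lt.q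 R0Q152.q3164_83) (q_cons (Vale.Agent.P032.Lt.q R0Q152.q3164_84) (q_cons (Vale.Agent.P032.Lt.q R0Q152.q3164_85) (q_cons (Vale.Agent.P032.Lt.q R0Q152.q3164_86) (q_cons (Vale.Agent.P032.Lt.q R0Q152.q3164_87) (q_cons (Vale.Agent.P032.Lt.q R0Q152.q3164_88) (q_cons (Vale.Agent.P032.Lt.q R0Q152.q3164_89) (q_cons (Vale.Agent.P032.Lt.q R0Q152.q3164_90) (q_cons (Vale.Agent.P032.Lt.q R0Q152.q3164_91) (q_cons (Vale.Agent.P032.Lt.q R0Q152.q3164_92) (q_cons (Vale.Agent.P032.Lt.q R0Q152.q3164_93) (q_cons (Vale.Agent.P032.Lt.q R0Q152.q3164_94) (q_cons (Vale.Agent.P032.Lt.q R0Q152.q3164_95) (q_cons (Vale.Agent.P032.Lt.q R0Q152.q3164_96) (q_cons (Vale.Agent.P032.Lt.q R0Q152.q3164_97) (q_cons (Vale.Agent.P032.Lt.q R0Q152.q3164_98) (q_cons (Vale.Agent.P032.Lt.q R0Q152.q3164_99) (q_cons (Vale.Agent.P032.Lt.q R0Q152.q3164_100) (q_cons (Vale.Agent.P032.Lt.q R0Q152.q3164_101)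 (q_cons (Vale.Agent.P032.Lt.q R0Q152.q3164_102) (q_cons (Vale.Agent.P032.Lt.q R0Q152.q3164_103) (q_cons (Vale.Agent.P032.Lt.q R0Q152.q3164_104) (q_cons (Vale.Agent.P032.Lt.q R0Q152.q3164_105) (q_cons (Vale.Agent.P032.Lt.q R0Q152.q3164_106) (q_cons (Vale.Agent.P032.Lt.q R0Q152.q3164_107) (q_cons (Vale.Agent.P032.Lt.q R0Q152.q3164_108) (q_cons (Vale.Agent.P032.Lt.q R0Q152.q3164_109) (q_cons (Vale.Agent.P032.Lt.q R0Q152.q3164_110) (q_cons (Vale.Agent.P032.Lt.q R0Q152.q3164_111) (q_cons (Vale.Agent.P032.Lt.q R0Q152.q3164_112) (q_cons (Vale.Agent.P032.Lt.q R0Q152.q3164_113) (q_cons (Vale.Agent.P032.Lt.q R0Q152.q3164_114) (q_cons (Vale.Agent.P032.Lt.q R0Q152.q3164_115) (q_cons (Vale.Agent.P032.Lt.q R0Q152.q3164_116) (q_cons (Vale.Agent.P032.Lt.q R0Q152.q3164_117) (q_cons (Vale.Agent.P032.Lt.q R0Q152.q3164_118) (q_cons (Vale.Agent.P032.Lt.q R0Q152.q3164_119)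 (q_cons (Vale.Agent.P032.Lt.q R0Q152.q3164_120) (q_cons (Vale.Agent.P032.Lt.q R0Q152.q3164_121) (q_cons (Vale.Agent.P032.Lt.q R0Q152.q3164_122) (q_cons (Vale.Agent.P032.Lt.q R0Q152.q3164_123) (q_cons (Vale.Agent.P032.Lt.q R0Q152.q3164_124) (q_cons (Vale.Agent.P032.Lt.q R0Q152.q3164_125) (q_cons (Vale.Agent.P032.Lt.q R0Q152.q3164_126) (q_cons (Vale.Agent.P032.Lt.q R0Q152.q3164_127) (q_cons (Vale.Agent.P032.Lt.q R0Q152.q3164_128) (q_cons (Vale.Agent.P032.Lt.q R0Q152.q3164_129) (q_cons (Vale.Agent.P032.Lt.q R0Q152.q3164_130) (q_cons (Vale.Agent.P032.Lt.q R0Q152.q3164_131) (q_cons (Vale.Agent.P032.Lt.q R0Q152.q3164_132) (q_cons (Vale.Agent.P032.Lt.q R0Q152.q3164_133) (q_cons (Vale.Agent.P032.Lt.q R0Q152.q3164_134) (q_cons (Vale.Agent.P032.Lt.q R0Q152.q3164_135) (q_cons (Vale.Agent.P032.Lt.q R0Q152.q3164_136) (q_cons (Vale.Agent.P032.Lt.q R0Q152.q3164_137)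 (q_cons (Vale.Agent.P032.Lt.q R0Q152.q3164_138) (q_cons (Vale.Agent.P032.Lt.q R0Q152.q3164_139) (q_cons (Vale.Agent.P032.Lt.q R0Q152.q3164_140) (q_cons (Vale.Agent.P032.Lt.q R0Q152.q3164_141) q_nil)))))))))))))))))))))))))))))))))))))))))))))))))))))))))))))))))))))))))))))))))))))))))))))))))))))))))))))))))))))))))))))))))))))))))))))))

theorem p3165 : Pat 73 73 TBm TCm (CB.map Fm) R0Q152.P3165 R0Q152.I3165 := Vale.Agent.P032.Lt.pat_eq (E' := R0Q152.E) eB (pat_step (by decide +kernel) (q_cons (Vale.Agent.P032.Lt.q R0Q152.q3165_0) q_nil))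

def C3166 : List ℕ := [0, 4, 8, 12, 16, 20, 24, 478209, 480257, 484353, 606209, 737281]
theorem p3166 : Pat 73 73 TBm TCm (C3166.map Fm) R0Q152.P3166 R0Q152.I3166 := Vale.Agent.P032.Lt.pat_eq (E' := R0Q152.E3166) (by decide +kernel) (pat_step (by decide +kernel) (q_cons (Vale.Agent.P032.Lt.q R0Q152.q3166_0) (q_cons (Vale.Agent.P032.Lt.q R0Q152.q3166_1) (q_cons (Vale.Agent.P032.Lt.q R0Q152.q3166_2) (q_cons (Vale.Agent.P032.Lt.q R0Q152.q3166_3) (q_cons (Vale.Agent.P032.Lt.q R0Q152.q3166_4) q_nil))))))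

theorem p3167 : Pat 73 73 TBm TCm (CB.map Fm) R0Q152.P3167 R0Q152.I3167 := Vale.Agent.P032.Lt.pat_eq (E' := R0Q152.E) eB (pat_step (by decide +kernel) (q_cons (Vale.Agent.P032.Lt.q R0Q152.q3167_0) (q_cons (Vale.Agent.P032.Lt.q R0Q152.q3167_1) (q_cons (Vale.Agent.P032.Lt.q R0Q152.q3167_2) q_nil))))

theorem p3168 : Pat 73 73 TBm TCm (CB.map Fm) R0Q152.P3168 R0Q152.I3168 := Vale.Agent.P032.Lt.pat_eq (E' := R0Q152.E) eB (pat_step (by decide +kernel) (q_cons (Vale.Agent.P032.Lt.q R0Q152.q3168_0) (q_cons (Vale.Agent.P032.Lt.q R0Q152.q3168_1) (q_cons (Vale.Agent.P032.Lt.q R0Q152.q3168_2) (q_cons (Vale.Agent.P032.Lt.q R0Q152.q3168_3) (q_cons (Vale.Agent.P032.Lt.q R0Q152.q3168_4) q_nil))))))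

theorem p3169 : Pat 73 73 TBm TCm (CB.map Fm) R0Q152.P3169 R0Q152.I3169 := Vale.Agent.P032.Lt.pat_eq (E' := R0Q152.E) eB (pat_step (by decide +kernel) (q_cons (Vale.Agent.P032.Lt.q R0Q152.q3169_0) (q_cons (Vale.Agent.P032.Lt.q R0Q152.q3169_1) q_nil)))

theorem p3170 : Pat 73 73 TBm TCm (CB.map Fm) R0Q152.P3170 R0Q152.I3170 := Vale.Agent.P032.Lt.pat_eq (E' := R0Q152.E) eB (pat_step (by decide +kernel) (q_cons (Vale.Agent.P032.Lt.q R0Q152.q3170_0) q_nil))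

theorem p3171 : Pat 73 73 TBm TCm (CB.map Fm) R0Q153.P3171 R0Q153.I3171 := Vale.Agent.P032.Lt.pat_eq (E' := R0Q153.E) eB (pat_step (by decide +kernel) (q_cons (Vale.Agent.P032.Lt.q R0Q153.q3171_0) (q_cons (Vale.Agent.P032.Lt.q R0Q153.q3171_1) (q_cons (Vale.Agent.P032.Lt.q R0Q153.q3171_2) (q_cons (Vale.Agent.P032.Lt.q R0Q153.q3171_3) (q_cons (Vale.Agent.P032.Lt.q R0Q153.q3171_4) (q_cons (Vale.Agent.P032.Lt.q R0Q153.q3171_5) (q_cons (Vale.Agent.P032.Lt.q R0Q153.q3171_6) (q_cons (Vale.Agent.P032.Lt.q R0Q153.q3171_7) (q_cons (Vale.Agent.P032.Lt.q R0Q153.q3171_8) (q_cons (Vale.Agent.P032.Lt.q R0Q153.q3171_9) (q_cons (Vale.Agent.P032.Lt.q R0Q153.q3171_10) (q_cons (Vale.Agent.P032.Lt.q R0Q153.q3171_11) (q_cons (Vale.Agent.P032.Lt.q R0Q153.q3171_12) (q_cons (Vale.Agent.P032.Lt.q R0Q153.q3171_13) (q_cons (Vale.Agent.P032.Lt.q R0Q153.q3171_14) (q_cons (Vale.Agent.P032.Lt.q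 R0Q153.q3171_15) (q_cons (Vale.Agent.P032.Lt.q R0Q153.q3171_16) q_nil))))))))))))))))))

theorem p3172 : Pat 73 73 TBm TCm (CB.map Fm) R0Q153.P3172 R0Q153.I3172 := Vale.Agent.P032.Lt.pat_eq (E' := R0Q153.E) eB (pat_step (by decide +kernel) (q_cons (Vale.Agent.P032.Lt.q R0Q153.q3172_0) (q_cons (Vale.Agent.P032.Lt.q R0Q153.q3172_1) (q_cons (Vale.Agent.P032.Lt.q R0Q153.q3172_2) (q_cons (Vale.Agent.P032.Lt.q R0Q153.q3172_3) (q_cons (Vale.Agent.P032.Lt.q R0Q153.q3172_4) (q_cons (Vale.Agent.P032.Lt.q R0Q153.q3172_5) (q_cons (Vale.Agent.P032.Lt.q R0Q153.q3172_6) (q_cons (Vale.Agent.P032.Lt.q R0Q153.q3172_7) (q_cons (Vale.Agent.P032.Lt.q R0Q153.q3172_8) (q_cons (Vale.Agent.P032.Lt.q R0Q153.q3172_9) (q_cons (Vale.Agent.P032.Lt.q R0Q153.q3172_10) (q_cons (Vale.Agent.P032.Lt.q R0Q153.q3172_11) (q_cons (Vale.Agent.P032.Lt.q R0Q153.q3172_12) (q_cons (Vale.Agent.P032.Lt.q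 R0Q153.q3172_13) (q_cons (Vale.Agent.P032.Lt.q R0Q153.q3172_14) (q_cons (Vale.Agent.P032.Lt.q R0Q153.q3172_15) (q_cons (Vale.Agent.P032.Lt.q R0Q153.q3172_16) (q_cons (Vale.Agent.P032.Lt.q R0Q153.q3172_17) (q_cons (Vale.Agent.P032.Lt.q R0Q153.q3172_18) (q_cons (Vale.Agent.P032.Lt.q R0Q153.q3172_19) (q_cons (Vale.Agent.P032.Lt.q R0Q153.q3172_20) (q_cons (Vale.Agent.P032.Lt.q R0Q153.q3172_21) (q_cons (Vale.Agent.P032.Lt.q R0Q153.q3172_22) (q_cons (Vale.Agent.P032.Lt.q R0Q153.q3172_23) (q_cons (Vale.Agent.P032.Lt.q R0Q153.q3172_24) (q_cons (Vale.Agent.P032.Lt.q R0Q153.q3172_25) (q_cons (Vale.Agent.P032.Lt.q R0Q153.q3172_26) (q_cons (Vale.Agent.P032.Lt.q R0Q153.q3172_27) (q_cons (Vale.Agent.P032.Lt.q R0Q153.q3172_28) (q_cons (Vale.Agent.P032.Lt.q R0Q153.q3172_29) (q_cons (Vale.Agent.P032.Lt.q R0Q153.q3172_30) (q_cons (Vale.Agent.P032.Lt.q R0Q153.q3172_31)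 q_nil)))))))))))))))))))))))))))))))))

def C3173 : List ℕ := [0, 4, 8, 12, 16, 20, 24, 82945, 475137]
theorem p3173 : Pat 73 73 TBm TCm (C3173.map Fm) R0Q153.P3173 R0Q153.I3173 := Vale.Agent.P032.Lt.pat_eq (E' := R0Q153.E3173) (by decide +kernel) (pat_step (by decide +kernel) (q_cons (Vale.Agent.P032.Lt.q R0Q153.q3173_0) (q_cons (Vale.Agent.P032.Lt.q R0Q153.q3173_1) (q_cons (Vale.Agent.P032.Lt.q R0Q153.q3173_2) (q_cons (Vale.Agent.P032.Lt.q R0Q153.q3173_3) (q_cons (Vale.Agent.P032.Lt.q R0Q153.q3173_4) (q_cons (Vale.Agent.P032.Lt.q R0Q153.q3173_5) (q_cons (Vale.Agent.P032.Lt.q R0Q153.q3173_6) (q_cons (Vale.Agent.P032.Lt.q R0Q153.q3173_7) (q_cons (Vale.Agent.P032.Lt.q R0Q153.q3173_8) (q_cons (Vale.Agent.P032.Lt.q R0Q153.q3173_9) (q_cons (Vale.Agent.P032.Lt.q R0Q153.q3173_10) (q_cons (Vale.Agent.P032.Lt.q R0Q153.q3173_11) (q_cons (Vale.Agent.P032.Lt.q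 R0Q153.q3173_12) (q_cons (Vale.Agent.P032.Lt.q R0Q153.q3173_13) (q_cons (Vale.Agent.P032.Lt.q R0Q153.q3173_14) q_nil))))))))))))))))

theorem p3174 : Pat 73 73 TBm TCm (CB.map Fm) R0Q153.P3174 R0Q153.I3174 := Vale.Agent.P032.Lt.pat_eq (E' := R0Q153.E) eB (pat_step (by decide +kernel) (q_cons (Vale.Agent.P032.Lt.q R0Q153.q3174_0) (q_cons (Vale.Agent.P032.Lt.q R0Q153.q3174_1) (q_cons (Vale.Agent.P032.Lt.q R0Q153.q3174_2) (q_cons (Vale.Agent.P032.Lt.q R0Q153.q3174_3) (q_cons (Vale.Agent.P032.Lt.q R0Q153.q3174_4) (q_cons (Vale.Agent.P032.Lt.q R0Q153.q3174_5) (q_cons (Vale.Agent.P032.Lt.q R0Q153.q3174_6) (q_cons (Vale.Agent.P032.Lt.q R0Q153.q3174_7) (q_cons (Vale.Agent.P032.Lt.q R0Q153.q3174_8) (q_cons (Vale.Agent.P032.Lt.q R0Q153.q3174_9) (q_cons (Vale.Agent.P032.Lt.q R0Q153.q3174_10) (q_cons (Vale.Agent.P032.Lt.q R0Q153.q3174_11) (q_cons (Vale.Agent.P032.Lt.q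 R0Q153.q3174_12) (q_cons (Vale.Agent.P032.Lt.q R0Q153.q3174_13) (q_cons (Vale.Agent.P032.Lt.q R0Q153.q3174_14) (q_cons (Vale.Agent.P032.Lt.q R0Q153.q3174_15) (q_cons (Vale.Agent.P032.Lt.q R0Q153.q3174_16) (q_cons (Vale.Agent.P032.Lt.q R0Q153.q3174_17) (q_cons (Vale.Agent.P032.Lt.q R0Q153.q3174_18) q_nil))))))))))))))))))))

theorem p3175 : Pat 73 73 TBm TCm (CB.map Fm) R0Q153.P3175 R0Q153.I3175 := Vale.Agent.P032.Lt.pat_eq (E' := R0Q153.E) eB (pat_step (by decide +kernel) (q_cons (Vale.Agent.P032.Lt.q R0Q153.q3175_0) q_nil))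

theorem p3176 : Pat 73 73 TBm TCm (CB.map Fm) R0Q153.P3176 R0Q153.I3176 := Vale.Agent.P032.Lt.pat_eq (E' := R0Q153.E) eB (pat_step (by decide +kernel) (q_cons (Vale.Agent.P032.Lt.q R0Q153.q3176_0) q_nil))

theorem p3177 : Pat 73 73 TBm TCm (CB.map Fm) R0Q153.P3177 R0Q153.I3177 := Vale.Agent.P032.Lt.pat_eq (E' := R0Q153.E) eB (pat_step (by decide +kernel) (q_cons (Vale.Agent.P032.Lt.q R0Q153.q3177_0) (q_cons (Vale.Agent.P032.Lt.q R0Q153.q3177_1) (q_cons (Vale.Agent.P032.Lt.q R0Q153.q3177_2) (q_cons (Vale.Agent.P032.Lt.q R0Q153.q3177_3) (q_cons (Vale.Agent.P032.Lt.q R0Q153.q3177_4) (q_cons (Vale.Agent.P032.Lt.q R0Q153.q3177_5) (q_cons (Vale.Agent.P032.Lt.q R0Q153.q3177_6) (q_cons (Vale.Agent.P032.Lt.q R0Q153.q3177_7) (q_cons (Vale.Agent.P032.Lt.q R0Q153.q3177_8) (q_cons (Vale.Agent.P032.Lt.q R0Q153.q3177_9) (q_cons (Vale.Agent.P032.Lt.q R0Q153.q3177_10)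 (q_cons (Vale.Agent.P032.Lt.q R0Q153.q3177_11) (q_cons (Vale.Agent.P032.Lt.q R0Q153.q3177_12) (q_cons (Vale.Agent.P032.Lt.q R0Q153.q3177_13) (q_cons (Vale.Agent.P032.Lt.q R0Q153.q3177_14) q_nil))))))))))))))))

theorem p3178 : Pat 73 73 TBm TCm (CB.map Fm) R0Q153.P3178 R0Q153.I3178 := Vale.Agent.P032.Lt.pat_eq (E' := R0Q153.E) eB (pat_step (by decide +kernel) (q_cons (Vale.Agent.P032.Lt.q R0Q153.q3178_0) q_nil))

def C3179 : List ℕ := [0, 4, 8, 12, 16, 20, 24, 81921, 82945, 212993, 344065, 475137, 737281]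
theorem p3179 : Pat 73 73 TBm TCm (C3179.map Fm) R0Q153.P3179 R0Q153.I3179 := Vale.Agent.P032.Lt.pat_eq (E' := R0Q153.E3179) (by decide +kernel) (pat_step (by decide +kernel) (q_cons (Vale.Agent.P032.Lt.q R0Q153.q3179_0) q_nil))

def C3180 : List ℕ := [0, 4, 8, 12, 16, 20, 24, 344065, 354305, 613377, 744449]
theorem p3180 : Pat 73 73 TBm TCm (C3180.map Fm) R0Q153.P3180 R0Q153.I3180 := Vale.Agent.P032.Lt.pat_eq (E' := R0Q153.E3180) (by decide +kernel) (pat_step (by decide +kernel) (q_cons (Vale.Agent.P032.Lt.q R0Q153.q3180_0) q_nil))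

theorem p3181 : Pat 73 73 TBm TCm (CB.map Fm) R0Q153.P3181 R0Q153.I3181 := Vale.Agent.P032.Lt.pat_eq (E' := R0Q153.E) eB (pat_step (by decide +kernel) (q_cons (Vale.Agent.P032.Lt.q R0Q153.q3181_0) (q_cons (Vale.Agent.P032.Lt.q R0Q153.q3181_1) (q_cons (Vale.Agent.P032.Lt.q R0Q153.q3181_2) q_nil))))

theorem p3182 : Pat 73 73 TBm TCm (CB.map Fm) R0Q153.P3182 R0Q153.I3182 := Vale.Agent.P032.Lt.pat_eq (E' := R0Q153.E) eB (pat_step (by decide +kernel) (q_cons (Vale.Agent.P032.Lt.q R0Q153.q3182_0) (q_cons (Vale.Agent.P032.Lt.q R0Q153.q3182_1) (q_cons (Vale.Agent.P032.Lt.q R0Q153.q3182_2) q_nil))))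

theorem p3183 : Pat 73 73 TBm TCm (CB.map Fm) R0Q153.P3183 R0Q153.I3183 := Vale.Agent.P032.Lt.pat_eq (E' := R0Q153.E) eB (pat_step (by decide +kernel) (q_cons (Vale.Agent.P032.Lt.q R0Q153.q3183_0) (q_cons (Vale.Agent.P032.Lt.q R0Q153.q3183_1) (q_cons (Vale.Agent.P032.Lt.q R0Q153.q3183_2) (q_cons (Vale.Agent.P032.Lt.q R0Q153.q3183_3) q_nil)))))

theorem p3184 : Pat 73 73 TBm TCm (CB.map Fm) R0Q153.P3184 R0Q153.I3184 := Vale.Agent.P032.Lt.pat_eq (E' := R0Q153.E) eB (pat_step (by decide +kernel) (q_cons (Vale.Agent.P032.Lt.q R0Q153.q3184_0) q_nil))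

theorem p3185 : Pat 73 73 TBm TCm (CB.map Fm) R0Q153.P3185 R0Q153.I3185 := Vale.Agent.P032.Lt.pat_eq (E' := R0Q153.E) eB (pat_step (by decide +kernel) (q_cons (Vale.Agent.P032.Lt.q R0Q153.q3185_0) q_nil))

theorem p3186 : Pat 73 73 TBm TCm (CB.map Fm) R0Q154.P3186 R0Q154.I3186 := Vale.Agent.P032.Lt.pat_eq (E' := R0Q154.E) eB (pat_step (by decide +kernel) (q_cons (Vale.Agent.P032.Lt.q R0Q154.q3186_0) q_nil))

theorem p3187 : Pat 73 73 TBm TCm (CB.map Fm) R0Q154.P3187 R0Q154.I3187 := Vale.Agent.P032.Lt.pat_eq (E' := R0Q154.E) eB (pat_step (by decide +kernel) (q_cons (Vale.Agent.P032.Lt.q R0Q154.q3187_0) (q_cons (Vale.Agent.P032.Lt.q R0Q154.q3187_1) (q_cons (Vale.Agent.P032.Lt.q R0Q154.q3187_2) (q_cons (Vale.Agent.P032.Lt.q R0Q154.q3187_3) (q_cons (Vale.Agent.P032.Lt.q R0Q154.q3187_4) (q_cons (Vale.Agent.P032.Lt.q R0Q154.q3187_5) (q_cons (Vale.Agent.P032.Lt.q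 R0Q154.q3187_6) (q_cons (Vale.Agent.P032.Lt.q R0Q154.q3187_7) (q_cons (Vale.Agent.P032.Lt.q R0Q154.q3187_8) (q_cons (Vale.Agent.P032.Lt.q R0Q154.q3187_9) q_nil)))))))))))

theorem p3188 : Pat 73 73 TBm TCm (CB.map Fm) R0Q154.P3188 R0Q154.I3188 := Vale.Agent.P032.Lt.pat_eq (E' := R0Q154.E) eB (pat_step (by decide +kernel) (q_cons (Vale.Agent.P032.Lt.q R0Q154.q3188_0) (q_cons (Vale.Agent.P032.Lt.q R0Q154.q3188_1) (q_cons (Vale.Agent.P032.Lt.q R0Q154.q3188_2) (q_cons (Vale.Agent.P032.Lt.q R0Q154.q3188_3) (q_cons (Vale.Agent.P032.Lt.q R0Q154.q3188_4) (q_cons (Vale.Agent.P032.Lt.q R0Q154.q3188_5) (q_cons (Vale.Agent.P032.Lt.q R0Q154.q3188_6) (q_cons (Vale.Agent.P032.Lt.q R0Q154.q3188_7) (q_cons (Vale.Agent.P032.Lt.q R0Q154.q3188_8) (q_cons (Vale.Agent.P032.Lt.q R0Q154.q3188_9) (q_cons (Vale.Agent.P032.Lt.q R0Q154.q3188_10) (q_cons (Vale.Agent.P032.Lt.q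 R0Q154.q3188_11) (q_cons (Vale.Agent.P032.Lt.q R0Q154.q3188_12) (q_cons (Vale.Agent.P032.Lt.q R0Q154.q3188_13) (q_cons (Vale.Agent.P032.Lt.q R0Q154.q3188_14) (q_cons (Vale.Agent.P032.Lt.q R0Q154.q3188_15) (q_cons (Vale.Agent.P032.Lt.q R0Q154.q3188_16) (q_cons (Vale.Agent.P032.Lt.q R0Q154.q3188_17) (q_cons (Vale.Agent.P032.Lt.q R0Q154.q3188_18) (q_cons (Vale.Agent.P032.Lt.q R0Q154.q3188_19) (q_cons (Vale.Agent.P032.Lt.q R0Q154.q3188_20) (q_cons (Vale.Agent.P032.Lt.q R0Q154.q3188_21) (q_cons (Vale.Agent.P032.Lt.q R0Q154.q3188_22) (q_cons (Vale.Agent.P032.Lt.q R0Q154.q3188_23) (q_cons (Vale.Agent.P032.Lt.q R0Q154.q3188_24) q_nil))))))))))))))))))))))))))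

theorem p3189 : Pat 73 73 TBm TCm (CB.map Fm) R0Q154.P3189 R0Q154.I3189 := Vale.Agent.P032.Lt.pat_eq (E' := R0Q154.E) eB (pat_step (by decide +kernel) (q_cons (Vale.Agent.P032.Lt.q R0Q154.q3189_0) (q_cons (Vale.Agent.P032.Lt.q R0Q154.q3189_1) (q_cons (Vale.Agent.P032.Lt.q R0Q154.q3189_2) (q_cons (Vale.Agent.P032.Lt.q R0Q154.q3189_3) (q_cons (Vale.Agent.P032.Lt.q R0Q154.q3189_4) (q_cons (Vale.Agent.P032.Lt.q R0Q154.q3189_5) (q_cons (Vale.Agent.P032.Lt.q R0Q154.q3189_6) (q_cons (Vale.Agent.P032.Lt.q R0Q154.q3189_7) (q_cons (Vale.Agent.P032.Lt.q R0Q154.q3189_8) (q_cons (Vale.Agent.P032.Lt.q R0Q154.q3189_9) q_nil)))))))))))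

theorem p3190 : Pat 73 73 TBm TCm (CB.map Fm) R0Q154.P3190 R0Q154.I3190 := Vale.Agent.P032.Lt.pat_eq (E' := R0Q154.E) eB (pat_step (by decide +kernel) (q_cons (Vale.Agent.P032.Lt.q R0Q154.q3190_0) q_nil))

theorem p3191 : Pat 73 73 TBm TCm (CB.map Fm) R0Q154.P3191 R0Q154.I3191 := Vale.Agent.P032.Lt.pat_eq (E' := R0Q154.E) eB (pat_step (by decide +kernel) (q_cons (Vale.Agent.P032.Lt.q R0Q154.q3191_0) q_nil))

theorem p3192 : Pat 73 73 TBm TCm (CB.map Fm) R0Q154.P3192 R0Q154.I3192 := Vale.Agent.P032.Lt.pat_eq (E' := R0Q154.E) eB (pat_step (by decide +kernel) (q_cons (Vale.Agent.P032.Lt.q R0Q154.q3192_0) q_nil))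

theorem p3193 : Pat 73 73 TBm TCm (CB.map Fm) R0Q154.P3193 R0Q154.I3193 := Vale.Agent.P032.Lt.pat_eq (E' := R0Q154.E) eB (pat_step (by decide +kernel) (q_cons (Vale.Agent.P032.Lt.q R0Q154.q3193_0) (q_cons (Vale.Agent.P032.Lt.q R0Q154.q3193_1) (q_cons (Vale.Agent.P032.Lt.q R0Q154.q3193_2) q_nil))))

theorem p3194 : Pat 73 73 TBm TCm (CB.map Fm) R0Q154.P3194 R0Q154.I3194 := Vale.Agent.P032.Lt.pat_eq (E' := R0Q154.E) eB (pat_step (by decide +kernel) (q_cons (Vale.Agent.P032.Lt.q R0Q154.q3194_0) (q_cons (Vale.Agent.P032.Lt.q R0Q154.q3194_1) (q_cons (Vale.Agent.P032.Lt.q R0Q154.q3194_2) (q_cons (Vale.Agent.P032.Lt.q R0Q154.q3194_3) (q_cons (Vale.Agent.P032.Lt.q R0Q154.q3194_4) (q_cons (Vale.Agent.P032.Lt.q R0Q154.q3194_5) (q_cons (Vale.Agent.P032.Lt.q R0Q154.q3194_6) (q_cons (Vale.Agent.P032.Lt.q R0Q154.q3194_7) (q_cons (Vale.Agent.P032.Lt.q R0Q154.q3194_8)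 (q_cons (Vale.Agent.P032.Lt.q R0Q154.q3194_9) (q_cons (Vale.Agent.P032.Lt.q R0Q154.q3194_10) (q_cons (Vale.Agent.P032.Lt.q R0Q154.q3194_11) (q_cons (Vale.Agent.P032.Lt.q R0Q154.q3194_12) (q_cons (Vale.Agent.P032.Lt.q R0Q154.q3194_13) (q_cons (Vale.Agent.P032.Lt.q R0Q154.q3194_14) (q_cons (Vale.Agent.P032.Lt.q R0Q154.q3194_15) (q_cons (Vale.Agent.P032.Lt.q R0Q154.q3194_16) (q_cons (Vale.Agent.P032.Lt.q R0Q154.q3194_17) q_nil)))))))))))))))))))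

theorem p3195 : Pat 73 73 TBm TCm (CB.map Fm) R0Q154.P3195 R0Q154.I3195 := Vale.Agent.P032.Lt.pat_eq (E' := R0Q154.E) eB (pat_step (by decide +kernel) (q_cons (Vale.Agent.P032.Lt.q R0Q154.q3195_0) (q_cons (Vale.Agent.P032.Lt.q R0Q154.q3195_1) (q_cons (Vale.Agent.P032.Lt.q R0Q154.q3195_2) (q_cons (Vale.Agent.P032.Lt.q R0Q154.q3195_3) (q_cons (Vale.Agent.P032.Lt.q R0Q154.q3195_4) (q_cons (Vale.Agent.P032.Lt.q R0Q154.q3195_5) (q_cons (Vale.Agent.P032.Lt.q R0Q154.q3195_6) (q_cons (Vale.Agent.P032.Lt.q R0Q154.q3195_7) (q_cons (Vale.Agent.P032.Lt.q R0Q154.q3195_8) (q_cons (Vale.Agent.P032.Lt.q R0Q154.q3195_9) (q_cons (Vale.Agent.P032.Lt.q R0Q154.q3195_10) (q_cons (Vale.Agent.P032.Lt.q R0Q154.q3195_11) (q_cons (Vale.Agent.P032.Lt.q R0Q154.q3195_12) (q_cons (Vale.Agent.P032.Lt.q R0Q154.q3195_13) (q_cons (Vale.Agent.P032.Lt.q R0Q154.q3195_14) q_nil))))))))))))))))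

theorem p3196 : Pat 73 73 TBm TCm (CB.map Fm) R0Q154.P3196 R0Q154.I3196 := Vale.Agent.P032.Lt.pat_eq (E' := R0Q154.E) eB (pat_step (by decide +kernel) (q_cons (Vale.Agent.P032.Lt.q R0Q154.q3196_0) (q_cons (Vale.Agent.P032.Lt.q R0Q154.q3196_1) (q_cons (Vale.Agent.P032.Lt.q R0Q154.q3196_2) (q_cons (Vale.Agent.P032.Lt.q R0Q154.q3196_3) (q_cons (Vale.Agent.P032.Lt.q R0Q154.q3196_4) (q_cons (Vale.Agent.P032.Lt.q R0Q154.q3196_5) (q_cons (Vale.Agent.P032.Lt.q R0Q154.q3196_6) (q_cons (Vale.Agent.P032.Lt.q R0Q154.q3196_7) (q_cons (Vale.Agent.P032.Lt.q R0Q154.q3196_8) (q_cons (Vale.Agent.P032.Lt.q R0Q154.q3196_9) (q_cons (Vale.Agent.P032.Lt.q R0Q154.q3196_10) (q_cons (Vale.Agent.P032.Lt.q R0Q154.q3196_11) (q_cons (Vale.Agent.P032.Lt.q R0Q154.q3196_12) (q_cons (Vale.Agent.P032.Lt.q R0Q154.q3196_13) (q_cons (Vale.Agent.P032.Lt.q R0Q154.q3196_14) (q_cons (Vale.Agent.P032.Lt.q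 R0Q154.q3196_15) (q_cons (Vale.Agent.P032.Lt.q R0Q154.q3196_16) (q_cons (Vale.Agent.P032.Lt.q R0Q154.q3196_17) (q_cons (Vale.Agent.P032.Lt.q R0Q154.q3196_18) (q_cons (Vale.Agent.P032.Lt.q R0Q154.q3196_19) (q_cons (Vale.Agent.P032.Lt.q R0Q154.q3196_20) q_nil))))))))))))))))))))))

theorem p3197 : Pat 73 73 TBm TCm (CB.map Fm) R0Q154.P3197 R0Q154.I3197 := Vale.Agent.P032.Lt.pat_eq (E' := R0Q154.E) eB (pat_step (by decide +kernel) (q_cons (Vale.Agent.P032.Lt.q R0Q154.q3197_0) (q_cons (Vale.Agent.P032.Lt.q R0Q154.q3197_1) (q_cons (Vale.Agent.P032.Lt.q R0Q154.q3197_2) (q_cons (Vale.Agent.P032.Lt.q R0Q154.q3197_3) (q_cons (Vale.Agent.P032.Lt.q R0Q154.q3197_4) (q_cons (Vale.Agent.P032.Lt.q R0Q154.q3197_5) (q_cons (Vale.Agent.P032.Lt.q R0Q154.q3197_6) (q_cons (Vale.Agent.P032.Lt.q R0Q154.q3197_7) (q_cons (Vale.Agent.P032.Lt.q R0Q154.q3197_8) (q_cons (Vale.Agent.P032.Lt.q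 R0Q154.q3197_9) (q_cons (Vale.Agent.P032.Lt.q R0Q154.q3197_10) (q_cons (Vale.Agent.P032.Lt.q R0Q154.q3197_11) (q_cons (Vale.Agent.P032.Lt.q R0Q154.q3197_12) (q_cons (Vale.Agent.P032.Lt.q R0Q154.q3197_13) (q_cons (Vale.Agent.P032.Lt.q R0Q154.q3197_14) (q_cons (Vale.Agent.P032.Lt.q R0Q154.q3197_15) (q_cons (Vale.Agent.P032.Lt.q R0Q154.q3197_16) (q_cons (Vale.Agent.P032.Lt.q R0Q154.q3197_17) (q_cons (Vale.Agent.P032.Lt.q R0Q154.q3197_18) q_nil))))))))))))))))))))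

theorem p3198 : Pat 73 73 TBm TCm (CB.map Fm) R0Q154.P3198 R0Q154.I3198 := Vale.Agent.P032.Lt.pat_eq (E' := R0Q154.E) eB (pat_step (by decide +kernel) (q_cons (Vale.Agent.P032.Lt.q R0Q154.q3198_0) (q_cons (Vale.Agent.P032.Lt.q R0Q154.q3198_1) (q_cons (Vale.Agent.P032.Lt.q R0Q154.q3198_2) (q_cons (Vale.Agent.P032.Lt.q R0Q154.q3198_3) (q_cons (Vale.Agent.P032.Lt.q R0Q154.q3198_4) (q_cons (Vale.Agent.P032.Lt.q R0Q154.q3198_5) (q_cons (Vale.Agent.P032.Lt.q R0Q154.q3198_6) (q_cons (Vale.Agent.P032.Lt.q R0Q154.q3198_7) (q_cons (Vale.Agent.P032.Lt.q R0Q154.q3198_8) (q_cons (Vale.Agent.P032.Lt.q R0Q154.q3198_9) (q_cons (Vale.Agent.P032.Lt.q R0Q154.q3198_10) (q_cons (Vale.Agent.P032.Lt.q R0Q154.q3198_11) q_nil)))))))))))))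

theorem p3199 : Pat 73 73 TBm TCm (CB.map Fm) R0Q154.P3199 R0Q154.I3199 := Vale.Agent.P032.Lt.pat_eq (E' := R0Q154.E) eB (pat_step (by decide +kernel) (q_cons (Vale.Agent.P032.Lt.q R0Q154.q3199_0) (q_cons (Vale.Agent.P032.Lt.q R0Q154.q3199_1) (q_cons (Vale.Agent.P032.Lt.q R0Q154.q3199_2) (q_cons (Vale.Agent.P032.Lt.q R0Q154.q3199_3) (q_cons (Vale.Agent.P032.Lt.q R0Q154.q3199_4) (q_cons (Vale.Agent.P032.Lt.q R0Q154.q3199_5) (q_cons (Vale.Agent.P032.Lt.q R0Q154.q3199_6) (q_cons (Vale.Agent.P032.Lt.q R0Q154.q3199_7) (q_cons (Vale.Agent.P032.Lt.q R0Q154.q3199_8) (q_cons (Vale.Agent.P032.Lt.q R0Q154.q3199_9) (q_cons (Vale.Agent.P032.Lt.q R0Q154.q3199_10) (q_cons (Vale.Agent.P032.Lt.q R0Q154.q3199_11) (q_cons (Vale.Agent.P032.Lt.q R0Q154.q3199_12) q_nil))))))))))))))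

def L : List (List ℕ) := [R0Q148.P3072, R0Q148.P3073, R0Q148.P3074, R0Q148.P3075, R0Q148.P3076, R0Q148.P3077, R0Q148.P3078, R0Q148.P3079, R0Q148.P3080, R0Q148.P3081, R0Q148.P3082, R0Q148.P3083, R0Q148.P3084, R0Q148.P3085, R0Q148.P3086, R0Q148.P3087, R0Q148.P3088, R0Q148.P3089, R0Q148.P3090, R0Q148.P3091, R0Q148.P3092, R0Q148.P3093, R0Q148.P3094, R0Q148.P3095, R0Q148.P3096, R0Q148.P3097, R0Q149.P3098, R0Q149.P3099, R0Q149.P3100, R0Q149.P3101, R0Q149.P3102, R0Q149.P3103, R0Q149.P3104, R0Q149.P3105, R0Q149.P3106, R0Q149.P3107, R0Q149.P3108, R0Q149.P3109, R0Q149.P3110, R0Q149.P3111, R0Q149.P3112, R0Q149.P3113, R0Q149.P3114, R0Q149.P3115, R0Q149.P3116, R0Q149.P3117, R0Q149.P3118, R0Q149.P3119, R0Q149.P3120, R0Q149.P3121, R0Q149.P3122, R0Q149.P3123, R0Q149.P3124, R0Q149.P3125, R0Q150.P3126, R0Q150.P3127, R0Q150.P3128, R0Q150.P3129, R0Q150.P3130, R0Q150.P3131,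 R0Q150.P3132, R0Q150.P3133, R0Q150.P3134, R0Q150.P3135, R0Q150.P3136, R0Q150.P3137, R0Q150.P3138, R0Q150.P3139, R0Q150.P3140, R0Q150.P3141, R0Q150.P3142, R0Q150.P3143, R0Q150.P3144, R0Q150.P3145, R0Q150.P3146, R0Q150.P3147, R0Q150.P3148, R0Q150.P3149, R0Q151.P3150, R0Q151.P3151, R0Q151.P3152, R0Q151.P3153, R0Q151.P3154, R0Q151.P3155, R0Q151.P3156, R0Q151.P3157, R0Q151.P3158, R0Q151.P3159, R0Q151.P3160, R0Q151.P3161, R0Q151.P3162, R0Q151.P3163, R0Q152.P3164, R0Q152.P3165, R0Q152.P3166, R0Q152.P3167, R0Q152.P3168, R0Q152.P3169, R0Q152.P3170, R0Q153.P3171, R0Q153.P3172, R0Q153.P3173, R0Q153.P3174, R0Q153.P3175, R0Q153.P3176, R0Q153.P3177, R0Q153.P3178, R0Q153.P3179, R0Q153.P3180, R0Q153.P3181, R0Q153.P3182, R0Q153.P3183, R0Q153.P3184, R0Q153.P3185, R0Q154.P3186, R0Q154.P3187, R0Q154.P3188, R0Q154.P3189, R0Q154.P3190, R0Q154.P3191, R0Q154.P3192, R0Q154.P3193,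 R0Q154.P3194, R0Q154.P3195, R0Q154.P3196, R0Q154.P3197, R0Q154.P3198, R0Q154.P3199]

theorem all : ∀ P ∈ L, CrtF 73 73 TBm TCm (Vale.Agent.P032.Fam.fam2 (Vale.Agent.P032.Fam.im0)) P := crtF_cons p3072 (crtF_cons p3073 (crtF_cons p3074 (crtF_cons p3075 (crtF_cons p3076 (crtF_cons p3077 (crtF_cons p3078 (crtF_cons p3079 (crtF_cons p3080 (crtF_cons p3081 (crtF_cons p3082 (crtF_cons p3083 (crtF_cons p3084 (crtF_cons p3085 (crtF_cons p3086 (crtF_cons p3087 (crtF_cons p3088 (crtF_cons p3089 (crtF_cons p3090 (crtF_cons p3091 (crtF_cons p3092 (crtF_cons p3093 (crtF_cons p3094 (crtF_cons p3095 (crtF_cons p3096 (crtF_cons p3097 (crtF_cons p3098 (crtF_cons p3099 (crtF_cons p3100 (crtF_cons p3101 (crtF_cons p3102 (crtF_cons p3103 (crtF_cons p3104 (crtF_cons p3105 (crtF_cons p3106 (crtF_cons p3107 (crtF_cons p3108 (crtF_cons p3109 (crtF_cons p3110 (crtF_cons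 p3111 (crtF_cons p3112 (crtF_cons p3113 (crtF_cons p3114 (crtF_cons p3115 (crtF_cons p3116 (crtF_cons p3117 (crtF_cons p3118 (crtF_cons p3119 (crtF_cons p3120 (crtF_cons p3121 (crtF_cons p3122 (crtF_cons p3123 (crtF_cons p3124 (crtF_cons p3125 (crtF_cons p3126 (crtF_cons p3127 (crtF_cons p3128 (crtF_cons p3129 (crtF_cons p3130 (crtF_cons p3131 (crtF_cons p3132 (crtF_cons p3133 (crtF_cons p3134 (crtF_cons p3135 (crtF_cons p3136 (crtF_cons p3137 (crtF_cons p3138 (crtF_cons p3139 (crtF_cons p3140 (crtF_cons p3141 (crtF_cons p3142 (crtF_cons p3143 (crtF_cons p3144 (crtF_cons p3145 (crtF_cons p3146 (crtF_cons p3147 (crtF_cons p3148 (crtF_cons p3149 (crtF_cons p3150 (crtF_cons p3151 (crtF_cons p3152 (crtF_cons p3153 (crtF_cons p3154 (crtF_cons p3155 (crtF_cons p3156 (crtF_cons p3157 (crtF_cons p3158 (crtF_cons p3159 (crtF_cons p3160 (crtF_cons p3161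 (crtF_cons p3162 (crtF_cons p3163 (crtF_cons p3164 (crtF_cons p3165 (crtF_cons p3166 (crtF_cons p3167 (crtF_cons p3168 (crtF_cons p3169 (crtF_cons p3170 (crtF_cons p3171 (crtF_cons p3172 (crtF_cons p3173 (crtF_cons p3174 (crtF_cons p3175 (crtF_cons p3176 (crtF_cons p3177 (crtF_cons p3178 (crtF_cons p3179 (crtF_cons p3180 (crtF_cons p3181 (crtF_cons p3182 (crtF_cons p3183 (crtF_cons p3184 (crtF_cons p3185 (crtF_cons p3186 (crtF_cons p3187 (crtF_cons p3188 (crtF_cons p3189 (crtF_cons p3190 (crtF_cons p3191 (crtF_cons p3192 (crtF_cons p3193 (crtF_cons p3194 (crtF_cons p3195 (crtF_cons p3196 (crtF_cons p3197 (crtF_cons p3198 (crtF_cons p3199 crtF_nil)))))))))))))))))))))))))))))))))))))))))))))))))))))))))))))))))))))))))))))))))))))))))))))))))))))))))))))))))))))))))))))))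

theorem ch : chT 73 73 TCm s0_024 L = true := by decide +kernel

end Vale.Agent.P032X.Cert.XP.B1.R0H024
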