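import Vale.Agent.P032X.H892.LtH
import Vale.Agent.P032X.H286.W73
import Vale.Agent.P032X.Cert.XP.B1.R0T
import Vale.Agent.P032X.Cert.XP.B1.R0Q155
import Vale.Agent.P032X.Cert.XP.B1.R0Q156
import Vale.Agent.P032X.Cert.XP.B1.R0Q157
import Vale.Agent.P032X.Cert.XP.B1.R0Q158
import Vale.Agent.P032X.Cert.XP.B1.R0Q159
import Vale.Agent.P032X.Cert.XP.B1.R0Q160
import Vale.Agent.P032X.Cert.XP.B1.R0Q161

set_option maxRecDepth 1000000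

namespace Vale.Agent.P032X.Cert.XP.B1.R0H025

open Vale.Agent.P032.H820.K Vale.Agent.P032.H357.MK Vale.Agent.P032.H286.E Vale.Agent.P032.H61 Vale.Agent.P032X.Cert.XP.B1

noncomputable abbrev Fm : ℕ → List ℕ := Vale.Agent.P032.Fam.fam2 (Vale.Agent.P032.Fam.im0)

def CB : List ℕ := [0, 4, 8, 12, 16, 20, 24]

theorem eB : Vale.Agent.P032.Lt.eqLL (CB.map Fm) R0Q155.E = true := by decide +kernel

theorem p3200 : Pat 73 73 TBm TCm (CB.map Fm) R0Q155.P3200 R0Q155.I3200 := Vale.Agent.P032.Lt.pat_eq (E' := R0Q155.E) eB (pat_step (by decide +kernel) (q_cons (Vale.Agent.P032.Lt.q R0Q155.q3200_0) (q_cons (Vale.Agent.P032.Lt.q R0Q155.q3200_1) (q_cons (Vale.Agent.P032.Lt.q R0Q155.q3200_2) (q_cons (Vale.Agent.P032.Lt.q R0Q155.q3200_3) (q_cons (Vale.Agent.P032.Lt.q R0Q155.q3200_4) (q_cons (Vale.Agent.P032.Lt.q R0Q155.q3200_5) (q_cons (Vale.Agent.P032.Lt.q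 R0Q155.q3200_6) (q_cons (Vale.Agent.P032.Lt.q R0Q155.q3200_7) (q_cons (Vale.Agent.P032.Lt.q R0Q155.q3200_8) (q_cons (Vale.Agent.P032.Lt.q R0Q155.q3200_9) (q_cons (Vale.Agent.P032.Lt.q R0Q155.q3200_10) (q_cons (Vale.Agent.P032.Lt.q R0Q155.q3200_11) (q_cons (Vale.Agent.P032.Lt.q R0Q155.q3200_12) (q_cons (Vale.Agent.P032.Lt.q R0Q155.q3200_13) (q_cons (Vale.Agent.P032.Lt.q R0Q155.q3200_14) q_nil))))))))))))))))

theorem p3201 : Pat 73 73 TBm TCm (CB.map Fm) R0Q155.P3201 R0Q155.I3201 := Vale.Agent.P032.Lt.pat_eq (E' := R0Q155.E) eB (pat_step (by decide +kernel) (q_cons (Vale.Agent.P032.Lt.q R0Q155.q3201_0) (q_cons (Vale.Agent.P032.Lt.q R0Q155.q3201_1) (q_cons (Vale.Agent.P032.Lt.q R0Q155.q3201_2) (q_cons (Vale.Agent.P032.Lt.q R0Q155.q3201_3) (q_cons (Vale.Agent.P032.Lt.q R0Q155.q3201_4) (q_cons (Vale.Agent.P032.Lt.q R0Q155.q3201_5) (q_cons (Vale.Agent.P032.Lt.q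 R0Q155.q3201_6) (q_cons (Vale.Agent.P032.Lt.q R0Q155.q3201_7) q_nil)))))))))

theorem p3202 : Pat 73 73 TBm TCm (CB.map Fm) R0Q155.P3202 R0Q155.I3202 := Vale.Agent.P032.Lt.pat_eq (E' := R0Q155.E) eB (pat_step (by decide +kernel) (q_cons (Vale.Agent.P032.Lt.q R0Q155.q3202_0) q_nil))

theorem p3203 : Pat 73 73 TBm TCm (CB.map Fm) R0Q155.P3203 R0Q155.I3203 := Vale.Agent.P032.Lt.pat_eq (E' := R0Q155.E) eB (pat_step (by decide +kernel) (q_cons (Vale.Agent.P032.Lt.q R0Q155.q3203_0) q_nil))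

theorem p3204 : Pat 73 73 TBm TCm (CB.map Fm) R0Q155.P3204 R0Q155.I3204 := Vale.Agent.P032.Lt.pat_eq (E' := R0Q155.E) eB (pat_step (by decide +kernel) (q_cons (Vale.Agent.P032.Lt.q R0Q155.q3204_0) q_nil))

theorem p3205 : Pat 73 73 TBm TCm (CB.map Fm) R0Q155.P3205 R0Q155.I3205 := Vale.Agent.P032.Lt.pat_eq (E' := R0Q155.E) eB (pat_step (by decide +kernel) (q_cons (Vale.Agent.P032.Lt.q R0Q155.q3205_0) (q_cons (Vale.Agent.P032.Lt.q R0Q155.q3205_1) (q_cons (Vale.Agent.P032.Lt.q R0Q155.q3205_2) (q_cons (Vale.Agent.P032.Lt.q R0Q155.q3205_3) (q_cons (Vale.Agent.P032.Lt.q R0Q155.q3205_4) q_nil))))))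

theorem p3206 : Pat 73 73 TBm TCm (CB.map Fm) R0Q155.P3206 R0Q155.I3206 := Vale.Agent.P032.Lt.pat_eq (E' := R0Q155.E) eB (pat_step (by decide +kernel) (q_cons (Vale.Agent.P032.Lt.q R0Q155.q3206_0) q_nil))

theorem p3207 : Pat 73 73 TBm TCm (CB.map Fm) R0Q155.P3207 R0Q155.I3207 := Vale.Agent.P032.Lt.pat_eq (E' := R0Q155.E) eB (pat_step (by decide +kernel) (q_cons (Vale.Agent.P032.Lt.q R0Q155.q3207_0) (q_cons (Vale.Agent.P032.Lt.q R0Q155.q3207_1) (q_cons (Vale.Agent.P032.Lt.q R0Q155.q3207_2) (q_cons (Vale.Agent.P032.Lt.q R0Q155.q3207_3) (q_cons (Vale.Agent.P032.Lt.q R0Q155.q3207_4) (q_cons (Vale.Agent.P032.Lt.q R0Q155.q3207_5) q_nil)))))))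

theorem p3208 : Pat 73 73 TBm TCm (CB.map Fm) R0Q155.P3208 R0Q155.I3208 := Vale.Agent.P032.Lt.pat_eq (E' := R0Q155.E) eB (pat_step (by decide +kernel) (q_cons (Vale.Agent.P032.Lt.q R0Q155.q3208_0) (q_cons (Vale.Agent.P032.Lt.q R0Q155.q3208_1) (q_cons (Vale.Agent.P032.Lt.q R0Q155.q3208_2) (q_cons (Vale.Agent.P032.Lt.q R0Q155.q3208_3) (q_cons (Vale.Agent.P032.Lt.q R0Q155.q3208_4) (q_cons (Vale.Agent.P032.Lt.q R0Q155.q3208_5) (q_cons (Vale.Agent.P032.Lt.q R0Q155.q3208_6) (q_cons (Vale.Agent.P032.Lt.q R0Q155.q3208_7) (q_cons (Vale.Agent.P032.Lt.q R0Q155.q3208_8) (q_cons (Vale.Agent.P032.Lt.q R0Q155.q3208_9) (q_cons (Vale.Agent.P032.Lt.q R0Q155.q3208_10) (q_cons (Vale.Agent.P032.Lt.q R0Q155.q3208_11) (q_cons (Vale.Agent.P032.Lt.q R0Q155.q3208_12) (q_cons (Vale.Agent.P032.Lt.q R0Q155.q3208_13) (q_cons (Vale.Agent.P032.Lt.q R0Q155.q3208_14) (q_cons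 (Vale.Agent.P032.Lt.q R0Q155.q3208_15) (q_cons (Vale.Agent.P032.Lt.q R0Q155.q3208_16) (q_cons (Vale.Agent.P032.Lt.q R0Q155.q3208_17) q_nil)))))))))))))))))))

theorem p3209 : Pat 73 73 TBm TCm (CB.map Fm) R0Q155.P3209 R0Q155.I3209 := Vale.Agent.P032.Lt.pat_eq (E' := R0Q155.E) eB (pat_step (by decide +kernel) (q_cons (Vale.Agent.P032.Lt.q R0Q155.q3209_0) (q_cons (Vale.Agent.P032.Lt.q R0Q155.q3209_1) q_nil)))

def C3210 : List ℕ := [0, 4, 8, 12, 16, 20, 24, 81921, 344065, 349185, 475137, 737281]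
theorem p3210 : Pat 73 73 TBm TCm (C3210.map Fm) R0Q155.P3210 R0Q155.I3210 := Vale.Agent.P032.Lt.pat_eq (E' := R0Q155.E3210) (by decide +kernel) (pat_step (by decide +kernel) (q_cons (Vale.Agent.P032.Lt.q R0Q155.q3210_0) (q_cons (Vale.Agent.P032.Lt.q R0Q155.q3210_1) (q_cons (Vale.Agent.P032.Lt.q R0Q155.q3210_2) q_nil))))

theorem p3211 : Pat 73 73 TBm TCm (CB.map Fm) R0Q155.P3211 R0Q155.I3211 := Vale.Agent.P032.Lt.pat_eq (E' := R0Q155.E) eB (pat_step (by decide +kernel) (q_cons (Vale.Agent.P032.Lt.q R0Q155.q3211_0) (q_cons (Vale.Agent.P032.Lt.q R0Q155.q3211_1) (q_cons (Vale.Agent.P032.Lt.q R0Q155.q3211_2) (q_cons (Vale.Agent.P032.Lt.q R0Q155.q3211_3) (q_cons (Vale.Agent.P032.Lt.q R0Q155.q3211_4) (q_cons (Vale.Agent.P032.Lt.q R0Q155.q3211_5) (q_cons (Vale.Agent.P032.Lt.q R0Q155.q3211_6) (q_cons (Vale.Agent.P032.Lt.q R0Q155.q3211_7) (q_cons (Vale.Agent.P032.Lt.q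 R0Q155.q3211_8) (q_cons (Vale.Agent.P032.Lt.q R0Q155.q3211_9) (q_cons (Vale.Agent.P032.Lt.q R0Q155.q3211_10) (q_cons (Vale.Agent.P032.Lt.q R0Q155.q3211_11) (q_cons (Vale.Agent.P032.Lt.q R0Q155.q3211_12) (q_cons (Vale.Agent.P032.Lt.q R0Q155.q3211_13) (q_cons (Vale.Agent.P032.Lt.q R0Q155.q3211_14) (q_cons (Vale.Agent.P032.Lt.q R0Q155.q3211_15) (q_cons (Vale.Agent.P032.Lt.q R0Q155.q3211_16) (q_cons (Vale.Agent.P032.Lt.q R0Q155.q3211_17) (q_cons (Vale.Agent.P032.Lt.q R0Q155.q3211_18) q_nil))))))))))))))))))))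

theorem p3212 : Pat 73 73 TBm TCm (CB.map Fm) R0Q155.P3212 R0Q155.I3212 := Vale.Agent.P032.Lt.pat_eq (E' := R0Q155.E) eB (pat_step (by decide +kernel) (q_cons (Vale.Agent.P032.Lt.q R0Q155.q3212_0) q_nil))

theorem p3213 : Pat 73 73 TBm TCm (CB.map Fm) R0Q155.P3213 R0Q155.I3213 := Vale.Agent.P032.Lt.pat_eq (E' := R0Q155.E) eB (pat_step (by decide +kernel) (q_cons (Vale.Agent.P032.Lt.q R0Q155.q3213_0) q_nil))

def C3214 : List ℕ := [0, 4, 8, 12, 16, 20, 24, 347137, 606209, 737281]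
theorem p3214 : Pat 73 73 TBm TCm (C3214.map Fm) R0Q155.P3214 R0Q155.I3214 := Vale.Agent.P032.Lt.pat_eq (E' := R0Q155.E3214) (by decide +kernel) (pat_step (by decide +kernel) (q_cons (Vale.Agent.P032.Lt.q R0Q155.q3214_0) (q_cons (Vale.Agent.P032.Lt.q R0Q155.q3214_1) (q_cons (Vale.Agent.P032.Lt.q R0Q155.q3214_2) (q_cons (Vale.Agent.P032.Lt.q R0Q155.q3214_3) (q_cons (Vale.Agent.P032.Lt.q R0Q155.q3214_4) (q_cons (Vale.Agent.P032.Lt.q R0Q155.q3214_5) (q_cons (Vale.Agent.P032.Lt.q R0Q155.q3214_6) (q_cons (Vale.Agent.P032.Lt.q R0Q155.q3214_7) (q_cons (Vale.Agent.P032.Lt.q R0Q155.q3214_8) (q_cons (Vale.Agent.P032.Lt.q R0Q155.q3214_9) (q_cons (Vale.Agent.P032.Lt.q R0Q155.q3214_10) q_nil))))))))))))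

def C3215 : List ℕ := [0, 4, 8, 12, 16, 20, 24, 84993, 212993, 214017, 347137, 606209, 737281]
theorem p3215 : Pat 73 73 TBm TCm (C3215.map Fm) R0Q155.P3215 R0Q155.I3215 := Vale.Agent.P032.Lt.pat_eq (E' := R0Q155.E3215) (by decide +kernel) (pat_step (by decide +kernel) (q_cons (Vale.Agent.P032.Lt.q R0Q155.q3215_0) (q_cons (Vale.Agent.P032.Lt.q R0Q155.q3215_1) (q_cons (Vale.Agent.P032.Lt.q R0Q155.q3215_2) (q_cons (Vale.Agent.P032.Lt.q R0Q155.q3215_3) (q_cons (Vale.Agent.P032.Lt.q R0Q155.q3215_4) (q_cons (Vale.Agent.P032.Lt.q R0Q155.q3215_5) (q_cons (Vale.Agent.P032.Lt.q R0Q155.q3215_6) q_nil))))))))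

theorem p3216 : Pat 73 73 TBm TCm (CB.map Fm) R0Q155.P3216 R0Q155.I3216 := Vale.Agent.P032.Lt.pat_eq (E' := R0Q155.E) eB (pat_step (by decide +kernel) (q_cons (Vale.Agent.P032.Lt.q R0Q155.q3216_0) (q_cons (Vale.Agent.P032.Lt.q R0Q155.q3216_1) (q_cons (Vale.Agent.P032.Lt.q R0Q155.q3216_2) (q_cons (Vale.Agent.P032.Lt.q R0Q155.q3216_3) q_nil)))))

theorem p3217 : Pat 73 73 TBm TCm (CB.map Fm) R0Q155.P3217 R0Q155.I3217 := Vale.Agent.P032.Lt.pat_eq (E' := R0Q155.E) eB (pat_step (by decide +kernel) (q_cons (Vale.Agent.P032.Lt.q R0Q155.q3217_0) q_nil))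

theorem p3218 : Pat 73 73 TBm TCm (CB.map Fm) R0Q155.P3218 R0Q155.I3218 := Vale.Agent.P032.Lt.pat_eq (E' := R0Q155.E) eB (pat_step (by decide +kernel) (q_cons (Vale.Agent.P032.Lt.q R0Q155.q3218_0) (q_cons (Vale.Agent.P032.Lt.q R0Q155.q3218_1) (q_cons (Vale.Agent.P032.Lt.q R0Q155.q3218_2) (q_cons (Vale.Agent.P032.Lt.q R0Q155.q3218_3) (q_cons (Vale.Agent.P032.Lt.q R0Q155.q3218_4) (q_cons (Vale.Agent.P032.Lt.q R0Q155.q3218_5) (q_cons (Vale.Agent.P032.Lt.q R0Q155.q3218_6) (q_cons (Vale.Agent.P032.Lt.q R0Q155.q3218_7) (q_cons (Vale.Agent.P032.Lt.q R0Q155.q3218_8) (q_cons (Vale.Agent.P032.Lt.q R0Q155.q3218_9) (q_cons (Vale.Agent.P032.Lt.q R0Q155.q3218_10) (q_cons (Vale.Agent.P032.Lt.q R0Q155.q3218_11) (q_cons (Vale.Agent.P032.Lt.q R0Q155.q3218_12) (q_cons (Vale.Agent.P032.Lt.q R0Q155.q3218_13) q_nil)))))))))))))))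

theorem p3219 : Pat 73 73 TBm TCm (CB.map Fm) R0Q155.P3219 R0Q155.I3219 := Vale.Agent.P032.Lt.pat_eq (E' := R0Q155.E) eB (pat_step (by decide +kernel) (q_cons (Vale.Agent.P032.Lt.q R0Q155.q3219_0) (q_cons (Vale.Agent.P032.Lt.q R0Q155.q3219_1) (q_cons (Vale.Agent.P032.Lt.q R0Q155.q3219_2) q_nil))))

theorem p3220 : Pat 73 73 TBm TCm (CB.map Fm) R0Q155.P3220 R0Q155.I3220 := Vale.Agent.P032.Lt.pat_eq (E' := R0Q155.E) eB (pat_step (by decide +kernel) (q_cons (Vale.Agent.P032.Lt.q R0Q155.q3220_0) (q_cons (Vale.Agent.P032.Lt.q R0Q155.q3220_1) q_nil)))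

def C3221 : List ℕ := [0, 4, 8, 12, 16, 20, 24, 475137, 737281, 741377]
theorem p3221 : Pat 73 73 TBm TCm (C3221.map Fm) R0Q155.P3221 R0Q155.I3221 := Vale.Agent.P032.Lt.pat_eq (E' := R0Q155.E3221) (by decide +kernel) (pat_step (by decide +kernel) (q_cons (Vale.Agent.P032.Lt.q R0Q155.q3221_0) (q_cons (Vale.Agent.P032.Lt.q R0Q155.q3221_1) (q_cons (Vale.Agent.P032.Lt.q R0Q155.q3221_2) (q_cons (Vale.Agent.P032.Lt.q R0Q155.q3221_3) (q_cons (Vale.Agent.P032.Lt.q R0Q155.q3221_4) (q_cons (Vale.Agent.P032.Lt.q R0Q155.q3221_5) (q_cons (Vale.Agent.P032.Lt.q R0Q155.q3221_6) q_nil))))))))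

theorem p3222 : Pat 73 73 TBm TCm (CB.map Fm) R0Q155.P3222 R0Q155.I3222 := Vale.Agent.P032.Lt.pat_eq (E' := R0Q155.E) eB (pat_step (by decide +kernel) (q_cons (Vale.Agent.P032.Lt.q R0Q155.q3222_0) (q_cons (Vale.Agent.P032.Lt.q R0Q155.q3222_1) (q_cons (Vale.Agent.P032.Lt.q R0Q155.q3222_2) (q_cons (Vale.Agent.P032.Lt.q R0Q155.q3222_3) (q_cons (Vale.Agent.P032.Lt.q R0Q155.q3222_4) (q_cons (Vale.Agent.P032.Lt.q R0Q155.q3222_5) q_nil)))))))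

theorem p3223 : Pat 73 73 TBm TCm (CB.map Fm) R0Q156.P3223 R0Q156.I3223 := Vale.Agent.P032.Lt.pat_eq (E' := R0Q156.E) eB (pat_step (by decide +kernel) (q_cons (Vale.Agent.P032.Lt.q R0Q156.q3223_0) (q_cons (Vale.Agent.P032.Lt.q R0Q156.q3223_1) (q_cons (Vale.Agent.P032.Lt.q R0Q156.q3223_2) (q_cons (Vale.Agent.P032.Lt.q R0Q156.q3223_3) (q_cons (Vale.Agent.P032.Lt.q R0Q156.q3223_4) (q_cons (Vale.Agent.P032.Lt.q R0Q156.q3223_5) (q_cons (Vale.Agent.P032.Lt.q R0Q156.q3223_6) (q_cons (Vale.Agent.P032.Lt.q R0Q156.q3223_7) (q_cons (Vale.Agent.P032.Lt.q R0Q156.q3223_8) (q_cons (Vale.Agent.P032.Lt.q R0Q156.q3223_9) (q_cons (Vale.Agent.P032.Lt.q R0Q156.q3223_10) (q_cons (Vale.Agent.P032.Lt.q R0Q156.q3223_11) (q_cons (Vale.Agent.P032.Lt.q R0Q156.q3223_12) (q_cons (Vale.Agent.P032.Lt.q R0Q156.q3223_13) (q_cons (Vale.Agent.P032.Lt.q R0Q156.q3223_14) (q_cons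 (Vale.Agent.P032.Lt.q R0Q156.q3223_15) (q_cons (Vale.Agent.P032.Lt.q R0Q156.q3223_16) (q_cons (Vale.Agent.P032.Lt.q R0Q156.q3223_17) (q_cons (Vale.Agent.P032.Lt.q R0Q156.q3223_18) (q_cons (Vale.Agent.P032.Lt.q R0Q156.q3223_19) (q_cons (Vale.Agent.P032.Lt.q R0Q156.q3223_20) (q_cons (Vale.Agent.P032.Lt.q R0Q156.q3223_21) (q_cons (Vale.Agent.P032.Lt.q R0Q156.q3223_22) (q_cons (Vale.Agent.P032.Lt.q R0Q156.q3223_23) q_nil)))))))))))))))))))))))))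

theorem p3224 : Pat 73 73 TBm TCm (CB.map Fm) R0Q156.P3224 R0Q156.I3224 := Vale.Agent.P032.Lt.pat_eq (E' := R0Q156.E) eB (pat_step (by decide +kernel) (q_cons (Vale.Agent.P032.Lt.q R0Q156.q3224_0) (q_cons (Vale.Agent.P032.Lt.q R0Q156.q3224_1) (q_cons (Vale.Agent.P032.Lt.q R0Q156.q3224_2) (q_cons (Vale.Agent.P032.Lt.q R0Q156.q3224_3) (q_cons (Vale.Agent.P032.Lt.q R0Q156.q3224_4) (q_cons (Vale.Agent.P032.Lt.q R0Q156.q3224_5) (q_cons (Vale.Agent.P032.Lt.q R0Q156.q3224_6) (q_cons (Vale.Agent.P032.Lt.q R0Q156.q3224_7) q_nil)))))))))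

theorem p3225 : Pat 73 73 TBm TCm (CB.map Fm) R0Q156.P3225 R0Q156.I3225 := Vale.Agent.P032.Lt.pat_eq (E' := R0Q156.E) eB (pat_step (by decide +kernel) (q_cons (Vale.Agent.P032.Lt.q R0Q156.q3225_0) (q_cons (Vale.Agent.P032.Lt.q R0Q156.q3225_1) (q_cons (Vale.Agent.P032.Lt.q R0Q156.q3225_2) (q_cons (Vale.Agent.P032.Lt.q R0Q156.q3225_3) (q_cons (Vale.Agent.P032.Lt.q R0Q156.q3225_4) (q_cons (Vale.Agent.P032.Lt.q R0Q156.q3225_5) (q_cons (Vale.Agent.P032.Lt.q R0Q156.q3225_6) q_nil))))))))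

theorem p3226 : Pat 73 73 TBm TCm (CB.map Fm) R0Q156.P3226 R0Q156.I3226 := Vale.Agent.P032.Lt.pat_eq (E' := R0Q156.E) eB (pat_step (by decide +kernel) (q_cons (Vale.Agent.P032.Lt.q R0Q156.q3226_0) (q_cons (Vale.Agent.P032.Lt.q R0Q156.q3226_1) (q_cons (Vale.Agent.P032.Lt.q R0Q156.q3226_2) (q_cons (Vale.Agent.P032.Lt.q R0Q156.q3226_3) q_nil)))))

def C3227 : List ℕ := [0, 4, 8, 12, 16, 20, 24, 606209, 737281]
theorem p3227 : Pat 73 73 TBm TCm (C3227.map Fm) R0Q156.P3227 R0Q156.I3227 := Vale.Agent.P032.Lt.pat_eq (E' := R0Q156.E3227) (by decide +kernel) (pat_step (by decide +kernel) (q_cons (Vale.Agent.P032.Lt.q R0Q156.q3227_0) (q_cons (Vale.Agent.P032.Lt.q R0Q156.q3227_1) (q_cons (Vale.Agent.P032.Lt.q R0Q156.q3227_2) (q_cons (Vale.Agent.P032.Lt.q R0Q156.q3227_3) (q_cons (Vale.Agent.P032.Lt.q R0Q156.q3227_4) (q_cons (Vale.Agent.P032.Lt.q R0Q156.q3227_5)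 (q_cons (Vale.Agent.P032.Lt.q R0Q156.q3227_6) (q_cons (Vale.Agent.P032.Lt.q R0Q156.q3227_7) (q_cons (Vale.Agent.P032.Lt.q R0Q156.q3227_8) (q_cons (Vale.Agent.P032.Lt.q R0Q156.q3227_9) (q_cons (Vale.Agent.P032.Lt.q R0Q156.q3227_10) (q_cons (Vale.Agent.P032.Lt.q R0Q156.q3227_11) (q_cons (Vale.Agent.P032.Lt.q R0Q156.q3227_12) (q_cons (Vale.Agent.P032.Lt.q R0Q156.q3227_13) (q_cons (Vale.Agent.P032.Lt.q R0Q156.q3227_14) (q_cons (Vale.Agent.P032.Lt.q R0Q156.q3227_15) (q_cons (Vale.Agent.P032.Lt.q R0Q156.q3227_16) (q_cons (Vale.Agent.P032.Lt.q R0Q156.q3227_17) q_nil)))))))))))))))))))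

theorem p3228 : Pat 73 73 TBm TCm (CB.map Fm) R0Q156.P3228 R0Q156.I3228 := Vale.Agent.P032.Lt.pat_eq (E' := R0Q156.E) eB (pat_step (by decide +kernel) (q_cons (Vale.Agent.P032.Lt.q R0Q156.q3228_0) (q_cons (Vale.Agent.P032.Lt.q R0Q156.q3228_1) (q_cons (Vale.Agent.P032.Lt.q R0Q156.q3228_2) q_nil))))

theorem p3229 : Pat 73 73 TBm TCm (CB.map Fm) R0Q156.P3229 R0Q156.I3229 := Vale.Agent.P032.Lt.pat_eq (E' := R0Q156.E) eB (pat_step (by decide +kernel) (q_cons (Vale.Agent.P032.Lt.q R0Q156.q3229_0) q_nil))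

theorem p3230 : Pat 73 73 TBm TCm (CB.map Fm) R0Q156.P3230 R0Q156.I3230 := Vale.Agent.P032.Lt.pat_eq (E' := R0Q156.E) eB (pat_step (by decide +kernel) (q_cons (Vale.Agent.P032.Lt.q R0Q156.q3230_0) (q_cons (Vale.Agent.P032.Lt.q R0Q156.q3230_1) q_nil)))

theorem p3231 : Pat 73 73 TBm TCm (CB.map Fm) R0Q156.P3231 R0Q156.I3231 := Vale.Agent.P032.Lt.pat_eq (E' := R0Q156.E) eB (pat_step (by decide +kernel) (q_cons (Vale.Agent.P032.Lt.q R0Q156.q3231_0) (q_cons (Vale.Agent.P032.Lt.q R0Q156.q3231_1) q_nil)))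

theorem p3232 : Pat 73 73 TBm TCm (CB.map Fm) R0Q156.P3232 R0Q156.I3232 := Vale.Agent.P032.Lt.pat_eq (E' := R0Q156.E) eB (pat_step (by decide +kernel) (q_cons (Vale.Agent.P032.Lt.q R0Q156.q3232_0) (q_cons (Vale.Agent.P032.Lt.q R0Q156.q3232_1) (q_cons (Vale.Agent.P032.Lt.q R0Q156.q3232_2) (q_cons (Vale.Agent.P032.Lt.q R0Q156.q3232_3) q_nil)))))

theorem p3233 : Pat 73 73 TBm TCm (CB.map Fm) R0Q156.P3233 R0Q156.I3233 := Vale.Agent.P032.Lt.pat_eq (E' := R0Q156.E) eB (pat_step (by decide +kernel) (q_cons (Vale.Agent.P032.Lt.q R0Q156.q3233_0) (q_cons (Vale.Agent.P032.Lt.q R0Q156.q3233_1) (q_cons (Vale.Agent.P032.Lt.q R0Q156.q3233_2) (q_cons (Vale.Agent.P032.Lt.q R0Q156.q3233_3) q_nil)))))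

def C3234 : List ℕ := [0, 4, 8, 12, 16, 20, 24, 346113, 608257]
theorem p3234 : Pat 73 73 TBm TCm (C3234.map Fm) R0Q156.P3234 R0Q156.I3234 := Vale.Agent.P032.Lt.pat_eq (E' := R0Q156.E3234) (by decide +kernel) (pat_step (by decide +kernel) (q_cons (Vale.Agent.P032.Lt.q R0Q156.q3234_0) (q_cons (Vale.Agent.P032.Lt.q R0Q156.q3234_1) (q_cons (Vale.Agent.P032.Lt.q R0Q156.q3234_2) (q_cons (Vale.Agent.P032.Lt.q R0Q156.q3234_3) (q_cons (Vale.Agent.P032.Lt.q R0Q156.q3234_4) (q_cons (Vale.Agent.P032.Lt.q R0Q156.q3234_5) (q_cons (Vale.Agent.P032.Lt.q R0Q156.q3234_6) q_nil))))))))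

theorem p3235 : Pat 73 73 TBm TCm (CB.map Fm) R0Q156.P3235 R0Q156.I3235 := Vale.Agent.P032.Lt.pat_eq (E' := R0Q156.E) eB (pat_step (by decide +kernel) (q_cons (Vale.Agent.P032.Lt.q R0Q156.q3235_0) (q_cons (Vale.Agent.P032.Lt.q R0Q156.q3235_1) (q_cons (Vale.Agent.P032.Lt.q R0Q156.q3235_2) (q_cons (Vale.Agent.P032.Lt.q R0Q156.q3235_3) (q_cons (Vale.Agent.P032.Lt.q R0Q156.q3235_4) (q_cons (Vale.Agent.P032.Lt.q R0Q156.q3235_5) (q_cons (Vale.Agent.P032.Lt.q R0Q156.q3235_6) (q_cons (Vale.Agent.P032.Lt.q R0Q156.q3235_7) (q_cons (Vale.Agent.P032.Lt.q R0Q156.q3235_8) (q_cons (Vale.Agent.P032.Lt.q R0Q156.q3235_9) (q_cons (Vale.Agent.P032.Lt.q R0Q156.q3235_10) (q_cons (Vale.Agent.P032.Lt.q R0Q156.q3235_11) (q_cons (Vale.Agent.P032.Lt.q R0Q156.q3235_12) (q_cons (Vale.Agent.P032.Lt.q R0Q156.q3235_13) q_nil)))))))))))))))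

theorem p3236 : Pat 73 73 TBm TCm (CB.map Fm) R0Q156.P3236 R0Q156.I3236 := Vale.Agent.P032.Lt.pat_eq (E' := R0Q156.E) eB (pat_step (by decide +kernel) (q_cons (Vale.Agent.P032.Lt.q R0Q156.q3236_0) (q_cons (Vale.Agent.P032.Lt.q R0Q156.q3236_1) (q_cons (Vale.Agent.P032.Lt.q R0Q156.q3236_2) (q_cons (Vale.Agent.P032.Lt.q R0Q156.q3236_3) (q_cons (Vale.Agent.P032.Lt.q R0Q156.q3236_4) (q_cons (Vale.Agent.P032.Lt.q R0Q156.q3236_5) (q_cons (Vale.Agent.P032.Lt.q R0Q156.q3236_6) q_nil))))))))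

theorem p3237 : Pat 73 73 TBm TCm (CB.map Fm) R0Q156.P3237 R0Q156.I3237 := Vale.Agent.P032.Lt.pat_eq (E' := R0Q156.E) eB (pat_step (by decide +kernel) (q_cons (Vale.Agent.P032.Lt.q R0Q156.q3237_0) (q_cons (Vale.Agent.P032.Lt.q R0Q156.q3237_1) (q_cons (Vale.Agent.P032.Lt.q R0Q156.q3237_2) (q_cons (Vale.Agent.P032.Lt.q R0Q156.q3237_3) (q_cons (Vale.Agent.P032.Lt.q R0Q156.q3237_4) (q_cons (Vale.Agent.P032.Lt.q R0Q156.q3237_5) (q_cons (Vale.Agent.P032.Lt.q R0Q156.q3237_6) (q_cons (Vale.Agent.P032.Lt.q R0Q156.q3237_7) (q_cons (Vale.Agent.P032.Lt.q R0Q156.q3237_8) (q_cons (Vale.Agent.P032.Lt.q R0Q156.q3237_9) (q_cons (Vale.Agent.P032.Lt.q R0Q156.q3237_10) (q_cons (Vale.Agent.P032.Lt.q R0Q156.q3237_11) q_nil)))))))))))))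

theorem p3238 : Pat 73 73 TBm TCm (CB.map Fm) R0Q157.P3238 R0Q157.I3238 := Vale.Agent.P032.Lt.pat_eq (E' := R0Q157.E) eB (pat_step (by decide +kernel) (q_cons (Vale.Agent.P032.Lt.q R0Q157.q3238_0) (q_cons (Vale.Agent.P032.Lt.q R0Q157.q3238_1) (q_cons (Vale.Agent.P032.Lt.q R0Q157.q3238_2) (q_cons (Vale.Agent.P032.Lt.q R0Q157.q3238_3) (q_cons (Vale.Agent.P032.Lt.q R0Q157.q3238_4) (q_cons (Vale.Agent.P032.Lt.q R0Q157.q3238_5) (q_cons (Vale.Agent.P032.Lt.q R0Q157.q3238_6) (q_cons (Vale.Agent.P032.Lt.q R0Q157.q3238_7) (q_cons (Vale.Agent.P032.Lt.q R0Q157.q3238_8) (q_cons (Vale.Agent.P032.Lt.q R0Q157.q3238_9) (q_cons (Vale.Agent.P032.Lt.q R0Q157.q3238_10) (q_cons (Vale.Agent.P032.Lt.q R0Q157.q3238_11) q_nil)))))))))))))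

theorem p3239 : Pat 73 73 TBm TCm (CB.map Fm) R0Q157.P3239 R0Q157.I3239 := Vale.Agent.P032.Lt.pat_eq (E' := R0Q157.E) eB (pat_step (by decide +kernel) (q_cons (Vale.Agent.P032.Lt.q R0Q157.q3239_0) q_nil))

theorem p3240 : Pat 73 73 TBm TCm (CB.map Fm) R0Q157.P3240 R0Q157.I3240 := Vale.Agent.P032.Lt.pat_eq (E' := R0Q157.E) eB (pat_step (by decide +kernel) (q_cons (Vale.Agent.P032.Lt.q R0Q157.q3240_0) q_nil))

theorem p3241 : Pat 73 73 TBm TCm (CB.map Fm) R0Q157.P3241 R0Q157.I3241 := Vale.Agent.P032.Lt.pat_eq (E' := R0Q157.E) eB (pat_step (by decide +kernel) (q_cons (Vale.Agent.P032.Lt.q R0Q157.q3241_0) q_nil))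

theorem p3242 : Pat 73 73 TBm TCm (CB.map Fm) R0Q157.P3242 R0Q157.I3242 := Vale.Agent.P032.Lt.pat_eq (E' := R0Q157.E) eB (pat_step (by decide +kernel) (q_cons (Vale.Agent.P032.Lt.q R0Q157.q3242_0) (q_cons (Vale.Agent.P032.Lt.q R0Q157.q3242_1) (q_cons (Vale.Agent.P032.Lt.q R0Q157.q3242_2) (q_cons (Vale.Agent.P032.Lt.q R0Q157.q3242_3) (q_cons (Vale.Agent.P032.Lt.q R0Q157.q3242_4) (q_cons (Vale.Agent.P032.Lt.q R0Q157.q3242_5) (q_cons (Vale.Agent.P032.Lt.q R0Q157.q3242_6) q_nil))))))))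

theorem p3243 : Pat 73 73 TBm TCm (CB.map Fm) R0Q157.P3243 R0Q157.I3243 := Vale.Agent.P032.Lt.pat_eq (E' := R0Q157.E) eB (pat_step (by decide +kernel) (q_cons (Vale.Agent.P032.Lt.q R0Q157.q3243_0) (q_cons (Vale.Agent.P032.Lt.q R0Q157.q3243_1) (q_cons (Vale.Agent.P032.Lt.q R0Q157.q3243_2) (q_cons (Vale.Agent.P032.Lt.q R0Q157.q3243_3) q_nil)))))

theorem p3244 : Pat 73 73 TBm TCm (CB.map Fm) R0Q157.P3244 R0Q157.I3244 := Vale.Agent.P032.Lt.pat_eq (E' := R0Q157.E) eB (pat_step (by decide +kernel) (q_cons (Vale.Agent.P032.Lt.q R0Q157.q3244_0) (q_cons (Vale.Agent.P032.Lt.q R0Q157.q3244_1) q_nil)))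

def C3245 : List ℕ := [0, 4, 8, 12, 16, 20, 24, 486401, 606209, 737281]
theorem p3245 : Pat 73 73 TBm TCm (C3245.map Fm) R0Q157.P3245 R0Q157.I3245 := Vale.Agent.P032.Lt.pat_eq (E' := R0Q157.E3245) (by decide +kernel) (pat_step (by decide +kernel) (q_cons (Vale.Agent.P032.Lt.q R0Q157.q3245_0) (q_cons (Vale.Agent.P032.Lt.q R0Q157.q3245_1) (q_cons (Vale.Agent.P032.Lt.q R0Q157.q3245_2) (q_cons (Vale.Agent.P032.Lt.q R0Q157.q3245_3) (q_cons (Vale.Agent.P032.Lt.q R0Q157.q3245_4) (q_cons (Vale.Agent.P032.Lt.q R0Q157.q3245_5) (q_cons (Vale.Agent.P032.Lt.q R0Q157.q3245_6) (q_cons (Vale.Agent.P032.Lt.q R0Q157.q3245_7) q_nil)))))))))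

theorem p3246 : Pat 73 73 TBm TCm (CB.map Fm) R0Q157.P3246 R0Q157.I3246 := Vale.Agent.P032.Lt.pat_eq (E' := R0Q157.E) eB (pat_step (by decide +kernel) (q_cons (Vale.Agent.P032.Lt.q R0Q157.q3246_0) (q_cons (Vale.Agent.P032.Lt.q R0Q157.q3246_1) (q_cons (Vale.Agent.P032.Lt.q R0Q157.q3246_2) (q_cons (Vale.Agent.P032.Lt.q R0Q157.q3246_3) (q_cons (Vale.Agent.P032.Lt.q R0Q157.q3246_4) q_nil))))))

theorem p3247 : Pat 73 73 TBm TCm (CB.map Fm) R0Q157.P3247 R0Q157.I3247 := Vale.Agent.P032.Lt.pat_eq (E' := R0Q157.E) eB (pat_step (by decide +kernel) (q_cons (Vale.Agent.P032.Lt.q R0Q157.q3247_0) (q_cons (Vale.Agent.P032.Lt.q R0Q157.q3247_1) (q_cons (Vale.Agent.P032.Lt.q R0Q157.q3247_2) (q_cons (Vale.Agent.P032.Lt.q R0Q157.q3247_3) q_nil)))))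

theorem p3248 : Pat 73 73 TBm TCm (CB.map Fm) R0Q157.P3248 R0Q157.I3248 := Vale.Agent.P032.Lt.pat_eq (E' := R0Q157.E) eB (pat_step (by decide +kernel) (q_cons (Vale.Agent.P032.Lt.q R0Q157.q3248_0) q_nil))

theorem p3249 : Pat 73 73 TBm TCm (CB.map Fm) R0Q157.P3249 R0Q157.I3249 := Vale.Agent.P032.Lt.pat_eq (E' := R0Q157.E) eB (pat_step (by decide +kernel) (q_cons (Vale.Agent.P032.Lt.q R0Q157.q3249_0) (q_cons (Vale.Agent.P032.Lt.q R0Q157.q3249_1) (q_cons (Vale.Agent.P032.Lt.q R0Q157.q3249_2) (q_cons (Vale.Agent.P032.Lt.q R0Q157.q3249_3) (q_cons (Vale.Agent.P032.Lt.q R0Q157.q3249_4) (q_cons (Vale.Agent.P032.Lt.q R0Q157.q3249_5) (q_cons (Vale.Agent.P032.Lt.q R0Q157.q3249_6) (q_cons (Vale.Agent.P032.Lt.q R0Q157.q3249_7) (q_cons (Vale.Agent.P032.Lt.q R0Q157.q3249_8) (q_cons (Vale.Agent.P032.Lt.q R0Q157.q3249_9) (q_cons (Vale.Agent.P032.Lt.q R0Q157.q3249_10)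 (q_cons (Vale.Agent.P032.Lt.q R0Q157.q3249_11) (q_cons (Vale.Agent.P032.Lt.q R0Q157.q3249_12) (q_cons (Vale.Agent.P032.Lt.q R0Q157.q3249_13) (q_cons (Vale.Agent.P032.Lt.q R0Q157.q3249_14) (q_cons (Vale.Agent.P032.Lt.q R0Q157.q3249_15) (q_cons (Vale.Agent.P032.Lt.q R0Q157.q3249_16) (q_cons (Vale.Agent.P032.Lt.q R0Q157.q3249_17) (q_cons (Vale.Agent.P032.Lt.q R0Q157.q3249_18) (q_cons (Vale.Agent.P032.Lt.q R0Q157.q3249_19) (q_cons (Vale.Agent.P032.Lt.q R0Q157.q3249_20) (q_cons (Vale.Agent.P032.Lt.q R0Q157.q3249_21) (q_cons (Vale.Agent.P032.Lt.q R0Q157.q3249_22) (q_cons (Vale.Agent.P032.Lt.q R0Q157.q3249_23) (q_cons (Vale.Agent.P032.Lt.q R0Q157.q3249_24) (q_cons (Vale.Agent.P032.Lt.q R0Q157.q3249_25) (q_cons (Vale.Agent.P032.Lt.q R0Q157.q3249_26) (q_cons (Vale.Agent.P032.Lt.q R0Q157.q3249_27) (q_cons (Vale.Agent.P032.Lt.q R0Q157.q3249_28) (q_cons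 (Vale.Agent.P032.Lt.q R0Q157.q3249_29) (q_cons (Vale.Agent.P032.Lt.q R0Q157.q3249_30) q_nil))))))))))))))))))))))))))))))))

theorem p3250 : Pat 73 73 TBm TCm (CB.map Fm) R0Q157.P3250 R0Q157.I3250 := Vale.Agent.P032.Lt.pat_eq (E' := R0Q157.E) eB (pat_step (by decide +kernel) (q_cons (Vale.Agent.P032.Lt.q R0Q157.q3250_0) (q_cons (Vale.Agent.P032.Lt.q R0Q157.q3250_1) (q_cons (Vale.Agent.P032.Lt.q R0Q157.q3250_2) (q_cons (Vale.Agent.P032.Lt.q R0Q157.q3250_3) (q_cons (Vale.Agent.P032.Lt.q R0Q157.q3250_4) (q_cons (Vale.Agent.P032.Lt.q R0Q157.q3250_5) (q_cons (Vale.Agent.P032.Lt.q R0Q157.q3250_6) (q_cons (Vale.Agent.P032.Lt.q R0Q157.q3250_7) (q_cons (Vale.Agent.P032.Lt.q R0Q157.q3250_8) (q_cons (Vale.Agent.P032.Lt.q R0Q157.q3250_9) (q_cons (Vale.Agent.P032.Lt.q R0Q157.q3250_10) (q_cons (Vale.Agent.P032.Lt.q R0Q157.q3250_11) (q_cons (Vale.Agent.P032.Lt.q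 R0Q157.q3250_12) (q_cons (Vale.Agent.P032.Lt.q R0Q157.q3250_13) q_nil)))))))))))))))

theorem p3251 : Pat 73 73 TBm TCm (CB.map Fm) R0Q157.P3251 R0Q157.I3251 := Vale.Agent.P032.Lt.pat_eq (E' := R0Q157.E) eB (pat_step (by decide +kernel) (q_cons (Vale.Agent.P032.Lt.q R0Q157.q3251_0) (q_cons (Vale.Agent.P032.Lt.q R0Q157.q3251_1) (q_cons (Vale.Agent.P032.Lt.q R0Q157.q3251_2) (q_cons (Vale.Agent.P032.Lt.q R0Q157.q3251_3) (q_cons (Vale.Agent.P032.Lt.q R0Q157.q3251_4) (q_cons (Vale.Agent.P032.Lt.q R0Q157.q3251_5) (q_cons (Vale.Agent.P032.Lt.q R0Q157.q3251_6) (q_cons (Vale.Agent.P032.Lt.q R0Q157.q3251_7) (q_cons (Vale.Agent.P032.Lt.q R0Q157.q3251_8) (q_cons (Vale.Agent.P032.Lt.q R0Q157.q3251_9) (q_cons (Vale.Agent.P032.Lt.q R0Q157.q3251_10) (q_cons (Vale.Agent.P032.Lt.q R0Q157.q3251_11) (q_cons (Vale.Agent.P032.Lt.q R0Q157.q3251_12) (q_cons (Vale.Agent.P032.Lt.q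 R0Q157.q3251_13) (q_cons (Vale.Agent.P032.Lt.q R0Q157.q3251_14) (q_cons (Vale.Agent.P032.Lt.q R0Q157.q3251_15) (q_cons (Vale.Agent.P032.Lt.q R0Q157.q3251_16) (q_cons (Vale.Agent.P032.Lt.q R0Q157.q3251_17) (q_cons (Vale.Agent.P032.Lt.q R0Q157.q3251_18) (q_cons (Vale.Agent.P032.Lt.q R0Q157.q3251_19) (q_cons (Vale.Agent.P032.Lt.q R0Q157.q3251_20) q_nil))))))))))))))))))))))

theorem p3252 : Pat 73 73 TBm TCm (CB.map Fm) R0Q157.P3252 R0Q157.I3252 := Vale.Agent.P032.Lt.pat_eq (E' := R0Q157.E) eB (pat_step (by decide +kernel) (q_cons (Vale.Agent.P032.Lt.q R0Q157.q3252_0) (q_cons (Vale.Agent.P032.Lt.q R0Q157.q3252_1) (q_cons (Vale.Agent.P032.Lt.q R0Q157.q3252_2) (q_cons (Vale.Agent.P032.Lt.q R0Q157.q3252_3) (q_cons (Vale.Agent.P032.Lt.q R0Q157.q3252_4) (q_cons (Vale.Agent.P032.Lt.q R0Q157.q3252_5) (q_cons (Vale.Agent.P032.Lt.q R0Q157.q3252_6) (q_cons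 (Vale.Agent.P032.Lt.q R0Q157.q3252_7) (q_cons (Vale.Agent.P032.Lt.q R0Q157.q3252_8) (q_cons (Vale.Agent.P032.Lt.q R0Q157.q3252_9) (q_cons (Vale.Agent.P032.Lt.q R0Q157.q3252_10) (q_cons (Vale.Agent.P032.Lt.q R0Q157.q3252_11) (q_cons (Vale.Agent.P032.Lt.q R0Q157.q3252_12) (q_cons (Vale.Agent.P032.Lt.q R0Q157.q3252_13) (q_cons (Vale.Agent.P032.Lt.q R0Q157.q3252_14) (q_cons (Vale.Agent.P032.Lt.q R0Q157.q3252_15) (q_cons (Vale.Agent.P032.Lt.q R0Q157.q3252_16) (q_cons (Vale.Agent.P032.Lt.q R0Q157.q3252_17) (q_cons (Vale.Agent.P032.Lt.q R0Q157.q3252_18) (q_cons (Vale.Agent.P032.Lt.q R0Q157.q3252_19) (q_cons (Vale.Agent.P032.Lt.q R0Q157.q3252_20) (q_cons (Vale.Agent.P032.Lt.q R0Q157.q3252_21) (q_cons (Vale.Agent.P032.Lt.q R0Q157.q3252_22) (q_cons (Vale.Agent.P032.Lt.q R0Q157.q3252_23) (q_cons (Vale.Agent.P032.Lt.q R0Q157.q3252_24) (q_cons (Vale.Agent.P032.Lt.q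 R0Q157.q3252_25) (q_cons (Vale.Agent.P032.Lt.q R0Q157.q3252_26) (q_cons (Vale.Agent.P032.Lt.q R0Q157.q3252_27) (q_cons (Vale.Agent.P032.Lt.q R0Q157.q3252_28) (q_cons (Vale.Agent.P032.Lt.q R0Q157.q3252_29) (q_cons (Vale.Agent.P032.Lt.q R0Q157.q3252_30) (q_cons (Vale.Agent.P032.Lt.q R0Q157.q3252_31) (q_cons (Vale.Agent.P032.Lt.q R0Q157.q3252_32) (q_cons (Vale.Agent.P032.Lt.q R0Q157.q3252_33) (q_cons (Vale.Agent.P032.Lt.q R0Q157.q3252_34) (q_cons (Vale.Agent.P032.Lt.q R0Q157.q3252_35) (q_cons (Vale.Agent.P032.Lt.q R0Q157.q3252_36) (q_cons (Vale.Agent.P032.Lt.q R0Q157.q3252_37) (q_cons (Vale.Agent.P032.Lt.q R0Q157.q3252_38) (q_cons (Vale.Agent.P032.Lt.q R0Q157.q3252_39) (q_cons (Vale.Agent.P032.Lt.q R0Q157.q3252_40) (q_cons (Vale.Agent.P032.Lt.q R0Q157.q3252_41) (q_cons (Vale.Agent.P032.Lt.q R0Q157.q3252_42) q_nil))))))))))))))))))))))))))))))))))))))))))))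

theorem p3253 : Pat 73 73 TBm TCm (CB.map Fm) R0Q158.P3253 R0Q158.I3253 := Vale.Agent.P032.Lt.pat_eq (E' := R0Q158.E) eB (pat_step (by decide +kernel) (q_cons (Vale.Agent.P032.Lt.q R0Q158.q3253_0) (q_cons (Vale.Agent.P032.Lt.q R0Q158.q3253_1) (q_cons (Vale.Agent.P032.Lt.q R0Q158.q3253_2) (q_cons (Vale.Agent.P032.Lt.q R0Q158.q3253_3) (q_cons (Vale.Agent.P032.Lt.q R0Q158.q3253_4) (q_cons (Vale.Agent.P032.Lt.q R0Q158.q3253_5) (q_cons (Vale.Agent.P032.Lt.q R0Q158.q3253_6) (q_cons (Vale.Agent.P032.Lt.q R0Q158.q3253_7) (q_cons (Vale.Agent.P032.Lt.q R0Q158.q3253_8) (q_cons (Vale.Agent.P032.Lt.q R0Q158.q3253_9) (q_cons (Vale.Agent.P032.Lt.q R0Q158.q3253_10) (q_cons (Vale.Agent.P032.Lt.q R0Q158.q3253_11) (q_cons (Vale.Agent.P032.Lt.q R0Q158.q3253_12) (q_cons (Vale.Agent.P032.Lt.q R0Q158.q3253_13) (q_cons (Vale.Agent.P032.Lt.q R0Q158.q3253_14) (q_cons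 (Vale.Agent.P032.Lt.q R0Q158.q3253_15) (q_cons (Vale.Agent.P032.Lt.q R0Q158.q3253_16) (q_cons (Vale.Agent.P032.Lt.q R0Q158.q3253_17) (q_cons (Vale.Agent.P032.Lt.q R0Q158.q3253_18) (q_cons (Vale.Agent.P032.Lt.q R0Q158.q3253_19) (q_cons (Vale.Agent.P032.Lt.q R0Q158.q3253_20) (q_cons (Vale.Agent.P032.Lt.q R0Q158.q3253_21) (q_cons (Vale.Agent.P032.Lt.q R0Q158.q3253_22) (q_cons (Vale.Agent.P032.Lt.q R0Q158.q3253_23) (q_cons (Vale.Agent.P032.Lt.q R0Q158.q3253_24) (q_cons (Vale.Agent.P032.Lt.q R0Q158.q3253_25) (q_cons (Vale.Agent.P032.Lt.q R0Q158.q3253_26) (q_cons (Vale.Agent.P032.Lt.q R0Q158.q3253_27) (q_cons (Vale.Agent.P032.Lt.q R0Q158.q3253_28) (q_cons (Vale.Agent.P032.Lt.q R0Q158.q3253_29) q_nil)))))))))))))))))))))))))))))))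

theorem p3254 : Pat 73 73 TBm TCm (CB.map Fm) R0Q158.P3254 R0Q158.I3254 := Vale.Agent.P032.Lt.pat_eq (E' := R0Q158.E) eB (pat_step (by decide +kernel) (q_cons (Vale.Agent.P032.Lt.q R0Q158.q3254_0) (q_cons (Vale.Agent.P032.Lt.q R0Q158.q3254_1) (q_cons (Vale.Agent.P032.Lt.q R0Q158.q3254_2) (q_cons (Vale.Agent.P032.Lt.q R0Q158.q3254_3) (q_cons (Vale.Agent.P032.Lt.q R0Q158.q3254_4) (q_cons (Vale.Agent.P032.Lt.q R0Q158.q3254_5) (q_cons (Vale.Agent.P032.Lt.q R0Q158.q3254_6) (q_cons (Vale.Agent.P032.Lt.q R0Q158.q3254_7) (q_cons (Vale.Agent.P032.Lt.q R0Q158.q3254_8) (q_cons (Vale.Agent.P032.Lt.q R0Q158.q3254_9) q_nil)))))))))))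

theorem p3255 : Pat 73 73 TBm TCm (CB.map Fm) R0Q158.P3255 R0Q158.I3255 := Vale.Agent.P032.Lt.pat_eq (E' := R0Q158.E) eB (pat_step (by decide +kernel) (q_cons (Vale.Agent.P032.Lt.q R0Q158.q3255_0) (q_cons (Vale.Agent.P032.Lt.q R0Q158.q3255_1) (q_cons (Vale.Agent.P032.Lt.q R0Q158.q3255_2) (q_cons (Vale.Agent.P032.Lt.q R0Q158.q3255_3) (q_cons (Vale.Agent.P032.Lt.q R0Q158.q3255_4) (q_cons (Vale.Agent.P032.Lt.q R0Q158.q3255_5) (q_cons (Vale.Agent.P032.Lt.q R0Q158.q3255_6) (q_cons (Vale.Agent.P032.Lt.q R0Q158.q3255_7) q_nil)))))))))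

theorem p3256 : Pat 73 73 TBm TCm (CB.map Fm) R0Q158.P3256 R0Q158.I3256 := Vale.Agent.P032.Lt.pat_eq (E' := R0Q158.E) eB (pat_step (by decide +kernel) (q_cons (Vale.Agent.P032.Lt.q R0Q158.q3256_0) (q_cons (Vale.Agent.P032.Lt.q R0Q158.q3256_1) (q_cons (Vale.Agent.P032.Lt.q R0Q158.q3256_2) (q_cons (Vale.Agent.P032.Lt.q R0Q158.q3256_3) (q_cons (Vale.Agent.P032.Lt.q R0Q158.q3256_4) (q_cons (Vale.Agent.P032.Lt.q R0Q158.q3256_5) (q_cons (Vale.Agent.P032.Lt.q R0Q158.q3256_6) (q_cons (Vale.Agent.P032.Lt.q R0Q158.q3256_7) (q_cons (Vale.Agent.P032.Lt.q R0Q158.q3256_8) q_nil))))))))))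

theorem p3257 : Pat 73 73 TBm TCm (CB.map Fm) R0Q158.P3257 R0Q158.I3257 := Vale.Agent.P032.Lt.pat_eq (E' := R0Q158.E) eB (pat_step (by decide +kernel) (q_cons (Vale.Agent.P032.Lt.q R0Q158.q3257_0) (q_cons (Vale.Agent.P032.Lt.q R0Q158.q3257_1) (q_cons (Vale.Agent.P032.Lt.q R0Q158.q3257_2) q_nil))))

theorem p3258 : Pat 73 73 TBm TCm (CB.map Fm) R0Q158.P3258 R0Q158.I3258 := Vale.Agent.P032.Lt.pat_eq (E' := R0Q158.E) eB (pat_step (by decide +kernel) (q_cons (Vale.Agent.P032.Lt.q R0Q158.q3258_0) (q_cons (Vale.Agent.P032.Lt.q R0Q158.q3258_1) (q_cons (Vale.Agent.P032.Lt.q R0Q158.q3258_2) q_nil))))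

theorem p3259 : Pat 73 73 TBm TCm (CB.map Fm) R0Q158.P3259 R0Q158.I3259 := Vale.Agent.P032.Lt.pat_eq (E' := R0Q158.E) eB (pat_step (by decide +kernel) (q_cons (Vale.Agent.P032.Lt.q R0Q158.q3259_0) (q_cons (Vale.Agent.P032.Lt.q R0Q158.q3259_1) (q_cons (Vale.Agent.P032.Lt.q R0Q158.q3259_2) (q_cons (Vale.Agent.P032.Lt.q R0Q158.q3259_3) (q_cons (Vale.Agent.P032.Lt.q R0Q158.q3259_4) (q_cons (Vale.Agent.P032.Lt.q R0Q158.q3259_5) (q_cons (Vale.Agent.P032.Lt.q R0Q158.q3259_6) q_nil))))))))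

theorem p3260 : Pat 73 73 TBm TCm (CB.map Fm) R0Q158.P3260 R0Q158.I3260 := Vale.Agent.P032.Lt.pat_eq (E' := R0Q158.E) eB (pat_step (by decide +kernel) (q_cons (Vale.Agent.P032.Lt.q R0Q158.q3260_0) (q_cons (Vale.Agent.P032.Lt.q R0Q158.q3260_1) (q_cons (Vale.Agent.P032.Lt.q R0Q158.q3260_2) (q_cons (Vale.Agent.P032.Lt.q R0Q158.q3260_3) (q_cons (Vale.Agent.P032.Lt.q R0Q158.q3260_4) (q_cons (Vale.Agent.P032.Lt.q R0Q158.q3260_5) (q_cons (Vale.Agent.P032.Lt.q R0Q158.q3260_6) (q_cons (Vale.Agent.P032.Lt.q R0Q158.q3260_7) (q_cons (Vale.Agent.P032.Lt.q R0Q158.q3260_8) (q_cons (Vale.Agent.P032.Lt.q R0Q158.q3260_9) (q_cons (Vale.Agent.P032.Lt.q R0Q158.q3260_10) (q_cons (Vale.Agent.P032.Lt.q R0Q158.q3260_11) (q_cons (Vale.Agent.P032.Lt.q R0Q158.q3260_12) q_nil))))))))))))))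

theorem p3261 : Pat 73 73 TBm TCm (CB.map Fm) R0Q158.P3261 R0Q158.I3261 := Vale.Agent.P032.Lt.pat_eq (E' := R0Q158.E) eB (pat_step (by decide +kernel) (q_cons (Vale.Agent.P032.Lt.q R0Q158.q3261_0) q_nil))

theorem p3262 : Pat 73 73 TBm TCm (CB.map Fm) R0Q158.P3262 R0Q158.I3262 := Vale.Agent.P032.Lt.pat_eq (E' := R0Q158.E) eB (pat_step (by decide +kernel) (q_cons (Vale.Agent.P032.Lt.q R0Q158.q3262_0) q_nil))

theorem p3263 : Pat 73 73 TBm TCm (CB.map Fm) R0Q158.P3263 R0Q158.I3263 := Vale.Agent.P032.Lt.pat_eq (E' := R0Q158.E) eB (pat_step (by decide +kernel) (q_cons (Vale.Agent.P032.Lt.q R0Q158.q3263_0) q_nil))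

def C3264 : List ℕ := [0, 4, 8, 12, 16, 20, 24, 82945, 212993, 606209, 737281]
theorem p3264 : Pat 73 73 TBm TCm (C3264.map Fm) R0Q158.P3264 R0Q158.I3264 := Vale.Agent.P032.Lt.pat_eq (E' := R0Q158.E3264) (by decide +kernel) (pat_step (by decide +kernel) (q_cons (Vale.Agent.P032.Lt.q R0Q158.q3264_0) (q_cons (Vale.Agent.P032.Lt.q R0Q158.q3264_1) (q_cons (Vale.Agent.P032.Lt.q R0Q158.q3264_2) (q_cons (Vale.Agent.P032.Lt.q R0Q158.q3264_3) (q_cons (Vale.Agent.P032.Lt.q R0Q158.q3264_4) (q_cons (Vale.Agent.P032.Lt.q R0Q158.q3264_5) q_nil)))))))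

theorem p3265 : Pat 73 73 TBm TCm (CB.map Fm) R0Q158.P3265 R0Q158.I3265 := Vale.Agent.P032.Lt.pat_eq (E' := R0Q158.E) eB (pat_step (by decide +kernel) (q_cons (Vale.Agent.P032.Lt.q R0Q158.q3265_0) (q_cons (Vale.Agent.P032.Lt.q R0Q158.q3265_1) (q_cons (Vale.Agent.P032.Lt.q R0Q158.q3265_2) (q_cons (Vale.Agent.P032.Lt.q R0Q158.q3265_3) q_nil)))))

theorem p3266 : Pat 73 73 TBm TCm (CB.map Fm) R0Q158.P3266 R0Q158.I3266 := Vale.Agent.P032.Lt.pat_eq (E' := R0Q158.E) eB (pat_step (by decide +kernel) (q_cons (Vale.Agent.P032.Lt.q R0Q158.q3266_0) (q_cons (Vale.Agent.P032.Lt.q R0Q158.q3266_1) (q_cons (Vale.Agent.P032.Lt.q R0Q158.q3266_2) (q_cons (Vale.Agent.P032.Lt.q R0Q158.q3266_3) (q_cons (Vale.Agent.P032.Lt.q R0Q158.q3266_4) (q_cons (Vale.Agent.P032.Lt.q R0Q158.q3266_5) (q_cons (Vale.Agent.P032.Lt.q R0Q158.q3266_6) (q_cons (Vale.Agent.P032.Lt.q R0Q158.q3266_7)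 (q_cons (Vale.Agent.P032.Lt.q R0Q158.q3266_8) q_nil))))))))))

theorem p3267 : Pat 73 73 TBm TCm (CB.map Fm) R0Q158.P3267 R0Q158.I3267 := Vale.Agent.P032.Lt.pat_eq (E' := R0Q158.E) eB (pat_step (by decide +kernel) (q_cons (Vale.Agent.P032.Lt.q R0Q158.q3267_0) (q_cons (Vale.Agent.P032.Lt.q R0Q158.q3267_1) (q_cons (Vale.Agent.P032.Lt.q R0Q158.q3267_2) (q_cons (Vale.Agent.P032.Lt.q R0Q158.q3267_3) (q_cons (Vale.Agent.P032.Lt.q R0Q158.q3267_4) (q_cons (Vale.Agent.P032.Lt.q R0Q158.q3267_5) q_nil)))))))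

theorem p3268 : Pat 73 73 TBm TCm (CB.map Fm) R0Q158.P3268 R0Q158.I3268 := Vale.Agent.P032.Lt.pat_eq (E' := R0Q158.E) eB (pat_step (by decide +kernel) (q_cons (Vale.Agent.P032.Lt.q R0Q158.q3268_0) (q_cons (Vale.Agent.P032.Lt.q R0Q158.q3268_1) (q_cons (Vale.Agent.P032.Lt.q R0Q158.q3268_2) (q_cons (Vale.Agent.P032.Lt.q R0Q158.q3268_3) (q_cons (Vale.Agent.P032.Lt.q R0Q158.q3268_4) (q_cons (Vale.Agent.P032.Lt.q R0Q158.q3268_5) (q_cons (Vale.Agent.P032.Lt.q R0Q158.q3268_6) (q_cons (Vale.Agent.P032.Lt.q R0Q158.q3268_7) (q_cons (Vale.Agent.P032.Lt.q R0Q158.q3268_8) (q_cons (Vale.Agent.P032.Lt.q R0Q158.q3268_9) (q_cons (Vale.Agent.P032.Lt.q R0Q158.q3268_10) q_nil))))))))))))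

theorem p3269 : Pat 73 73 TBm TCm (CB.map Fm) R0Q158.P3269 R0Q158.I3269 := Vale.Agent.P032.Lt.pat_eq (E' := R0Q158.E) eB (pat_step (by decide +kernel) (q_cons (Vale.Agent.P032.Lt.q R0Q158.q3269_0) (q_cons (Vale.Agent.P032.Lt.q R0Q158.q3269_1) (q_cons (Vale.Agent.P032.Lt.q R0Q158.q3269_2) (q_cons (Vale.Agent.P032.Lt.q R0Q158.q3269_3) (q_cons (Vale.Agent.P032.Lt.q R0Q158.q3269_4) (q_cons (Vale.Agent.P032.Lt.q R0Q158.q3269_5) (q_cons (Vale.Agent.P032.Lt.q R0Q158.q3269_6) (q_cons (Vale.Agent.P032.Lt.q R0Q158.q3269_7) (q_cons (Vale.Agent.P032.Lt.q R0Q158.q3269_8) (q_cons (Vale.Agent.P032.Lt.q R0Q158.q3269_9) (q_cons (Vale.Agent.P032.Lt.q R0Q158.q3269_10) (q_cons (Vale.Agent.P032.Lt.q R0Q158.q3269_11) (q_cons (Vale.Agent.P032.Lt.q R0Q158.q3269_12) (q_cons (Vale.Agent.P032.Lt.q R0Q158.q3269_13) (q_cons (Vale.Agent.P032.Lt.q R0Q158.q3269_14) q_nil))))))))))))))))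

theorem p3270 : Pat 73 73 TBm TCm (CB.map Fm) R0Q158.P3270 R0Q158.I3270 := Vale.Agent.P032.Lt.pat_eq (E' := R0Q158.E) eB (pat_step (by decide +kernel) (q_cons (Vale.Agent.P032.Lt.q R0Q158.q3270_0) (q_cons (Vale.Agent.P032.Lt.q R0Q158.q3270_1) (q_cons (Vale.Agent.P032.Lt.q R0Q158.q3270_2) (q_cons (Vale.Agent.P032.Lt.q R0Q158.q3270_3) (q_cons (Vale.Agent.P032.Lt.q R0Q158.q3270_4) (q_cons (Vale.Agent.P032.Lt.q R0Q158.q3270_5) (q_cons (Vale.Agent.P032.Lt.q R0Q158.q3270_6) (q_cons (Vale.Agent.P032.Lt.q R0Q158.q3270_7) (q_cons (Vale.Agent.P032.Lt.q R0Q158.q3270_8) (q_cons (Vale.Agent.P032.Lt.q R0Q158.q3270_9) (q_cons (Vale.Agent.P032.Lt.q R0Q158.q3270_10) (q_cons (Vale.Agent.P032.Lt.q R0Q158.q3270_11) q_nil)))))))))))))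

theorem p3271 : Pat 73 73 TBm TCm (CB.map Fm) R0Q159.P3271 R0Q159.I3271 := Vale.Agent.P032.Lt.pat_eq (E' := R0Q159.E) eB (pat_step (by decide +kernel) (q_cons (Vale.Agent.P032.Lt.q R0Q159.q3271_0) q_nil))

theorem p3272 : Pat 73 73 TBm TCm (CB.map Fm) R0Q159.P3272 R0Q159.I3272 := Vale.Agent.P032.Lt.pat_eq (E' := R0Q159.E) eB (pat_step (by decide +kernel) (q_cons (Vale.Agent.P032.Lt.q R0Q159.q3272_0) q_nil))

def C3273 : List ℕ := [0, 4, 8, 12, 16, 20, 24, 82945, 475137, 737281]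
theorem p3273 : Pat 73 73 TBm TCm (C3273.map Fm) R0Q159.P3273 R0Q159.I3273 := Vale.Agent.P032.Lt.pat_eq (E' := R0Q159.E3273) (by decide +kernel) (pat_step (by decide +kernel) (q_cons (Vale.Agent.P032.Lt.q R0Q159.q3273_0) q_nil))

theorem p3274 : Pat 73 73 TBm TCm (CB.map Fm) R0Q159.P3274 R0Q159.I3274 := Vale.Agent.P032.Lt.pat_eq (E' := R0Q159.E) eB (pat_step (by decide +kernel) (q_cons (Vale.Agent.P032.Lt.q R0Q159.q3274_0) q_nil))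

theorem p3275 : Pat 73 73 TBm TCm (CB.map Fm) R0Q159.P3275 R0Q159.I3275 := Vale.Agent.P032.Lt.pat_eq (E' := R0Q159.E) eB (pat_step (by decide +kernel) (q_cons (Vale.Agent.P032.Lt.q R0Q159.q3275_0) (q_cons (Vale.Agent.P032.Lt.q R0Q159.q3275_1) (q_cons (Vale.Agent.P032.Lt.q R0Q159.q3275_2) q_nil))))

theorem p3276 : Pat 73 73 TBm TCm (CB.map Fm) R0Q159.P3276 R0Q159.I3276 := Vale.Agent.P032.Lt.pat_eq (E' := R0Q159.E) eB (pat_step (by decide +kernel) (q_cons (Vale.Agent.P032.Lt.q R0Q159.q3276_0) (q_cons (Vale.Agent.P032.Lt.q R0Q159.q3276_1) (q_cons (Vale.Agent.P032.Lt.q R0Q159.q3276_2) q_nil))))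

theorem p3277 : Pat 73 73 TBm TCm (CB.map Fm) R0Q159.P3277 R0Q159.I3277 := Vale.Agent.P032.Lt.pat_eq (E' := R0Q159.E) eB (pat_step (by decide +kernel) (q_cons (Vale.Agent.P032.Lt.q R0Q159.q3277_0) (q_cons (Vale.Agent.P032.Lt.q R0Q159.q3277_1) q_nil)))

theorem p3278 : Pat 73 73 TBm TCm (CB.map Fm) R0Q159.P3278 R0Q159.I3278 := Vale.Agent.P032.Lt.pat_eq (E' := R0Q159.E) eB (pat_step (by decide +kernel) (q_cons (Vale.Agent.P032.Lt.q R0Q159.q3278_0) (q_cons (Vale.Agent.P032.Lt.q R0Q159.q3278_1) (q_cons (Vale.Agent.P032.Lt.q R0Q159.q3278_2) q_nil))))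

theorem p3279 : Pat 73 73 TBm TCm (CB.map Fm) R0Q159.P3279 R0Q159.I3279 := Vale.Agent.P032.Lt.pat_eq (E' := R0Q159.E) eB (pat_step (by decide +kernel) (q_cons (Vale.Agent.P032.Lt.q R0Q159.q3279_0) (q_cons (Vale.Agent.P032.Lt.q R0Q159.q3279_1) q_nil)))

theorem p3280 : Pat 73 73 TBm TCm (CB.map Fm) R0Q159.P3280 R0Q159.I3280 := Vale.Agent.P032.Lt.pat_eq (E' := R0Q159.E) eB (pat_step (by decide +kernel) (q_cons (Vale.Agent.P032.Lt.q R0Q159.q3280_0) q_nil))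

def C3281 : List ℕ := [0, 4, 8, 12, 16, 20, 24, 344065, 475137, 737281]
theorem p3281 : Pat 73 73 TBm TCm (C3281.map Fm) R0Q159.P3281 R0Q159.I3281 := Vale.Agent.P032.Lt.pat_eq (E' := R0Q159.E3281) (by decide +kernel) (pat_step (by decide +kernel) (q_cons (Vale.Agent.P032.Lt.q R0Q159.q3281_0) (q_cons (Vale.Agent.P032.Lt.q R0Q159.q3281_1) q_nil)))

theorem p3282 : Pat 73 73 TBm TCm (CB.map Fm) R0Q159.P3282 R0Q159.I3282 := Vale.Agent.P032.Lt.pat_eq (E' := R0Q159.E) eB (pat_step (by decide +kernel) (q_cons (Vale.Agent.P032.Lt.q R0Q159.q3282_0) q_nil))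

theorem p3283 : Pat 73 73 TBm TCm (CB.map Fm) R0Q159.P3283 R0Q159.I3283 := Vale.Agent.P032.Lt.pat_eq (E' := R0Q159.E) eB (pat_step (by decide +kernel) (q_cons (Vale.Agent.P032.Lt.q R0Q159.q3283_0) (q_cons (Vale.Agent.P032.Lt.q R0Q159.q3283_1) (q_cons (Vale.Agent.P032.Lt.q R0Q159.q3283_2) (q_cons (Vale.Agent.P032.Lt.q R0Q159.q3283_3) q_nil)))))

theorem p3284 : Pat 73 73 TBm TCm (CB.map Fm) R0Q159.P3284 R0Q159.I3284 := Vale.Agent.P032.Lt.pat_eq (E' := R0Q159.E) eB (pat_step (by decide +kernel) (q_cons (Vale.Agent.P032.Lt.q R0Q159.q3284_0) (q_cons (Vale.Agent.P032.Lt.q R0Q159.q3284_1) (q_cons (Vale.Agent.P032.Lt.q R0Q159.q3284_2) (q_cons (Vale.Agent.P032.Lt.q R0Q159.q3284_3) (q_cons (Vale.Agent.P032.Lt.q R0Q159.q3284_4) q_nil))))))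

theorem p3285 : Pat 73 73 TBm TCm (CB.map Fm) R0Q159.P3285 R0Q159.I3285 := Vale.Agent.P032.Lt.pat_eq (E' := R0Q159.E) eB (pat_step (by decide +kernel) (q_cons (Vale.Agent.P032.Lt.q R0Q159.q3285_0) q_nil))

theorem p3286 : Pat 73 73 TBm TCm (CB.map Fm) R0Q159.P3286 R0Q159.I3286 := Vale.Agent.P032.Lt.pat_eq (E' := R0Q159.E) eB (pat_step (by decide +kernel) (q_cons (Vale.Agent.P032.Lt.q R0Q159.q3286_0) q_nil))

theorem p3287 : Pat 73 73 TBm TCm (CB.map Fm) R0Q159.P3287 R0Q159.I3287 := Vale.Agent.P032.Lt.pat_eq (E' := R0Q159.E) eB (pat_step (by decide +kernel) (q_cons (Vale.Agent.P032.Lt.q R0Q159.q3287_0) q_nil))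

theorem p3288 : Pat 73 73 TBm TCm (CB.map Fm) R0Q159.P3288 R0Q159.I3288 := Vale.Agent.P032.Lt.pat_eq (E' := R0Q159.E) eB (pat_step (by decide +kernel) (q_cons (Vale.Agent.P032.Lt.q R0Q159.q3288_0) q_nil))

theorem p3289 : Pat 73 73 TBm TCm (CB.map Fm) R0Q159.P3289 R0Q159.I3289 := Vale.Agent.P032.Lt.pat_eq (E' := R0Q159.E) eB (pat_step (by decide +kernel) (q_cons (Vale.Agent.P032.Lt.q R0Q159.q3289_0) q_nil))

theorem p3290 : Pat 73 73 TBm TCm (CB.map Fm) R0Q159.P3290 R0Q159.I3290 := Vale.Agent.P032.Lt.pat_eq (E' := R0Q159.E) eB (pat_step (by decide +kernel) (q_cons (Vale.Agent.P032.Lt.q R0Q159.q3290_0) (q_cons (Vale.Agent.P032.Lt.q R0Q159.q3290_1) (q_cons (Vale.Agent.P032.Lt.q R0Q159.q3290_2) (q_cons (Vale.Agent.P032.Lt.q R0Q159.q3290_3) (q_cons (Vale.Agent.P032.Lt.q R0Q159.q3290_4) (q_cons (Vale.Agent.P032.Lt.q R0Q159.q3290_5) (q_cons (Vale.Agent.P032.Lt.q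 R0Q159.q3290_6) (q_cons (Vale.Agent.P032.Lt.q R0Q159.q3290_7) (q_cons (Vale.Agent.P032.Lt.q R0Q159.q3290_8) (q_cons (Vale.Agent.P032.Lt.q R0Q159.q3290_9) (q_cons (Vale.Agent.P032.Lt.q R0Q159.q3290_10) q_nil))))))))))))

theorem p3291 : Pat 73 73 TBm TCm (CB.map Fm) R0Q159.P3291 R0Q159.I3291 := Vale.Agent.P032.Lt.pat_eq (E' := R0Q159.E) eB (pat_step (by decide +kernel) (q_cons (Vale.Agent.P032.Lt.q R0Q159.q3291_0) (q_cons (Vale.Agent.P032.Lt.q R0Q159.q3291_1) (q_cons (Vale.Agent.P032.Lt.q R0Q159.q3291_2) (q_cons (Vale.Agent.P032.Lt.q R0Q159.q3291_3) (q_cons (Vale.Agent.P032.Lt.q R0Q159.q3291_4) (q_cons (Vale.Agent.P032.Lt.q R0Q159.q3291_5) q_nil)))))))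

def C3292 : List ℕ := [0, 4, 8, 12, 16, 20, 24, 737281]
theorem p3292 : Pat 73 73 TBm TCm (C3292.map Fm) R0Q159.P3292 R0Q159.I3292 := Vale.Agent.P032.Lt.pat_eq (E' := R0Q159.E3292) (by decide +kernel) (pat_step (by decide +kernel) (q_cons (Vale.Agent.P032.Lt.q R0Q159.q3292_0) (q_cons (Vale.Agent.P032.Lt.q R0Q159.q3292_1) (q_cons (Vale.Agent.P032.Lt.q R0Q159.q3292_2) q_nil))))

theorem p3293 : Pat 73 73 TBm TCm (CB.map Fm) R0Q159.P3293 R0Q159.I3293 := Vale.Agent.P032.Lt.pat_eq (E' := R0Q159.E) eB (pat_step (by decide +kernel) (q_cons (Vale.Agent.P032.Lt.q R0Q159.q3293_0) (q_cons (Vale.Agent.P032.Lt.q R0Q159.q3293_1) (q_cons (Vale.Agent.P032.Lt.q R0Q159.q3293_2) q_nil))))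

theorem p3294 : Pat 73 73 TBm TCm (CB.map Fm) R0Q159.P3294 R0Q159.I3294 := Vale.Agent.P032.Lt.pat_eq (E' := R0Q159.E) eB (pat_step (by decide +kernel) (q_cons (Vale.Agent.P032.Lt.q R0Q159.q3294_0) (q_cons (Vale.Agent.P032.Lt.q R0Q159.q3294_1) (q_cons (Vale.Agent.P032.Lt.q R0Q159.q3294_2) (q_cons (Vale.Agent.P032.Lt.q R0Q159.q3294_3) (q_cons (Vale.Agent.P032.Lt.q R0Q159.q3294_4) (q_cons (Vale.Agent.P032.Lt.q R0Q159.q3294_5) (q_cons (Vale.Agent.P032.Lt.q R0Q159.q3294_6) (q_cons (Vale.Agent.P032.Lt.q R0Q159.q3294_7) (q_cons (Vale.Agent.P032.Lt.q R0Q159.q3294_8) (q_cons (Vale.Agent.P032.Lt.q R0Q159.q3294_9) (q_cons (Vale.Agent.P032.Lt.q R0Q159.q3294_10) (q_cons (Vale.Agent.P032.Lt.q R0Q159.q3294_11) (q_cons (Vale.Agent.P032.Lt.q R0Q159.q3294_12) (q_cons (Vale.Agent.P032.Lt.q R0Q159.q3294_13) (q_cons (Vale.Agent.P032.Lt.q R0Q159.q3294_14) q_nil))))))))))))))))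

theorem p3295 : Pat 73 73 TBm TCm (CB.map Fm) R0Q159.P3295 R0Q159.I3295 := Vale.Agent.P032.Lt.pat_eq (E' := R0Q159.E) eB (pat_step (by decide +kernel) (q_cons (Vale.Agent.P032.Lt.q R0Q159.q3295_0) (q_cons (Vale.Agent.P032.Lt.q R0Q159.q3295_1) (q_cons (Vale.Agent.P032.Lt.q R0Q159.q3295_2) q_nil))))

theorem p3296 : Pat 73 73 TBm TCm (CB.map Fm) R0Q159.P3296 R0Q159.I3296 := Vale.Agent.P032.Lt.pat_eq (E' := R0Q159.E) eB (pat_step (by decide +kernel) (q_cons (Vale.Agent.P032.Lt.q R0Q159.q3296_0) (q_cons (Vale.Agent.P032.Lt.q R0Q159.q3296_1) (q_cons (Vale.Agent.P032.Lt.q R0Q159.q3296_2) (q_cons (Vale.Agent.P032.Lt.q R0Q159.q3296_3) (q_cons (Vale.Agent.P032.Lt.q R0Q159.q3296_4) (q_cons (Vale.Agent.P032.Lt.q R0Q159.q3296_5) (q_cons (Vale.Agent.P032.Lt.q R0Q159.q3296_6) (q_cons (Vale.Agent.P032.Lt.q R0Q159.q3296_7) (q_cons (Vale.Agent.P032.Lt.q R0Q159.q3296_8)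 (q_cons (Vale.Agent.P032.Lt.q R0Q159.q3296_9) q_nil)))))))))))

theorem p3297 : Pat 73 73 TBm TCm (CB.map Fm) R0Q159.P3297 R0Q159.I3297 := Vale.Agent.P032.Lt.pat_eq (E' := R0Q159.E) eB (pat_step (by decide +kernel) (q_cons (Vale.Agent.P032.Lt.q R0Q159.q3297_0) (q_cons (Vale.Agent.P032.Lt.q R0Q159.q3297_1) (q_cons (Vale.Agent.P032.Lt.q R0Q159.q3297_2) (q_cons (Vale.Agent.P032.Lt.q R0Q159.q3297_3) (q_cons (Vale.Agent.P032.Lt.q R0Q159.q3297_4) (q_cons (Vale.Agent.P032.Lt.q R0Q159.q3297_5) (q_cons (Vale.Agent.P032.Lt.q R0Q159.q3297_6) (q_cons (Vale.Agent.P032.Lt.q R0Q159.q3297_7) (q_cons (Vale.Agent.P032.Lt.q R0Q159.q3297_8) (q_cons (Vale.Agent.P032.Lt.q R0Q159.q3297_9) q_nil)))))))))))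

theorem p3298 : Pat 73 73 TBm TCm (CB.map Fm) R0Q159.P3298 R0Q159.I3298 := Vale.Agent.P032.Lt.pat_eq (E' := R0Q159.E) eB (pat_step (by decide +kernel) (q_cons (Vale.Agent.P032.Lt.q R0Q159.q3298_0) (q_cons (Vale.Agent.P032.Lt.q R0Q159.q3298_1) (q_cons (Vale.Agent.P032.Lt.q R0Q159.q3298_2) (q_cons (Vale.Agent.P032.Lt.q R0Q159.q3298_3) q_nil)))))

theorem p3299 : Pat 73 73 TBm TCm (CB.map Fm) R0Q159.P3299 R0Q159.I3299 := Vale.Agent.P032.Lt.pat_eq (E' := R0Q159.E) eB (pat_step (by decide +kernel) (q_cons (Vale.Agent.P032.Lt.q R0Q159.q3299_0) (q_cons (Vale.Agent.P032.Lt.q R0Q159.q3299_1) (q_cons (Vale.Agent.P032.Lt.q R0Q159.q3299_2) q_nil))))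

theorem p3300 : Pat 73 73 TBm TCm (CB.map Fm) R0Q159.P3300 R0Q159.I3300 := Vale.Agent.P032.Lt.pat_eq (E' := R0Q159.E) eB (pat_step (by decide +kernel) (q_cons (Vale.Agent.P032.Lt.q R0Q159.q3300_0) q_nil))

theorem p3301 : Pat 73 73 TBm TCm (CB.map Fm) R0Q159.P3301 R0Q159.I3301 := Vale.Agent.P032.Lt.pat_eq (E' := R0Q159.E) eB (pat_step (by decide +kernel) (q_cons (Vale.Agent.P032.Lt.q R0Q159.q3301_0) (q_cons (Vale.Agent.P032.Lt.q R0Q159.q3301_1) (q_cons (Vale.Agent.P032.Lt.q R0Q159.q3301_2) q_nil))))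

theorem p3302 : Pat 73 73 TBm TCm (CB.map Fm) R0Q159.P3302 R0Q159.I3302 := Vale.Agent.P032.Lt.pat_eq (E' := R0Q159.E) eB (pat_step (by decide +kernel) (q_cons (Vale.Agent.P032.Lt.q R0Q159.q3302_0) (q_cons (Vale.Agent.P032.Lt.q R0Q159.q3302_1) (q_cons (Vale.Agent.P032.Lt.q R0Q159.q3302_2) (q_cons (Vale.Agent.P032.Lt.q R0Q159.q3302_3) (q_cons (Vale.Agent.P032.Lt.q R0Q159.q3302_4) (q_cons (Vale.Agent.P032.Lt.q R0Q159.q3302_5) (q_cons (Vale.Agent.P032.Lt.q R0Q159.q3302_6) (q_cons (Vale.Agent.P032.Lt.q R0Q159.q3302_7) (q_cons (Vale.Agent.P032.Lt.q R0Q159.q3302_8) (q_cons (Vale.Agent.P032.Lt.q R0Q159.q3302_9) (q_cons (Vale.Agent.P032.Lt.q R0Q159.q3302_10) (q_cons (Vale.Agent.P032.Lt.q R0Q159.q3302_11) (q_cons (Vale.Agent.P032.Lt.q R0Q159.q3302_12) (q_cons (Vale.Agent.P032.Lt.q R0Q159.q3302_13) (q_cons (Vale.Agent.P032.Lt.q R0Q159.q3302_14) (q_cons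 (Vale.Agent.P032.Lt.q R0Q159.q3302_15) q_nil)))))))))))))))))

theorem p3303 : Pat 73 73 TBm TCm (CB.map Fm) R0Q159.P3303 R0Q159.I3303 := Vale.Agent.P032.Lt.pat_eq (E' := R0Q159.E) eB (pat_step (by decide +kernel) (q_cons (Vale.Agent.P032.Lt.q R0Q159.q3303_0) (q_cons (Vale.Agent.P032.Lt.q R0Q159.q3303_1) (q_cons (Vale.Agent.P032.Lt.q R0Q159.q3303_2) (q_cons (Vale.Agent.P032.Lt.q R0Q159.q3303_3) (q_cons (Vale.Agent.P032.Lt.q R0Q159.q3303_4) q_nil))))))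

theorem p3304 : Pat 73 73 TBm TCm (CB.map Fm) R0Q159.P3304 R0Q159.I3304 := Vale.Agent.P032.Lt.pat_eq (E' := R0Q159.E) eB (pat_step (by decide +kernel) (q_cons (Vale.Agent.P032.Lt.q R0Q159.q3304_0) q_nil))

theorem p3305 : Pat 73 73 TBm TCm (CB.map Fm) R0Q159.P3305 R0Q159.I3305 := Vale.Agent.P032.Lt.pat_eq (E' := R0Q159.E) eB (pat_step (by decide +kernel) (q_cons (Vale.Agent.P032.Lt.q R0Q159.q3305_0) (q_cons (Vale.Agent.P032.Lt.q R0Q159.q3305_1) q_nil)))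

theorem p3306 : Pat 73 73 TBm TCm (CB.map Fm) R0Q159.P3306 R0Q159.I3306 := Vale.Agent.P032.Lt.pat_eq (E' := R0Q159.E) eB (pat_step (by decide +kernel) (q_cons (Vale.Agent.P032.Lt.q R0Q159.q3306_0) (q_cons (Vale.Agent.P032.Lt.q R0Q159.q3306_1) (q_cons (Vale.Agent.P032.Lt.q R0Q159.q3306_2) q_nil))))

theorem p3307 : Pat 73 73 TBm TCm (CB.map Fm) R0Q159.P3307 R0Q159.I3307 := Vale.Agent.P032.Lt.pat_eq (E' := R0Q159.E) eB (pat_step (by decide +kernel) (q_cons (Vale.Agent.P032.Lt.q R0Q159.q3307_0) (q_cons (Vale.Agent.P032.Lt.q R0Q159.q3307_1) q_nil)))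

theorem p3308 : Pat 73 73 TBm TCm (CB.map Fm) R0Q159.P3308 R0Q159.I3308 := Vale.Agent.P032.Lt.pat_eq (E' := R0Q159.E) eB (pat_step (by decide +kernel) (q_cons (Vale.Agent.P032.Lt.q R0Q159.q3308_0) (q_cons (Vale.Agent.P032.Lt.q R0Q159.q3308_1) (q_cons (Vale.Agent.P032.Lt.q R0Q159.q3308_2) (q_cons (Vale.Agent.P032.Lt.q R0Q159.q3308_3) (q_cons (Vale.Agent.P032.Lt.q R0Q159.q3308_4) (q_cons (Vale.Agent.P032.Lt.q R0Q159.q3308_5) (q_cons (Vale.Agent.P032.Lt.q R0Q159.q3308_6) (q_cons (Vale.Agent.P032.Lt.q R0Q159.q3308_7) (q_cons (Vale.Agent.P032.Lt.q R0Q159.q3308_8) (q_cons (Vale.Agent.P032.Lt.q R0Q159.q3308_9) q_nil)))))))))))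

theorem p3309 : Pat 73 73 TBm TCm (CB.map Fm) R0Q159.P3309 R0Q159.I3309 := Vale.Agent.P032.Lt.pat_eq (E' := R0Q159.E) eB (pat_step (by decide +kernel) (q_cons (Vale.Agent.P032.Lt.q R0Q159.q3309_0) (q_cons (Vale.Agent.P032.Lt.q R0Q159.q3309_1) (q_cons (Vale.Agent.P032.Lt.q R0Q159.q3309_2) q_nil))))

theorem p3310 : Pat 73 73 TBm TCm (CB.map Fm) R0Q159.P3310 R0Q159.I3310 := Vale.Agent.P032.Lt.pat_eq (E' := R0Q159.E) eB (pat_step (by decide +kernel) (q_cons (Vale.Agent.P032.Lt.q R0Q159.q3310_0) (q_cons (Vale.Agent.P032.Lt.q R0Q159.q3310_1) (q_cons (Vale.Agent.P032.Lt.q R0Q159.q3310_2) (q_cons (Vale.Agent.P032.Lt.q R0Q159.q3310_3) (q_cons (Vale.Agent.P032.Lt.q R0Q159.q3310_4) (q_cons (Vale.Agent.P032.Lt.q R0Q159.q3310_5) (q_cons (Vale.Agent.P032.Lt.q R0Q159.q3310_6) (q_cons (Vale.Agent.P032.Lt.q R0Q159.q3310_7) (q_cons (Vale.Agent.P032.Lt.q R0Q159.q3310_8)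 (q_cons (Vale.Agent.P032.Lt.q R0Q159.q3310_9) (q_cons (Vale.Agent.P032.Lt.q R0Q159.q3310_10) q_nil))))))))))))

theorem p3311 : Pat 73 73 TBm TCm (CB.map Fm) R0Q159.P3311 R0Q159.I3311 := Vale.Agent.P032.Lt.pat_eq (E' := R0Q159.E) eB (pat_step (by decide +kernel) (q_cons (Vale.Agent.P032.Lt.q R0Q159.q3311_0) (q_cons (Vale.Agent.P032.Lt.q R0Q159.q3311_1) (q_cons (Vale.Agent.P032.Lt.q R0Q159.q3311_2) (q_cons (Vale.Agent.P032.Lt.q R0Q159.q3311_3) (q_cons (Vale.Agent.P032.Lt.q R0Q159.q3311_4) (q_cons (Vale.Agent.P032.Lt.q R0Q159.q3311_5) q_nil)))))))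

def C3312 : List ℕ := [0, 4, 8, 12, 16, 20, 24, 81921, 475137, 737281]
theorem p3312 : Pat 73 73 TBm TCm (C3312.map Fm) R0Q159.P3312 R0Q159.I3312 := Vale.Agent.P032.Lt.pat_eq (E' := R0Q159.E3312) (by decide +kernel) (pat_step (by decide +kernel) (q_cons (Vale.Agent.P032.Lt.q R0Q159.q3312_0) (q_cons (Vale.Agent.P032.Lt.q R0Q159.q3312_1) (q_cons (Vale.Agent.P032.Lt.q R0Q159.q3312_2) (q_cons (Vale.Agent.P032.Lt.q R0Q159.q3312_3) q_nil)))))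

theorem p3313 : Pat 73 73 TBm TCm (CB.map Fm) R0Q160.P3313 R0Q160.I3313 := Vale.Agent.P032.Lt.pat_eq (E' := R0Q160.E) eB (pat_step (by decide +kernel) (q_cons (Vale.Agent.P032.Lt.q R0Q160.q3313_0) (q_cons (Vale.Agent.P032.Lt.q R0Q160.q3313_1) (q_cons (Vale.Agent.P032.Lt.q R0Q160.q3313_2) (q_cons (Vale.Agent.P032.Lt.q R0Q160.q3313_3) (q_cons (Vale.Agent.P032.Lt.q R0Q160.q3313_4) (q_cons (Vale.Agent.P032.Lt.q R0Q160.q3313_5) (q_cons (Vale.Agent.P032.Lt.q R0Q160.q3313_6) q_nil))))))))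

theorem p3314 : Pat 73 73 TBm TCm (CB.map Fm) R0Q160.P3314 R0Q160.I3314 := Vale.Agent.P032.Lt.pat_eq (E' := R0Q160.E) eB (pat_step (by decide +kernel) (q_cons (Vale.Agent.P032.Lt.q R0Q160.q3314_0) (q_cons (Vale.Agent.P032.Lt.q R0Q160.q3314_1) (q_cons (Vale.Agent.P032.Lt.q R0Q160.q3314_2) (q_cons (Vale.Agent.P032.Lt.q R0Q160.q3314_3) q_nil)))))

theorem p3315 : Pat 73 73 TBm TCm (CB.map Fm) R0Q160.P3315 R0Q160.I3315 := Vale.Agent.P032.Lt.pat_eq (E' := R0Q160.E) eB (pat_step (by decide +kernel) (q_cons (Vale.Agent.P032.Lt.q R0Q160.q3315_0) (q_cons (Vale.Agent.P032.Lt.q R0Q160.q3315_1) (q_cons (Vale.Agent.P032.Lt.q R0Q160.q3315_2) (q_cons (Vale.Agent.P032.Lt.q R0Q160.q3315_3) (q_cons (Vale.Agent.P032.Lt.q R0Q160.q3315_4) (q_cons (Vale.Agent.P032.Lt.q R0Q160.q3315_5) (q_cons (Vale.Agent.P032.Lt.q R0Q160.q3315_6) (q_cons (Vale.Agent.P032.Lt.q R0Q160.q3315_7)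 (q_cons (Vale.Agent.P032.Lt.q R0Q160.q3315_8) (q_cons (Vale.Agent.P032.Lt.q R0Q160.q3315_9) (q_cons (Vale.Agent.P032.Lt.q R0Q160.q3315_10) (q_cons (Vale.Agent.P032.Lt.q R0Q160.q3315_11) (q_cons (Vale.Agent.P032.Lt.q R0Q160.q3315_12) (q_cons (Vale.Agent.P032.Lt.q R0Q160.q3315_13) (q_cons (Vale.Agent.P032.Lt.q R0Q160.q3315_14) (q_cons (Vale.Agent.P032.Lt.q R0Q160.q3315_15) (q_cons (Vale.Agent.P032.Lt.q R0Q160.q3315_16) (q_cons (Vale.Agent.P032.Lt.q R0Q160.q3315_17) (q_cons (Vale.Agent.P032.Lt.q R0Q160.q3315_18) (q_cons (Vale.Agent.P032.Lt.q R0Q160.q3315_19) (q_cons (Vale.Agent.P032.Lt.q R0Q160.q3315_20) (q_cons (Vale.Agent.P032.Lt.q R0Q160.q3315_21) (q_cons (Vale.Agent.P032.Lt.q R0Q160.q3315_22) (q_cons (Vale.Agent.P032.Lt.q R0Q160.q3315_23) q_nil)))))))))))))))))))))))))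

theorem p3316 : Pat 73 73 TBm TCm (CB.map Fm) R0Q160.P3316 R0Q160.I3316 := Vale.Agent.P032.Lt.pat_eq (E' := R0Q160.E) eB (pat_step (by decide +kernel) (q_cons (Vale.Agent.P032.Lt.q R0Q160.q3316_0) (q_cons (Vale.Agent.P032.Lt.q R0Q160.q3316_1) (q_cons (Vale.Agent.P032.Lt.q R0Q160.q3316_2) (q_cons (Vale.Agent.P032.Lt.q R0Q160.q3316_3) (q_cons (Vale.Agent.P032.Lt.q R0Q160.q3316_4) (q_cons (Vale.Agent.P032.Lt.q R0Q160.q3316_5) (q_cons (Vale.Agent.P032.Lt.q R0Q160.q3316_6) (q_cons (Vale.Agent.P032.Lt.q R0Q160.q3316_7) (q_cons (Vale.Agent.P032.Lt.q R0Q160.q3316_8) (q_cons (Vale.Agent.P032.Lt.q R0Q160.q3316_9) (q_cons (Vale.Agent.P032.Lt.q R0Q160.q3316_10) (q_cons (Vale.Agent.P032.Lt.q R0Q160.q3316_11) (q_cons (Vale.Agent.P032.Lt.q R0Q160.q3316_12) (q_cons (Vale.Agent.P032.Lt.q R0Q160.q3316_13) (q_cons (Vale.Agent.P032.Lt.q R0Q160.q3316_14) (q_cons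 (Vale.Agent.P032.Lt.q R0Q160.q3316_15) (q_cons (Vale.Agent.P032.Lt.q R0Q160.q3316_16) (q_cons (Vale.Agent.P032.Lt.q R0Q160.q3316_17) (q_cons (Vale.Agent.P032.Lt.q R0Q160.q3316_18) (q_cons (Vale.Agent.P032.Lt.q R0Q160.q3316_19) (q_cons (Vale.Agent.P032.Lt.q R0Q160.q3316_20) (q_cons (Vale.Agent.P032.Lt.q R0Q160.q3316_21) (q_cons (Vale.Agent.P032.Lt.q R0Q160.q3316_22) (q_cons (Vale.Agent.P032.Lt.q R0Q160.q3316_23) (q_cons (Vale.Agent.P032.Lt.q R0Q160.q3316_24) (q_cons (Vale.Agent.P032.Lt.q R0Q160.q3316_25) q_nil)))))))))))))))))))))))))))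

theorem p3317 : Pat 73 73 TBm TCm (CB.map Fm) R0Q160.P3317 R0Q160.I3317 := Vale.Agent.P032.Lt.pat_eq (E' := R0Q160.E) eB (pat_step (by decide +kernel) (q_cons (Vale.Agent.P032.Lt.q R0Q160.q3317_0) (q_cons (Vale.Agent.P032.Lt.q R0Q160.q3317_1) (q_cons (Vale.Agent.P032.Lt.q R0Q160.q3317_2) (q_cons (Vale.Agent.P032.Lt.q R0Q160.q3317_3) (q_cons (Vale.Agent.P032.Lt.q R0Q160.q3317_4) (q_cons (Vale.Agent.P032.Lt.q R0Q160.q3317_5) (q_cons (Vale.Agent.P032.Lt.q R0Q160.q3317_6) (q_cons (Vale.Agent.P032.Lt.q R0Q160.q3317_7) (q_cons (Vale.Agent.P032.Lt.q R0Q160.q3317_8) (q_cons (Vale.Agent.P032.Lt.q R0Q160.q3317_9) (q_cons (Vale.Agent.P032.Lt.q R0Q160.q3317_10) q_nil))))))))))))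

theorem p3318 : Pat 73 73 TBm TCm (CB.map Fm) R0Q160.P3318 R0Q160.I3318 := Vale.Agent.P032.Lt.pat_eq (E' := R0Q160.E) eB (pat_step (by decide +kernel) (q_cons (Vale.Agent.P032.Lt.q R0Q160.q3318_0) (q_cons (Vale.Agent.P032.Lt.q R0Q160.q3318_1) (q_cons (Vale.Agent.P032.Lt.q R0Q160.q3318_2) q_nil))))

theorem p3319 : Pat 73 73 TBm TCm (CB.map Fm) R0Q160.P3319 R0Q160.I3319 := Vale.Agent.P032.Lt.pat_eq (E' := R0Q160.E) eB (pat_step (by decide +kernel) (q_cons (Vale.Agent.P032.Lt.q R0Q160.q3319_0) (q_cons (Vale.Agent.P032.Lt.q R0Q160.q3319_1) (q_cons (Vale.Agent.P032.Lt.q R0Q160.q3319_2) (q_cons (Vale.Agent.P032.Lt.q R0Q160.q3319_3) (q_cons (Vale.Agent.P032.Lt.q R0Q160.q3319_4) (q_cons (Vale.Agent.P032.Lt.q R0Q160.q3319_5) (q_cons (Vale.Agent.P032.Lt.q R0Q160.q3319_6) (q_cons (Vale.Agent.P032.Lt.q R0Q160.q3319_7) (q_cons (Vale.Agent.P032.Lt.q R0Q160.q3319_8)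 (q_cons (Vale.Agent.P032.Lt.q R0Q160.q3319_9) q_nil)))))))))))

theorem p3320 : Pat 73 73 TBm TCm (CB.map Fm) R0Q160.P3320 R0Q160.I3320 := Vale.Agent.P032.Lt.pat_eq (E' := R0Q160.E) eB (pat_step (by decide +kernel) (q_cons (Vale.Agent.P032.Lt.q R0Q160.q3320_0) (q_cons (Vale.Agent.P032.Lt.q R0Q160.q3320_1) (q_cons (Vale.Agent.P032.Lt.q R0Q160.q3320_2) (q_cons (Vale.Agent.P032.Lt.q R0Q160.q3320_3) (q_cons (Vale.Agent.P032.Lt.q R0Q160.q3320_4) (q_cons (Vale.Agent.P032.Lt.q R0Q160.q3320_5) (q_cons (Vale.Agent.P032.Lt.q R0Q160.q3320_6) (q_cons (Vale.Agent.P032.Lt.q R0Q160.q3320_7) q_nil)))))))))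

theorem p3321 : Pat 73 73 TBm TCm (CB.map Fm) R0Q160.P3321 R0Q160.I3321 := Vale.Agent.P032.Lt.pat_eq (E' := R0Q160.E) eB (pat_step (by decide +kernel) (q_cons (Vale.Agent.P032.Lt.q R0Q160.q3321_0) (q_cons (Vale.Agent.P032.Lt.q R0Q160.q3321_1) (q_cons (Vale.Agent.P032.Lt.q R0Q160.q3321_2) q_nil))))

theorem p3322 : Pat 73 73 TBm TCm (CB.map Fm) R0Q160.P3322 R0Q160.I3322 := Vale.Agent.P032.Lt.pat_eq (E' := R0Q160.E) eB (pat_step (by decide +kernel) (q_cons (Vale.Agent.P032.Lt.q R0Q160.q3322_0) (q_cons (Vale.Agent.P032.Lt.q R0Q160.q3322_1) q_nil)))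

theorem p3323 : Pat 73 73 TBm TCm (CB.map Fm) R0Q160.P3323 R0Q160.I3323 := Vale.Agent.P032.Lt.pat_eq (E' := R0Q160.E) eB (pat_step (by decide +kernel) (q_cons (Vale.Agent.P032.Lt.q R0Q160.q3323_0) (q_cons (Vale.Agent.P032.Lt.q R0Q160.q3323_1) (q_cons (Vale.Agent.P032.Lt.q R0Q160.q3323_2) (q_cons (Vale.Agent.P032.Lt.q R0Q160.q3323_3) (q_cons (Vale.Agent.P032.Lt.q R0Q160.q3323_4) (q_cons (Vale.Agent.P032.Lt.q R0Q160.q3323_5) (q_cons (Vale.Agent.P032.Lt.q R0Q160.q3323_6) (q_cons (Vale.Agent.P032.Lt.q R0Q160.q3323_7) (q_cons (Vale.Agent.P032.Lt.q R0Q160.q3323_8) (q_cons (Vale.Agent.P032.Lt.q R0Q160.q3323_9) q_nil)))))))))))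

def C3324 : List ℕ := [0, 4, 8, 12, 16, 20, 24, 737281]
theorem p3324 : Pat 73 73 TBm TCm (C3324.map Fm) R0Q160.P3324 R0Q160.I3324 := Vale.Agent.P032.Lt.pat_eq (E' := R0Q160.E3324) (by decide +kernel) (pat_step (by decide +kernel) (q_cons (Vale.Agent.P032.Lt.q R0Q160.q3324_0) (q_cons (Vale.Agent.P032.Lt.q R0Q160.q3324_1) (q_cons (Vale.Agent.P032.Lt.q R0Q160.q3324_2) (q_cons (Vale.Agent.P032.Lt.q R0Q160.q3324_3) (q_cons (Vale.Agent.P032.Lt.q R0Q160.q3324_4) (q_cons (Vale.Agent.P032.Lt.q R0Q160.q3324_5) (q_cons (Vale.Agent.P032.Lt.q R0Q160.q3324_6) (q_cons (Vale.Agent.P032.Lt.q R0Q160.q3324_7) (q_cons (Vale.Agent.P032.Lt.q R0Q160.q3324_8) (q_cons (Vale.Agent.P032.Lt.q R0Q160.q3324_9) (q_cons (Vale.Agent.P032.Lt.q R0Q160.q3324_10) (q_cons (Vale.Agent.P032.Lt.q R0Q160.q3324_11) (q_cons (Vale.Agent.P032.Lt.q R0Q160.q3324_12) (q_cons (Vale.Agent.P032.Lt.q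 R0Q160.q3324_13) (q_cons (Vale.Agent.P032.Lt.q R0Q160.q3324_14) (q_cons (Vale.Agent.P032.Lt.q R0Q160.q3324_15) (q_cons (Vale.Agent.P032.Lt.q R0Q160.q3324_16) (q_cons (Vale.Agent.P032.Lt.q R0Q160.q3324_17) (q_cons (Vale.Agent.P032.Lt.q R0Q160.q3324_18) (q_cons (Vale.Agent.P032.Lt.q R0Q160.q3324_19) (q_cons (Vale.Agent.P032.Lt.q R0Q160.q3324_20) q_nil))))))))))))))))))))))

def C3325 : List ℕ := [0, 4, 8, 12, 16, 20, 24, 478209, 484353, 606209, 737281, 745473]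
theorem p3325 : Pat 73 73 TBm TCm (C3325.map Fm) R0Q160.P3325 R0Q160.I3325 := Vale.Agent.P032.Lt.pat_eq (E' := R0Q160.E3325) (by decide +kernel) (pat_step (by decide +kernel) (q_cons (Vale.Agent.P032.Lt.q R0Q160.q3325_0) (q_cons (Vale.Agent.P032.Lt.q R0Q160.q3325_1) (q_cons (Vale.Agent.P032.Lt.q R0Q160.q3325_2) (q_cons (Vale.Agent.P032.Lt.q R0Q160.q3325_3) (q_cons (Vale.Agent.P032.Lt.q R0Q160.q3325_4) (q_cons (Vale.Agent.P032.Lt.q R0Q160.q3325_5) (q_cons (Vale.Agent.P032.Lt.q R0Q160.q3325_6) (q_cons (Vale.Agent.P032.Lt.q R0Q160.q3325_7) (q_cons (Vale.Agent.P032.Lt.q R0Q160.q3325_8) (q_cons (Vale.Agent.P032.Lt.q R0Q160.q3325_9) (q_cons (Vale.Agent.P032.Lt.q R0Q160.q3325_10) (q_cons (Vale.Agent.P032.Lt.q R0Q160.q3325_11) (q_cons (Vale.Agent.P032.Lt.q R0Q160.q3325_12) (q_cons (Vale.Agent.P032.Lt.q R0Q160.q3325_13) (q_cons (Vale.Agent.P032.Lt.q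 R0Q160.q3325_14) (q_cons (Vale.Agent.P032.Lt.q R0Q160.q3325_15) (q_cons (Vale.Agent.P032.Lt.q R0Q160.q3325_16) q_nil))))))))))))))))))

def C3326 : List ℕ := [0, 4, 8, 12, 16, 20, 24, 214017, 606209, 737281]
theorem p3326 : Pat 73 73 TBm TCm (C3326.map Fm) R0Q161.P3326 R0Q161.I3326 := Vale.Agent.P032.Lt.pat_eq (E' := R0Q161.E3326) (by decide +kernel) (pat_step (by decide +kernel) (q_cons (Vale.Agent.P032.Lt.q R0Q161.q3326_0) (q_cons (Vale.Agent.P032.Lt.q R0Q161.q3326_1) (q_cons (Vale.Agent.P032.Lt.q R0Q161.q3326_2) (q_cons (Vale.Agent.P032.Lt.q R0Q161.q3326_3) (q_cons (Vale.Agent.P032.Lt.q R0Q161.q3326_4) (q_cons (Vale.Agent.P032.Lt.q R0Q161.q3326_5) (q_cons (Vale.Agent.P032.Lt.q R0Q161.q3326_6) (q_cons (Vale.Agent.P032.Lt.q R0Q161.q3326_7) (q_cons (Vale.Agent.P032.Lt.q R0Q161.q3326_8) (q_cons (Vale.Agent.P032.Lt.q R0Q161.q3326_9) q_nil)))))))))))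

theorem p3327 : Pat 73 73 TBm TCm (CB.map Fm) R0Q161.P3327 R0Q161.I3327 := Vale.Agent.P032.Lt.pat_eq (E' := R0Q161.E) eB (pat_step (by decide +kernel) (q_cons (Vale.Agent.P032.Lt.q R0Q161.q3327_0) (q_cons (Vale.Agent.P032.Lt.q R0Q161.q3327_1) (q_cons (Vale.Agent.P032.Lt.q R0Q161.q3327_2) (q_cons (Vale.Agent.P032.Lt.q R0Q161.q3327_3) (q_cons (Vale.Agent.P032.Lt.q R0Q161.q3327_4) (q_cons (Vale.Agent.P032.Lt.q R0Q161.q3327_5) (q_cons (Vale.Agent.P032.Lt.q R0Q161.q3327_6) (q_cons (Vale.Agent.P032.Lt.q R0Q161.q3327_7) (q_cons (Vale.Agent.P032.Lt.q R0Q161.q3327_8) (q_cons (Vale.Agent.P032.Lt.q R0Q161.q3327_9) (q_cons (Vale.Agent.P032.Lt.q R0Q161.q3327_10) (q_cons (Vale.Agent.P032.Lt.q R0Q161.q3327_11) (q_cons (Vale.Agent.P032.Lt.q R0Q161.q3327_12) (q_cons (Vale.Agent.P032.Lt.q R0Q161.q3327_13) (q_cons (Vale.Agent.P032.Lt.q R0Q161.q3327_14) (q_cons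 (Vale.Agent.P032.Lt.q R0Q161.q3327_15) (q_cons (Vale.Agent.P032.Lt.q R0Q161.q3327_16) (q_cons (Vale.Agent.P032.Lt.q R0Q161.q3327_17) (q_cons (Vale.Agent.P032.Lt.q R0Q161.q3327_18) (q_cons (Vale.Agent.P032.Lt.q R0Q161.q3327_19) (q_cons (Vale.Agent.P032.Lt.q R0Q161.q3327_20) (q_cons (Vale.Agent.P032.Lt.q R0Q161.q3327_21) (q_cons (Vale.Agent.P032.Lt.q R0Q161.q3327_22) (q_cons (Vale.Agent.P032.Lt.q R0Q161.q3327_23) (q_cons (Vale.Agent.P032.Lt.q R0Q161.q3327_24) (q_cons (Vale.Agent.P032.Lt.q R0Q161.q3327_25) (q_cons (Vale.Agent.P032.Lt.q R0Q161.q3327_26) q_nil))))))))))))))))))))))))))))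

def L : List (List ℕ) := [R0Q155.P3200, R0Q155.P3201, R0Q155.P3202, R0Q155.P3203, R0Q155.P3204, R0Q155.P3205, R0Q155.P3206, R0Q155.P3207, R0Q155.P3208, R0Q155.P3209, R0Q155.P3210, R0Q155.P3211, R0Q155.P3212, R0Q155.P3213, R0Q155.P3214, R0Q155.P3215, R0Q155.P3216, R0Q155.P3217, R0Q155.P3218, R0Q155.P3219, R0Q155.P3220, R0Q155.P3221, R0Q155.P3222, R0Q156.P3223, R0Q156.P3224, R0Q156.P3225, R0Q156.P3226, R0Q156.P3227, R0Q156.P3228, R0Q156.P3229, R0Q156.P3230, R0Q156.P3231, R0Q156.P3232, R0Q156.P3233, R0Q156.P3234, R0Q156.P3235, R0Q156.P3236, R0Q156.P3237, R0Q157.P3238, R0Q157.P3239, R0Q157.P3240, R0Q157.P3241, R0Q157.P3242, R0Q157.P3243, R0Q157.P3244, R0Q157.P3245, R0Q157.P3246, R0Q157.P3247, R0Q157.P3248, R0Q157.P3249, R0Q157.P3250, R0Q157.P3251, R0Q157.P3252, R0Q158.P3253, R0Q158.P3254, R0Q158.P3255, R0Q158.P3256, R0Q158.P3257, R0Q158.P3258,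 R0Q158.P3259, R0Q158.P3260, R0Q158.P3261, R0Q158.P3262, R0Q158.P3263, R0Q158.P3264, R0Q158.P3265, R0Q158.P3266, R0Q158.P3267, R0Q158.P3268, R0Q158.P3269, R0Q158.P3270, R0Q159.P3271, R0Q159.P3272, R0Q159.P3273, R0Q159.P3274, R0Q159.P3275, R0Q159.P3276, R0Q159.P3277, R0Q159.P3278, R0Q159.P3279, R0Q159.P3280, R0Q159.P3281, R0Q159.P3282, R0Q159.P3283, R0Q159.P3284, R0Q159.P3285, R0Q159.P3286, R0Q159.P3287, R0Q159.P3288, R0Q159.P3289, R0Q159.P3290, R0Q159.P3291, R0Q159.P3292, R0Q159.P3293, R0Q159.P3294, R0Q159.P3295, R0Q159.P3296, R0Q159.P3297, R0Q159.P3298, R0Q159.P3299, R0Q159.P3300, R0Q159.P3301, R0Q159.P3302, R0Q159.P3303, R0Q159.P3304, R0Q159.P3305, R0Q159.P3306, R0Q159.P3307, R0Q159.P3308, R0Q159.P3309, R0Q159.P3310, R0Q159.P3311, R0Q159.P3312, R0Q160.P3313, R0Q160.P3314, R0Q160.P3315, R0Q160.P3316, R0Q160.P3317, R0Q160.P3318, R0Q160.P3319,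 R0Q160.P3320, R0Q160.P3321, R0Q160.P3322, R0Q160.P3323, R0Q160.P3324, R0Q160.P3325, R0Q161.P3326, R0Q161.P3327]

theorem all : ∀ P ∈ L, CrtF 73 73 TBm TCm (Vale.Agent.P032.Fam.fam2 (Vale.Agent.P032.Fam.im0)) P := crtF_cons p3200 (crtF_cons p3201 (crtF_cons p3202 (crtF_cons p3203 (crtF_cons p3204 (crtF_cons p3205 (crtF_cons p3206 (crtF_cons p3207 (crtF_cons p3208 (crtF_cons p3209 (crtF_cons p3210 (crtF_cons p3211 (crtF_cons p3212 (crtF_cons p3213 (crtF_cons p3214 (crtF_cons p3215 (crtF_cons p3216 (crtF_cons p3217 (crtF_cons p3218 (crtF_cons p3219 (crtF_cons p3220 (crtF_cons p3221 (crtF_cons p3222 (crtF_cons p3223 (crtF_cons p3224 (crtF_cons p3225 (crtF_cons p3226 (crtF_cons p3227 (crtF_cons p3228 (crtF_cons p3229 (crtF_cons p3230 (crtF_cons p3231 (crtF_cons p3232 (crtF_cons p3233 (crtF_cons p3234 (crtF_cons p3235 (crtF_cons p3236 (crtF_cons p3237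 (crtF_cons p3238 (crtF_cons p3239 (crtF_cons p3240 (crtF_cons p3241 (crtF_cons p3242 (crtF_cons p3243 (crtF_cons p3244 (crtF_cons p3245 (crtF_cons p3246 (crtF_cons p3247 (crtF_cons p3248 (crtF_cons p3249 (crtF_cons p3250 (crtF_cons p3251 (crtF_cons p3252 (crtF_cons p3253 (crtF_cons p3254 (crtF_cons p3255 (crtF_cons p3256 (crtF_cons p3257 (crtF_cons p3258 (crtF_cons p3259 (crtF_cons p3260 (crtF_cons p3261 (crtF_cons p3262 (crtF_cons p3263 (crtF_cons p3264 (crtF_cons p3265 (crtF_cons p3266 (crtF_cons p3267 (crtF_cons p3268 (crtF_cons p3269 (crtF_cons p3270 (crtF_cons p3271 (crtF_cons p3272 (crtF_cons p3273 (crtF_cons p3274 (crtF_cons p3275 (crtF_cons p3276 (crtF_cons p3277 (crtF_cons p3278 (crtF_cons p3279 (crtF_cons p3280 (crtF_cons p3281 (crtF_cons p3282 (crtF_cons p3283 (crtF_cons p3284 (crtF_cons p3285 (crtF_cons p3286 (crtF_cons p3287 (crtF_cons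 p3288 (crtF_cons p3289 (crtF_cons p3290 (crtF_cons p3291 (crtF_cons p3292 (crtF_cons p3293 (crtF_cons p3294 (crtF_cons p3295 (crtF_cons p3296 (crtF_cons p3297 (crtF_cons p3298 (crtF_cons p3299 (crtF_cons p3300 (crtF_cons p3301 (crtF_cons p3302 (crtF_cons p3303 (crtF_cons p3304 (crtF_cons p3305 (crtF_cons p3306 (crtF_cons p3307 (crtF_cons p3308 (crtF_cons p3309 (crtF_cons p3310 (crtF_cons p3311 (crtF_cons p3312 (crtF_cons p3313 (crtF_cons p3314 (crtF_cons p3315 (crtF_cons p3316 (crtF_cons p3317 (crtF_cons p3318 (crtF_cons p3319 (crtF_cons p3320 (crtF_cons p3321 (crtF_cons p3322 (crtF_cons p3323 (crtF_cons p3324 (crtF_cons p3325 (crtF_cons p3326 (crtF_cons p3327 crtF_nil)))))))))))))))))))))))))))))))))))))))))))))))))))))))))))))))))))))))))))))))))))))))))))))))))))))))))))))))))))))))))))))))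

theorem ch : chT 73 73 TCm s0_025 L = true := by decide +kernel

end Vale.Agent.P032X.Cert.XP.B1.R0H025
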