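import Vale.Agent.P032X.H892.LtH
import Vale.Agent.P032X.H286.W73
import Vale.Agent.P032X.Cert.XP.B1.R0T
import Vale.Agent.P032X.Cert.XP.B1.R0Q162
import Vale.Agent.P032X.Cert.XP.B1.R0Q163
import Vale.Agent.P032X.Cert.XP.B1.R0Q164
import Vale.Agent.P032X.Cert.XP.B1.R0Q165
import Vale.Agent.P032X.Cert.XP.B1.R0Q166
import Vale.Agent.P032X.Cert.XP.B1.R0Q167

set_option maxRecDepth 1000000

namespace Vale.Agent.P032X.Cert.XP.B1.R0H026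

open Vale.Agent.P032.H820.K Vale.Agent.P032.H357.MK Vale.Agent.P032.H286.E Vale.Agent.P032.H61 Vale.Agent.P032X.Cert.XP.B1

noncomputable abbrev Fm : ℕ → List ℕ := Vale.Agent.P032.Fam.fam2 (Vale.Agent.P032.Fam.im0)

def CB : List ℕ := [0, 4, 8, 12, 16, 20, 24]

theorem eB : Vale.Agent.P032.Lt.eqLL (CB.map Fm) R0Q162.E = true := by decide +kernel

theorem p3328 : Pat 73 73 TBm TCm (CB.map Fm) R0Q162.P3328 R0Q162.I3328 := Vale.Agent.P032.Lt.pat_eq (E' := R0Q162.E) eB (pat_step (by decide +kernel) (q_cons (Vale.Agent.P032.Lt.q R0Q162.q3328_0) (q_cons (Vale.Agent.P032.Lt.q R0Q162.q3328_1) q_nil)))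

theorem p3329 : Pat 73 73 TBm TCm (CB.map Fm) R0Q162.P3329 R0Q162.I3329 := Vale.Agent.P032.Lt.pat_eq (E' := R0Q162.E) eB (pat_step (by decide +kernel) (q_cons (Vale.Agent.P032.Lt.q R0Q162.q3329_0) (q_cons (Vale.Agent.P032.Lt.q R0Q162.q3329_1) q_nil)))

theorem p3330 : Pat 73 73 TBm TCm (CB.map Fm) R0Q162.P3330 R0Q162.I3330 := Vale.Agent.P032.Lt.pat_eq (E' := R0Q162.E) eB (pat_step (by decide +kernel) (q_cons (Vale.Agent.P032.Lt.q R0Q162.q3330_0) (q_cons (Vale.Agent.P032.Lt.q R0Q162.q3330_1) (q_cons (Vale.Agent.P032.Lt.q R0Q162.q3330_2) (q_cons (Vale.Agent.P032.Lt.q R0Q162.q3330_3) (q_cons (Vale.Agent.P032.Lt.q R0Q162.q3330_4) (q_cons (Vale.Agent.P032.Lt.q R0Q162.q3330_5) (q_cons (Vale.Agent.P032.Lt.q R0Q162.q3330_6) (q_cons (Vale.Agent.P032.Lt.q R0Q162.q3330_7) (q_cons (Vale.Agent.P032.Lt.q R0Q162.q3330_8) q_nil))))))))))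

theorem p3331 : Pat 73 73 TBm TCm (CB.map Fm) R0Q162.P3331 R0Q162.I3331 := Vale.Agent.P032.Lt.pat_eq (E' := R0Q162.E) eB (pat_step (by decide +kernel) (q_cons (Vale.Agent.P032.Lt.q R0Q162.q3331_0) (q_cons (Vale.Agent.P032.Lt.q R0Q162.q3331_1) (q_cons (Vale.Agent.P032.Lt.q R0Q162.q3331_2) (q_cons (Vale.Agent.P032.Lt.q R0Q162.q3331_3) (q_cons (Vale.Agent.P032.Lt.q R0Q162.q3331_4) (q_cons (Vale.Agent.P032.Lt.q R0Q162.q3331_5) (q_cons (Vale.Agent.P032.Lt.q R0Q162.q3331_6) (q_cons (Vale.Agent.P032.Lt.q R0Q162.q3331_7) (q_cons (Vale.Agent.P032.Lt.q R0Q162.q3331_8) (q_cons (Vale.Agent.P032.Lt.q R0Q162.q3331_9) (q_cons (Vale.Agent.P032.Lt.q R0Q162.q3331_10) (q_cons (Vale.Agent.P032.Lt.q R0Q162.q3331_11) (q_cons (Vale.Agent.P032.Lt.q R0Q162.q3331_12) (q_cons (Vale.Agent.P032.Lt.q R0Q162.q3331_13) (q_cons (Vale.Agent.P032.Lt.q R0Q162.q3331_14) (q_cons (Vale.Agent.P032.Lt.q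 R0Q162.q3331_15) (q_cons (Vale.Agent.P032.Lt.q R0Q162.q3331_16) q_nil))))))))))))))))))

theorem p3332 : Pat 73 73 TBm TCm (CB.map Fm) R0Q162.P3332 R0Q162.I3332 := Vale.Agent.P032.Lt.pat_eq (E' := R0Q162.E) eB (pat_step (by decide +kernel) (q_cons (Vale.Agent.P032.Lt.q R0Q162.q3332_0) (q_cons (Vale.Agent.P032.Lt.q R0Q162.q3332_1) (q_cons (Vale.Agent.P032.Lt.q R0Q162.q3332_2) (q_cons (Vale.Agent.P032.Lt.q R0Q162.q3332_3) (q_cons (Vale.Agent.P032.Lt.q R0Q162.q3332_4) (q_cons (Vale.Agent.P032.Lt.q R0Q162.q3332_5) (q_cons (Vale.Agent.P032.Lt.q R0Q162.q3332_6) (q_cons (Vale.Agent.P032.Lt.q R0Q162.q3332_7) (q_cons (Vale.Agent.P032.Lt.q R0Q162.q3332_8) (q_cons (Vale.Agent.P032.Lt.q R0Q162.q3332_9) (q_cons (Vale.Agent.P032.Lt.q R0Q162.q3332_10) (q_cons (Vale.Agent.P032.Lt.q R0Q162.q3332_11) (q_cons (Vale.Agent.P032.Lt.q R0Q162.q3332_12) (q_cons (Vale.Agent.P032.Lt.q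 R0Q162.q3332_13) (q_cons (Vale.Agent.P032.Lt.q R0Q162.q3332_14) (q_cons (Vale.Agent.P032.Lt.q R0Q162.q3332_15) (q_cons (Vale.Agent.P032.Lt.q R0Q162.q3332_16) (q_cons (Vale.Agent.P032.Lt.q R0Q162.q3332_17) (q_cons (Vale.Agent.P032.Lt.q R0Q162.q3332_18) q_nil))))))))))))))))))))

theorem p3333 : Pat 73 73 TBm TCm (CB.map Fm) R0Q162.P3333 R0Q162.I3333 := Vale.Agent.P032.Lt.pat_eq (E' := R0Q162.E) eB (pat_step (by decide +kernel) (q_cons (Vale.Agent.P032.Lt.q R0Q162.q3333_0) (q_cons (Vale.Agent.P032.Lt.q R0Q162.q3333_1) (q_cons (Vale.Agent.P032.Lt.q R0Q162.q3333_2) (q_cons (Vale.Agent.P032.Lt.q R0Q162.q3333_3) q_nil)))))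

theorem p3334 : Pat 73 73 TBm TCm (CB.map Fm) R0Q162.P3334 R0Q162.I3334 := Vale.Agent.P032.Lt.pat_eq (E' := R0Q162.E) eB (pat_step (by decide +kernel) (q_cons (Vale.Agent.P032.Lt.q R0Q162.q3334_0) q_nil))

theorem p3335 : Pat 73 73 TBm TCm (CB.map Fm) R0Q162.P3335 R0Q162.I3335 := Vale.Agent.P032.Lt.pat_eq (E' := R0Q162.E) eB (pat_step (by decide +kernel) (q_cons (Vale.Agent.P032.Lt.q R0Q162.q3335_0) q_nil))

theorem p3336 : Pat 73 73 TBm TCm (CB.map Fm) R0Q162.P3336 R0Q162.I3336 := Vale.Agent.P032.Lt.pat_eq (E' := R0Q162.E) eB (pat_step (by decide +kernel) (q_cons (Vale.Agent.P032.Lt.q R0Q162.q3336_0) (q_cons (Vale.Agent.P032.Lt.q R0Q162.q3336_1) (q_cons (Vale.Agent.P032.Lt.q R0Q162.q3336_2) (q_cons (Vale.Agent.P032.Lt.q R0Q162.q3336_3) (q_cons (Vale.Agent.P032.Lt.q R0Q162.q3336_4) q_nil))))))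

theorem p3337 : Pat 73 73 TBm TCm (CB.map Fm) R0Q162.P3337 R0Q162.I3337 := Vale.Agent.P032.Lt.pat_eq (E' := R0Q162.E) eB (pat_step (by decide +kernel) (q_cons (Vale.Agent.P032.Lt.q R0Q162.q3337_0) (q_cons (Vale.Agent.P032.Lt.q R0Q162.q3337_1) (q_cons (Vale.Agent.P032.Lt.q R0Q162.q3337_2) (q_cons (Vale.Agent.P032.Lt.q R0Q162.q3337_3) (q_cons (Vale.Agent.P032.Lt.q R0Q162.q3337_4) (q_cons (Vale.Agent.P032.Lt.q R0Q162.q3337_5) (q_cons (Vale.Agent.P032.Lt.q R0Q162.q3337_6) (q_cons (Vale.Agent.P032.Lt.q R0Q162.q3337_7) (q_cons (Vale.Agent.P032.Lt.q R0Q162.q3337_8) (q_cons (Vale.Agent.P032.Lt.q R0Q162.q3337_9) (q_cons (Vale.Agent.P032.Lt.q R0Q162.q3337_10) q_nil))))))))))))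

theorem p3338 : Pat 73 73 TBm TCm (CB.map Fm) R0Q162.P3338 R0Q162.I3338 := Vale.Agent.P032.Lt.pat_eq (E' := R0Q162.E) eB (pat_step (by decide +kernel) (q_cons (Vale.Agent.P032.Lt.q R0Q162.q3338_0) q_nil))

def C3339 : List ℕ := [0, 4, 8, 12, 16, 20, 24, 617473]
theorem p3339 : Pat 73 73 TBm TCm (C3339.map Fm) R0Q162.P3339 R0Q162.I3339 := Vale.Agent.P032.Lt.pat_eq (E' := R0Q162.E3339) (by decide +kernel) (pat_step (by decide +kernel) (q_cons (Vale.Agent.P032.Lt.q R0Q162.q3339_0) q_nil))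

theorem p3340 : Pat 73 73 TBm TCm (CB.map Fm) R0Q162.P3340 R0Q162.I3340 := Vale.Agent.P032.Lt.pat_eq (E' := R0Q162.E) eB (pat_step (by decide +kernel) (q_cons (Vale.Agent.P032.Lt.q R0Q162.q3340_0) (q_cons (Vale.Agent.P032.Lt.q R0Q162.q3340_1) (q_cons (Vale.Agent.P032.Lt.q R0Q162.q3340_2) (q_cons (Vale.Agent.P032.Lt.q R0Q162.q3340_3) (q_cons (Vale.Agent.P032.Lt.q R0Q162.q3340_4) (q_cons (Vale.Agent.P032.Lt.q R0Q162.q3340_5) q_nil)))))))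

theorem p3341 : Pat 73 73 TBm TCm (CB.map Fm) R0Q162.P3341 R0Q162.I3341 := Vale.Agent.P032.Lt.pat_eq (E' := R0Q162.E) eB (pat_step (by decide +kernel) (q_cons (Vale.Agent.P032.Lt.q R0Q162.q3341_0) (q_cons (Vale.Agent.P032.Lt.q R0Q162.q3341_1) (q_cons (Vale.Agent.P032.Lt.q R0Q162.q3341_2) (q_cons (Vale.Agent.P032.Lt.q R0Q162.q3341_3) q_nil)))))

theorem p3342 : Pat 73 73 TBm TCm (CB.map Fm) R0Q162.P3342 R0Q162.I3342 := Vale.Agent.P032.Lt.pat_eq (E' := R0Q162.E) eB (pat_step (by decide +kernel) (q_cons (Vale.Agent.P032.Lt.q R0Q162.q3342_0) (q_cons (Vale.Agent.P032.Lt.q R0Q162.q3342_1) (q_cons (Vale.Agent.P032.Lt.q R0Q162.q3342_2) q_nil))))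

theorem p3343 : Pat 73 73 TBm TCm (CB.map Fm) R0Q162.P3343 R0Q162.I3343 := Vale.Agent.P032.Lt.pat_eq (E' := R0Q162.E) eB (pat_step (by decide +kernel) (q_cons (Vale.Agent.P032.Lt.q R0Q162.q3343_0) (q_cons (Vale.Agent.P032.Lt.q R0Q162.q3343_1) (q_cons (Vale.Agent.P032.Lt.q R0Q162.q3343_2) q_nil))))

theorem p3344 : Pat 73 73 TBm TCm (CB.map Fm) R0Q162.P3344 R0Q162.I3344 := Vale.Agent.P032.Lt.pat_eq (E' := R0Q162.E) eB (pat_step (by decide +kernel) (q_cons (Vale.Agent.P032.Lt.q R0Q162.q3344_0) (q_cons (Vale.Agent.P032.Lt.q R0Q162.q3344_1) (q_cons (Vale.Agent.P032.Lt.q R0Q162.q3344_2) (q_cons (Vale.Agent.P032.Lt.q R0Q162.q3344_3) q_nil)))))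

theorem p3345 : Pat 73 73 TBm TCm (CB.map Fm) R0Q162.P3345 R0Q162.I3345 := Vale.Agent.P032.Lt.pat_eq (E' := R0Q162.E) eB (pat_step (by decide +kernel) (q_cons (Vale.Agent.P032.Lt.q R0Q162.q3345_0) q_nil))

theorem p3346 : Pat 73 73 TBm TCm (CB.map Fm) R0Q162.P3346 R0Q162.I3346 := Vale.Agent.P032.Lt.pat_eq (E' := R0Q162.E) eB (pat_step (by decide +kernel) (q_cons (Vale.Agent.P032.Lt.q R0Q162.q3346_0) q_nil))

theorem p3347 : Pat 73 73 TBm TCm (CB.map Fm) R0Q162.P3347 R0Q162.I3347 := Vale.Agent.P032.Lt.pat_eq (E' := R0Q162.E) eB (pat_step (by decide +kernel) (q_cons (Vale.Agent.P032.Lt.q R0Q162.q3347_0) (q_cons (Vale.Agent.P032.Lt.q R0Q162.q3347_1) (q_cons (Vale.Agent.P032.Lt.q R0Q162.q3347_2) (q_cons (Vale.Agent.P032.Lt.q R0Q162.q3347_3) (q_cons (Vale.Agent.P032.Lt.q R0Q162.q3347_4) (q_cons (Vale.Agent.P032.Lt.q R0Q162.q3347_5) q_nil)))))))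

theorem p3348 : Pat 73 73 TBm TCm (CB.map Fm) R0Q162.P3348 R0Q162.I3348 := Vale.Agent.P032.Lt.pat_eq (E' := R0Q162.E) eB (pat_step (by decide +kernel) (q_cons (Vale.Agent.P032.Lt.q R0Q162.q3348_0) q_nil))

theorem p3349 : Pat 73 73 TBm TCm (CB.map Fm) R0Q162.P3349 R0Q162.I3349 := Vale.Agent.P032.Lt.pat_eq (E' := R0Q162.E) eB (pat_step (by decide +kernel) (q_cons (Vale.Agent.P032.Lt.q R0Q162.q3349_0) q_nil))

theorem p3350 : Pat 73 73 TBm TCm (CB.map Fm) R0Q162.P3350 R0Q162.I3350 := Vale.Agent.P032.Lt.pat_eq (E' := R0Q162.E) eB (pat_step (by decide +kernel) (q_cons (Vale.Agent.P032.Lt.q R0Q162.q3350_0) q_nil))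

def C3351 : List ℕ := [0, 4, 8, 12, 16, 20, 24, 216065, 606209, 737281]
theorem p3351 : Pat 73 73 TBm TCm (C3351.map Fm) R0Q162.P3351 R0Q162.I3351 := Vale.Agent.P032.Lt.pat_eq (E' := R0Q162.E3351) (by decide +kernel) (pat_step (by decide +kernel) (q_cons (Vale.Agent.P032.Lt.q R0Q162.q3351_0) q_nil))

theorem p3352 : Pat 73 73 TBm TCm (CB.map Fm) R0Q162.P3352 R0Q162.I3352 := Vale.Agent.P032.Lt.pat_eq (E' := R0Q162.E) eB (pat_step (by decide +kernel) (q_cons (Vale.Agent.P032.Lt.q R0Q162.q3352_0) (q_cons (Vale.Agent.P032.Lt.q R0Q162.q3352_1) q_nil)))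

theorem p3353 : Pat 73 73 TBm TCm (CB.map Fm) R0Q162.P3353 R0Q162.I3353 := Vale.Agent.P032.Lt.pat_eq (E' := R0Q162.E) eB (pat_step (by decide +kernel) (q_cons (Vale.Agent.P032.Lt.q R0Q162.q3353_0) q_nil))

theorem p3354 : Pat 73 73 TBm TCm (CB.map Fm) R0Q162.P3354 R0Q162.I3354 := Vale.Agent.P032.Lt.pat_eq (E' := R0Q162.E) eB (pat_step (by decide +kernel) (q_cons (Vale.Agent.P032.Lt.q R0Q162.q3354_0) (q_cons (Vale.Agent.P032.Lt.q R0Q162.q3354_1) q_nil)))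

theorem p3355 : Pat 73 73 TBm TCm (CB.map Fm) R0Q162.P3355 R0Q162.I3355 := Vale.Agent.P032.Lt.pat_eq (E' := R0Q162.E) eB (pat_step (by decide +kernel) (q_cons (Vale.Agent.P032.Lt.q R0Q162.q3355_0) (q_cons (Vale.Agent.P032.Lt.q R0Q162.q3355_1) q_nil)))

theorem p3356 : Pat 73 73 TBm TCm (CB.map Fm) R0Q162.P3356 R0Q162.I3356 := Vale.Agent.P032.Lt.pat_eq (E' := R0Q162.E) eB (pat_step (by decide +kernel) (q_cons (Vale.Agent.P032.Lt.q R0Q162.q3356_0) (q_cons (Vale.Agent.P032.Lt.q R0Q162.q3356_1) (q_cons (Vale.Agent.P032.Lt.q R0Q162.q3356_2) q_nil))))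

theorem p3357 : Pat 73 73 TBm TCm (CB.map Fm) R0Q162.P3357 R0Q162.I3357 := Vale.Agent.P032.Lt.pat_eq (E' := R0Q162.E) eB (pat_step (by decide +kernel) (q_cons (Vale.Agent.P032.Lt.q R0Q162.q3357_0) (q_cons (Vale.Agent.P032.Lt.q R0Q162.q3357_1) (q_cons (Vale.Agent.P032.Lt.q R0Q162.q3357_2) q_nil))))

theorem p3358 : Pat 73 73 TBm TCm (CB.map Fm) R0Q162.P3358 R0Q162.I3358 := Vale.Agent.P032.Lt.pat_eq (E' := R0Q162.E) eB (pat_step (by decide +kernel) (q_cons (Vale.Agent.P032.Lt.q R0Q162.q3358_0) (q_cons (Vale.Agent.P032.Lt.q R0Q162.q3358_1) (q_cons (Vale.Agent.P032.Lt.q R0Q162.q3358_2) q_nil))))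

theorem p3359 : Pat 73 73 TBm TCm (CB.map Fm) R0Q162.P3359 R0Q162.I3359 := Vale.Agent.P032.Lt.pat_eq (E' := R0Q162.E) eB (pat_step (by decide +kernel) (q_cons (Vale.Agent.P032.Lt.q R0Q162.q3359_0) (q_cons (Vale.Agent.P032.Lt.q R0Q162.q3359_1) (q_cons (Vale.Agent.P032.Lt.q R0Q162.q3359_2) (q_cons (Vale.Agent.P032.Lt.q R0Q162.q3359_3) q_nil)))))

theorem p3360 : Pat 73 73 TBm TCm (CB.map Fm) R0Q162.P3360 R0Q162.I3360 := Vale.Agent.P032.Lt.pat_eq (E' := R0Q162.E) eB (pat_step (by decide +kernel) (q_cons (Vale.Agent.P032.Lt.q R0Q162.q3360_0) q_nil))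

theorem p3361 : Pat 73 73 TBm TCm (CB.map Fm) R0Q162.P3361 R0Q162.I3361 := Vale.Agent.P032.Lt.pat_eq (E' := R0Q162.E) eB (pat_step (by decide +kernel) (q_cons (Vale.Agent.P032.Lt.q R0Q162.q3361_0) q_nil))

theorem p3362 : Pat 73 73 TBm TCm (CB.map Fm) R0Q162.P3362 R0Q162.I3362 := Vale.Agent.P032.Lt.pat_eq (E' := R0Q162.E) eB (pat_step (by decide +kernel) (q_cons (Vale.Agent.P032.Lt.q R0Q162.q3362_0) (q_cons (Vale.Agent.P032.Lt.q R0Q162.q3362_1) q_nil)))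

theorem p3363 : Pat 73 73 TBm TCm (CB.map Fm) R0Q162.P3363 R0Q162.I3363 := Vale.Agent.P032.Lt.pat_eq (E' := R0Q162.E) eB (pat_step (by decide +kernel) (q_cons (Vale.Agent.P032.Lt.q R0Q162.q3363_0) q_nil))

theorem p3364 : Pat 73 73 TBm TCm (CB.map Fm) R0Q162.P3364 R0Q162.I3364 := Vale.Agent.P032.Lt.pat_eq (E' := R0Q162.E) eB (pat_step (by decide +kernel) (q_cons (Vale.Agent.P032.Lt.q R0Q162.q3364_0) (q_cons (Vale.Agent.P032.Lt.q R0Q162.q3364_1) q_nil)))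

theorem p3365 : Pat 73 73 TBm TCm (CB.map Fm) R0Q163.P3365 R0Q163.I3365 := Vale.Agent.P032.Lt.pat_eq (E' := R0Q163.E) eB (pat_step (by decide +kernel) (q_cons (Vale.Agent.P032.Lt.q R0Q163.q3365_0) (q_cons (Vale.Agent.P032.Lt.q R0Q163.q3365_1) q_nil)))

theorem p3366 : Pat 73 73 TBm TCm (CB.map Fm) R0Q163.P3366 R0Q163.I3366 := Vale.Agent.P032.Lt.pat_eq (E' := R0Q163.E) eB (pat_step (by decide +kernel) (q_cons (Vale.Agent.P032.Lt.q R0Q163.q3366_0) q_nil))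

def C3367 : List ℕ := [0, 4, 8, 12, 16, 20, 24, 216065, 223233, 347137, 475137, 606209, 737281]
theorem p3367 : Pat 73 73 TBm TCm (C3367.map Fm) R0Q163.P3367 R0Q163.I3367 := Vale.Agent.P032.Lt.pat_eq (E' := R0Q163.E3367) (by decide +kernel) (pat_step (by decide +kernel) (q_cons (Vale.Agent.P032.Lt.q R0Q163.q3367_0) (q_cons (Vale.Agent.P032.Lt.q R0Q163.q3367_1) (q_cons (Vale.Agent.P032.Lt.q R0Q163.q3367_2) (q_cons (Vale.Agent.P032.Lt.q R0Q163.q3367_3) (q_cons (Vale.Agent.P032.Lt.q R0Q163.q3367_4) (q_cons (Vale.Agent.P032.Lt.q R0Q163.q3367_5) q_nil)))))))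

def C3368 : List ℕ := [0, 4, 8, 12, 16, 20, 24, 606209, 737281]
theorem p3368 : Pat 73 73 TBm TCm (C3368.map Fm) R0Q163.P3368 R0Q163.I3368 := Vale.Agent.P032.Lt.pat_eq (E' := R0Q163.E3368) (by decide +kernel) (pat_step (by decide +kernel) (q_cons (Vale.Agent.P032.Lt.q R0Q163.q3368_0) (q_cons (Vale.Agent.P032.Lt.q R0Q163.q3368_1) (q_cons (Vale.Agent.P032.Lt.q R0Q163.q3368_2) (q_cons (Vale.Agent.P032.Lt.q R0Q163.q3368_3) (q_cons (Vale.Agent.P032.Lt.q R0Q163.q3368_4) (q_cons (Vale.Agent.P032.Lt.q R0Q163.q3368_5) q_nil)))))))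

def C3369 : List ℕ := [0, 4, 8, 12, 16, 20, 24, 606209, 737281]
theorem p3369 : Pat 73 73 TBm TCm (C3369.map Fm) R0Q163.P3369 R0Q163.I3369 := Vale.Agent.P032.Lt.pat_eq (E' := R0Q163.E3369) (by decide +kernel) (pat_step (by decide +kernel) (q_cons (Vale.Agent.P032.Lt.q R0Q163.q3369_0) (q_cons (Vale.Agent.P032.Lt.q R0Q163.q3369_1) (q_cons (Vale.Agent.P032.Lt.q R0Q163.q3369_2) (q_cons (Vale.Agent.P032.Lt.q R0Q163.q3369_3) q_nil)))))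

def C3370 : List ℕ := [0, 4, 8, 12, 16, 20, 24, 347137, 606209, 737281]
theorem p3370 : Pat 73 73 TBm TCm (C3370.map Fm) R0Q163.P3370 R0Q163.I3370 := Vale.Agent.P032.Lt.pat_eq (E' := R0Q163.E3370) (by decide +kernel) (pat_step (by decide +kernel) (q_cons (Vale.Agent.P032.Lt.q R0Q163.q3370_0) (q_cons (Vale.Agent.P032.Lt.q R0Q163.q3370_1) (q_cons (Vale.Agent.P032.Lt.q R0Q163.q3370_2) (q_cons (Vale.Agent.P032.Lt.q R0Q163.q3370_3) (q_cons (Vale.Agent.P032.Lt.q R0Q163.q3370_4) (q_cons (Vale.Agent.P032.Lt.q R0Q163.q3370_5) (q_cons (Vale.Agent.P032.Lt.q R0Q163.q3370_6) (q_cons (Vale.Agent.P032.Lt.q R0Q163.q3370_7) (q_cons (Vale.Agent.P032.Lt.q R0Q163.q3370_8) q_nil))))))))))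

def C3371 : List ℕ := [0, 4, 8, 12, 16, 20, 24, 609281]
theorem p3371 : Pat 73 73 TBm TCm (C3371.map Fm) R0Q163.P3371 R0Q163.I3371 := Vale.Agent.P032.Lt.pat_eq (E' := R0Q163.E3371) (by decide +kernel) (pat_step (by decide +kernel) (q_cons (Vale.Agent.P032.Lt.q R0Q163.q3371_0) q_nil))

theorem p3372 : Pat 73 73 TBm TCm (CB.map Fm) R0Q163.P3372 R0Q163.I3372 := Vale.Agent.P032.Lt.pat_eq (E' := R0Q163.E) eB (pat_step (by decide +kernel) (q_cons (Vale.Agent.P032.Lt.q R0Q163.q3372_0) q_nil))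

theorem p3373 : Pat 73 73 TBm TCm (CB.map Fm) R0Q163.P3373 R0Q163.I3373 := Vale.Agent.P032.Lt.pat_eq (E' := R0Q163.E) eB (pat_step (by decide +kernel) (q_cons (Vale.Agent.P032.Lt.q R0Q163.q3373_0) q_nil))

def C3374 : List ℕ := [0, 4, 8, 12, 16, 20, 24, 81921, 82945, 212993, 344065, 606209, 737281]
theorem p3374 : Pat 73 73 TBm TCm (C3374.map Fm) R0Q163.P3374 R0Q163.I3374 := Vale.Agent.P032.Lt.pat_eq (E' := R0Q163.E3374) (by decide +kernel) (pat_step (by decide +kernel) (q_cons (Vale.Agent.P032.Lt.q R0Q163.q3374_0) q_nil))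

theorem p3375 : Pat 73 73 TBm TCm (CB.map Fm) R0Q163.P3375 R0Q163.I3375 := Vale.Agent.P032.Lt.pat_eq (E' := R0Q163.E) eB (pat_step (by decide +kernel) (q_cons (Vale.Agent.P032.Lt.q R0Q163.q3375_0) (q_cons (Vale.Agent.P032.Lt.q R0Q163.q3375_1) (q_cons (Vale.Agent.P032.Lt.q R0Q163.q3375_2) q_nil))))

theorem p3376 : Pat 73 73 TBm TCm (CB.map Fm) R0Q163.P3376 R0Q163.I3376 := Vale.Agent.P032.Lt.pat_eq (E' := R0Q163.E) eB (pat_step (by decide +kernel) (q_cons (Vale.Agent.P032.Lt.q R0Q163.q3376_0) (q_cons (Vale.Agent.P032.Lt.q R0Q163.q3376_1) (q_cons (Vale.Agent.P032.Lt.q R0Q163.q3376_2) (q_cons (Vale.Agent.P032.Lt.q R0Q163.q3376_3) (q_cons (Vale.Agent.P032.Lt.q R0Q163.q3376_4) q_nil))))))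

def C3377 : List ℕ := [0, 4, 8, 12, 16, 20, 24, 84993, 212993, 475137, 737281, 741377]
theorem p3377 : Pat 73 73 TBm TCm (C3377.map Fm) R0Q163.P3377 R0Q163.I3377 := Vale.Agent.P032.Lt.pat_eq (E' := R0Q163.E3377) (by decide +kernel) (pat_step (by decide +kernel) (q_cons (Vale.Agent.P032.Lt.q R0Q163.q3377_0) (q_cons (Vale.Agent.P032.Lt.q R0Q163.q3377_1) (q_cons (Vale.Agent.P032.Lt.q R0Q163.q3377_2) (q_cons (Vale.Agent.P032.Lt.q R0Q163.q3377_3) (q_cons (Vale.Agent.P032.Lt.q R0Q163.q3377_4) (q_cons (Vale.Agent.P032.Lt.q R0Q163.q3377_5) (q_cons (Vale.Agent.P032.Lt.q R0Q163.q3377_6) (q_cons (Vale.Agent.P032.Lt.q R0Q163.q3377_7) (q_cons (Vale.Agent.P032.Lt.q R0Q163.q3377_8) (q_cons (Vale.Agent.P032.Lt.q R0Q163.q3377_9) (q_cons (Vale.Agent.P032.Lt.q R0Q163.q3377_10) (q_cons (Vale.Agent.P032.Lt.q R0Q163.q3377_11) (q_cons (Vale.Agent.P032.Lt.q R0Q163.q3377_12)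 (q_cons (Vale.Agent.P032.Lt.q R0Q163.q3377_13) q_nil)))))))))))))))

theorem p3378 : Pat 73 73 TBm TCm (CB.map Fm) R0Q163.P3378 R0Q163.I3378 := Vale.Agent.P032.Lt.pat_eq (E' := R0Q163.E) eB (pat_step (by decide +kernel) (q_cons (Vale.Agent.P032.Lt.q R0Q163.q3378_0) (q_cons (Vale.Agent.P032.Lt.q R0Q163.q3378_1) (q_cons (Vale.Agent.P032.Lt.q R0Q163.q3378_2) (q_cons (Vale.Agent.P032.Lt.q R0Q163.q3378_3) (q_cons (Vale.Agent.P032.Lt.q R0Q163.q3378_4) (q_cons (Vale.Agent.P032.Lt.q R0Q163.q3378_5) (q_cons (Vale.Agent.P032.Lt.q R0Q163.q3378_6) (q_cons (Vale.Agent.P032.Lt.q R0Q163.q3378_7) (q_cons (Vale.Agent.P032.Lt.q R0Q163.q3378_8) (q_cons (Vale.Agent.P032.Lt.q R0Q163.q3378_9) (q_cons (Vale.Agent.P032.Lt.q R0Q163.q3378_10) (q_cons (Vale.Agent.P032.Lt.q R0Q163.q3378_11) (q_cons (Vale.Agent.P032.Lt.q R0Q163.q3378_12) (q_cons (Vale.Agent.P032.Lt.q R0Q163.q3378_13)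 (q_cons (Vale.Agent.P032.Lt.q R0Q163.q3378_14) (q_cons (Vale.Agent.P032.Lt.q R0Q163.q3378_15) (q_cons (Vale.Agent.P032.Lt.q R0Q163.q3378_16) (q_cons (Vale.Agent.P032.Lt.q R0Q163.q3378_17) q_nil)))))))))))))))))))

theorem p3379 : Pat 73 73 TBm TCm (CB.map Fm) R0Q163.P3379 R0Q163.I3379 := Vale.Agent.P032.Lt.pat_eq (E' := R0Q163.E) eB (pat_step (by decide +kernel) (q_cons (Vale.Agent.P032.Lt.q R0Q163.q3379_0) (q_cons (Vale.Agent.P032.Lt.q R0Q163.q3379_1) (q_cons (Vale.Agent.P032.Lt.q R0Q163.q3379_2) (q_cons (Vale.Agent.P032.Lt.q R0Q163.q3379_3) (q_cons (Vale.Agent.P032.Lt.q R0Q163.q3379_4) (q_cons (Vale.Agent.P032.Lt.q R0Q163.q3379_5) (q_cons (Vale.Agent.P032.Lt.q R0Q163.q3379_6) (q_cons (Vale.Agent.P032.Lt.q R0Q163.q3379_7) q_nil)))))))))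

theorem p3380 : Pat 73 73 TBm TCm (CB.map Fm) R0Q163.P3380 R0Q163.I3380 := Vale.Agent.P032.Lt.pat_eq (E' := R0Q163.E) eB (pat_step (by decide +kernel) (q_cons (Vale.Agent.P032.Lt.q R0Q163.q3380_0) (q_cons (Vale.Agent.P032.Lt.q R0Q163.q3380_1) (q_cons (Vale.Agent.P032.Lt.q R0Q163.q3380_2) (q_cons (Vale.Agent.P032.Lt.q R0Q163.q3380_3) (q_cons (Vale.Agent.P032.Lt.q R0Q163.q3380_4) (q_cons (Vale.Agent.P032.Lt.q R0Q163.q3380_5) (q_cons (Vale.Agent.P032.Lt.q R0Q163.q3380_6) (q_cons (Vale.Agent.P032.Lt.q R0Q163.q3380_7) (q_cons (Vale.Agent.P032.Lt.q R0Q163.q3380_8) (q_cons (Vale.Agent.P032.Lt.q R0Q163.q3380_9) q_nil)))))))))))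

def C3381 : List ℕ := [0, 4, 8, 12, 16, 20, 24, 606209, 737281]
theorem p3381 : Pat 73 73 TBm TCm (C3381.map Fm) R0Q163.P3381 R0Q163.I3381 := Vale.Agent.P032.Lt.pat_eq (E' := R0Q163.E3381) (by decide +kernel) (pat_step (by decide +kernel) (q_cons (Vale.Agent.P032.Lt.q R0Q163.q3381_0) (q_cons (Vale.Agent.P032.Lt.q R0Q163.q3381_1) (q_cons (Vale.Agent.P032.Lt.q R0Q163.q3381_2) q_nil))))

def C3382 : List ℕ := [0, 4, 8, 12, 16, 20, 24, 212993, 606209, 737281, 741377]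
theorem p3382 : Pat 73 73 TBm TCm (C3382.map Fm) R0Q163.P3382 R0Q163.I3382 := Vale.Agent.P032.Lt.pat_eq (E' := R0Q163.E3382) (by decide +kernel) (pat_step (by decide +kernel) (q_cons (Vale.Agent.P032.Lt.q R0Q163.q3382_0) (q_cons (Vale.Agent.P032.Lt.q R0Q163.q3382_1) (q_cons (Vale.Agent.P032.Lt.q R0Q163.q3382_2) (q_cons (Vale.Agent.P032.Lt.q R0Q163.q3382_3) (q_cons (Vale.Agent.P032.Lt.q R0Q163.q3382_4) (q_cons (Vale.Agent.P032.Lt.q R0Q163.q3382_5) (q_cons (Vale.Agent.P032.Lt.q R0Q163.q3382_6) (q_cons (Vale.Agent.P032.Lt.q R0Q163.q3382_7) (q_cons (Vale.Agent.P032.Lt.q R0Q163.q3382_8) (q_cons (Vale.Agent.P032.Lt.q R0Q163.q3382_9) (q_cons (Vale.Agent.P032.Lt.q R0Q163.q3382_10) (q_cons (Vale.Agent.P032.Lt.q R0Q163.q3382_11) (q_cons (Vale.Agent.P032.Lt.q R0Q163.q3382_12) (q_cons (Vale.Agent.P032.Lt.q R0Q163.q3382_13) (q_cons (Vale.Agent.P032.Lt.q R0Q163.q3382_14)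 (q_cons (Vale.Agent.P032.Lt.q R0Q163.q3382_15) (q_cons (Vale.Agent.P032.Lt.q R0Q163.q3382_16) (q_cons (Vale.Agent.P032.Lt.q R0Q163.q3382_17) (q_cons (Vale.Agent.P032.Lt.q R0Q163.q3382_18) (q_cons (Vale.Agent.P032.Lt.q R0Q163.q3382_19) (q_cons (Vale.Agent.P032.Lt.q R0Q163.q3382_20) (q_cons (Vale.Agent.P032.Lt.q R0Q163.q3382_21) (q_cons (Vale.Agent.P032.Lt.q R0Q163.q3382_22) (q_cons (Vale.Agent.P032.Lt.q R0Q163.q3382_23) (q_cons (Vale.Agent.P032.Lt.q R0Q163.q3382_24) (q_cons (Vale.Agent.P032.Lt.q R0Q163.q3382_25) (q_cons (Vale.Agent.P032.Lt.q R0Q163.q3382_26) (q_cons (Vale.Agent.P032.Lt.q R0Q163.q3382_27) (q_cons (Vale.Agent.P032.Lt.q R0Q163.q3382_28) q_nil))))))))))))))))))))))))))))))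

def C3383 : List ℕ := [0, 4, 8, 12, 16, 20, 24, 745473]
theorem p3383 : Pat 73 73 TBm TCm (C3383.map Fm) R0Q163.P3383 R0Q163.I3383 := Vale.Agent.P032.Lt.pat_eq (E' := R0Q163.E3383) (by decide +kernel) (pat_step (by decide +kernel) (q_cons (Vale.Agent.P032.Lt.q R0Q163.q3383_0) (q_cons (Vale.Agent.P032.Lt.q R0Q163.q3383_1) (q_cons (Vale.Agent.P032.Lt.q R0Q163.q3383_2) (q_cons (Vale.Agent.P032.Lt.q R0Q163.q3383_3) (q_cons (Vale.Agent.P032.Lt.q R0Q163.q3383_4) q_nil))))))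

def C3384 : List ℕ := [0, 4, 8, 12, 16, 20, 24, 347137, 353281, 745473]
theorem p3384 : Pat 73 73 TBm TCm (C3384.map Fm) R0Q163.P3384 R0Q163.I3384 := Vale.Agent.P032.Lt.pat_eq (E' := R0Q163.E3384) (by decide +kernel) (pat_step (by decide +kernel) (q_cons (Vale.Agent.P032.Lt.q R0Q163.q3384_0) (q_cons (Vale.Agent.P032.Lt.q R0Q163.q3384_1) (q_cons (Vale.Agent.P032.Lt.q R0Q163.q3384_2) (q_cons (Vale.Agent.P032.Lt.q R0Q163.q3384_3) (q_cons (Vale.Agent.P032.Lt.q R0Q163.q3384_4) (q_cons (Vale.Agent.P032.Lt.q R0Q163.q3384_5) (q_cons (Vale.Agent.P032.Lt.q R0Q163.q3384_6) (q_cons (Vale.Agent.P032.Lt.q R0Q163.q3384_7) (q_cons (Vale.Agent.P032.Lt.q R0Q163.q3384_8) (q_cons (Vale.Agent.P032.Lt.q R0Q163.q3384_9) (q_cons (Vale.Agent.P032.Lt.q R0Q163.q3384_10) (q_cons (Vale.Agent.P032.Lt.q R0Q163.q3384_11) q_nil)))))))))))))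

def C3385 : List ℕ := [0, 4, 8, 12, 16, 20, 24, 347137, 353281, 745473]
theorem p3385 : Pat 73 73 TBm TCm (C3385.map Fm) R0Q164.P3385 R0Q164.I3385 := Vale.Agent.P032.Lt.pat_eq (E' := R0Q164.E3385) (by decide +kernel) (pat_step (by decide +kernel) (q_cons (Vale.Agent.P032.Lt.q R0Q164.q3385_0) (q_cons (Vale.Agent.P032.Lt.q R0Q164.q3385_1) (q_cons (Vale.Agent.P032.Lt.q R0Q164.q3385_2) (q_cons (Vale.Agent.P032.Lt.q R0Q164.q3385_3) (q_cons (Vale.Agent.P032.Lt.q R0Q164.q3385_4) (q_cons (Vale.Agent.P032.Lt.q R0Q164.q3385_5) (q_cons (Vale.Agent.P032.Lt.q R0Q164.q3385_6) (q_cons (Vale.Agent.P032.Lt.q R0Q164.q3385_7) (q_cons (Vale.Agent.P032.Lt.q R0Q164.q3385_8) (q_cons (Vale.Agent.P032.Lt.q R0Q164.q3385_9) (q_cons (Vale.Agent.P032.Lt.q R0Q164.q3385_10) (q_cons (Vale.Agent.P032.Lt.q R0Q164.q3385_11) (q_cons (Vale.Agent.P032.Lt.q R0Q164.q3385_12) (q_cons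 (Vale.Agent.P032.Lt.q R0Q164.q3385_13) (q_cons (Vale.Agent.P032.Lt.q R0Q164.q3385_14) (q_cons (Vale.Agent.P032.Lt.q R0Q164.q3385_15) (q_cons (Vale.Agent.P032.Lt.q R0Q164.q3385_16) q_nil))))))))))))))))))

def C3386 : List ℕ := [0, 4, 8, 12, 16, 20, 24, 475137, 737281, 745473]
theorem p3386 : Pat 73 73 TBm TCm (C3386.map Fm) R0Q164.P3386 R0Q164.I3386 := Vale.Agent.P032.Lt.pat_eq (E' := R0Q164.E3386) (by decide +kernel) (pat_step (by decide +kernel) (q_cons (Vale.Agent.P032.Lt.q R0Q164.q3386_0) (q_cons (Vale.Agent.P032.Lt.q R0Q164.q3386_1) (q_cons (Vale.Agent.P032.Lt.q R0Q164.q3386_2) (q_cons (Vale.Agent.P032.Lt.q R0Q164.q3386_3) (q_cons (Vale.Agent.P032.Lt.q R0Q164.q3386_4) (q_cons (Vale.Agent.P032.Lt.q R0Q164.q3386_5) (q_cons (Vale.Agent.P032.Lt.q R0Q164.q3386_6) (q_cons (Vale.Agent.P032.Lt.q R0Q164.q3386_7) (q_cons (Vale.Agent.P032.Lt.q R0Q164.q3386_8)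 (q_cons (Vale.Agent.P032.Lt.q R0Q164.q3386_9) q_nil)))))))))))

theorem p3387 : Pat 73 73 TBm TCm (CB.map Fm) R0Q164.P3387 R0Q164.I3387 := Vale.Agent.P032.Lt.pat_eq (E' := R0Q164.E) eB (pat_step (by decide +kernel) (q_cons (Vale.Agent.P032.Lt.q R0Q164.q3387_0) (q_cons (Vale.Agent.P032.Lt.q R0Q164.q3387_1) (q_cons (Vale.Agent.P032.Lt.q R0Q164.q3387_2) (q_cons (Vale.Agent.P032.Lt.q R0Q164.q3387_3) (q_cons (Vale.Agent.P032.Lt.q R0Q164.q3387_4) (q_cons (Vale.Agent.P032.Lt.q R0Q164.q3387_5) q_nil)))))))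

theorem p3388 : Pat 73 73 TBm TCm (CB.map Fm) R0Q164.P3388 R0Q164.I3388 := Vale.Agent.P032.Lt.pat_eq (E' := R0Q164.E) eB (pat_step (by decide +kernel) (q_cons (Vale.Agent.P032.Lt.q R0Q164.q3388_0) (q_cons (Vale.Agent.P032.Lt.q R0Q164.q3388_1) (q_cons (Vale.Agent.P032.Lt.q R0Q164.q3388_2) (q_cons (Vale.Agent.P032.Lt.q R0Q164.q3388_3) (q_cons (Vale.Agent.P032.Lt.q R0Q164.q3388_4) (q_cons (Vale.Agent.P032.Lt.q R0Q164.q3388_5) (q_cons (Vale.Agent.P032.Lt.q R0Q164.q3388_6) q_nil))))))))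

def C3389 : List ℕ := [0, 4, 8, 12, 16, 20, 24, 81921, 212993, 347137, 475137, 478209, 737281, 745473]
theorem p3389 : Pat 73 73 TBm TCm (C3389.map Fm) R0Q164.P3389 R0Q164.I3389 := Vale.Agent.P032.Lt.pat_eq (E' := R0Q164.E3389) (by decide +kernel) (pat_step (by decide +kernel) (q_cons (Vale.Agent.P032.Lt.q R0Q164.q3389_0) (q_cons (Vale.Agent.P032.Lt.q R0Q164.q3389_1) (q_cons (Vale.Agent.P032.Lt.q R0Q164.q3389_2) (q_cons (Vale.Agent.P032.Lt.q R0Q164.q3389_3) (q_cons (Vale.Agent.P032.Lt.q R0Q164.q3389_4) (q_cons (Vale.Agent.P032.Lt.q R0Q164.q3389_5) (q_cons (Vale.Agent.P032.Lt.q R0Q164.q3389_6) (q_cons (Vale.Agent.P032.Lt.q R0Q164.q3389_7) (q_cons (Vale.Agent.P032.Lt.q R0Q164.q3389_8) q_nil))))))))))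

theorem p3390 : Pat 73 73 TBm TCm (CB.map Fm) R0Q164.P3390 R0Q164.I3390 := Vale.Agent.P032.Lt.pat_eq (E' := R0Q164.E) eB (pat_step (by decide +kernel) (q_cons (Vale.Agent.P032.Lt.q R0Q164.q3390_0) (q_cons (Vale.Agent.P032.Lt.q R0Q164.q3390_1) (q_cons (Vale.Agent.P032.Lt.q R0Q164.q3390_2) (q_cons (Vale.Agent.P032.Lt.q R0Q164.q3390_3) q_nil)))))

theorem p3391 : Pat 73 73 TBm TCm (CB.map Fm) R0Q164.P3391 R0Q164.I3391 := Vale.Agent.P032.Lt.pat_eq (E' := R0Q164.E) eB (pat_step (by decide +kernel) (q_cons (Vale.Agent.P032.Lt.q R0Q164.q3391_0) (q_cons (Vale.Agent.P032.Lt.q R0Q164.q3391_1) (q_cons (Vale.Agent.P032.Lt.q R0Q164.q3391_2) q_nil))))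

theorem p3392 : Pat 73 73 TBm TCm (CB.map Fm) R0Q164.P3392 R0Q164.I3392 := Vale.Agent.P032.Lt.pat_eq (E' := R0Q164.E) eB (pat_step (by decide +kernel) (q_cons (Vale.Agent.P032.Lt.q R0Q164.q3392_0) (q_cons (Vale.Agent.P032.Lt.q R0Q164.q3392_1) (q_cons (Vale.Agent.P032.Lt.q R0Q164.q3392_2) (q_cons (Vale.Agent.P032.Lt.q R0Q164.q3392_3) (q_cons (Vale.Agent.P032.Lt.q R0Q164.q3392_4) (q_cons (Vale.Agent.P032.Lt.q R0Q164.q3392_5) q_nil)))))))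

theorem p3393 : Pat 73 73 TBm TCm (CB.map Fm) R0Q164.P3393 R0Q164.I3393 := Vale.Agent.P032.Lt.pat_eq (E' := R0Q164.E) eB (pat_step (by decide +kernel) (q_cons (Vale.Agent.P032.Lt.q R0Q164.q3393_0) (q_cons (Vale.Agent.P032.Lt.q R0Q164.q3393_1) (q_cons (Vale.Agent.P032.Lt.q R0Q164.q3393_2) q_nil))))

theorem p3394 : Pat 73 73 TBm TCm (CB.map Fm) R0Q164.P3394 R0Q164.I3394 := Vale.Agent.P032.Lt.pat_eq (E' := R0Q164.E) eB (pat_step (by decide +kernel) (q_cons (Vale.Agent.P032.Lt.q R0Q164.q3394_0) (q_cons (Vale.Agent.P032.Lt.q R0Q164.q3394_1) (q_cons (Vale.Agent.P032.Lt.q R0Q164.q3394_2) (q_cons (Vale.Agent.P032.Lt.q R0Q164.q3394_3) (q_cons (Vale.Agent.P032.Lt.q R0Q164.q3394_4) (q_cons (Vale.Agent.P032.Lt.q R0Q164.q3394_5) (q_cons (Vale.Agent.P032.Lt.q R0Q164.q3394_6) (q_cons (Vale.Agent.P032.Lt.q R0Q164.q3394_7) (q_cons (Vale.Agent.P032.Lt.q R0Q164.q3394_8)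 (q_cons (Vale.Agent.P032.Lt.q R0Q164.q3394_9) (q_cons (Vale.Agent.P032.Lt.q R0Q164.q3394_10) (q_cons (Vale.Agent.P032.Lt.q R0Q164.q3394_11) (q_cons (Vale.Agent.P032.Lt.q R0Q164.q3394_12) (q_cons (Vale.Agent.P032.Lt.q R0Q164.q3394_13) (q_cons (Vale.Agent.P032.Lt.q R0Q164.q3394_14) (q_cons (Vale.Agent.P032.Lt.q R0Q164.q3394_15) q_nil)))))))))))))))))

theorem p3395 : Pat 73 73 TBm TCm (CB.map Fm) R0Q164.P3395 R0Q164.I3395 := Vale.Agent.P032.Lt.pat_eq (E' := R0Q164.E) eB (pat_step (by decide +kernel) (q_cons (Vale.Agent.P032.Lt.q R0Q164.q3395_0) (q_cons (Vale.Agent.P032.Lt.q R0Q164.q3395_1) (q_cons (Vale.Agent.P032.Lt.q R0Q164.q3395_2) q_nil))))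

theorem p3396 : Pat 73 73 TBm TCm (CB.map Fm) R0Q164.P3396 R0Q164.I3396 := Vale.Agent.P032.Lt.pat_eq (E' := R0Q164.E) eB (pat_step (by decide +kernel) (q_cons (Vale.Agent.P032.Lt.q R0Q164.q3396_0) q_nil))

theorem p3397 : Pat 73 73 TBm TCm (CB.map Fm) R0Q164.P3397 R0Q164.I3397 := Vale.Agent.P032.Lt.pat_eq (E' := R0Q164.E) eB (pat_step (by decide +kernel) (q_cons (Vale.Agent.P032.Lt.q R0Q164.q3397_0) (q_cons (Vale.Agent.P032.Lt.q R0Q164.q3397_1) (q_cons (Vale.Agent.P032.Lt.q R0Q164.q3397_2) (q_cons (Vale.Agent.P032.Lt.q R0Q164.q3397_3) (q_cons (Vale.Agent.P032.Lt.q R0Q164.q3397_4) (q_cons (Vale.Agent.P032.Lt.q R0Q164.q3397_5) (q_cons (Vale.Agent.P032.Lt.q R0Q164.q3397_6) (q_cons (Vale.Agent.P032.Lt.q R0Q164.q3397_7) (q_cons (Vale.Agent.P032.Lt.q R0Q164.q3397_8) q_nil))))))))))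

theorem p3398 : Pat 73 73 TBm TCm (CB.map Fm) R0Q164.P3398 R0Q164.I3398 := Vale.Agent.P032.Lt.pat_eq (E' := R0Q164.E) eB (pat_step (by decide +kernel) (q_cons (Vale.Agent.P032.Lt.q R0Q164.q3398_0) (q_cons (Vale.Agent.P032.Lt.q R0Q164.q3398_1) (q_cons (Vale.Agent.P032.Lt.q R0Q164.q3398_2) (q_cons (Vale.Agent.P032.Lt.q R0Q164.q3398_3) (q_cons (Vale.Agent.P032.Lt.q R0Q164.q3398_4) (q_cons (Vale.Agent.P032.Lt.q R0Q164.q3398_5) (q_cons (Vale.Agent.P032.Lt.q R0Q164.q3398_6) (q_cons (Vale.Agent.P032.Lt.q R0Q164.q3398_7) (q_cons (Vale.Agent.P032.Lt.q R0Q164.q3398_8) (q_cons (Vale.Agent.P032.Lt.q R0Q164.q3398_9) (q_cons (Vale.Agent.P032.Lt.q R0Q164.q3398_10) (q_cons (Vale.Agent.P032.Lt.q R0Q164.q3398_11) (q_cons (Vale.Agent.P032.Lt.q R0Q164.q3398_12) q_nil))))))))))))))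

theorem p3399 : Pat 73 73 TBm TCm (CB.map Fm) R0Q164.P3399 R0Q164.I3399 := Vale.Agent.P032.Lt.pat_eq (E' := R0Q164.E) eB (pat_step (by decide +kernel) (q_cons (Vale.Agent.P032.Lt.q R0Q164.q3399_0) (q_cons (Vale.Agent.P032.Lt.q R0Q164.q3399_1) (q_cons (Vale.Agent.P032.Lt.q R0Q164.q3399_2) (q_cons (Vale.Agent.P032.Lt.q R0Q164.q3399_3) (q_cons (Vale.Agent.P032.Lt.q R0Q164.q3399_4) (q_cons (Vale.Agent.P032.Lt.q R0Q164.q3399_5) q_nil)))))))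

theorem p3400 : Pat 73 73 TBm TCm (CB.map Fm) R0Q164.P3400 R0Q164.I3400 := Vale.Agent.P032.Lt.pat_eq (E' := R0Q164.E) eB (pat_step (by decide +kernel) (q_cons (Vale.Agent.P032.Lt.q R0Q164.q3400_0) (q_cons (Vale.Agent.P032.Lt.q R0Q164.q3400_1) (q_cons (Vale.Agent.P032.Lt.q R0Q164.q3400_2) (q_cons (Vale.Agent.P032.Lt.q R0Q164.q3400_3) (q_cons (Vale.Agent.P032.Lt.q R0Q164.q3400_4) q_nil))))))

theorem p3401 : Pat 73 73 TBm TCm (CB.map Fm) R0Q164.P3401 R0Q164.I3401 := Vale.Agent.P032.Lt.pat_eq (E' := R0Q164.E) eB (pat_step (by decide +kernel) (q_cons (Vale.Agent.P032.Lt.q R0Q164.q3401_0) (q_cons (Vale.Agent.P032.Lt.q R0Q164.q3401_1) (q_cons (Vale.Agent.P032.Lt.q R0Q164.q3401_2) (q_cons (Vale.Agent.P032.Lt.q R0Q164.q3401_3) (q_cons (Vale.Agent.P032.Lt.q R0Q164.q3401_4) (q_cons (Vale.Agent.P032.Lt.q R0Q164.q3401_5) q_nil)))))))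

theorem p3402 : Pat 73 73 TBm TCm (CB.map Fm) R0Q164.P3402 R0Q164.I3402 := Vale.Agent.P032.Lt.pat_eq (E' := R0Q164.E) eB (pat_step (by decide +kernel) (q_cons (Vale.Agent.P032.Lt.q R0Q164.q3402_0) (q_cons (Vale.Agent.P032.Lt.q R0Q164.q3402_1) (q_cons (Vale.Agent.P032.Lt.q R0Q164.q3402_2) q_nil))))

theorem p3403 : Pat 73 73 TBm TCm (CB.map Fm) R0Q164.P3403 R0Q164.I3403 := Vale.Agent.P032.Lt.pat_eq (E' := R0Q164.E) eB (pat_step (by decide +kernel) (q_cons (Vale.Agent.P032.Lt.q R0Q164.q3403_0) (q_cons (Vale.Agent.P032.Lt.q R0Q164.q3403_1) (q_cons (Vale.Agent.P032.Lt.q R0Q164.q3403_2) q_nil))))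

theorem p3404 : Pat 73 73 TBm TCm (CB.map Fm) R0Q164.P3404 R0Q164.I3404 := Vale.Agent.P032.Lt.pat_eq (E' := R0Q164.E) eB (pat_step (by decide +kernel) (q_cons (Vale.Agent.P032.Lt.q R0Q164.q3404_0) (q_cons (Vale.Agent.P032.Lt.q R0Q164.q3404_1) (q_cons (Vale.Agent.P032.Lt.q R0Q164.q3404_2) (q_cons (Vale.Agent.P032.Lt.q R0Q164.q3404_3) (q_cons (Vale.Agent.P032.Lt.q R0Q164.q3404_4) q_nil))))))

def C3405 : List ℕ := [0, 4, 8, 12, 16, 20, 24, 606209, 737281, 745473]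
theorem p3405 : Pat 73 73 TBm TCm (C3405.map Fm) R0Q164.P3405 R0Q164.I3405 := Vale.Agent.P032.Lt.pat_eq (E' := R0Q164.E3405) (by decide +kernel) (pat_step (by decide +kernel) (q_cons (Vale.Agent.P032.Lt.q R0Q164.q3405_0) (q_cons (Vale.Agent.P032.Lt.q R0Q164.q3405_1) (q_cons (Vale.Agent.P032.Lt.q R0Q164.q3405_2) (q_cons (Vale.Agent.P032.Lt.q R0Q164.q3405_3) q_nil)))))

theorem p3406 : Pat 73 73 TBm TCm (CB.map Fm) R0Q164.P3406 R0Q164.I3406 := Vale.Agent.P032.Lt.pat_eq (E' := R0Q164.E) eB (pat_step (by decide +kernel) (q_cons (Vale.Agent.P032.Lt.q R0Q164.q3406_0) q_nil))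

theorem p3407 : Pat 73 73 TBm TCm (CB.map Fm) R0Q164.P3407 R0Q164.I3407 := Vale.Agent.P032.Lt.pat_eq (E' := R0Q164.E) eB (pat_step (by decide +kernel) (q_cons (Vale.Agent.P032.Lt.q R0Q164.q3407_0) (q_cons (Vale.Agent.P032.Lt.q R0Q164.q3407_1) (q_cons (Vale.Agent.P032.Lt.q R0Q164.q3407_2) q_nil))))

theorem p3408 : Pat 73 73 TBm TCm (CB.map Fm) R0Q165.P3408 R0Q165.I3408 := Vale.Agent.P032.Lt.pat_eq (E' := R0Q165.E) eB (pat_step (by decide +kernel) (q_cons (Vale.Agent.P032.Lt.q R0Q165.q3408_0) (q_cons (Vale.Agent.P032.Lt.q R0Q165.q3408_1) (q_cons (Vale.Agent.P032.Lt.q R0Q165.q3408_2) (q_cons (Vale.Agent.P032.Lt.q R0Q165.q3408_3) q_nil)))))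

theorem p3409 : Pat 73 73 TBm TCm (CB.map Fm) R0Q165.P3409 R0Q165.I3409 := Vale.Agent.P032.Lt.pat_eq (E' := R0Q165.E) eB (pat_step (by decide +kernel) (q_cons (Vale.Agent.P032.Lt.q R0Q165.q3409_0) q_nil))

theorem p3410 : Pat 73 73 TBm TCm (CB.map Fm) R0Q165.P3410 R0Q165.I3410 := Vale.Agent.P032.Lt.pat_eq (E' := R0Q165.E) eB (pat_step (by decide +kernel) (q_cons (Vale.Agent.P032.Lt.q R0Q165.q3410_0) (q_cons (Vale.Agent.P032.Lt.q R0Q165.q3410_1) (q_cons (Vale.Agent.P032.Lt.q R0Q165.q3410_2) (q_cons (Vale.Agent.P032.Lt.q R0Q165.q3410_3) (q_cons (Vale.Agent.P032.Lt.q R0Q165.q3410_4) (q_cons (Vale.Agent.P032.Lt.q R0Q165.q3410_5) (q_cons (Vale.Agent.P032.Lt.q R0Q165.q3410_6) (q_cons (Vale.Agent.P032.Lt.q R0Q165.q3410_7) (q_cons (Vale.Agent.P032.Lt.q R0Q165.q3410_8) (q_cons (Vale.Agent.P032.Lt.q R0Q165.q3410_9) (q_cons (Vale.Agent.P032.Lt.q R0Q165.q3410_10)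 q_nil))))))))))))

theorem p3411 : Pat 73 73 TBm TCm (CB.map Fm) R0Q165.P3411 R0Q165.I3411 := Vale.Agent.P032.Lt.pat_eq (E' := R0Q165.E) eB (pat_step (by decide +kernel) (q_cons (Vale.Agent.P032.Lt.q R0Q165.q3411_0) (q_cons (Vale.Agent.P032.Lt.q R0Q165.q3411_1) (q_cons (Vale.Agent.P032.Lt.q R0Q165.q3411_2) q_nil))))

theorem p3412 : Pat 73 73 TBm TCm (CB.map Fm) R0Q165.P3412 R0Q165.I3412 := Vale.Agent.P032.Lt.pat_eq (E' := R0Q165.E) eB (pat_step (by decide +kernel) (q_cons (Vale.Agent.P032.Lt.q R0Q165.q3412_0) (q_cons (Vale.Agent.P032.Lt.q R0Q165.q3412_1) (q_cons (Vale.Agent.P032.Lt.q R0Q165.q3412_2) (q_cons (Vale.Agent.P032.Lt.q R0Q165.q3412_3) q_nil)))))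

theorem p3413 : Pat 73 73 TBm TCm (CB.map Fm) R0Q165.P3413 R0Q165.I3413 := Vale.Agent.P032.Lt.pat_eq (E' := R0Q165.E) eB (pat_step (by decide +kernel) (q_cons (Vale.Agent.P032.Lt.q R0Q165.q3413_0) (q_cons (Vale.Agent.P032.Lt.q R0Q165.q3413_1) (q_cons (Vale.Agent.P032.Lt.q R0Q165.q3413_2) q_nil))))

theorem p3414 : Pat 73 73 TBm TCm (CB.map Fm) R0Q165.P3414 R0Q165.I3414 := Vale.Agent.P032.Lt.pat_eq (E' := R0Q165.E) eB (pat_step (by decide +kernel) (q_cons (Vale.Agent.P032.Lt.q R0Q165.q3414_0) (q_cons (Vale.Agent.P032.Lt.q R0Q165.q3414_1) (q_cons (Vale.Agent.P032.Lt.q R0Q165.q3414_2) (q_cons (Vale.Agent.P032.Lt.q R0Q165.q3414_3) (q_cons (Vale.Agent.P032.Lt.q R0Q165.q3414_4) q_nil))))))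

def C3415 : List ℕ := [0, 4, 8, 12, 16, 20, 24, 216065, 345089]
theorem p3415 : Pat 73 73 TBm TCm (C3415.map Fm) R0Q165.P3415 R0Q165.I3415 := Vale.Agent.P032.Lt.pat_eq (E' := R0Q165.E3415) (by decide +kernel) (pat_step (by decide +kernel) (q_cons (Vale.Agent.P032.Lt.q R0Q165.q3415_0) q_nil))

theorem p3416 : Pat 73 73 TBm TCm (CB.map Fm) R0Q165.P3416 R0Q165.I3416 := Vale.Agent.P032.Lt.pat_eq (E' := R0Q165.E) eB (pat_step (by decide +kernel) (q_cons (Vale.Agent.P032.Lt.q R0Q165.q3416_0) (q_cons (Vale.Agent.P032.Lt.q R0Q165.q3416_1) (q_cons (Vale.Agent.P032.Lt.q R0Q165.q3416_2) (q_cons (Vale.Agent.P032.Lt.q R0Q165.q3416_3) q_nil)))))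

def C3417 : List ℕ := [0, 4, 8, 12, 16, 20, 24, 216065]
theorem p3417 : Pat 73 73 TBm TCm (C3417.map Fm) R0Q165.P3417 R0Q165.I3417 := Vale.Agent.P032.Lt.pat_eq (E' := R0Q165.E3417) (by decide +kernel) (pat_step (by decide +kernel) (q_cons (Vale.Agent.P032.Lt.q R0Q165.q3417_0) (q_cons (Vale.Agent.P032.Lt.q R0Q165.q3417_1) q_nil)))

theorem p3418 : Pat 73 73 TBm TCm (CB.map Fm) R0Q165.P3418 R0Q165.I3418 := Vale.Agent.P032.Lt.pat_eq (E' := R0Q165.E) eB (pat_step (by decide +kernel) (q_cons (Vale.Agent.P032.Lt.q R0Q165.q3418_0) (q_cons (Vale.Agent.P032.Lt.q R0Q165.q3418_1) (q_cons (Vale.Agent.P032.Lt.q R0Q165.q3418_2) (q_cons (Vale.Agent.P032.Lt.q R0Q165.q3418_3) (q_cons (Vale.Agent.P032.Lt.q R0Q165.q3418_4) (q_cons (Vale.Agent.P032.Lt.q R0Q165.q3418_5) (q_cons (Vale.Agent.P032.Lt.q R0Q165.q3418_6) (q_cons (Vale.Agent.P032.Lt.q R0Q165.q3418_7) (q_cons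 (Vale.Agent.P032.Lt.q R0Q165.q3418_8) (q_cons (Vale.Agent.P032.Lt.q R0Q165.q3418_9) (q_cons (Vale.Agent.P032.Lt.q R0Q165.q3418_10) (q_cons (Vale.Agent.P032.Lt.q R0Q165.q3418_11) (q_cons (Vale.Agent.P032.Lt.q R0Q165.q3418_12) q_nil))))))))))))))

theorem p3419 : Pat 73 73 TBm TCm (CB.map Fm) R0Q165.P3419 R0Q165.I3419 := Vale.Agent.P032.Lt.pat_eq (E' := R0Q165.E) eB (pat_step (by decide +kernel) (q_cons (Vale.Agent.P032.Lt.q R0Q165.q3419_0) (q_cons (Vale.Agent.P032.Lt.q R0Q165.q3419_1) (q_cons (Vale.Agent.P032.Lt.q R0Q165.q3419_2) q_nil))))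

def C3420 : List ℕ := [0, 4, 8, 12, 16, 20, 24, 222209, 606209, 737281]
theorem p3420 : Pat 73 73 TBm TCm (C3420.map Fm) R0Q165.P3420 R0Q165.I3420 := Vale.Agent.P032.Lt.pat_eq (E' := R0Q165.E3420) (by decide +kernel) (pat_step (by decide +kernel) (q_cons (Vale.Agent.P032.Lt.q R0Q165.q3420_0) (q_cons (Vale.Agent.P032.Lt.q R0Q165.q3420_1) (q_cons (Vale.Agent.P032.Lt.q R0Q165.q3420_2) q_nil))))

theorem p3421 : Pat 73 73 TBm TCm (CB.map Fm) R0Q165.P3421 R0Q165.I3421 := Vale.Agent.P032.Lt.pat_eq (E' := R0Q165.E) eB (pat_step (by decide +kernel) (q_cons (Vale.Agent.P032.Lt.q R0Q165.q3421_0) (q_cons (Vale.Agent.P032.Lt.q R0Q165.q3421_1) (q_cons (Vale.Agent.P032.Lt.q R0Q165.q3421_2) (q_cons (Vale.Agent.P032.Lt.q R0Q165.q3421_3) (q_cons (Vale.Agent.P032.Lt.q R0Q165.q3421_4) q_nil))))))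

theorem p3422 : Pat 73 73 TBm TCm (CB.map Fm) R0Q165.P3422 R0Q165.I3422 := Vale.Agent.P032.Lt.pat_eq (E' := R0Q165.E) eB (pat_step (by decide +kernel) (q_cons (Vale.Agent.P032.Lt.q R0Q165.q3422_0) (q_cons (Vale.Agent.P032.Lt.q R0Q165.q3422_1) (q_cons (Vale.Agent.P032.Lt.q R0Q165.q3422_2) (q_cons (Vale.Agent.P032.Lt.q R0Q165.q3422_3) (q_cons (Vale.Agent.P032.Lt.q R0Q165.q3422_4) (q_cons (Vale.Agent.P032.Lt.q R0Q165.q3422_5) (q_cons (Vale.Agent.P032.Lt.q R0Q165.q3422_6) (q_cons (Vale.Agent.P032.Lt.q R0Q165.q3422_7) (q_cons (Vale.Agent.P032.Lt.q R0Q165.q3422_8) (q_cons (Vale.Agent.P032.Lt.q R0Q165.q3422_9) (q_cons (Vale.Agent.P032.Lt.q R0Q165.q3422_10) (q_cons (Vale.Agent.P032.Lt.q R0Q165.q3422_11) (q_cons (Vale.Agent.P032.Lt.q R0Q165.q3422_12) (q_cons (Vale.Agent.P032.Lt.q R0Q165.q3422_13) (q_cons (Vale.Agent.P032.Lt.q R0Q165.q3422_14) (q_cons (Vale.Agent.P032.Lt.q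 R0Q165.q3422_15) (q_cons (Vale.Agent.P032.Lt.q R0Q165.q3422_16) (q_cons (Vale.Agent.P032.Lt.q R0Q165.q3422_17) (q_cons (Vale.Agent.P032.Lt.q R0Q165.q3422_18) (q_cons (Vale.Agent.P032.Lt.q R0Q165.q3422_19) (q_cons (Vale.Agent.P032.Lt.q R0Q165.q3422_20) q_nil))))))))))))))))))))))

theorem p3423 : Pat 73 73 TBm TCm (CB.map Fm) R0Q165.P3423 R0Q165.I3423 := Vale.Agent.P032.Lt.pat_eq (E' := R0Q165.E) eB (pat_step (by decide +kernel) (q_cons (Vale.Agent.P032.Lt.q R0Q165.q3423_0) (q_cons (Vale.Agent.P032.Lt.q R0Q165.q3423_1) q_nil)))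

theorem p3424 : Pat 73 73 TBm TCm (CB.map Fm) R0Q165.P3424 R0Q165.I3424 := Vale.Agent.P032.Lt.pat_eq (E' := R0Q165.E) eB (pat_step (by decide +kernel) (q_cons (Vale.Agent.P032.Lt.q R0Q165.q3424_0) (q_cons (Vale.Agent.P032.Lt.q R0Q165.q3424_1) (q_cons (Vale.Agent.P032.Lt.q R0Q165.q3424_2) (q_cons (Vale.Agent.P032.Lt.q R0Q165.q3424_3) q_nil)))))

theorem p3425 : Pat 73 73 TBm TCm (CB.map Fm) R0Q165.P3425 R0Q165.I3425 := Vale.Agent.P032.Lt.pat_eq (E' := R0Q165.E) eB (pat_step (by decide +kernel) (q_cons (Vale.Agent.P032.Lt.q R0Q165.q3425_0) (q_cons (Vale.Agent.P032.Lt.q R0Q165.q3425_1) (q_cons (Vale.Agent.P032.Lt.q R0Q165.q3425_2) q_nil))))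

theorem p3426 : Pat 73 73 TBm TCm (CB.map Fm) R0Q165.P3426 R0Q165.I3426 := Vale.Agent.P032.Lt.pat_eq (E' := R0Q165.E) eB (pat_step (by decide +kernel) (q_cons (Vale.Agent.P032.Lt.q R0Q165.q3426_0) (q_cons (Vale.Agent.P032.Lt.q R0Q165.q3426_1) (q_cons (Vale.Agent.P032.Lt.q R0Q165.q3426_2) (q_cons (Vale.Agent.P032.Lt.q R0Q165.q3426_3) (q_cons (Vale.Agent.P032.Lt.q R0Q165.q3426_4) q_nil))))))

theorem p3427 : Pat 73 73 TBm TCm (CB.map Fm) R0Q165.P3427 R0Q165.I3427 := Vale.Agent.P032.Lt.pat_eq (E' := R0Q165.E) eB (pat_step (by decide +kernel) (q_cons (Vale.Agent.P032.Lt.q R0Q165.q3427_0) (q_cons (Vale.Agent.P032.Lt.q R0Q165.q3427_1) (q_cons (Vale.Agent.P032.Lt.q R0Q165.q3427_2) (q_cons (Vale.Agent.P032.Lt.q R0Q165.q3427_3) (q_cons (Vale.Agent.P032.Lt.q R0Q165.q3427_4) (q_cons (Vale.Agent.P032.Lt.q R0Q165.q3427_5) (q_cons (Vale.Agent.P032.Lt.q R0Q165.q3427_6)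 (q_cons (Vale.Agent.P032.Lt.q R0Q165.q3427_7) (q_cons (Vale.Agent.P032.Lt.q R0Q165.q3427_8) (q_cons (Vale.Agent.P032.Lt.q R0Q165.q3427_9) (q_cons (Vale.Agent.P032.Lt.q R0Q165.q3427_10) (q_cons (Vale.Agent.P032.Lt.q R0Q165.q3427_11) (q_cons (Vale.Agent.P032.Lt.q R0Q165.q3427_12) q_nil))))))))))))))

theorem p3428 : Pat 73 73 TBm TCm (CB.map Fm) R0Q165.P3428 R0Q165.I3428 := Vale.Agent.P032.Lt.pat_eq (E' := R0Q165.E) eB (pat_step (by decide +kernel) (q_cons (Vale.Agent.P032.Lt.q R0Q165.q3428_0) (q_cons (Vale.Agent.P032.Lt.q R0Q165.q3428_1) (q_cons (Vale.Agent.P032.Lt.q R0Q165.q3428_2) (q_cons (Vale.Agent.P032.Lt.q R0Q165.q3428_3) (q_cons (Vale.Agent.P032.Lt.q R0Q165.q3428_4) (q_cons (Vale.Agent.P032.Lt.q R0Q165.q3428_5) (q_cons (Vale.Agent.P032.Lt.q R0Q165.q3428_6) (q_cons (Vale.Agent.P032.Lt.q R0Q165.q3428_7) (q_cons (Vale.Agent.P032.Lt.q R0Q165.q3428_8)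 (q_cons (Vale.Agent.P032.Lt.q R0Q165.q3428_9) (q_cons (Vale.Agent.P032.Lt.q R0Q165.q3428_10) (q_cons (Vale.Agent.P032.Lt.q R0Q165.q3428_11) (q_cons (Vale.Agent.P032.Lt.q R0Q165.q3428_12) q_nil))))))))))))))

theorem p3429 : Pat 73 73 TBm TCm (CB.map Fm) R0Q165.P3429 R0Q165.I3429 := Vale.Agent.P032.Lt.pat_eq (E' := R0Q165.E) eB (pat_step (by decide +kernel) (q_cons (Vale.Agent.P032.Lt.q R0Q165.q3429_0) q_nil))

theorem p3430 : Pat 73 73 TBm TCm (CB.map Fm) R0Q165.P3430 R0Q165.I3430 := Vale.Agent.P032.Lt.pat_eq (E' := R0Q165.E) eB (pat_step (by decide +kernel) (q_cons (Vale.Agent.P032.Lt.q R0Q165.q3430_0) q_nil))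

theorem p3431 : Pat 73 73 TBm TCm (CB.map Fm) R0Q165.P3431 R0Q165.I3431 := Vale.Agent.P032.Lt.pat_eq (E' := R0Q165.E) eB (pat_step (by decide +kernel) (q_cons (Vale.Agent.P032.Lt.q R0Q165.q3431_0) q_nil))

theorem p3432 : Pat 73 73 TBm TCm (CB.map Fm) R0Q166.P3432 R0Q166.I3432 := Vale.Agent.P032.Lt.pat_eq (E' := R0Q166.E) eB (pat_step (by decide +kernel) (q_cons (Vale.Agent.P032.Lt.q R0Q166.q3432_0) (q_cons (Vale.Agent.P032.Lt.q R0Q166.q3432_1) (q_cons (Vale.Agent.P032.Lt.q R0Q166.q3432_2) (q_cons (Vale.Agent.P032.Lt.q R0Q166.q3432_3) (q_cons (Vale.Agent.P032.Lt.q R0Q166.q3432_4) (q_cons (Vale.Agent.P032.Lt.q R0Q166.q3432_5) (q_cons (Vale.Agent.P032.Lt.q R0Q166.q3432_6) (q_cons (Vale.Agent.P032.Lt.q R0Q166.q3432_7) (q_cons (Vale.Agent.P032.Lt.q R0Q166.q3432_8) (q_cons (Vale.Agent.P032.Lt.q R0Q166.q3432_9) (q_cons (Vale.Agent.P032.Lt.q R0Q166.q3432_10)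 (q_cons (Vale.Agent.P032.Lt.q R0Q166.q3432_11) (q_cons (Vale.Agent.P032.Lt.q R0Q166.q3432_12) (q_cons (Vale.Agent.P032.Lt.q R0Q166.q3432_13) (q_cons (Vale.Agent.P032.Lt.q R0Q166.q3432_14) (q_cons (Vale.Agent.P032.Lt.q R0Q166.q3432_15) (q_cons (Vale.Agent.P032.Lt.q R0Q166.q3432_16) (q_cons (Vale.Agent.P032.Lt.q R0Q166.q3432_17) (q_cons (Vale.Agent.P032.Lt.q R0Q166.q3432_18) (q_cons (Vale.Agent.P032.Lt.q R0Q166.q3432_19) (q_cons (Vale.Agent.P032.Lt.q R0Q166.q3432_20) (q_cons (Vale.Agent.P032.Lt.q R0Q166.q3432_21) (q_cons (Vale.Agent.P032.Lt.q R0Q166.q3432_22) (q_cons (Vale.Agent.P032.Lt.q R0Q166.q3432_23) (q_cons (Vale.Agent.P032.Lt.q R0Q166.q3432_24) (q_cons (Vale.Agent.P032.Lt.q R0Q166.q3432_25) (q_cons (Vale.Agent.P032.Lt.q R0Q166.q3432_26) (q_cons (Vale.Agent.P032.Lt.q R0Q166.q3432_27) (q_cons (Vale.Agent.P032.Lt.q R0Q166.q3432_28) (q_cons (Vale.Agent.P032.Lt.q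 R0Q166.q3432_29) (q_cons (Vale.Agent.P032.Lt.q R0Q166.q3432_30) q_nil))))))))))))))))))))))))))))))))

theorem p3433 : Pat 73 73 TBm TCm (CB.map Fm) R0Q166.P3433 R0Q166.I3433 := Vale.Agent.P032.Lt.pat_eq (E' := R0Q166.E) eB (pat_step (by decide +kernel) (q_cons (Vale.Agent.P032.Lt.q R0Q166.q3433_0) (q_cons (Vale.Agent.P032.Lt.q R0Q166.q3433_1) (q_cons (Vale.Agent.P032.Lt.q R0Q166.q3433_2) (q_cons (Vale.Agent.P032.Lt.q R0Q166.q3433_3) (q_cons (Vale.Agent.P032.Lt.q R0Q166.q3433_4) (q_cons (Vale.Agent.P032.Lt.q R0Q166.q3433_5) (q_cons (Vale.Agent.P032.Lt.q R0Q166.q3433_6) (q_cons (Vale.Agent.P032.Lt.q R0Q166.q3433_7) (q_cons (Vale.Agent.P032.Lt.q R0Q166.q3433_8) (q_cons (Vale.Agent.P032.Lt.q R0Q166.q3433_9) (q_cons (Vale.Agent.P032.Lt.q R0Q166.q3433_10) (q_cons (Vale.Agent.P032.Lt.q R0Q166.q3433_11) (q_cons (Vale.Agent.P032.Lt.q R0Q166.q3433_12) (q_cons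 (Vale.Agent.P032.Lt.q R0Q166.q3433_13) (q_cons (Vale.Agent.P032.Lt.q R0Q166.q3433_14) (q_cons (Vale.Agent.P032.Lt.q R0Q166.q3433_15) (q_cons (Vale.Agent.P032.Lt.q R0Q166.q3433_16) (q_cons (Vale.Agent.P032.Lt.q R0Q166.q3433_17) (q_cons (Vale.Agent.P032.Lt.q R0Q166.q3433_18) (q_cons (Vale.Agent.P032.Lt.q R0Q166.q3433_19) (q_cons (Vale.Agent.P032.Lt.q R0Q166.q3433_20) (q_cons (Vale.Agent.P032.Lt.q R0Q166.q3433_21) (q_cons (Vale.Agent.P032.Lt.q R0Q166.q3433_22) (q_cons (Vale.Agent.P032.Lt.q R0Q166.q3433_23) (q_cons (Vale.Agent.P032.Lt.q R0Q166.q3433_24) (q_cons (Vale.Agent.P032.Lt.q R0Q166.q3433_25) (q_cons (Vale.Agent.P032.Lt.q R0Q166.q3433_26) (q_cons (Vale.Agent.P032.Lt.q R0Q166.q3433_27) (q_cons (Vale.Agent.P032.Lt.q R0Q166.q3433_28) (q_cons (Vale.Agent.P032.Lt.q R0Q166.q3433_29) (q_cons (Vale.Agent.P032.Lt.q R0Q166.q3433_30) (q_cons (Vale.Agent.P032.Lt.q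 R0Q166.q3433_31) (q_cons (Vale.Agent.P032.Lt.q R0Q166.q3433_32) (q_cons (Vale.Agent.P032.Lt.q R0Q166.q3433_33) (q_cons (Vale.Agent.P032.Lt.q R0Q166.q3433_34) (q_cons (Vale.Agent.P032.Lt.q R0Q166.q3433_35) (q_cons (Vale.Agent.P032.Lt.q R0Q166.q3433_36) (q_cons (Vale.Agent.P032.Lt.q R0Q166.q3433_37) (q_cons (Vale.Agent.P032.Lt.q R0Q166.q3433_38) (q_cons (Vale.Agent.P032.Lt.q R0Q166.q3433_39) (q_cons (Vale.Agent.P032.Lt.q R0Q166.q3433_40) (q_cons (Vale.Agent.P032.Lt.q R0Q166.q3433_41) (q_cons (Vale.Agent.P032.Lt.q R0Q166.q3433_42) (q_cons (Vale.Agent.P032.Lt.q R0Q166.q3433_43) (q_cons (Vale.Agent.P032.Lt.q R0Q166.q3433_44) (q_cons (Vale.Agent.P032.Lt.q R0Q166.q3433_45) (q_cons (Vale.Agent.P032.Lt.q R0Q166.q3433_46) (q_cons (Vale.Agent.P032.Lt.q R0Q166.q3433_47) (q_cons (Vale.Agent.P032.Lt.q R0Q166.q3433_48) (q_cons (Vale.Agent.P032.Lt.q R0Q166.q3433_49)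 (q_cons (Vale.Agent.P032.Lt.q R0Q166.q3433_50) (q_cons (Vale.Agent.P032.Lt.q R0Q166.q3433_51) (q_cons (Vale.Agent.P032.Lt.q R0Q166.q3433_52) (q_cons (Vale.Agent.P032.Lt.q R0Q166.q3433_53) (q_cons (Vale.Agent.P032.Lt.q R0Q166.q3433_54) (q_cons (Vale.Agent.P032.Lt.q R0Q166.q3433_55) (q_cons (Vale.Agent.P032.Lt.q R0Q166.q3433_56) (q_cons (Vale.Agent.P032.Lt.q R0Q166.q3433_57) (q_cons (Vale.Agent.P032.Lt.q R0Q166.q3433_58) (q_cons (Vale.Agent.P032.Lt.q R0Q166.q3433_59) (q_cons (Vale.Agent.P032.Lt.q R0Q166.q3433_60) (q_cons (Vale.Agent.P032.Lt.q R0Q166.q3433_61) (q_cons (Vale.Agent.P032.Lt.q R0Q166.q3433_62) (q_cons (Vale.Agent.P032.Lt.q R0Q166.q3433_63) (q_cons (Vale.Agent.P032.Lt.q R0Q166.q3433_64) q_nil))))))))))))))))))))))))))))))))))))))))))))))))))))))))))))))))))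

theorem p3434 : Pat 73 73 TBm TCm (CB.map Fm) R0Q166.P3434 R0Q166.I3434 := Vale.Agent.P032.Lt.pat_eq (E' := R0Q166.E) eB (pat_step (by decide +kernel) (q_cons (Vale.Agent.P032.Lt.q R0Q166.q3434_0) (q_cons (Vale.Agent.P032.Lt.q R0Q166.q3434_1) (q_cons (Vale.Agent.P032.Lt.q R0Q166.q3434_2) (q_cons (Vale.Agent.P032.Lt.q R0Q166.q3434_3) (q_cons (Vale.Agent.P032.Lt.q R0Q166.q3434_4) (q_cons (Vale.Agent.P032.Lt.q R0Q166.q3434_5) (q_cons (Vale.Agent.P032.Lt.q R0Q166.q3434_6) (q_cons (Vale.Agent.P032.Lt.q R0Q166.q3434_7) (q_cons (Vale.Agent.P032.Lt.q R0Q166.q3434_8) (q_cons (Vale.Agent.P032.Lt.q R0Q166.q3434_9) (q_cons (Vale.Agent.P032.Lt.q R0Q166.q3434_10) (q_cons (Vale.Agent.P032.Lt.q R0Q166.q3434_11) (q_cons (Vale.Agent.P032.Lt.q R0Q166.q3434_12) (q_cons (Vale.Agent.P032.Lt.q R0Q166.q3434_13) (q_cons (Vale.Agent.P032.Lt.q R0Q166.q3434_14) (q_cons (Vale.Agent.P032.Lt.q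 R0Q166.q3434_15) (q_cons (Vale.Agent.P032.Lt.q R0Q166.q3434_16) (q_cons (Vale.Agent.P032.Lt.q R0Q166.q3434_17) (q_cons (Vale.Agent.P032.Lt.q R0Q166.q3434_18) q_nil))))))))))))))))))))

theorem p3435 : Pat 73 73 TBm TCm (CB.map Fm) R0Q166.P3435 R0Q166.I3435 := Vale.Agent.P032.Lt.pat_eq (E' := R0Q166.E) eB (pat_step (by decide +kernel) (q_cons (Vale.Agent.P032.Lt.q R0Q166.q3435_0) (q_cons (Vale.Agent.P032.Lt.q R0Q166.q3435_1) (q_cons (Vale.Agent.P032.Lt.q R0Q166.q3435_2) (q_cons (Vale.Agent.P032.Lt.q R0Q166.q3435_3) (q_cons (Vale.Agent.P032.Lt.q R0Q166.q3435_4) (q_cons (Vale.Agent.P032.Lt.q R0Q166.q3435_5) (q_cons (Vale.Agent.P032.Lt.q R0Q166.q3435_6) (q_cons (Vale.Agent.P032.Lt.q R0Q166.q3435_7) (q_cons (Vale.Agent.P032.Lt.q R0Q166.q3435_8) (q_cons (Vale.Agent.P032.Lt.q R0Q166.q3435_9) (q_cons (Vale.Agent.P032.Lt.q R0Q166.q3435_10) (q_cons (Vale.Agent.P032.Lt.q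 R0Q166.q3435_11) (q_cons (Vale.Agent.P032.Lt.q R0Q166.q3435_12) (q_cons (Vale.Agent.P032.Lt.q R0Q166.q3435_13) (q_cons (Vale.Agent.P032.Lt.q R0Q166.q3435_14) (q_cons (Vale.Agent.P032.Lt.q R0Q166.q3435_15) (q_cons (Vale.Agent.P032.Lt.q R0Q166.q3435_16) (q_cons (Vale.Agent.P032.Lt.q R0Q166.q3435_17) (q_cons (Vale.Agent.P032.Lt.q R0Q166.q3435_18) (q_cons (Vale.Agent.P032.Lt.q R0Q166.q3435_19) (q_cons (Vale.Agent.P032.Lt.q R0Q166.q3435_20) (q_cons (Vale.Agent.P032.Lt.q R0Q166.q3435_21) (q_cons (Vale.Agent.P032.Lt.q R0Q166.q3435_22) (q_cons (Vale.Agent.P032.Lt.q R0Q166.q3435_23) (q_cons (Vale.Agent.P032.Lt.q R0Q166.q3435_24) (q_cons (Vale.Agent.P032.Lt.q R0Q166.q3435_25) (q_cons (Vale.Agent.P032.Lt.q R0Q166.q3435_26) (q_cons (Vale.Agent.P032.Lt.q R0Q166.q3435_27) (q_cons (Vale.Agent.P032.Lt.q R0Q166.q3435_28) (q_cons (Vale.Agent.P032.Lt.q R0Q166.q3435_29)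 (q_cons (Vale.Agent.P032.Lt.q R0Q166.q3435_30) q_nil))))))))))))))))))))))))))))))))

theorem p3436 : Pat 73 73 TBm TCm (CB.map Fm) R0Q166.P3436 R0Q166.I3436 := Vale.Agent.P032.Lt.pat_eq (E' := R0Q166.E) eB (pat_step (by decide +kernel) (q_cons (Vale.Agent.P032.Lt.q R0Q166.q3436_0) (q_cons (Vale.Agent.P032.Lt.q R0Q166.q3436_1) (q_cons (Vale.Agent.P032.Lt.q R0Q166.q3436_2) (q_cons (Vale.Agent.P032.Lt.q R0Q166.q3436_3) (q_cons (Vale.Agent.P032.Lt.q R0Q166.q3436_4) (q_cons (Vale.Agent.P032.Lt.q R0Q166.q3436_5) (q_cons (Vale.Agent.P032.Lt.q R0Q166.q3436_6) (q_cons (Vale.Agent.P032.Lt.q R0Q166.q3436_7) (q_cons (Vale.Agent.P032.Lt.q R0Q166.q3436_8) (q_cons (Vale.Agent.P032.Lt.q R0Q166.q3436_9) (q_cons (Vale.Agent.P032.Lt.q R0Q166.q3436_10) (q_cons (Vale.Agent.P032.Lt.q R0Q166.q3436_11) (q_cons (Vale.Agent.P032.Lt.q R0Q166.q3436_12) (q_cons (Vale.Agent.P032.Lt.q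 R0Q166.q3436_13) q_nil)))))))))))))))

theorem p3437 : Pat 73 73 TBm TCm (CB.map Fm) R0Q166.P3437 R0Q166.I3437 := Vale.Agent.P032.Lt.pat_eq (E' := R0Q166.E) eB (pat_step (by decide +kernel) (q_cons (Vale.Agent.P032.Lt.q R0Q166.q3437_0) (q_cons (Vale.Agent.P032.Lt.q R0Q166.q3437_1) (q_cons (Vale.Agent.P032.Lt.q R0Q166.q3437_2) (q_cons (Vale.Agent.P032.Lt.q R0Q166.q3437_3) (q_cons (Vale.Agent.P032.Lt.q R0Q166.q3437_4) (q_cons (Vale.Agent.P032.Lt.q R0Q166.q3437_5) q_nil)))))))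

theorem p3438 : Pat 73 73 TBm TCm (CB.map Fm) R0Q166.P3438 R0Q166.I3438 := Vale.Agent.P032.Lt.pat_eq (E' := R0Q166.E) eB (pat_step (by decide +kernel) (q_cons (Vale.Agent.P032.Lt.q R0Q166.q3438_0) (q_cons (Vale.Agent.P032.Lt.q R0Q166.q3438_1) (q_cons (Vale.Agent.P032.Lt.q R0Q166.q3438_2) (q_cons (Vale.Agent.P032.Lt.q R0Q166.q3438_3) (q_cons (Vale.Agent.P032.Lt.q R0Q166.q3438_4) (q_cons (Vale.Agent.P032.Lt.q R0Q166.q3438_5) (q_cons (Vale.Agent.P032.Lt.q R0Q166.q3438_6) q_nil))))))))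

theorem p3439 : Pat 73 73 TBm TCm (CB.map Fm) R0Q166.P3439 R0Q166.I3439 := Vale.Agent.P032.Lt.pat_eq (E' := R0Q166.E) eB (pat_step (by decide +kernel) (q_cons (Vale.Agent.P032.Lt.q R0Q166.q3439_0) (q_cons (Vale.Agent.P032.Lt.q R0Q166.q3439_1) (q_cons (Vale.Agent.P032.Lt.q R0Q166.q3439_2) (q_cons (Vale.Agent.P032.Lt.q R0Q166.q3439_3) (q_cons (Vale.Agent.P032.Lt.q R0Q166.q3439_4) (q_cons (Vale.Agent.P032.Lt.q R0Q166.q3439_5) (q_cons (Vale.Agent.P032.Lt.q R0Q166.q3439_6) (q_cons (Vale.Agent.P032.Lt.q R0Q166.q3439_7) (q_cons (Vale.Agent.P032.Lt.q R0Q166.q3439_8) (q_cons (Vale.Agent.P032.Lt.q R0Q166.q3439_9) (q_cons (Vale.Agent.P032.Lt.q R0Q166.q3439_10) (q_cons (Vale.Agent.P032.Lt.q R0Q166.q3439_11) (q_cons (Vale.Agent.P032.Lt.q R0Q166.q3439_12) (q_cons (Vale.Agent.P032.Lt.q R0Q166.q3439_13) q_nil)))))))))))))))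

theorem p3440 : Pat 73 73 TBm TCm (CB.map Fm) R0Q166.P3440 R0Q166.I3440 := Vale.Agent.P032.Lt.pat_eq (E' := R0Q166.E) eB (pat_step (by decide +kernel) (q_cons (Vale.Agent.P032.Lt.q R0Q166.q3440_0) (q_cons (Vale.Agent.P032.Lt.q R0Q166.q3440_1) (q_cons (Vale.Agent.P032.Lt.q R0Q166.q3440_2) (q_cons (Vale.Agent.P032.Lt.q R0Q166.q3440_3) (q_cons (Vale.Agent.P032.Lt.q R0Q166.q3440_4) (q_cons (Vale.Agent.P032.Lt.q R0Q166.q3440_5) (q_cons (Vale.Agent.P032.Lt.q R0Q166.q3440_6) q_nil))))))))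

theorem p3441 : Pat 73 73 TBm TCm (CB.map Fm) R0Q166.P3441 R0Q166.I3441 := Vale.Agent.P032.Lt.pat_eq (E' := R0Q166.E) eB (pat_step (by decide +kernel) (q_cons (Vale.Agent.P032.Lt.q R0Q166.q3441_0) (q_cons (Vale.Agent.P032.Lt.q R0Q166.q3441_1) (q_cons (Vale.Agent.P032.Lt.q R0Q166.q3441_2) (q_cons (Vale.Agent.P032.Lt.q R0Q166.q3441_3) (q_cons (Vale.Agent.P032.Lt.q R0Q166.q3441_4) (q_cons (Vale.Agent.P032.Lt.q R0Q166.q3441_5) (q_cons (Vale.Agent.P032.Lt.q R0Q166.q3441_6) (q_cons (Vale.Agent.P032.Lt.q R0Q166.q3441_7) (q_cons (Vale.Agent.P032.Lt.q R0Q166.q3441_8) (q_cons (Vale.Agent.P032.Lt.q R0Q166.q3441_9) (q_cons (Vale.Agent.P032.Lt.q R0Q166.q3441_10) (q_cons (Vale.Agent.P032.Lt.q R0Q166.q3441_11) q_nil)))))))))))))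

theorem p3442 : Pat 73 73 TBm TCm (CB.map Fm) R0Q167.P3442 R0Q167.I3442 := Vale.Agent.P032.Lt.pat_eq (E' := R0Q167.E) eB (pat_step (by decide +kernel) (q_cons (Vale.Agent.P032.Lt.q R0Q167.q3442_0) (q_cons (Vale.Agent.P032.Lt.q R0Q167.q3442_1) (q_cons (Vale.Agent.P032.Lt.q R0Q167.q3442_2) (q_cons (Vale.Agent.P032.Lt.q R0Q167.q3442_3) (q_cons (Vale.Agent.P032.Lt.q R0Q167.q3442_4) (q_cons (Vale.Agent.P032.Lt.q R0Q167.q3442_5) (q_cons (Vale.Agent.P032.Lt.q R0Q167.q3442_6) (q_cons (Vale.Agent.P032.Lt.q R0Q167.q3442_7) (q_cons (Vale.Agent.P032.Lt.q R0Q167.q3442_8) (q_cons (Vale.Agent.P032.Lt.q R0Q167.q3442_9) (q_cons (Vale.Agent.P032.Lt.q R0Q167.q3442_10) (q_cons (Vale.Agent.P032.Lt.q R0Q167.q3442_11) (q_cons (Vale.Agent.P032.Lt.q R0Q167.q3442_12) q_nil))))))))))))))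

def C3443 : List ℕ := [0, 4, 8, 12, 16, 20, 24, 475137, 606209, 737281]
theorem p3443 : Pat 73 73 TBm TCm (C3443.map Fm) R0Q167.P3443 R0Q167.I3443 := Vale.Agent.P032.Lt.pat_eq (E' := R0Q167.E3443) (by decide +kernel) (pat_step (by decide +kernel) (q_cons (Vale.Agent.P032.Lt.q R0Q167.q3443_0) (q_cons (Vale.Agent.P032.Lt.q R0Q167.q3443_1) (q_cons (Vale.Agent.P032.Lt.q R0Q167.q3443_2) q_nil))))

theorem p3444 : Pat 73 73 TBm TCm (CB.map Fm) R0Q167.P3444 R0Q167.I3444 := Vale.Agent.P032.Lt.pat_eq (E' := R0Q167.E) eB (pat_step (by decide +kernel) (q_cons (Vale.Agent.P032.Lt.q R0Q167.q3444_0) (q_cons (Vale.Agent.P032.Lt.q R0Q167.q3444_1) (q_cons (Vale.Agent.P032.Lt.q R0Q167.q3444_2) (q_cons (Vale.Agent.P032.Lt.q R0Q167.q3444_3) (q_cons (Vale.Agent.P032.Lt.q R0Q167.q3444_4) q_nil))))))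

theorem p3445 : Pat 73 73 TBm TCm (CB.map Fm) R0Q167.P3445 R0Q167.I3445 := Vale.Agent.P032.Lt.pat_eq (E' := R0Q167.E) eB (pat_step (by decide +kernel) (q_cons (Vale.Agent.P032.Lt.q R0Q167.q3445_0) (q_cons (Vale.Agent.P032.Lt.q R0Q167.q3445_1) (q_cons (Vale.Agent.P032.Lt.q R0Q167.q3445_2) (q_cons (Vale.Agent.P032.Lt.q R0Q167.q3445_3) (q_cons (Vale.Agent.P032.Lt.q R0Q167.q3445_4) q_nil))))))

theorem p3446 : Pat 73 73 TBm TCm (CB.map Fm) R0Q167.P3446 R0Q167.I3446 := Vale.Agent.P032.Lt.pat_eq (E' := R0Q167.E) eB (pat_step (by decide +kernel) (q_cons (Vale.Agent.P032.Lt.q R0Q167.q3446_0) (q_cons (Vale.Agent.P032.Lt.q R0Q167.q3446_1) (q_cons (Vale.Agent.P032.Lt.q R0Q167.q3446_2) (q_cons (Vale.Agent.P032.Lt.q R0Q167.q3446_3) (q_cons (Vale.Agent.P032.Lt.q R0Q167.q3446_4) (q_cons (Vale.Agent.P032.Lt.q R0Q167.q3446_5) (q_cons (Vale.Agent.P032.Lt.q R0Q167.q3446_6)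 q_nil))))))))

theorem p3447 : Pat 73 73 TBm TCm (CB.map Fm) R0Q167.P3447 R0Q167.I3447 := Vale.Agent.P032.Lt.pat_eq (E' := R0Q167.E) eB (pat_step (by decide +kernel) (q_cons (Vale.Agent.P032.Lt.q R0Q167.q3447_0) (q_cons (Vale.Agent.P032.Lt.q R0Q167.q3447_1) (q_cons (Vale.Agent.P032.Lt.q R0Q167.q3447_2) (q_cons (Vale.Agent.P032.Lt.q R0Q167.q3447_3) (q_cons (Vale.Agent.P032.Lt.q R0Q167.q3447_4) (q_cons (Vale.Agent.P032.Lt.q R0Q167.q3447_5) (q_cons (Vale.Agent.P032.Lt.q R0Q167.q3447_6) (q_cons (Vale.Agent.P032.Lt.q R0Q167.q3447_7) (q_cons (Vale.Agent.P032.Lt.q R0Q167.q3447_8) (q_cons (Vale.Agent.P032.Lt.q R0Q167.q3447_9) (q_cons (Vale.Agent.P032.Lt.q R0Q167.q3447_10) (q_cons (Vale.Agent.P032.Lt.q R0Q167.q3447_11) (q_cons (Vale.Agent.P032.Lt.q R0Q167.q3447_12) q_nil))))))))))))))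

theorem p3448 : Pat 73 73 TBm TCm (CB.map Fm) R0Q167.P3448 R0Q167.I3448 := Vale.Agent.P032.Lt.pat_eq (E' := R0Q167.E) eB (pat_step (by decide +kernel) (q_cons (Vale.Agent.P032.Lt.q R0Q167.q3448_0) (q_cons (Vale.Agent.P032.Lt.q R0Q167.q3448_1) (q_cons (Vale.Agent.P032.Lt.q R0Q167.q3448_2) (q_cons (Vale.Agent.P032.Lt.q R0Q167.q3448_3) (q_cons (Vale.Agent.P032.Lt.q R0Q167.q3448_4) (q_cons (Vale.Agent.P032.Lt.q R0Q167.q3448_5) (q_cons (Vale.Agent.P032.Lt.q R0Q167.q3448_6) q_nil))))))))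

theorem p3449 : Pat 73 73 TBm TCm (CB.map Fm) R0Q167.P3449 R0Q167.I3449 := Vale.Agent.P032.Lt.pat_eq (E' := R0Q167.E) eB (pat_step (by decide +kernel) (q_cons (Vale.Agent.P032.Lt.q R0Q167.q3449_0) (q_cons (Vale.Agent.P032.Lt.q R0Q167.q3449_1) (q_cons (Vale.Agent.P032.Lt.q R0Q167.q3449_2) (q_cons (Vale.Agent.P032.Lt.q R0Q167.q3449_3) (q_cons (Vale.Agent.P032.Lt.q R0Q167.q3449_4) (q_cons (Vale.Agent.P032.Lt.q R0Q167.q3449_5) (q_cons (Vale.Agent.P032.Lt.q R0Q167.q3449_6) q_nil))))))))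

theorem p3450 : Pat 73 73 TBm TCm (CB.map Fm) R0Q167.P3450 R0Q167.I3450 := Vale.Agent.P032.Lt.pat_eq (E' := R0Q167.E) eB (pat_step (by decide +kernel) (q_cons (Vale.Agent.P032.Lt.q R0Q167.q3450_0) (q_cons (Vale.Agent.P032.Lt.q R0Q167.q3450_1) (q_cons (Vale.Agent.P032.Lt.q R0Q167.q3450_2) (q_cons (Vale.Agent.P032.Lt.q R0Q167.q3450_3) (q_cons (Vale.Agent.P032.Lt.q R0Q167.q3450_4) (q_cons (Vale.Agent.P032.Lt.q R0Q167.q3450_5) (q_cons (Vale.Agent.P032.Lt.q R0Q167.q3450_6) (q_cons (Vale.Agent.P032.Lt.q R0Q167.q3450_7) (q_cons (Vale.Agent.P032.Lt.q R0Q167.q3450_8) (q_cons (Vale.Agent.P032.Lt.q R0Q167.q3450_9) (q_cons (Vale.Agent.P032.Lt.q R0Q167.q3450_10) (q_cons (Vale.Agent.P032.Lt.q R0Q167.q3450_11) (q_cons (Vale.Agent.P032.Lt.q R0Q167.q3450_12) (q_cons (Vale.Agent.P032.Lt.q R0Q167.q3450_13) (q_cons (Vale.Agent.P032.Lt.q R0Q167.q3450_14) (q_cons (Vale.Agent.P032.Lt.q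 R0Q167.q3450_15) (q_cons (Vale.Agent.P032.Lt.q R0Q167.q3450_16) q_nil))))))))))))))))))

theorem p3451 : Pat 73 73 TBm TCm (CB.map Fm) R0Q167.P3451 R0Q167.I3451 := Vale.Agent.P032.Lt.pat_eq (E' := R0Q167.E) eB (pat_step (by decide +kernel) (q_cons (Vale.Agent.P032.Lt.q R0Q167.q3451_0) (q_cons (Vale.Agent.P032.Lt.q R0Q167.q3451_1) q_nil)))

def C3452 : List ℕ := [0, 4, 8, 12, 16, 20, 24, 485377, 606209, 616449, 737281]
theorem p3452 : Pat 73 73 TBm TCm (C3452.map Fm) R0Q167.P3452 R0Q167.I3452 := Vale.Agent.P032.Lt.pat_eq (E' := R0Q167.E3452) (by decide +kernel) (pat_step (by decide +kernel) (q_cons (Vale.Agent.P032.Lt.q R0Q167.q3452_0) (q_cons (Vale.Agent.P032.Lt.q R0Q167.q3452_1) (q_cons (Vale.Agent.P032.Lt.q R0Q167.q3452_2) q_nil))))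

theorem p3453 : Pat 73 73 TBm TCm (CB.map Fm) R0Q167.P3453 R0Q167.I3453 := Vale.Agent.P032.Lt.pat_eq (E' := R0Q167.E) eB (pat_step (by decide +kernel) (q_cons (Vale.Agent.P032.Lt.q R0Q167.q3453_0) (q_cons (Vale.Agent.P032.Lt.q R0Q167.q3453_1) (q_cons (Vale.Agent.P032.Lt.q R0Q167.q3453_2) (q_cons (Vale.Agent.P032.Lt.q R0Q167.q3453_3) (q_cons (Vale.Agent.P032.Lt.q R0Q167.q3453_4) (q_cons (Vale.Agent.P032.Lt.q R0Q167.q3453_5) (q_cons (Vale.Agent.P032.Lt.q R0Q167.q3453_6) q_nil))))))))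

def C3454 : List ℕ := [0, 4, 8, 12, 16, 20, 24, 212993, 475137, 737281]
theorem p3454 : Pat 73 73 TBm TCm (C3454.map Fm) R0Q167.P3454 R0Q167.I3454 := Vale.Agent.P032.Lt.pat_eq (E' := R0Q167.E3454) (by decide +kernel) (pat_step (by decide +kernel) (q_cons (Vale.Agent.P032.Lt.q R0Q167.q3454_0) (q_cons (Vale.Agent.P032.Lt.q R0Q167.q3454_1) (q_cons (Vale.Agent.P032.Lt.q R0Q167.q3454_2) (q_cons (Vale.Agent.P032.Lt.q R0Q167.q3454_3) (q_cons (Vale.Agent.P032.Lt.q R0Q167.q3454_4) (q_cons (Vale.Agent.P032.Lt.q R0Q167.q3454_5) (q_cons (Vale.Agent.P032.Lt.q R0Q167.q3454_6) (q_cons (Vale.Agent.P032.Lt.q R0Q167.q3454_7) (q_cons (Vale.Agent.P032.Lt.q R0Q167.q3454_8) (q_cons (Vale.Agent.P032.Lt.q R0Q167.q3454_9) q_nil)))))))))))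

theorem p3455 : Pat 73 73 TBm TCm (CB.map Fm) R0Q167.P3455 R0Q167.I3455 := Vale.Agent.P032.Lt.pat_eq (E' := R0Q167.E) eB (pat_step (by decide +kernel) (q_cons (Vale.Agent.P032.Lt.q R0Q167.q3455_0) (q_cons (Vale.Agent.P032.Lt.q R0Q167.q3455_1) (q_cons (Vale.Agent.P032.Lt.q R0Q167.q3455_2) (q_cons (Vale.Agent.P032.Lt.q R0Q167.q3455_3) (q_cons (Vale.Agent.P032.Lt.q R0Q167.q3455_4) (q_cons (Vale.Agent.P032.Lt.q R0Q167.q3455_5) (q_cons (Vale.Agent.P032.Lt.q R0Q167.q3455_6) (q_cons (Vale.Agent.P032.Lt.q R0Q167.q3455_7) (q_cons (Vale.Agent.P032.Lt.q R0Q167.q3455_8) (q_cons (Vale.Agent.P032.Lt.q R0Q167.q3455_9) (q_cons (Vale.Agent.P032.Lt.q R0Q167.q3455_10) (q_cons (Vale.Agent.P032.Lt.q R0Q167.q3455_11) (q_cons (Vale.Agent.P032.Lt.q R0Q167.q3455_12) q_nil))))))))))))))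

def L : List (List ℕ) := [R0Q162.P3328, R0Q162.P3329, R0Q162.P3330, R0Q162.P3331, R0Q162.P3332, R0Q162.P3333, R0Q162.P3334, R0Q162.P3335, R0Q162.P3336, R0Q162.P3337, R0Q162.P3338, R0Q162.P3339, R0Q162.P3340, R0Q162.P3341, R0Q162.P3342, R0Q162.P3343, R0Q162.P3344, R0Q162.P3345, R0Q162.P3346, R0Q162.P3347, R0Q162.P3348, R0Q162.P3349, R0Q162.P3350, R0Q162.P3351, R0Q162.P3352, R0Q162.P3353, R0Q162.P3354, R0Q162.P3355, R0Q162.P3356, R0Q162.P3357, R0Q162.P3358, R0Q162.P3359, R0Q162.P3360, R0Q162.P3361, R0Q162.P3362, R0Q162.P3363, R0Q162.P3364, R0Q163.P3365, R0Q163.P3366, R0Q163.P3367, R0Q163.P3368, R0Q163.P3369, R0Q163.P3370, R0Q163.P3371, R0Q163.P3372, R0Q163.P3373, R0Q163.P3374, R0Q163.P3375, R0Q163.P3376, R0Q163.P3377, R0Q163.P3378, R0Q163.P3379, R0Q163.P3380, R0Q163.P3381, R0Q163.P3382, R0Q163.P3383, R0Q163.P3384, R0Q164.P3385, R0Q164.P3386, R0Q164.P3387,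 R0Q164.P3388, R0Q164.P3389, R0Q164.P3390, R0Q164.P3391, R0Q164.P3392, R0Q164.P3393, R0Q164.P3394, R0Q164.P3395, R0Q164.P3396, R0Q164.P3397, R0Q164.P3398, R0Q164.P3399, R0Q164.P3400, R0Q164.P3401, R0Q164.P3402, R0Q164.P3403, R0Q164.P3404, R0Q164.P3405, R0Q164.P3406, R0Q164.P3407, R0Q165.P3408, R0Q165.P3409, R0Q165.P3410, R0Q165.P3411, R0Q165.P3412, R0Q165.P3413, R0Q165.P3414, R0Q165.P3415, R0Q165.P3416, R0Q165.P3417, R0Q165.P3418, R0Q165.P3419, R0Q165.P3420, R0Q165.P3421, R0Q165.P3422, R0Q165.P3423, R0Q165.P3424, R0Q165.P3425, R0Q165.P3426, R0Q165.P3427, R0Q165.P3428, R0Q165.P3429, R0Q165.P3430, R0Q165.P3431, R0Q166.P3432, R0Q166.P3433, R0Q166.P3434, R0Q166.P3435, R0Q166.P3436, R0Q166.P3437, R0Q166.P3438, R0Q166.P3439, R0Q166.P3440, R0Q166.P3441, R0Q167.P3442, R0Q167.P3443, R0Q167.P3444, R0Q167.P3445, R0Q167.P3446, R0Q167.P3447, R0Q167.P3448, R0Q167.P3449,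 R0Q167.P3450, R0Q167.P3451, R0Q167.P3452, R0Q167.P3453, R0Q167.P3454, R0Q167.P3455]

theorem all : ∀ P ∈ L, CrtF 73 73 TBm TCm (Vale.Agent.P032.Fam.fam2 (Vale.Agent.P032.Fam.im0)) P := crtF_cons p3328 (crtF_cons p3329 (crtF_cons p3330 (crtF_cons p3331 (crtF_cons p3332 (crtF_cons p3333 (crtF_cons p3334 (crtF_cons p3335 (crtF_cons p3336 (crtF_cons p3337 (crtF_cons p3338 (crtF_cons p3339 (crtF_cons p3340 (crtF_cons p3341 (crtF_cons p3342 (crtF_cons p3343 (crtF_cons p3344 (crtF_cons p3345 (crtF_cons p3346 (crtF_cons p3347 (crtF_cons p3348 (crtF_cons p3349 (crtF_cons p3350 (crtF_cons p3351 (crtF_cons p3352 (crtF_cons p3353 (crtF_cons p3354 (crtF_cons p3355 (crtF_cons p3356 (crtF_cons p3357 (crtF_cons p3358 (crtF_cons p3359 (crtF_cons p3360 (crtF_cons p3361 (crtF_cons p3362 (crtF_cons p3363 (crtF_cons p3364 (crtF_cons p3365 (crtF_cons p3366 (crtF_cons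 p3367 (crtF_cons p3368 (crtF_cons p3369 (crtF_cons p3370 (crtF_cons p3371 (crtF_cons p3372 (crtF_cons p3373 (crtF_cons p3374 (crtF_cons p3375 (crtF_cons p3376 (crtF_cons p3377 (crtF_cons p3378 (crtF_cons p3379 (crtF_cons p3380 (crtF_cons p3381 (crtF_cons p3382 (crtF_cons p3383 (crtF_cons p3384 (crtF_cons p3385 (crtF_cons p3386 (crtF_cons p3387 (crtF_cons p3388 (crtF_cons p3389 (crtF_cons p3390 (crtF_cons p3391 (crtF_cons p3392 (crtF_cons p3393 (crtF_cons p3394 (crtF_cons p3395 (crtF_cons p3396 (crtF_cons p3397 (crtF_cons p3398 (crtF_cons p3399 (crtF_cons p3400 (crtF_cons p3401 (crtF_cons p3402 (crtF_cons p3403 (crtF_cons p3404 (crtF_cons p3405 (crtF_cons p3406 (crtF_cons p3407 (crtF_cons p3408 (crtF_cons p3409 (crtF_cons p3410 (crtF_cons p3411 (crtF_cons p3412 (crtF_cons p3413 (crtF_cons p3414 (crtF_cons p3415 (crtF_cons p3416 (crtF_cons p3417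 (crtF_cons p3418 (crtF_cons p3419 (crtF_cons p3420 (crtF_cons p3421 (crtF_cons p3422 (crtF_cons p3423 (crtF_cons p3424 (crtF_cons p3425 (crtF_cons p3426 (crtF_cons p3427 (crtF_cons p3428 (crtF_cons p3429 (crtF_cons p3430 (crtF_cons p3431 (crtF_cons p3432 (crtF_cons p3433 (crtF_cons p3434 (crtF_cons p3435 (crtF_cons p3436 (crtF_cons p3437 (crtF_cons p3438 (crtF_cons p3439 (crtF_cons p3440 (crtF_cons p3441 (crtF_cons p3442 (crtF_cons p3443 (crtF_cons p3444 (crtF_cons p3445 (crtF_cons p3446 (crtF_cons p3447 (crtF_cons p3448 (crtF_cons p3449 (crtF_cons p3450 (crtF_cons p3451 (crtF_cons p3452 (crtF_cons p3453 (crtF_cons p3454 (crtF_cons p3455 crtF_nil)))))))))))))))))))))))))))))))))))))))))))))))))))))))))))))))))))))))))))))))))))))))))))))))))))))))))))))))))))))))))))))))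

theorem ch : chT 73 73 TCm s0_026 L = true := by decide +kernel

end Vale.Agent.P032X.Cert.XP.B1.R0H026
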