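import Vale.Agent.P032X.H892.LtH
import Vale.Agent.P032X.H286.W73
import Vale.Agent.P032X.Cert.XP.B1.R0T
import Vale.Agent.P032X.Cert.XP.B1.R0Q168
import Vale.Agent.P032X.Cert.XP.B1.R0Q169
import Vale.Agent.P032X.Cert.XP.B1.R0Q170
import Vale.Agent.P032X.Cert.XP.B1.R0Q171
import Vale.Agent.P032X.Cert.XP.B1.R0Q172
import Vale.Agent.P032X.Cert.XP.B1.R0Q173

set_option maxRecDepth 1000000

namespace Vale.Agent.P032X.Cert.XP.B1.R0H027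

open Vale.Agent.P032.H820.K Vale.Agent.P032.H357.MK Vale.Agent.P032.H286.E Vale.Agent.P032.H61 Vale.Agent.P032X.Cert.XP.B1

noncomputable abbrev Fm : ℕ → List ℕ := Vale.Agent.P032.Fam.fam2 (Vale.Agent.P032.Fam.im0)

def CB : List ℕ := [0, 4, 8, 12, 16, 20, 24]

theorem eB : Vale.Agent.P032.Lt.eqLL (CB.map Fm) R0Q168.E = true := by decide +kernel

theorem p3456 : Pat 73 73 TBm TCm (CB.map Fm) R0Q168.P3456 R0Q168.I3456 := Vale.Agent.P032.Lt.pat_eq (E' := R0Q168.E) eB (pat_step (by decide +kernel) (q_cons (Vale.Agent.P032.Lt.q R0Q168.q3456_0) (q_cons (Vale.Agent.P032.Lt.q R0Q168.q3456_1) (q_cons (Vale.Agent.P032.Lt.q R0Q168.q3456_2) (q_cons (Vale.Agent.P032.Lt.q R0Q168.q3456_3) (q_cons (Vale.Agent.P032.Lt.q R0Q168.q3456_4) (q_cons (Vale.Agent.P032.Lt.q R0Q168.q3456_5) (q_cons (Vale.Agent.P032.Lt.q R0Q168.q3456_6) (q_cons (Vale.Agent.P032.Lt.q R0Q168.q3456_7)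 (q_cons (Vale.Agent.P032.Lt.q R0Q168.q3456_8) (q_cons (Vale.Agent.P032.Lt.q R0Q168.q3456_9) (q_cons (Vale.Agent.P032.Lt.q R0Q168.q3456_10) (q_cons (Vale.Agent.P032.Lt.q R0Q168.q3456_11) (q_cons (Vale.Agent.P032.Lt.q R0Q168.q3456_12) (q_cons (Vale.Agent.P032.Lt.q R0Q168.q3456_13) (q_cons (Vale.Agent.P032.Lt.q R0Q168.q3456_14) (q_cons (Vale.Agent.P032.Lt.q R0Q168.q3456_15) (q_cons (Vale.Agent.P032.Lt.q R0Q168.q3456_16) (q_cons (Vale.Agent.P032.Lt.q R0Q168.q3456_17) (q_cons (Vale.Agent.P032.Lt.q R0Q168.q3456_18) q_nil))))))))))))))))))))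

theorem p3457 : Pat 73 73 TBm TCm (CB.map Fm) R0Q168.P3457 R0Q168.I3457 := Vale.Agent.P032.Lt.pat_eq (E' := R0Q168.E) eB (pat_step (by decide +kernel) (q_cons (Vale.Agent.P032.Lt.q R0Q168.q3457_0) (q_cons (Vale.Agent.P032.Lt.q R0Q168.q3457_1) (q_cons (Vale.Agent.P032.Lt.q R0Q168.q3457_2) (q_cons (Vale.Agent.P032.Lt.q R0Q168.q3457_3) (q_cons (Vale.Agent.P032.Lt.q R0Q168.q3457_4) (q_cons (Vale.Agent.P032.Lt.q R0Q168.q3457_5) (q_cons (Vale.Agent.P032.Lt.q R0Q168.q3457_6) (q_cons (Vale.Agent.P032.Lt.q R0Q168.q3457_7) (q_cons (Vale.Agent.P032.Lt.q R0Q168.q3457_8) q_nil))))))))))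

theorem p3458 : Pat 73 73 TBm TCm (CB.map Fm) R0Q168.P3458 R0Q168.I3458 := Vale.Agent.P032.Lt.pat_eq (E' := R0Q168.E) eB (pat_step (by decide +kernel) (q_cons (Vale.Agent.P032.Lt.q R0Q168.q3458_0) (q_cons (Vale.Agent.P032.Lt.q R0Q168.q3458_1) (q_cons (Vale.Agent.P032.Lt.q R0Q168.q3458_2) (q_cons (Vale.Agent.P032.Lt.q R0Q168.q3458_3) (q_cons (Vale.Agent.P032.Lt.q R0Q168.q3458_4) (q_cons (Vale.Agent.P032.Lt.q R0Q168.q3458_5) (q_cons (Vale.Agent.P032.Lt.q R0Q168.q3458_6) (q_cons (Vale.Agent.P032.Lt.q R0Q168.q3458_7) q_nil)))))))))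

theorem p3459 : Pat 73 73 TBm TCm (CB.map Fm) R0Q168.P3459 R0Q168.I3459 := Vale.Agent.P032.Lt.pat_eq (E' := R0Q168.E) eB (pat_step (by decide +kernel) (q_cons (Vale.Agent.P032.Lt.q R0Q168.q3459_0) (q_cons (Vale.Agent.P032.Lt.q R0Q168.q3459_1) (q_cons (Vale.Agent.P032.Lt.q R0Q168.q3459_2) (q_cons (Vale.Agent.P032.Lt.q R0Q168.q3459_3) (q_cons (Vale.Agent.P032.Lt.q R0Q168.q3459_4) (q_cons (Vale.Agent.P032.Lt.q R0Q168.q3459_5) (q_cons (Vale.Agent.P032.Lt.q R0Q168.q3459_6) (q_cons (Vale.Agent.P032.Lt.q R0Q168.q3459_7) (q_cons (Vale.Agent.P032.Lt.q R0Q168.q3459_8) (q_cons (Vale.Agent.P032.Lt.q R0Q168.q3459_9) (q_cons (Vale.Agent.P032.Lt.q R0Q168.q3459_10) q_nil))))))))))))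

def C3460 : List ℕ := [0, 4, 8, 12, 16, 20, 24, 475137, 737281]
theorem p3460 : Pat 73 73 TBm TCm (C3460.map Fm) R0Q168.P3460 R0Q168.I3460 := Vale.Agent.P032.Lt.pat_eq (E' := R0Q168.E3460) (by decide +kernel) (pat_step (by decide +kernel) (q_cons (Vale.Agent.P032.Lt.q R0Q168.q3460_0) (q_cons (Vale.Agent.P032.Lt.q R0Q168.q3460_1) (q_cons (Vale.Agent.P032.Lt.q R0Q168.q3460_2) (q_cons (Vale.Agent.P032.Lt.q R0Q168.q3460_3) (q_cons (Vale.Agent.P032.Lt.q R0Q168.q3460_4) q_nil))))))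

theorem p3461 : Pat 73 73 TBm TCm (CB.map Fm) R0Q168.P3461 R0Q168.I3461 := Vale.Agent.P032.Lt.pat_eq (E' := R0Q168.E) eB (pat_step (by decide +kernel) (q_cons (Vale.Agent.P032.Lt.q R0Q168.q3461_0) (q_cons (Vale.Agent.P032.Lt.q R0Q168.q3461_1) (q_cons (Vale.Agent.P032.Lt.q R0Q168.q3461_2) q_nil))))

theorem p3462 : Pat 73 73 TBm TCm (CB.map Fm) R0Q168.P3462 R0Q168.I3462 := Vale.Agent.P032.Lt.pat_eq (E' := R0Q168.E) eB (pat_step (by decide +kernel) (q_cons (Vale.Agent.P032.Lt.q R0Q168.q3462_0) (q_cons (Vale.Agent.P032.Lt.q R0Q168.q3462_1) (q_cons (Vale.Agent.P032.Lt.q R0Q168.q3462_2) (q_cons (Vale.Agent.P032.Lt.q R0Q168.q3462_3) (q_cons (Vale.Agent.P032.Lt.q R0Q168.q3462_4) (q_cons (Vale.Agent.P032.Lt.q R0Q168.q3462_5) q_nil)))))))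

theorem p3463 : Pat 73 73 TBm TCm (CB.map Fm) R0Q168.P3463 R0Q168.I3463 := Vale.Agent.P032.Lt.pat_eq (E' := R0Q168.E) eB (pat_step (by decide +kernel) (q_cons (Vale.Agent.P032.Lt.q R0Q168.q3463_0) q_nil))

theorem p3464 : Pat 73 73 TBm TCm (CB.map Fm) R0Q168.P3464 R0Q168.I3464 := Vale.Agent.P032.Lt.pat_eq (E' := R0Q168.E) eB (pat_step (by decide +kernel) (q_cons (Vale.Agent.P032.Lt.q R0Q168.q3464_0) (q_cons (Vale.Agent.P032.Lt.q R0Q168.q3464_1) (q_cons (Vale.Agent.P032.Lt.q R0Q168.q3464_2) (q_cons (Vale.Agent.P032.Lt.q R0Q168.q3464_3) (q_cons (Vale.Agent.P032.Lt.q R0Q168.q3464_4) (q_cons (Vale.Agent.P032.Lt.q R0Q168.q3464_5) (q_cons (Vale.Agent.P032.Lt.q R0Q168.q3464_6) (q_cons (Vale.Agent.P032.Lt.q R0Q168.q3464_7) (q_cons (Vale.Agent.P032.Lt.q R0Q168.q3464_8) (q_cons (Vale.Agent.P032.Lt.q R0Q168.q3464_9) q_nil)))))))))))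

theorem p3465 : Pat 73 73 TBm TCm (CB.map Fm) R0Q168.P3465 R0Q168.I3465 := Vale.Agent.P032.Lt.pat_eq (E' := R0Q168.E) eB (pat_step (by decide +kernel) (q_cons (Vale.Agent.P032.Lt.q R0Q168.q3465_0) q_nil))

theorem p3466 : Pat 73 73 TBm TCm (CB.map Fm) R0Q168.P3466 R0Q168.I3466 := Vale.Agent.P032.Lt.pat_eq (E' := R0Q168.E) eB (pat_step (by decide +kernel) (q_cons (Vale.Agent.P032.Lt.q R0Q168.q3466_0) (q_cons (Vale.Agent.P032.Lt.q R0Q168.q3466_1) (q_cons (Vale.Agent.P032.Lt.q R0Q168.q3466_2) (q_cons (Vale.Agent.P032.Lt.q R0Q168.q3466_3) (q_cons (Vale.Agent.P032.Lt.q R0Q168.q3466_4) (q_cons (Vale.Agent.P032.Lt.q R0Q168.q3466_5) (q_cons (Vale.Agent.P032.Lt.q R0Q168.q3466_6) (q_cons (Vale.Agent.P032.Lt.q R0Q168.q3466_7) (q_cons (Vale.Agent.P032.Lt.q R0Q168.q3466_8) (q_cons (Vale.Agent.P032.Lt.q R0Q168.q3466_9) (q_cons (Vale.Agent.P032.Lt.q R0Q168.q3466_10)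 (q_cons (Vale.Agent.P032.Lt.q R0Q168.q3466_11) (q_cons (Vale.Agent.P032.Lt.q R0Q168.q3466_12) (q_cons (Vale.Agent.P032.Lt.q R0Q168.q3466_13) (q_cons (Vale.Agent.P032.Lt.q R0Q168.q3466_14) (q_cons (Vale.Agent.P032.Lt.q R0Q168.q3466_15) (q_cons (Vale.Agent.P032.Lt.q R0Q168.q3466_16) (q_cons (Vale.Agent.P032.Lt.q R0Q168.q3466_17) q_nil)))))))))))))))))))

theorem p3467 : Pat 73 73 TBm TCm (CB.map Fm) R0Q168.P3467 R0Q168.I3467 := Vale.Agent.P032.Lt.pat_eq (E' := R0Q168.E) eB (pat_step (by decide +kernel) (q_cons (Vale.Agent.P032.Lt.q R0Q168.q3467_0) (q_cons (Vale.Agent.P032.Lt.q R0Q168.q3467_1) q_nil)))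

theorem p3468 : Pat 73 73 TBm TCm (CB.map Fm) R0Q168.P3468 R0Q168.I3468 := Vale.Agent.P032.Lt.pat_eq (E' := R0Q168.E) eB (pat_step (by decide +kernel) (q_cons (Vale.Agent.P032.Lt.q R0Q168.q3468_0) (q_cons (Vale.Agent.P032.Lt.q R0Q168.q3468_1) (q_cons (Vale.Agent.P032.Lt.q R0Q168.q3468_2) (q_cons (Vale.Agent.P032.Lt.q R0Q168.q3468_3) (q_cons (Vale.Agent.P032.Lt.q R0Q168.q3468_4) (q_cons (Vale.Agent.P032.Lt.q R0Q168.q3468_5) (q_cons (Vale.Agent.P032.Lt.q R0Q168.q3468_6) q_nil))))))))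

theorem p3469 : Pat 73 73 TBm TCm (CB.map Fm) R0Q168.P3469 R0Q168.I3469 := Vale.Agent.P032.Lt.pat_eq (E' := R0Q168.E) eB (pat_step (by decide +kernel) (q_cons (Vale.Agent.P032.Lt.q R0Q168.q3469_0) (q_cons (Vale.Agent.P032.Lt.q R0Q168.q3469_1) (q_cons (Vale.Agent.P032.Lt.q R0Q168.q3469_2) q_nil))))

theorem p3470 : Pat 73 73 TBm TCm (CB.map Fm) R0Q168.P3470 R0Q168.I3470 := Vale.Agent.P032.Lt.pat_eq (E' := R0Q168.E) eB (pat_step (by decide +kernel) (q_cons (Vale.Agent.P032.Lt.q R0Q168.q3470_0) (q_cons (Vale.Agent.P032.Lt.q R0Q168.q3470_1) (q_cons (Vale.Agent.P032.Lt.q R0Q168.q3470_2) (q_cons (Vale.Agent.P032.Lt.q R0Q168.q3470_3) (q_cons (Vale.Agent.P032.Lt.q R0Q168.q3470_4) q_nil))))))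

theorem p3471 : Pat 73 73 TBm TCm (CB.map Fm) R0Q168.P3471 R0Q168.I3471 := Vale.Agent.P032.Lt.pat_eq (E' := R0Q168.E) eB (pat_step (by decide +kernel) (q_cons (Vale.Agent.P032.Lt.q R0Q168.q3471_0) (q_cons (Vale.Agent.P032.Lt.q R0Q168.q3471_1) (q_cons (Vale.Agent.P032.Lt.q R0Q168.q3471_2) (q_cons (Vale.Agent.P032.Lt.q R0Q168.q3471_3) (q_cons (Vale.Agent.P032.Lt.q R0Q168.q3471_4) (q_cons (Vale.Agent.P032.Lt.q R0Q168.q3471_5) (q_cons (Vale.Agent.P032.Lt.q R0Q168.q3471_6) q_nil))))))))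

theorem p3472 : Pat 73 73 TBm TCm (CB.map Fm) R0Q168.P3472 R0Q168.I3472 := Vale.Agent.P032.Lt.pat_eq (E' := R0Q168.E) eB (pat_step (by decide +kernel) (q_cons (Vale.Agent.P032.Lt.q R0Q168.q3472_0) q_nil))

theorem p3473 : Pat 73 73 TBm TCm (CB.map Fm) R0Q168.P3473 R0Q168.I3473 := Vale.Agent.P032.Lt.pat_eq (E' := R0Q168.E) eB (pat_step (by decide +kernel) (q_cons (Vale.Agent.P032.Lt.q R0Q168.q3473_0) (q_cons (Vale.Agent.P032.Lt.q R0Q168.q3473_1) (q_cons (Vale.Agent.P032.Lt.q R0Q168.q3473_2) q_nil))))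

theorem p3474 : Pat 73 73 TBm TCm (CB.map Fm) R0Q168.P3474 [] := Vale.Agent.P032.Lt.pat_eq (E' := R0Q168.E) eB (pat_end (by decide +kernel) (Vale.Agent.P032.Lt.q R0Q168.q3474))

theorem p3475 : Pat 73 73 TBm TCm (CB.map Fm) R0Q168.P3475 R0Q168.I3475 := Vale.Agent.P032.Lt.pat_eq (E' := R0Q168.E) eB (pat_step (by decide +kernel) (q_cons (Vale.Agent.P032.Lt.q R0Q168.q3475_0) q_nil))

def C3476 : List ℕ := [0, 4, 8, 12, 16, 20, 24, 354305, 616449, 747521]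
theorem p3476 : Pat 73 73 TBm TCm (C3476.map Fm) R0Q168.P3476 R0Q168.I3476 := Vale.Agent.P032.Lt.pat_eq (E' := R0Q168.E3476) (by decide +kernel) (pat_step (by decide +kernel) (q_cons (Vale.Agent.P032.Lt.q R0Q168.q3476_0) (q_cons (Vale.Agent.P032.Lt.q R0Q168.q3476_1) q_nil)))

theorem p3477 : Pat 73 73 TBm TCm (CB.map Fm) R0Q168.P3477 R0Q168.I3477 := Vale.Agent.P032.Lt.pat_eq (E' := R0Q168.E) eB (pat_step (by decide +kernel) (q_cons (Vale.Agent.P032.Lt.q R0Q168.q3477_0) q_nil))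

theorem p3478 : Pat 73 73 TBm TCm (CB.map Fm) R0Q168.P3478 R0Q168.I3478 := Vale.Agent.P032.Lt.pat_eq (E' := R0Q168.E) eB (pat_step (by decide +kernel) (q_cons (Vale.Agent.P032.Lt.q R0Q168.q3478_0) (q_cons (Vale.Agent.P032.Lt.q R0Q168.q3478_1) q_nil)))

def C3479 : List ℕ := [0, 4, 8, 12, 16, 20, 24, 606209, 737281]
theorem p3479 : Pat 73 73 TBm TCm (C3479.map Fm) R0Q168.P3479 R0Q168.I3479 := Vale.Agent.P032.Lt.pat_eq (E' := R0Q168.E3479) (by decide +kernel) (pat_step (by decide +kernel) (q_cons (Vale.Agent.P032.Lt.q R0Q168.q3479_0) (q_cons (Vale.Agent.P032.Lt.q R0Q168.q3479_1) (q_cons (Vale.Agent.P032.Lt.q R0Q168.q3479_2) (q_cons (Vale.Agent.P032.Lt.q R0Q168.q3479_3) q_nil)))))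

theorem p3480 : Pat 73 73 TBm TCm (CB.map Fm) R0Q168.P3480 R0Q168.I3480 := Vale.Agent.P032.Lt.pat_eq (E' := R0Q168.E) eB (pat_step (by decide +kernel) (q_cons (Vale.Agent.P032.Lt.q R0Q168.q3480_0) (q_cons (Vale.Agent.P032.Lt.q R0Q168.q3480_1) (q_cons (Vale.Agent.P032.Lt.q R0Q168.q3480_2) (q_cons (Vale.Agent.P032.Lt.q R0Q168.q3480_3) (q_cons (Vale.Agent.P032.Lt.q R0Q168.q3480_4) q_nil))))))

theorem p3481 : Pat 73 73 TBm TCm (CB.map Fm) R0Q168.P3481 R0Q168.I3481 := Vale.Agent.P032.Lt.pat_eq (E' := R0Q168.E) eB (pat_step (by decide +kernel) (q_cons (Vale.Agent.P032.Lt.q R0Q168.q3481_0) (q_cons (Vale.Agent.P032.Lt.q R0Q168.q3481_1) q_nil)))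

theorem p3482 : Pat 73 73 TBm TCm (CB.map Fm) R0Q168.P3482 R0Q168.I3482 := Vale.Agent.P032.Lt.pat_eq (E' := R0Q168.E) eB (pat_step (by decide +kernel) (q_cons (Vale.Agent.P032.Lt.q R0Q168.q3482_0) (q_cons (Vale.Agent.P032.Lt.q R0Q168.q3482_1) (q_cons (Vale.Agent.P032.Lt.q R0Q168.q3482_2) (q_cons (Vale.Agent.P032.Lt.q R0Q168.q3482_3) (q_cons (Vale.Agent.P032.Lt.q R0Q168.q3482_4) (q_cons (Vale.Agent.P032.Lt.q R0Q168.q3482_5) (q_cons (Vale.Agent.P032.Lt.q R0Q168.q3482_6) (q_cons (Vale.Agent.P032.Lt.q R0Q168.q3482_7) q_nil)))))))))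

theorem p3483 : Pat 73 73 TBm TCm (CB.map Fm) R0Q168.P3483 R0Q168.I3483 := Vale.Agent.P032.Lt.pat_eq (E' := R0Q168.E) eB (pat_step (by decide +kernel) (q_cons (Vale.Agent.P032.Lt.q R0Q168.q3483_0) q_nil))

def C3484 : List ℕ := [0, 4, 8, 12, 16, 20, 24, 84993, 216065, 349185, 476161, 606209, 609281, 737281]
theorem p3484 : Pat 73 73 TBm TCm (C3484.map Fm) R0Q168.P3484 R0Q168.I3484 := Vale.Agent.P032.Lt.pat_eq (E' := R0Q168.E3484) (by decide +kernel) (pat_step (by decide +kernel) (q_cons (Vale.Agent.P032.Lt.q R0Q168.q3484_0) q_nil))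

theorem p3485 : Pat 73 73 TBm TCm (CB.map Fm) R0Q169.P3485 R0Q169.I3485 := Vale.Agent.P032.Lt.pat_eq (E' := R0Q169.E) eB (pat_step (by decide +kernel) (q_cons (Vale.Agent.P032.Lt.q R0Q169.q3485_0) (q_cons (Vale.Agent.P032.Lt.q R0Q169.q3485_1) (q_cons (Vale.Agent.P032.Lt.q R0Q169.q3485_2) (q_cons (Vale.Agent.P032.Lt.q R0Q169.q3485_3) (q_cons (Vale.Agent.P032.Lt.q R0Q169.q3485_4) (q_cons (Vale.Agent.P032.Lt.q R0Q169.q3485_5) q_nil)))))))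

def C3486 : List ℕ := [0, 4, 8, 12, 16, 20, 24, 216065, 475137, 737281]
theorem p3486 : Pat 73 73 TBm TCm (C3486.map Fm) R0Q169.P3486 R0Q169.I3486 := Vale.Agent.P032.Lt.pat_eq (E' := R0Q169.E3486) (by decide +kernel) (pat_step (by decide +kernel) (q_cons (Vale.Agent.P032.Lt.q R0Q169.q3486_0) (q_cons (Vale.Agent.P032.Lt.q R0Q169.q3486_1) (q_cons (Vale.Agent.P032.Lt.q R0Q169.q3486_2) (q_cons (Vale.Agent.P032.Lt.q R0Q169.q3486_3) (q_cons (Vale.Agent.P032.Lt.q R0Q169.q3486_4) (q_cons (Vale.Agent.P032.Lt.q R0Q169.q3486_5) (q_cons (Vale.Agent.P032.Lt.q R0Q169.q3486_6) q_nil))))))))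

theorem p3487 : Pat 73 73 TBm TCm (CB.map Fm) R0Q169.P3487 R0Q169.I3487 := Vale.Agent.P032.Lt.pat_eq (E' := R0Q169.E) eB (pat_step (by decide +kernel) (q_cons (Vale.Agent.P032.Lt.q R0Q169.q3487_0) (q_cons (Vale.Agent.P032.Lt.q R0Q169.q3487_1) (q_cons (Vale.Agent.P032.Lt.q R0Q169.q3487_2) (q_cons (Vale.Agent.P032.Lt.q R0Q169.q3487_3) (q_cons (Vale.Agent.P032.Lt.q R0Q169.q3487_4) (q_cons (Vale.Agent.P032.Lt.q R0Q169.q3487_5) (q_cons (Vale.Agent.P032.Lt.q R0Q169.q3487_6) (q_cons (Vale.Agent.P032.Lt.q R0Q169.q3487_7) (q_cons (Vale.Agent.P032.Lt.q R0Q169.q3487_8) (q_cons (Vale.Agent.P032.Lt.q R0Q169.q3487_9) (q_cons (Vale.Agent.P032.Lt.q R0Q169.q3487_10) (q_cons (Vale.Agent.P032.Lt.q R0Q169.q3487_11) (q_cons (Vale.Agent.P032.Lt.q R0Q169.q3487_12) (q_cons (Vale.Agent.P032.Lt.q R0Q169.q3487_13) q_nil)))))))))))))))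

theorem p3488 : Pat 73 73 TBm TCm (CB.map Fm) R0Q169.P3488 R0Q169.I3488 := Vale.Agent.P032.Lt.pat_eq (E' := R0Q169.E) eB (pat_step (by decide +kernel) (q_cons (Vale.Agent.P032.Lt.q R0Q169.q3488_0) (q_cons (Vale.Agent.P032.Lt.q R0Q169.q3488_1) (q_cons (Vale.Agent.P032.Lt.q R0Q169.q3488_2) (q_cons (Vale.Agent.P032.Lt.q R0Q169.q3488_3) (q_cons (Vale.Agent.P032.Lt.q R0Q169.q3488_4) q_nil))))))

theorem p3489 : Pat 73 73 TBm TCm (CB.map Fm) R0Q169.P3489 R0Q169.I3489 := Vale.Agent.P032.Lt.pat_eq (E' := R0Q169.E) eB (pat_step (by decide +kernel) (q_cons (Vale.Agent.P032.Lt.q R0Q169.q3489_0) (q_cons (Vale.Agent.P032.Lt.q R0Q169.q3489_1) (q_cons (Vale.Agent.P032.Lt.q R0Q169.q3489_2) q_nil))))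

theorem p3490 : Pat 73 73 TBm TCm (CB.map Fm) R0Q169.P3490 R0Q169.I3490 := Vale.Agent.P032.Lt.pat_eq (E' := R0Q169.E) eB (pat_step (by decide +kernel) (q_cons (Vale.Agent.P032.Lt.q R0Q169.q3490_0) (q_cons (Vale.Agent.P032.Lt.q R0Q169.q3490_1) (q_cons (Vale.Agent.P032.Lt.q R0Q169.q3490_2) (q_cons (Vale.Agent.P032.Lt.q R0Q169.q3490_3) (q_cons (Vale.Agent.P032.Lt.q R0Q169.q3490_4) (q_cons (Vale.Agent.P032.Lt.q R0Q169.q3490_5) (q_cons (Vale.Agent.P032.Lt.q R0Q169.q3490_6) q_nil))))))))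

theorem p3491 : Pat 73 73 TBm TCm (CB.map Fm) R0Q169.P3491 R0Q169.I3491 := Vale.Agent.P032.Lt.pat_eq (E' := R0Q169.E) eB (pat_step (by decide +kernel) (q_cons (Vale.Agent.P032.Lt.q R0Q169.q3491_0) (q_cons (Vale.Agent.P032.Lt.q R0Q169.q3491_1) (q_cons (Vale.Agent.P032.Lt.q R0Q169.q3491_2) (q_cons (Vale.Agent.P032.Lt.q R0Q169.q3491_3) (q_cons (Vale.Agent.P032.Lt.q R0Q169.q3491_4) (q_cons (Vale.Agent.P032.Lt.q R0Q169.q3491_5) (q_cons (Vale.Agent.P032.Lt.q R0Q169.q3491_6) (q_cons (Vale.Agent.P032.Lt.q R0Q169.q3491_7) (q_cons (Vale.Agent.P032.Lt.q R0Q169.q3491_8) (q_cons (Vale.Agent.P032.Lt.q R0Q169.q3491_9) (q_cons (Vale.Agent.P032.Lt.q R0Q169.q3491_10) (q_cons (Vale.Agent.P032.Lt.q R0Q169.q3491_11) (q_cons (Vale.Agent.P032.Lt.q R0Q169.q3491_12) (q_cons (Vale.Agent.P032.Lt.q R0Q169.q3491_13) (q_cons (Vale.Agent.P032.Lt.q R0Q169.q3491_14) q_nil))))))))))))))))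

def C3492 : List ℕ := [0, 4, 8, 12, 16, 20, 24, 212993, 349185, 476161, 606209, 737281]
theorem p3492 : Pat 73 73 TBm TCm (C3492.map Fm) R0Q169.P3492 R0Q169.I3492 := Vale.Agent.P032.Lt.pat_eq (E' := R0Q169.E3492) (by decide +kernel) (pat_step (by decide +kernel) (q_cons (Vale.Agent.P032.Lt.q R0Q169.q3492_0) q_nil))

theorem p3493 : Pat 73 73 TBm TCm (CB.map Fm) R0Q169.P3493 R0Q169.I3493 := Vale.Agent.P032.Lt.pat_eq (E' := R0Q169.E) eB (pat_step (by decide +kernel) (q_cons (Vale.Agent.P032.Lt.q R0Q169.q3493_0) (q_cons (Vale.Agent.P032.Lt.q R0Q169.q3493_1) (q_cons (Vale.Agent.P032.Lt.q R0Q169.q3493_2) (q_cons (Vale.Agent.P032.Lt.q R0Q169.q3493_3) q_nil)))))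

theorem p3494 : Pat 73 73 TBm TCm (CB.map Fm) R0Q169.P3494 R0Q169.I3494 := Vale.Agent.P032.Lt.pat_eq (E' := R0Q169.E) eB (pat_step (by decide +kernel) (q_cons (Vale.Agent.P032.Lt.q R0Q169.q3494_0) q_nil))

theorem p3495 : Pat 73 73 TBm TCm (CB.map Fm) R0Q169.P3495 R0Q169.I3495 := Vale.Agent.P032.Lt.pat_eq (E' := R0Q169.E) eB (pat_step (by decide +kernel) (q_cons (Vale.Agent.P032.Lt.q R0Q169.q3495_0) (q_cons (Vale.Agent.P032.Lt.q R0Q169.q3495_1) (q_cons (Vale.Agent.P032.Lt.q R0Q169.q3495_2) (q_cons (Vale.Agent.P032.Lt.q R0Q169.q3495_3) q_nil)))))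

theorem p3496 : Pat 73 73 TBm TCm (CB.map Fm) R0Q169.P3496 R0Q169.I3496 := Vale.Agent.P032.Lt.pat_eq (E' := R0Q169.E) eB (pat_step (by decide +kernel) (q_cons (Vale.Agent.P032.Lt.q R0Q169.q3496_0) (q_cons (Vale.Agent.P032.Lt.q R0Q169.q3496_1) (q_cons (Vale.Agent.P032.Lt.q R0Q169.q3496_2) q_nil))))

theorem p3497 : Pat 73 73 TBm TCm (CB.map Fm) R0Q169.P3497 R0Q169.I3497 := Vale.Agent.P032.Lt.pat_eq (E' := R0Q169.E) eB (pat_step (by decide +kernel) (q_cons (Vale.Agent.P032.Lt.q R0Q169.q3497_0) (q_cons (Vale.Agent.P032.Lt.q R0Q169.q3497_1) (q_cons (Vale.Agent.P032.Lt.q R0Q169.q3497_2) (q_cons (Vale.Agent.P032.Lt.q R0Q169.q3497_3) (q_cons (Vale.Agent.P032.Lt.q R0Q169.q3497_4) (q_cons (Vale.Agent.P032.Lt.q R0Q169.q3497_5) (q_cons (Vale.Agent.P032.Lt.q R0Q169.q3497_6) (q_cons (Vale.Agent.P032.Lt.q R0Q169.q3497_7) (q_cons (Vale.Agent.P032.Lt.q R0Q169.q3497_8)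 (q_cons (Vale.Agent.P032.Lt.q R0Q169.q3497_9) (q_cons (Vale.Agent.P032.Lt.q R0Q169.q3497_10) (q_cons (Vale.Agent.P032.Lt.q R0Q169.q3497_11) (q_cons (Vale.Agent.P032.Lt.q R0Q169.q3497_12) q_nil))))))))))))))

theorem p3498 : Pat 73 73 TBm TCm (CB.map Fm) R0Q169.P3498 R0Q169.I3498 := Vale.Agent.P032.Lt.pat_eq (E' := R0Q169.E) eB (pat_step (by decide +kernel) (q_cons (Vale.Agent.P032.Lt.q R0Q169.q3498_0) (q_cons (Vale.Agent.P032.Lt.q R0Q169.q3498_1) q_nil)))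

theorem p3499 : Pat 73 73 TBm TCm (CB.map Fm) R0Q169.P3499 R0Q169.I3499 := Vale.Agent.P032.Lt.pat_eq (E' := R0Q169.E) eB (pat_step (by decide +kernel) (q_cons (Vale.Agent.P032.Lt.q R0Q169.q3499_0) (q_cons (Vale.Agent.P032.Lt.q R0Q169.q3499_1) (q_cons (Vale.Agent.P032.Lt.q R0Q169.q3499_2) (q_cons (Vale.Agent.P032.Lt.q R0Q169.q3499_3) (q_cons (Vale.Agent.P032.Lt.q R0Q169.q3499_4) (q_cons (Vale.Agent.P032.Lt.q R0Q169.q3499_5) (q_cons (Vale.Agent.P032.Lt.q R0Q169.q3499_6) (q_cons (Vale.Agent.P032.Lt.q R0Q169.q3499_7) (q_cons (Vale.Agent.P032.Lt.q R0Q169.q3499_8) (q_cons (Vale.Agent.P032.Lt.q R0Q169.q3499_9) q_nil)))))))))))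

theorem p3500 : Pat 73 73 TBm TCm (CB.map Fm) R0Q169.P3500 R0Q169.I3500 := Vale.Agent.P032.Lt.pat_eq (E' := R0Q169.E) eB (pat_step (by decide +kernel) (q_cons (Vale.Agent.P032.Lt.q R0Q169.q3500_0) (q_cons (Vale.Agent.P032.Lt.q R0Q169.q3500_1) (q_cons (Vale.Agent.P032.Lt.q R0Q169.q3500_2) q_nil))))

theorem p3501 : Pat 73 73 TBm TCm (CB.map Fm) R0Q169.P3501 R0Q169.I3501 := Vale.Agent.P032.Lt.pat_eq (E' := R0Q169.E) eB (pat_step (by decide +kernel) (q_cons (Vale.Agent.P032.Lt.q R0Q169.q3501_0) (q_cons (Vale.Agent.P032.Lt.q R0Q169.q3501_1) (q_cons (Vale.Agent.P032.Lt.q R0Q169.q3501_2) (q_cons (Vale.Agent.P032.Lt.q R0Q169.q3501_3) (q_cons (Vale.Agent.P032.Lt.q R0Q169.q3501_4) (q_cons (Vale.Agent.P032.Lt.q R0Q169.q3501_5) (q_cons (Vale.Agent.P032.Lt.q R0Q169.q3501_6) (q_cons (Vale.Agent.P032.Lt.q R0Q169.q3501_7) (q_cons (Vale.Agent.P032.Lt.q R0Q169.q3501_8)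 (q_cons (Vale.Agent.P032.Lt.q R0Q169.q3501_9) (q_cons (Vale.Agent.P032.Lt.q R0Q169.q3501_10) (q_cons (Vale.Agent.P032.Lt.q R0Q169.q3501_11) (q_cons (Vale.Agent.P032.Lt.q R0Q169.q3501_12) (q_cons (Vale.Agent.P032.Lt.q R0Q169.q3501_13) (q_cons (Vale.Agent.P032.Lt.q R0Q169.q3501_14) (q_cons (Vale.Agent.P032.Lt.q R0Q169.q3501_15) (q_cons (Vale.Agent.P032.Lt.q R0Q169.q3501_16) q_nil))))))))))))))))))

theorem p3502 : Pat 73 73 TBm TCm (CB.map Fm) R0Q169.P3502 R0Q169.I3502 := Vale.Agent.P032.Lt.pat_eq (E' := R0Q169.E) eB (pat_step (by decide +kernel) (q_cons (Vale.Agent.P032.Lt.q R0Q169.q3502_0) (q_cons (Vale.Agent.P032.Lt.q R0Q169.q3502_1) (q_cons (Vale.Agent.P032.Lt.q R0Q169.q3502_2) (q_cons (Vale.Agent.P032.Lt.q R0Q169.q3502_3) (q_cons (Vale.Agent.P032.Lt.q R0Q169.q3502_4) (q_cons (Vale.Agent.P032.Lt.q R0Q169.q3502_5) q_nil)))))))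

theorem p3503 : Pat 73 73 TBm TCm (CB.map Fm) R0Q169.P3503 R0Q169.I3503 := Vale.Agent.P032.Lt.pat_eq (E' := R0Q169.E) eB (pat_step (by decide +kernel) (q_cons (Vale.Agent.P032.Lt.q R0Q169.q3503_0) q_nil))

theorem p3504 : Pat 73 73 TBm TCm (CB.map Fm) R0Q169.P3504 R0Q169.I3504 := Vale.Agent.P032.Lt.pat_eq (E' := R0Q169.E) eB (pat_step (by decide +kernel) (q_cons (Vale.Agent.P032.Lt.q R0Q169.q3504_0) (q_cons (Vale.Agent.P032.Lt.q R0Q169.q3504_1) (q_cons (Vale.Agent.P032.Lt.q R0Q169.q3504_2) q_nil))))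

theorem p3505 : Pat 73 73 TBm TCm (CB.map Fm) R0Q169.P3505 R0Q169.I3505 := Vale.Agent.P032.Lt.pat_eq (E' := R0Q169.E) eB (pat_step (by decide +kernel) (q_cons (Vale.Agent.P032.Lt.q R0Q169.q3505_0) (q_cons (Vale.Agent.P032.Lt.q R0Q169.q3505_1) (q_cons (Vale.Agent.P032.Lt.q R0Q169.q3505_2) (q_cons (Vale.Agent.P032.Lt.q R0Q169.q3505_3) (q_cons (Vale.Agent.P032.Lt.q R0Q169.q3505_4) (q_cons (Vale.Agent.P032.Lt.q R0Q169.q3505_5) q_nil)))))))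

theorem p3506 : Pat 73 73 TBm TCm (CB.map Fm) R0Q169.P3506 R0Q169.I3506 := Vale.Agent.P032.Lt.pat_eq (E' := R0Q169.E) eB (pat_step (by decide +kernel) (q_cons (Vale.Agent.P032.Lt.q R0Q169.q3506_0) (q_cons (Vale.Agent.P032.Lt.q R0Q169.q3506_1) q_nil)))

theorem p3507 : Pat 73 73 TBm TCm (CB.map Fm) R0Q169.P3507 R0Q169.I3507 := Vale.Agent.P032.Lt.pat_eq (E' := R0Q169.E) eB (pat_step (by decide +kernel) (q_cons (Vale.Agent.P032.Lt.q R0Q169.q3507_0) (q_cons (Vale.Agent.P032.Lt.q R0Q169.q3507_1) (q_cons (Vale.Agent.P032.Lt.q R0Q169.q3507_2) (q_cons (Vale.Agent.P032.Lt.q R0Q169.q3507_3) (q_cons (Vale.Agent.P032.Lt.q R0Q169.q3507_4) (q_cons (Vale.Agent.P032.Lt.q R0Q169.q3507_5) (q_cons (Vale.Agent.P032.Lt.q R0Q169.q3507_6) (q_cons (Vale.Agent.P032.Lt.q R0Q169.q3507_7) (q_cons (Vale.Agent.P032.Lt.q R0Q169.q3507_8) (q_cons (Vale.Agent.P032.Lt.q R0Q169.q3507_9)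 (q_cons (Vale.Agent.P032.Lt.q R0Q169.q3507_10) (q_cons (Vale.Agent.P032.Lt.q R0Q169.q3507_11) (q_cons (Vale.Agent.P032.Lt.q R0Q169.q3507_12) (q_cons (Vale.Agent.P032.Lt.q R0Q169.q3507_13) (q_cons (Vale.Agent.P032.Lt.q R0Q169.q3507_14) q_nil))))))))))))))))

theorem p3508 : Pat 73 73 TBm TCm (CB.map Fm) R0Q169.P3508 R0Q169.I3508 := Vale.Agent.P032.Lt.pat_eq (E' := R0Q169.E) eB (pat_step (by decide +kernel) (q_cons (Vale.Agent.P032.Lt.q R0Q169.q3508_0) (q_cons (Vale.Agent.P032.Lt.q R0Q169.q3508_1) (q_cons (Vale.Agent.P032.Lt.q R0Q169.q3508_2) (q_cons (Vale.Agent.P032.Lt.q R0Q169.q3508_3) (q_cons (Vale.Agent.P032.Lt.q R0Q169.q3508_4) (q_cons (Vale.Agent.P032.Lt.q R0Q169.q3508_5) (q_cons (Vale.Agent.P032.Lt.q R0Q169.q3508_6) (q_cons (Vale.Agent.P032.Lt.q R0Q169.q3508_7) q_nil)))))))))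

theorem p3509 : Pat 73 73 TBm TCm (CB.map Fm) R0Q170.P3509 R0Q170.I3509 := Vale.Agent.P032.Lt.pat_eq (E' := R0Q170.E) eB (pat_step (by decide +kernel) (q_cons (Vale.Agent.P032.Lt.q R0Q170.q3509_0) (q_cons (Vale.Agent.P032.Lt.q R0Q170.q3509_1) (q_cons (Vale.Agent.P032.Lt.q R0Q170.q3509_2) (q_cons (Vale.Agent.P032.Lt.q R0Q170.q3509_3) (q_cons (Vale.Agent.P032.Lt.q R0Q170.q3509_4) (q_cons (Vale.Agent.P032.Lt.q R0Q170.q3509_5) (q_cons (Vale.Agent.P032.Lt.q R0Q170.q3509_6) (q_cons (Vale.Agent.P032.Lt.q R0Q170.q3509_7) (q_cons (Vale.Agent.P032.Lt.q R0Q170.q3509_8) (q_cons (Vale.Agent.P032.Lt.q R0Q170.q3509_9) (q_cons (Vale.Agent.P032.Lt.q R0Q170.q3509_10) (q_cons (Vale.Agent.P032.Lt.q R0Q170.q3509_11) (q_cons (Vale.Agent.P032.Lt.q R0Q170.q3509_12) q_nil))))))))))))))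

theorem p3510 : Pat 73 73 TBm TCm (CB.map Fm) R0Q170.P3510 R0Q170.I3510 := Vale.Agent.P032.Lt.pat_eq (E' := R0Q170.E) eB (pat_step (by decide +kernel) (q_cons (Vale.Agent.P032.Lt.q R0Q170.q3510_0) q_nil))

theorem p3511 : Pat 73 73 TBm TCm (CB.map Fm) R0Q170.P3511 R0Q170.I3511 := Vale.Agent.P032.Lt.pat_eq (E' := R0Q170.E) eB (pat_step (by decide +kernel) (q_cons (Vale.Agent.P032.Lt.q R0Q170.q3511_0) q_nil))

theorem p3512 : Pat 73 73 TBm TCm (CB.map Fm) R0Q170.P3512 R0Q170.I3512 := Vale.Agent.P032.Lt.pat_eq (E' := R0Q170.E) eB (pat_step (by decide +kernel) (q_cons (Vale.Agent.P032.Lt.q R0Q170.q3512_0) (q_cons (Vale.Agent.P032.Lt.q R0Q170.q3512_1) (q_cons (Vale.Agent.P032.Lt.q R0Q170.q3512_2) (q_cons (Vale.Agent.P032.Lt.q R0Q170.q3512_3) (q_cons (Vale.Agent.P032.Lt.q R0Q170.q3512_4) (q_cons (Vale.Agent.P032.Lt.q R0Q170.q3512_5) (q_cons (Vale.Agent.P032.Lt.q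 R0Q170.q3512_6) q_nil))))))))

theorem p3513 : Pat 73 73 TBm TCm (CB.map Fm) R0Q170.P3513 R0Q170.I3513 := Vale.Agent.P032.Lt.pat_eq (E' := R0Q170.E) eB (pat_step (by decide +kernel) (q_cons (Vale.Agent.P032.Lt.q R0Q170.q3513_0) (q_cons (Vale.Agent.P032.Lt.q R0Q170.q3513_1) (q_cons (Vale.Agent.P032.Lt.q R0Q170.q3513_2) (q_cons (Vale.Agent.P032.Lt.q R0Q170.q3513_3) (q_cons (Vale.Agent.P032.Lt.q R0Q170.q3513_4) (q_cons (Vale.Agent.P032.Lt.q R0Q170.q3513_5) (q_cons (Vale.Agent.P032.Lt.q R0Q170.q3513_6) (q_cons (Vale.Agent.P032.Lt.q R0Q170.q3513_7) (q_cons (Vale.Agent.P032.Lt.q R0Q170.q3513_8) (q_cons (Vale.Agent.P032.Lt.q R0Q170.q3513_9) (q_cons (Vale.Agent.P032.Lt.q R0Q170.q3513_10) q_nil))))))))))))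

theorem p3514 : Pat 73 73 TBm TCm (CB.map Fm) R0Q170.P3514 R0Q170.I3514 := Vale.Agent.P032.Lt.pat_eq (E' := R0Q170.E) eB (pat_step (by decide +kernel) (q_cons (Vale.Agent.P032.Lt.q R0Q170.q3514_0) (q_cons (Vale.Agent.P032.Lt.q R0Q170.q3514_1) (q_cons (Vale.Agent.P032.Lt.q R0Q170.q3514_2) (q_cons (Vale.Agent.P032.Lt.q R0Q170.q3514_3) (q_cons (Vale.Agent.P032.Lt.q R0Q170.q3514_4) (q_cons (Vale.Agent.P032.Lt.q R0Q170.q3514_5) (q_cons (Vale.Agent.P032.Lt.q R0Q170.q3514_6) (q_cons (Vale.Agent.P032.Lt.q R0Q170.q3514_7) (q_cons (Vale.Agent.P032.Lt.q R0Q170.q3514_8) (q_cons (Vale.Agent.P032.Lt.q R0Q170.q3514_9) (q_cons (Vale.Agent.P032.Lt.q R0Q170.q3514_10) (q_cons (Vale.Agent.P032.Lt.q R0Q170.q3514_11) (q_cons (Vale.Agent.P032.Lt.q R0Q170.q3514_12) (q_cons (Vale.Agent.P032.Lt.q R0Q170.q3514_13) (q_cons (Vale.Agent.P032.Lt.q R0Q170.q3514_14) (q_cons (Vale.Agent.P032.Lt.q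 R0Q170.q3514_15) (q_cons (Vale.Agent.P032.Lt.q R0Q170.q3514_16) (q_cons (Vale.Agent.P032.Lt.q R0Q170.q3514_17) (q_cons (Vale.Agent.P032.Lt.q R0Q170.q3514_18) (q_cons (Vale.Agent.P032.Lt.q R0Q170.q3514_19) (q_cons (Vale.Agent.P032.Lt.q R0Q170.q3514_20) q_nil))))))))))))))))))))))

theorem p3515 : Pat 73 73 TBm TCm (CB.map Fm) R0Q170.P3515 R0Q170.I3515 := Vale.Agent.P032.Lt.pat_eq (E' := R0Q170.E) eB (pat_step (by decide +kernel) (q_cons (Vale.Agent.P032.Lt.q R0Q170.q3515_0) (q_cons (Vale.Agent.P032.Lt.q R0Q170.q3515_1) (q_cons (Vale.Agent.P032.Lt.q R0Q170.q3515_2) q_nil))))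

theorem p3516 : Pat 73 73 TBm TCm (CB.map Fm) R0Q170.P3516 R0Q170.I3516 := Vale.Agent.P032.Lt.pat_eq (E' := R0Q170.E) eB (pat_step (by decide +kernel) (q_cons (Vale.Agent.P032.Lt.q R0Q170.q3516_0) (q_cons (Vale.Agent.P032.Lt.q R0Q170.q3516_1) (q_cons (Vale.Agent.P032.Lt.q R0Q170.q3516_2) (q_cons (Vale.Agent.P032.Lt.q R0Q170.q3516_3) (q_cons (Vale.Agent.P032.Lt.q R0Q170.q3516_4) q_nil))))))

theorem p3517 : Pat 73 73 TBm TCm (CB.map Fm) R0Q170.P3517 R0Q170.I3517 := Vale.Agent.P032.Lt.pat_eq (E' := R0Q170.E) eB (pat_step (by decide +kernel) (q_cons (Vale.Agent.P032.Lt.q R0Q170.q3517_0) (q_cons (Vale.Agent.P032.Lt.q R0Q170.q3517_1) (q_cons (Vale.Agent.P032.Lt.q R0Q170.q3517_2) (q_cons (Vale.Agent.P032.Lt.q R0Q170.q3517_3) (q_cons (Vale.Agent.P032.Lt.q R0Q170.q3517_4) (q_cons (Vale.Agent.P032.Lt.q R0Q170.q3517_5) (q_cons (Vale.Agent.P032.Lt.q R0Q170.q3517_6)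 (q_cons (Vale.Agent.P032.Lt.q R0Q170.q3517_7) q_nil)))))))))

theorem p3518 : Pat 73 73 TBm TCm (CB.map Fm) R0Q170.P3518 R0Q170.I3518 := Vale.Agent.P032.Lt.pat_eq (E' := R0Q170.E) eB (pat_step (by decide +kernel) (q_cons (Vale.Agent.P032.Lt.q R0Q170.q3518_0) (q_cons (Vale.Agent.P032.Lt.q R0Q170.q3518_1) (q_cons (Vale.Agent.P032.Lt.q R0Q170.q3518_2) (q_cons (Vale.Agent.P032.Lt.q R0Q170.q3518_3) q_nil)))))

theorem p3519 : Pat 73 73 TBm TCm (CB.map Fm) R0Q170.P3519 R0Q170.I3519 := Vale.Agent.P032.Lt.pat_eq (E' := R0Q170.E) eB (pat_step (by decide +kernel) (q_cons (Vale.Agent.P032.Lt.q R0Q170.q3519_0) q_nil))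

theorem p3520 : Pat 73 73 TBm TCm (CB.map Fm) R0Q170.P3520 R0Q170.I3520 := Vale.Agent.P032.Lt.pat_eq (E' := R0Q170.E) eB (pat_step (by decide +kernel) (q_cons (Vale.Agent.P032.Lt.q R0Q170.q3520_0) (q_cons (Vale.Agent.P032.Lt.q R0Q170.q3520_1) (q_cons (Vale.Agent.P032.Lt.q R0Q170.q3520_2) (q_cons (Vale.Agent.P032.Lt.q R0Q170.q3520_3) (q_cons (Vale.Agent.P032.Lt.q R0Q170.q3520_4) (q_cons (Vale.Agent.P032.Lt.q R0Q170.q3520_5) q_nil)))))))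

theorem p3521 : Pat 73 73 TBm TCm (CB.map Fm) R0Q170.P3521 R0Q170.I3521 := Vale.Agent.P032.Lt.pat_eq (E' := R0Q170.E) eB (pat_step (by decide +kernel) (q_cons (Vale.Agent.P032.Lt.q R0Q170.q3521_0) (q_cons (Vale.Agent.P032.Lt.q R0Q170.q3521_1) (q_cons (Vale.Agent.P032.Lt.q R0Q170.q3521_2) (q_cons (Vale.Agent.P032.Lt.q R0Q170.q3521_3) (q_cons (Vale.Agent.P032.Lt.q R0Q170.q3521_4) (q_cons (Vale.Agent.P032.Lt.q R0Q170.q3521_5) q_nil)))))))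

theorem p3522 : Pat 73 73 TBm TCm (CB.map Fm) R0Q170.P3522 R0Q170.I3522 := Vale.Agent.P032.Lt.pat_eq (E' := R0Q170.E) eB (pat_step (by decide +kernel) (q_cons (Vale.Agent.P032.Lt.q R0Q170.q3522_0) (q_cons (Vale.Agent.P032.Lt.q R0Q170.q3522_1) (q_cons (Vale.Agent.P032.Lt.q R0Q170.q3522_2) (q_cons (Vale.Agent.P032.Lt.q R0Q170.q3522_3) (q_cons (Vale.Agent.P032.Lt.q R0Q170.q3522_4) (q_cons (Vale.Agent.P032.Lt.q R0Q170.q3522_5) (q_cons (Vale.Agent.P032.Lt.q R0Q170.q3522_6) (q_cons (Vale.Agent.P032.Lt.q R0Q170.q3522_7) (q_cons (Vale.Agent.P032.Lt.q R0Q170.q3522_8) (q_cons (Vale.Agent.P032.Lt.q R0Q170.q3522_9) (q_cons (Vale.Agent.P032.Lt.q R0Q170.q3522_10) (q_cons (Vale.Agent.P032.Lt.q R0Q170.q3522_11) (q_cons (Vale.Agent.P032.Lt.q R0Q170.q3522_12) q_nil))))))))))))))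

theorem p3523 : Pat 73 73 TBm TCm (CB.map Fm) R0Q170.P3523 R0Q170.I3523 := Vale.Agent.P032.Lt.pat_eq (E' := R0Q170.E) eB (pat_step (by decide +kernel) (q_cons (Vale.Agent.P032.Lt.q R0Q170.q3523_0) (q_cons (Vale.Agent.P032.Lt.q R0Q170.q3523_1) (q_cons (Vale.Agent.P032.Lt.q R0Q170.q3523_2) (q_cons (Vale.Agent.P032.Lt.q R0Q170.q3523_3) (q_cons (Vale.Agent.P032.Lt.q R0Q170.q3523_4) (q_cons (Vale.Agent.P032.Lt.q R0Q170.q3523_5) (q_cons (Vale.Agent.P032.Lt.q R0Q170.q3523_6) q_nil))))))))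

theorem p3524 : Pat 73 73 TBm TCm (CB.map Fm) R0Q170.P3524 R0Q170.I3524 := Vale.Agent.P032.Lt.pat_eq (E' := R0Q170.E) eB (pat_step (by decide +kernel) (q_cons (Vale.Agent.P032.Lt.q R0Q170.q3524_0) q_nil))

theorem p3525 : Pat 73 73 TBm TCm (CB.map Fm) R0Q170.P3525 R0Q170.I3525 := Vale.Agent.P032.Lt.pat_eq (E' := R0Q170.E) eB (pat_step (by decide +kernel) (q_cons (Vale.Agent.P032.Lt.q R0Q170.q3525_0) (q_cons (Vale.Agent.P032.Lt.q R0Q170.q3525_1) q_nil)))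

theorem p3526 : Pat 73 73 TBm TCm (CB.map Fm) R0Q170.P3526 R0Q170.I3526 := Vale.Agent.P032.Lt.pat_eq (E' := R0Q170.E) eB (pat_step (by decide +kernel) (q_cons (Vale.Agent.P032.Lt.q R0Q170.q3526_0) (q_cons (Vale.Agent.P032.Lt.q R0Q170.q3526_1) q_nil)))

theorem p3527 : Pat 73 73 TBm TCm (CB.map Fm) R0Q170.P3527 R0Q170.I3527 := Vale.Agent.P032.Lt.pat_eq (E' := R0Q170.E) eB (pat_step (by decide +kernel) (q_cons (Vale.Agent.P032.Lt.q R0Q170.q3527_0) (q_cons (Vale.Agent.P032.Lt.q R0Q170.q3527_1) (q_cons (Vale.Agent.P032.Lt.q R0Q170.q3527_2) (q_cons (Vale.Agent.P032.Lt.q R0Q170.q3527_3) (q_cons (Vale.Agent.P032.Lt.q R0Q170.q3527_4) (q_cons (Vale.Agent.P032.Lt.q R0Q170.q3527_5) (q_cons (Vale.Agent.P032.Lt.q R0Q170.q3527_6) (q_cons (Vale.Agent.P032.Lt.q R0Q170.q3527_7) (q_cons (Vale.Agent.P032.Lt.q R0Q170.q3527_8) q_nil))))))))))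

theorem p3528 : Pat 73 73 TBm TCm (CB.map Fm) R0Q170.P3528 R0Q170.I3528 := Vale.Agent.P032.Lt.pat_eq (E' := R0Q170.E) eB (pat_step (by decide +kernel) (q_cons (Vale.Agent.P032.Lt.q R0Q170.q3528_0) (q_cons (Vale.Agent.P032.Lt.q R0Q170.q3528_1) (q_cons (Vale.Agent.P032.Lt.q R0Q170.q3528_2) (q_cons (Vale.Agent.P032.Lt.q R0Q170.q3528_3) (q_cons (Vale.Agent.P032.Lt.q R0Q170.q3528_4) (q_cons (Vale.Agent.P032.Lt.q R0Q170.q3528_5) (q_cons (Vale.Agent.P032.Lt.q R0Q170.q3528_6) (q_cons (Vale.Agent.P032.Lt.q R0Q170.q3528_7) q_nil)))))))))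

def C3529 : List ℕ := [0, 4, 8, 12, 16, 20, 24, 81921]
theorem p3529 : Pat 73 73 TBm TCm (C3529.map Fm) R0Q171.P3529 R0Q171.I3529 := Vale.Agent.P032.Lt.pat_eq (E' := R0Q171.E3529) (by decide +kernel) (pat_step (by decide +kernel) (q_cons (Vale.Agent.P032.Lt.q R0Q171.q3529_0) (q_cons (Vale.Agent.P032.Lt.q R0Q171.q3529_1) (q_cons (Vale.Agent.P032.Lt.q R0Q171.q3529_2) (q_cons (Vale.Agent.P032.Lt.q R0Q171.q3529_3) (q_cons (Vale.Agent.P032.Lt.q R0Q171.q3529_4) (q_cons (Vale.Agent.P032.Lt.q R0Q171.q3529_5) (q_cons (Vale.Agent.P032.Lt.q R0Q171.q3529_6) q_nil))))))))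

theorem p3530 : Pat 73 73 TBm TCm (CB.map Fm) R0Q171.P3530 R0Q171.I3530 := Vale.Agent.P032.Lt.pat_eq (E' := R0Q171.E) eB (pat_step (by decide +kernel) (q_cons (Vale.Agent.P032.Lt.q R0Q171.q3530_0) (q_cons (Vale.Agent.P032.Lt.q R0Q171.q3530_1) (q_cons (Vale.Agent.P032.Lt.q R0Q171.q3530_2) (q_cons (Vale.Agent.P032.Lt.q R0Q171.q3530_3) q_nil)))))

def C3531 : List ℕ := [0, 4, 8, 12, 16, 20, 24, 486401, 606209, 737281]
theorem p3531 : Pat 73 73 TBm TCm (C3531.map Fm) R0Q171.P3531 R0Q171.I3531 := Vale.Agent.P032.Lt.pat_eq (E' := R0Q171.E3531) (by decide +kernel) (pat_step (by decide +kernel) (q_cons (Vale.Agent.P032.Lt.q R0Q171.q3531_0) q_nil))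

def C3532 : List ℕ := [0, 4, 8, 12, 16, 20, 24, 353281, 486401, 606209, 737281]
theorem p3532 : Pat 73 73 TBm TCm (C3532.map Fm) R0Q171.P3532 R0Q171.I3532 := Vale.Agent.P032.Lt.pat_eq (E' := R0Q171.E3532) (by decide +kernel) (pat_step (by decide +kernel) (q_cons (Vale.Agent.P032.Lt.q R0Q171.q3532_0) q_nil))

def C3533 : List ℕ := [0, 4, 8, 12, 16, 20, 24, 476161, 606209]
theorem p3533 : Pat 73 73 TBm TCm (C3533.map Fm) R0Q171.P3533 R0Q171.I3533 := Vale.Agent.P032.Lt.pat_eq (E' := R0Q171.E3533) (by decide +kernel) (pat_step (by decide +kernel) (q_cons (Vale.Agent.P032.Lt.q R0Q171.q3533_0) (q_cons (Vale.Agent.P032.Lt.q R0Q171.q3533_1) (q_cons (Vale.Agent.P032.Lt.q R0Q171.q3533_2) q_nil))))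

theorem p3534 : Pat 73 73 TBm TCm (CB.map Fm) R0Q171.P3534 R0Q171.I3534 := Vale.Agent.P032.Lt.pat_eq (E' := R0Q171.E) eB (pat_step (by decide +kernel) (q_cons (Vale.Agent.P032.Lt.q R0Q171.q3534_0) q_nil))

theorem p3535 : Pat 73 73 TBm TCm (CB.map Fm) R0Q171.P3535 R0Q171.I3535 := Vale.Agent.P032.Lt.pat_eq (E' := R0Q171.E) eB (pat_step (by decide +kernel) (q_cons (Vale.Agent.P032.Lt.q R0Q171.q3535_0) (q_cons (Vale.Agent.P032.Lt.q R0Q171.q3535_1) (q_cons (Vale.Agent.P032.Lt.q R0Q171.q3535_2) (q_cons (Vale.Agent.P032.Lt.q R0Q171.q3535_3) (q_cons (Vale.Agent.P032.Lt.q R0Q171.q3535_4) (q_cons (Vale.Agent.P032.Lt.q R0Q171.q3535_5) (q_cons (Vale.Agent.P032.Lt.q R0Q171.q3535_6) (q_cons (Vale.Agent.P032.Lt.q R0Q171.q3535_7) q_nil)))))))))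

theorem p3536 : Pat 73 73 TBm TCm (CB.map Fm) R0Q171.P3536 R0Q171.I3536 := Vale.Agent.P032.Lt.pat_eq (E' := R0Q171.E) eB (pat_step (by decide +kernel) (q_cons (Vale.Agent.P032.Lt.q R0Q171.q3536_0) (q_cons (Vale.Agent.P032.Lt.q R0Q171.q3536_1) q_nil)))

theorem p3537 : Pat 73 73 TBm TCm (CB.map Fm) R0Q171.P3537 R0Q171.I3537 := Vale.Agent.P032.Lt.pat_eq (E' := R0Q171.E) eB (pat_step (by decide +kernel) (q_cons (Vale.Agent.P032.Lt.q R0Q171.q3537_0) (q_cons (Vale.Agent.P032.Lt.q R0Q171.q3537_1) (q_cons (Vale.Agent.P032.Lt.q R0Q171.q3537_2) (q_cons (Vale.Agent.P032.Lt.q R0Q171.q3537_3) (q_cons (Vale.Agent.P032.Lt.q R0Q171.q3537_4) (q_cons (Vale.Agent.P032.Lt.q R0Q171.q3537_5) (q_cons (Vale.Agent.P032.Lt.q R0Q171.q3537_6) (q_cons (Vale.Agent.P032.Lt.q R0Q171.q3537_7) q_nil)))))))))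

theorem p3538 : Pat 73 73 TBm TCm (CB.map Fm) R0Q171.P3538 R0Q171.I3538 := Vale.Agent.P032.Lt.pat_eq (E' := R0Q171.E) eB (pat_step (by decide +kernel) (q_cons (Vale.Agent.P032.Lt.q R0Q171.q3538_0) (q_cons (Vale.Agent.P032.Lt.q R0Q171.q3538_1) (q_cons (Vale.Agent.P032.Lt.q R0Q171.q3538_2) (q_cons (Vale.Agent.P032.Lt.q R0Q171.q3538_3) (q_cons (Vale.Agent.P032.Lt.q R0Q171.q3538_4) (q_cons (Vale.Agent.P032.Lt.q R0Q171.q3538_5) (q_cons (Vale.Agent.P032.Lt.q R0Q171.q3538_6) q_nil))))))))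

theorem p3539 : Pat 73 73 TBm TCm (CB.map Fm) R0Q171.P3539 R0Q171.I3539 := Vale.Agent.P032.Lt.pat_eq (E' := R0Q171.E) eB (pat_step (by decide +kernel) (q_cons (Vale.Agent.P032.Lt.q R0Q171.q3539_0) (q_cons (Vale.Agent.P032.Lt.q R0Q171.q3539_1) (q_cons (Vale.Agent.P032.Lt.q R0Q171.q3539_2) (q_cons (Vale.Agent.P032.Lt.q R0Q171.q3539_3) (q_cons (Vale.Agent.P032.Lt.q R0Q171.q3539_4) (q_cons (Vale.Agent.P032.Lt.q R0Q171.q3539_5) (q_cons (Vale.Agent.P032.Lt.q R0Q171.q3539_6) (q_cons (Vale.Agent.P032.Lt.q R0Q171.q3539_7) (q_cons (Vale.Agent.P032.Lt.q R0Q171.q3539_8) (q_cons (Vale.Agent.P032.Lt.q R0Q171.q3539_9) q_nil)))))))))))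

theorem p3540 : Pat 73 73 TBm TCm (CB.map Fm) R0Q171.P3540 R0Q171.I3540 := Vale.Agent.P032.Lt.pat_eq (E' := R0Q171.E) eB (pat_step (by decide +kernel) (q_cons (Vale.Agent.P032.Lt.q R0Q171.q3540_0) (q_cons (Vale.Agent.P032.Lt.q R0Q171.q3540_1) (q_cons (Vale.Agent.P032.Lt.q R0Q171.q3540_2) (q_cons (Vale.Agent.P032.Lt.q R0Q171.q3540_3) (q_cons (Vale.Agent.P032.Lt.q R0Q171.q3540_4) (q_cons (Vale.Agent.P032.Lt.q R0Q171.q3540_5) (q_cons (Vale.Agent.P032.Lt.q R0Q171.q3540_6) q_nil))))))))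

theorem p3541 : Pat 73 73 TBm TCm (CB.map Fm) R0Q171.P3541 R0Q171.I3541 := Vale.Agent.P032.Lt.pat_eq (E' := R0Q171.E) eB (pat_step (by decide +kernel) (q_cons (Vale.Agent.P032.Lt.q R0Q171.q3541_0) (q_cons (Vale.Agent.P032.Lt.q R0Q171.q3541_1) q_nil)))

theorem p3542 : Pat 73 73 TBm TCm (CB.map Fm) R0Q171.P3542 R0Q171.I3542 := Vale.Agent.P032.Lt.pat_eq (E' := R0Q171.E) eB (pat_step (by decide +kernel) (q_cons (Vale.Agent.P032.Lt.q R0Q171.q3542_0) (q_cons (Vale.Agent.P032.Lt.q R0Q171.q3542_1) q_nil)))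

theorem p3543 : Pat 73 73 TBm TCm (CB.map Fm) R0Q171.P3543 R0Q171.I3543 := Vale.Agent.P032.Lt.pat_eq (E' := R0Q171.E) eB (pat_step (by decide +kernel) (q_cons (Vale.Agent.P032.Lt.q R0Q171.q3543_0) (q_cons (Vale.Agent.P032.Lt.q R0Q171.q3543_1) q_nil)))

theorem p3544 : Pat 73 73 TBm TCm (CB.map Fm) R0Q171.P3544 R0Q171.I3544 := Vale.Agent.P032.Lt.pat_eq (E' := R0Q171.E) eB (pat_step (by decide +kernel) (q_cons (Vale.Agent.P032.Lt.q R0Q171.q3544_0) (q_cons (Vale.Agent.P032.Lt.q R0Q171.q3544_1) q_nil)))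

def C3545 : List ℕ := [0, 4, 8, 12, 16, 20, 24, 607233, 609281, 737281]
theorem p3545 : Pat 73 73 TBm TCm (C3545.map Fm) R0Q171.P3545 R0Q171.I3545 := Vale.Agent.P032.Lt.pat_eq (E' := R0Q171.E3545) (by decide +kernel) (pat_step (by decide +kernel) (q_cons (Vale.Agent.P032.Lt.q R0Q171.q3545_0) q_nil))

theorem p3546 : Pat 73 73 TBm TCm (CB.map Fm) R0Q171.P3546 R0Q171.I3546 := Vale.Agent.P032.Lt.pat_eq (E' := R0Q171.E) eB (pat_step (by decide +kernel) (q_cons (Vale.Agent.P032.Lt.q R0Q171.q3546_0) (q_cons (Vale.Agent.P032.Lt.q R0Q171.q3546_1) (q_cons (Vale.Agent.P032.Lt.q R0Q171.q3546_2) (q_cons (Vale.Agent.P032.Lt.q R0Q171.q3546_3) q_nil)))))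

theorem p3547 : Pat 73 73 TBm TCm (CB.map Fm) R0Q171.P3547 R0Q171.I3547 := Vale.Agent.P032.Lt.pat_eq (E' := R0Q171.E) eB (pat_step (by decide +kernel) (q_cons (Vale.Agent.P032.Lt.q R0Q171.q3547_0) q_nil))

theorem p3548 : Pat 73 73 TBm TCm (CB.map Fm) R0Q171.P3548 R0Q171.I3548 := Vale.Agent.P032.Lt.pat_eq (E' := R0Q171.E) eB (pat_step (by decide +kernel) (q_cons (Vale.Agent.P032.Lt.q R0Q171.q3548_0) (q_cons (Vale.Agent.P032.Lt.q R0Q171.q3548_1) q_nil)))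

theorem p3549 : Pat 73 73 TBm TCm (CB.map Fm) R0Q171.P3549 R0Q171.I3549 := Vale.Agent.P032.Lt.pat_eq (E' := R0Q171.E) eB (pat_step (by decide +kernel) (q_cons (Vale.Agent.P032.Lt.q R0Q171.q3549_0) (q_cons (Vale.Agent.P032.Lt.q R0Q171.q3549_1) q_nil)))

theorem p3550 : Pat 73 73 TBm TCm (CB.map Fm) R0Q171.P3550 R0Q171.I3550 := Vale.Agent.P032.Lt.pat_eq (E' := R0Q171.E) eB (pat_step (by decide +kernel) (q_cons (Vale.Agent.P032.Lt.q R0Q171.q3550_0) (q_cons (Vale.Agent.P032.Lt.q R0Q171.q3550_1) (q_cons (Vale.Agent.P032.Lt.q R0Q171.q3550_2) (q_cons (Vale.Agent.P032.Lt.q R0Q171.q3550_3) (q_cons (Vale.Agent.P032.Lt.q R0Q171.q3550_4) (q_cons (Vale.Agent.P032.Lt.q R0Q171.q3550_5) (q_cons (Vale.Agent.P032.Lt.q R0Q171.q3550_6) (q_cons (Vale.Agent.P032.Lt.q R0Q171.q3550_7) (q_cons (Vale.Agent.P032.Lt.q R0Q171.q3550_8) (q_cons (Vale.Agent.P032.Lt.q R0Q171.q3550_9)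 (q_cons (Vale.Agent.P032.Lt.q R0Q171.q3550_10) (q_cons (Vale.Agent.P032.Lt.q R0Q171.q3550_11) (q_cons (Vale.Agent.P032.Lt.q R0Q171.q3550_12) (q_cons (Vale.Agent.P032.Lt.q R0Q171.q3550_13) q_nil)))))))))))))))

theorem p3551 : Pat 73 73 TBm TCm (CB.map Fm) R0Q171.P3551 R0Q171.I3551 := Vale.Agent.P032.Lt.pat_eq (E' := R0Q171.E) eB (pat_step (by decide +kernel) (q_cons (Vale.Agent.P032.Lt.q R0Q171.q3551_0) q_nil))

theorem p3552 : Pat 73 73 TBm TCm (CB.map Fm) R0Q171.P3552 R0Q171.I3552 := Vale.Agent.P032.Lt.pat_eq (E' := R0Q171.E) eB (pat_step (by decide +kernel) (q_cons (Vale.Agent.P032.Lt.q R0Q171.q3552_0) (q_cons (Vale.Agent.P032.Lt.q R0Q171.q3552_1) (q_cons (Vale.Agent.P032.Lt.q R0Q171.q3552_2) (q_cons (Vale.Agent.P032.Lt.q R0Q171.q3552_3) (q_cons (Vale.Agent.P032.Lt.q R0Q171.q3552_4) q_nil))))))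

theorem p3553 : Pat 73 73 TBm TCm (CB.map Fm) R0Q172.P3553 R0Q172.I3553 := Vale.Agent.P032.Lt.pat_eq (E' := R0Q172.E) eB (pat_step (by decide +kernel) (q_cons (Vale.Agent.P032.Lt.q R0Q172.q3553_0) (q_cons (Vale.Agent.P032.Lt.q R0Q172.q3553_1) (q_cons (Vale.Agent.P032.Lt.q R0Q172.q3553_2) (q_cons (Vale.Agent.P032.Lt.q R0Q172.q3553_3) (q_cons (Vale.Agent.P032.Lt.q R0Q172.q3553_4) (q_cons (Vale.Agent.P032.Lt.q R0Q172.q3553_5) (q_cons (Vale.Agent.P032.Lt.q R0Q172.q3553_6) (q_cons (Vale.Agent.P032.Lt.q R0Q172.q3553_7) (q_cons (Vale.Agent.P032.Lt.q R0Q172.q3553_8) (q_cons (Vale.Agent.P032.Lt.q R0Q172.q3553_9) (q_cons (Vale.Agent.P032.Lt.q R0Q172.q3553_10) q_nil))))))))))))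

theorem p3554 : Pat 73 73 TBm TCm (CB.map Fm) R0Q172.P3554 R0Q172.I3554 := Vale.Agent.P032.Lt.pat_eq (E' := R0Q172.E) eB (pat_step (by decide +kernel) (q_cons (Vale.Agent.P032.Lt.q R0Q172.q3554_0) (q_cons (Vale.Agent.P032.Lt.q R0Q172.q3554_1) (q_cons (Vale.Agent.P032.Lt.q R0Q172.q3554_2) (q_cons (Vale.Agent.P032.Lt.q R0Q172.q3554_3) q_nil)))))

theorem p3555 : Pat 73 73 TBm TCm (CB.map Fm) R0Q172.P3555 R0Q172.I3555 := Vale.Agent.P032.Lt.pat_eq (E' := R0Q172.E) eB (pat_step (by decide +kernel) (q_cons (Vale.Agent.P032.Lt.q R0Q172.q3555_0) (q_cons (Vale.Agent.P032.Lt.q R0Q172.q3555_1) q_nil)))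

theorem p3556 : Pat 73 73 TBm TCm (CB.map Fm) R0Q172.P3556 R0Q172.I3556 := Vale.Agent.P032.Lt.pat_eq (E' := R0Q172.E) eB (pat_step (by decide +kernel) (q_cons (Vale.Agent.P032.Lt.q R0Q172.q3556_0) q_nil))

theorem p3557 : Pat 73 73 TBm TCm (CB.map Fm) R0Q172.P3557 R0Q172.I3557 := Vale.Agent.P032.Lt.pat_eq (E' := R0Q172.E) eB (pat_step (by decide +kernel) (q_cons (Vale.Agent.P032.Lt.q R0Q172.q3557_0) (q_cons (Vale.Agent.P032.Lt.q R0Q172.q3557_1) q_nil)))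

theorem p3558 : Pat 73 73 TBm TCm (CB.map Fm) R0Q172.P3558 R0Q172.I3558 := Vale.Agent.P032.Lt.pat_eq (E' := R0Q172.E) eB (pat_step (by decide +kernel) (q_cons (Vale.Agent.P032.Lt.q R0Q172.q3558_0) (q_cons (Vale.Agent.P032.Lt.q R0Q172.q3558_1) (q_cons (Vale.Agent.P032.Lt.q R0Q172.q3558_2) (q_cons (Vale.Agent.P032.Lt.q R0Q172.q3558_3) (q_cons (Vale.Agent.P032.Lt.q R0Q172.q3558_4) (q_cons (Vale.Agent.P032.Lt.q R0Q172.q3558_5) q_nil)))))))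

theorem p3559 : Pat 73 73 TBm TCm (CB.map Fm) R0Q172.P3559 R0Q172.I3559 := Vale.Agent.P032.Lt.pat_eq (E' := R0Q172.E) eB (pat_step (by decide +kernel) (q_cons (Vale.Agent.P032.Lt.q R0Q172.q3559_0) q_nil))

theorem p3560 : Pat 73 73 TBm TCm (CB.map Fm) R0Q172.P3560 R0Q172.I3560 := Vale.Agent.P032.Lt.pat_eq (E' := R0Q172.E) eB (pat_step (by decide +kernel) (q_cons (Vale.Agent.P032.Lt.q R0Q172.q3560_0) (q_cons (Vale.Agent.P032.Lt.q R0Q172.q3560_1) (q_cons (Vale.Agent.P032.Lt.q R0Q172.q3560_2) (q_cons (Vale.Agent.P032.Lt.q R0Q172.q3560_3) (q_cons (Vale.Agent.P032.Lt.q R0Q172.q3560_4) (q_cons (Vale.Agent.P032.Lt.q R0Q172.q3560_5) q_nil)))))))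

theorem p3561 : Pat 73 73 TBm TCm (CB.map Fm) R0Q172.P3561 R0Q172.I3561 := Vale.Agent.P032.Lt.pat_eq (E' := R0Q172.E) eB (pat_step (by decide +kernel) (q_cons (Vale.Agent.P032.Lt.q R0Q172.q3561_0) (q_cons (Vale.Agent.P032.Lt.q R0Q172.q3561_1) (q_cons (Vale.Agent.P032.Lt.q R0Q172.q3561_2) (q_cons (Vale.Agent.P032.Lt.q R0Q172.q3561_3) q_nil)))))

theorem p3562 : Pat 73 73 TBm TCm (CB.map Fm) R0Q172.P3562 R0Q172.I3562 := Vale.Agent.P032.Lt.pat_eq (E' := R0Q172.E) eB (pat_step (by decide +kernel) (q_cons (Vale.Agent.P032.Lt.q R0Q172.q3562_0) (q_cons (Vale.Agent.P032.Lt.q R0Q172.q3562_1) (q_cons (Vale.Agent.P032.Lt.q R0Q172.q3562_2) (q_cons (Vale.Agent.P032.Lt.q R0Q172.q3562_3) (q_cons (Vale.Agent.P032.Lt.q R0Q172.q3562_4) (q_cons (Vale.Agent.P032.Lt.q R0Q172.q3562_5) q_nil)))))))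

theorem p3563 : Pat 73 73 TBm TCm (CB.map Fm) R0Q172.P3563 R0Q172.I3563 := Vale.Agent.P032.Lt.pat_eq (E' := R0Q172.E) eB (pat_step (by decide +kernel) (q_cons (Vale.Agent.P032.Lt.q R0Q172.q3563_0) (q_cons (Vale.Agent.P032.Lt.q R0Q172.q3563_1) (q_cons (Vale.Agent.P032.Lt.q R0Q172.q3563_2) q_nil))))

theorem p3564 : Pat 73 73 TBm TCm (CB.map Fm) R0Q172.P3564 R0Q172.I3564 := Vale.Agent.P032.Lt.pat_eq (E' := R0Q172.E) eB (pat_step (by decide +kernel) (q_cons (Vale.Agent.P032.Lt.q R0Q172.q3564_0) (q_cons (Vale.Agent.P032.Lt.q R0Q172.q3564_1) q_nil)))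

theorem p3565 : Pat 73 73 TBm TCm (CB.map Fm) R0Q172.P3565 R0Q172.I3565 := Vale.Agent.P032.Lt.pat_eq (E' := R0Q172.E) eB (pat_step (by decide +kernel) (q_cons (Vale.Agent.P032.Lt.q R0Q172.q3565_0) (q_cons (Vale.Agent.P032.Lt.q R0Q172.q3565_1) (q_cons (Vale.Agent.P032.Lt.q R0Q172.q3565_2) (q_cons (Vale.Agent.P032.Lt.q R0Q172.q3565_3) (q_cons (Vale.Agent.P032.Lt.q R0Q172.q3565_4) (q_cons (Vale.Agent.P032.Lt.q R0Q172.q3565_5) (q_cons (Vale.Agent.P032.Lt.q R0Q172.q3565_6) (q_cons (Vale.Agent.P032.Lt.q R0Q172.q3565_7) (q_cons (Vale.Agent.P032.Lt.q R0Q172.q3565_8) (q_cons (Vale.Agent.P032.Lt.q R0Q172.q3565_9) q_nil)))))))))))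

theorem p3566 : Pat 73 73 TBm TCm (CB.map Fm) R0Q172.P3566 R0Q172.I3566 := Vale.Agent.P032.Lt.pat_eq (E' := R0Q172.E) eB (pat_step (by decide +kernel) (q_cons (Vale.Agent.P032.Lt.q R0Q172.q3566_0) (q_cons (Vale.Agent.P032.Lt.q R0Q172.q3566_1) (q_cons (Vale.Agent.P032.Lt.q R0Q172.q3566_2) q_nil))))

theorem p3567 : Pat 73 73 TBm TCm (CB.map Fm) R0Q172.P3567 R0Q172.I3567 := Vale.Agent.P032.Lt.pat_eq (E' := R0Q172.E) eB (pat_step (by decide +kernel) (q_cons (Vale.Agent.P032.Lt.q R0Q172.q3567_0) (q_cons (Vale.Agent.P032.Lt.q R0Q172.q3567_1) q_nil)))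

def C3568 : List ℕ := [0, 4, 8, 12, 16, 20, 24, 475137, 737281]
theorem p3568 : Pat 73 73 TBm TCm (C3568.map Fm) R0Q172.P3568 R0Q172.I3568 := Vale.Agent.P032.Lt.pat_eq (E' := R0Q172.E3568) (by decide +kernel) (pat_step (by decide +kernel) (q_cons (Vale.Agent.P032.Lt.q R0Q172.q3568_0) (q_cons (Vale.Agent.P032.Lt.q R0Q172.q3568_1) (q_cons (Vale.Agent.P032.Lt.q R0Q172.q3568_2) (q_cons (Vale.Agent.P032.Lt.q R0Q172.q3568_3) (q_cons (Vale.Agent.P032.Lt.q R0Q172.q3568_4) q_nil))))))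

theorem p3569 : Pat 73 73 TBm TCm (CB.map Fm) R0Q172.P3569 R0Q172.I3569 := Vale.Agent.P032.Lt.pat_eq (E' := R0Q172.E) eB (pat_step (by decide +kernel) (q_cons (Vale.Agent.P032.Lt.q R0Q172.q3569_0) (q_cons (Vale.Agent.P032.Lt.q R0Q172.q3569_1) (q_cons (Vale.Agent.P032.Lt.q R0Q172.q3569_2) (q_cons (Vale.Agent.P032.Lt.q R0Q172.q3569_3) (q_cons (Vale.Agent.P032.Lt.q R0Q172.q3569_4) (q_cons (Vale.Agent.P032.Lt.q R0Q172.q3569_5) (q_cons (Vale.Agent.P032.Lt.q R0Q172.q3569_6) (q_cons (Vale.Agent.P032.Lt.q R0Q172.q3569_7) (q_cons (Vale.Agent.P032.Lt.q R0Q172.q3569_8) (q_cons (Vale.Agent.P032.Lt.q R0Q172.q3569_9) (q_cons (Vale.Agent.P032.Lt.q R0Q172.q3569_10) (q_cons (Vale.Agent.P032.Lt.q R0Q172.q3569_11) (q_cons (Vale.Agent.P032.Lt.q R0Q172.q3569_12) (q_cons (Vale.Agent.P032.Lt.q R0Q172.q3569_13) (q_cons (Vale.Agent.P032.Lt.q R0Q172.q3569_14) (q_cons (Vale.Agent.P032.Lt.q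 R0Q172.q3569_15) (q_cons (Vale.Agent.P032.Lt.q R0Q172.q3569_16) (q_cons (Vale.Agent.P032.Lt.q R0Q172.q3569_17) (q_cons (Vale.Agent.P032.Lt.q R0Q172.q3569_18) (q_cons (Vale.Agent.P032.Lt.q R0Q172.q3569_19) (q_cons (Vale.Agent.P032.Lt.q R0Q172.q3569_20) (q_cons (Vale.Agent.P032.Lt.q R0Q172.q3569_21) (q_cons (Vale.Agent.P032.Lt.q R0Q172.q3569_22) q_nil))))))))))))))))))))))))

theorem p3570 : Pat 73 73 TBm TCm (CB.map Fm) R0Q172.P3570 R0Q172.I3570 := Vale.Agent.P032.Lt.pat_eq (E' := R0Q172.E) eB (pat_step (by decide +kernel) (q_cons (Vale.Agent.P032.Lt.q R0Q172.q3570_0) (q_cons (Vale.Agent.P032.Lt.q R0Q172.q3570_1) (q_cons (Vale.Agent.P032.Lt.q R0Q172.q3570_2) (q_cons (Vale.Agent.P032.Lt.q R0Q172.q3570_3) (q_cons (Vale.Agent.P032.Lt.q R0Q172.q3570_4) (q_cons (Vale.Agent.P032.Lt.q R0Q172.q3570_5) (q_cons (Vale.Agent.P032.Lt.q R0Q172.q3570_6) (q_cons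 (Vale.Agent.P032.Lt.q R0Q172.q3570_7) (q_cons (Vale.Agent.P032.Lt.q R0Q172.q3570_8) (q_cons (Vale.Agent.P032.Lt.q R0Q172.q3570_9) (q_cons (Vale.Agent.P032.Lt.q R0Q172.q3570_10) (q_cons (Vale.Agent.P032.Lt.q R0Q172.q3570_11) (q_cons (Vale.Agent.P032.Lt.q R0Q172.q3570_12) (q_cons (Vale.Agent.P032.Lt.q R0Q172.q3570_13) (q_cons (Vale.Agent.P032.Lt.q R0Q172.q3570_14) q_nil))))))))))))))))

theorem p3571 : Pat 73 73 TBm TCm (CB.map Fm) R0Q172.P3571 R0Q172.I3571 := Vale.Agent.P032.Lt.pat_eq (E' := R0Q172.E) eB (pat_step (by decide +kernel) (q_cons (Vale.Agent.P032.Lt.q R0Q172.q3571_0) (q_cons (Vale.Agent.P032.Lt.q R0Q172.q3571_1) (q_cons (Vale.Agent.P032.Lt.q R0Q172.q3571_2) (q_cons (Vale.Agent.P032.Lt.q R0Q172.q3571_3) (q_cons (Vale.Agent.P032.Lt.q R0Q172.q3571_4) (q_cons (Vale.Agent.P032.Lt.q R0Q172.q3571_5) (q_cons (Vale.Agent.P032.Lt.q R0Q172.q3571_6)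 (q_cons (Vale.Agent.P032.Lt.q R0Q172.q3571_7) (q_cons (Vale.Agent.P032.Lt.q R0Q172.q3571_8) (q_cons (Vale.Agent.P032.Lt.q R0Q172.q3571_9) (q_cons (Vale.Agent.P032.Lt.q R0Q172.q3571_10) (q_cons (Vale.Agent.P032.Lt.q R0Q172.q3571_11) (q_cons (Vale.Agent.P032.Lt.q R0Q172.q3571_12) (q_cons (Vale.Agent.P032.Lt.q R0Q172.q3571_13) (q_cons (Vale.Agent.P032.Lt.q R0Q172.q3571_14) (q_cons (Vale.Agent.P032.Lt.q R0Q172.q3571_15) (q_cons (Vale.Agent.P032.Lt.q R0Q172.q3571_16) (q_cons (Vale.Agent.P032.Lt.q R0Q172.q3571_17) (q_cons (Vale.Agent.P032.Lt.q R0Q172.q3571_18) (q_cons (Vale.Agent.P032.Lt.q R0Q172.q3571_19) (q_cons (Vale.Agent.P032.Lt.q R0Q172.q3571_20) (q_cons (Vale.Agent.P032.Lt.q R0Q172.q3571_21) (q_cons (Vale.Agent.P032.Lt.q R0Q172.q3571_22) (q_cons (Vale.Agent.P032.Lt.q R0Q172.q3571_23) (q_cons (Vale.Agent.P032.Lt.q R0Q172.q3571_24) (q_cons (Vale.Agent.P032.Lt.q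 R0Q172.q3571_25) (q_cons (Vale.Agent.P032.Lt.q R0Q172.q3571_26) (q_cons (Vale.Agent.P032.Lt.q R0Q172.q3571_27) (q_cons (Vale.Agent.P032.Lt.q R0Q172.q3571_28) (q_cons (Vale.Agent.P032.Lt.q R0Q172.q3571_29) (q_cons (Vale.Agent.P032.Lt.q R0Q172.q3571_30) q_nil))))))))))))))))))))))))))))))))

def C3572 : List ℕ := [0, 4, 8, 12, 16, 20, 24, 216065, 741377]
theorem p3572 : Pat 73 73 TBm TCm (C3572.map Fm) R0Q172.P3572 R0Q172.I3572 := Vale.Agent.P032.Lt.pat_eq (E' := R0Q172.E3572) (by decide +kernel) (pat_step (by decide +kernel) (q_cons (Vale.Agent.P032.Lt.q R0Q172.q3572_0) (q_cons (Vale.Agent.P032.Lt.q R0Q172.q3572_1) (q_cons (Vale.Agent.P032.Lt.q R0Q172.q3572_2) (q_cons (Vale.Agent.P032.Lt.q R0Q172.q3572_3) q_nil)))))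

def C3573 : List ℕ := [0, 4, 8, 12, 16, 20, 24, 216065, 222209, 741377]
theorem p3573 : Pat 73 73 TBm TCm (C3573.map Fm) R0Q172.P3573 R0Q172.I3573 := Vale.Agent.P032.Lt.pat_eq (E' := R0Q172.E3573) (by decide +kernel) (pat_step (by decide +kernel) (q_cons (Vale.Agent.P032.Lt.q R0Q172.q3573_0) (q_cons (Vale.Agent.P032.Lt.q R0Q172.q3573_1) (q_cons (Vale.Agent.P032.Lt.q R0Q172.q3573_2) (q_cons (Vale.Agent.P032.Lt.q R0Q172.q3573_3) (q_cons (Vale.Agent.P032.Lt.q R0Q172.q3573_4) (q_cons (Vale.Agent.P032.Lt.q R0Q172.q3573_5) (q_cons (Vale.Agent.P032.Lt.q R0Q172.q3573_6) q_nil))))))))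

theorem p3574 : Pat 73 73 TBm TCm (CB.map Fm) R0Q173.P3574 R0Q173.I3574 := Vale.Agent.P032.Lt.pat_eq (E' := R0Q173.E) eB (pat_step (by decide +kernel) (q_cons (Vale.Agent.P032.Lt.q R0Q173.q3574_0) (q_cons (Vale.Agent.P032.Lt.q R0Q173.q3574_1) (q_cons (Vale.Agent.P032.Lt.q R0Q173.q3574_2) (q_cons (Vale.Agent.P032.Lt.q R0Q173.q3574_3) q_nil)))))

theorem p3575 : Pat 73 73 TBm TCm (CB.map Fm) R0Q173.P3575 R0Q173.I3575 := Vale.Agent.P032.Lt.pat_eq (E' := R0Q173.E) eB (pat_step (by decide +kernel) (q_cons (Vale.Agent.P032.Lt.q R0Q173.q3575_0) q_nil))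

theorem p3576 : Pat 73 73 TBm TCm (CB.map Fm) R0Q173.P3576 R0Q173.I3576 := Vale.Agent.P032.Lt.pat_eq (E' := R0Q173.E) eB (pat_step (by decide +kernel) (q_cons (Vale.Agent.P032.Lt.q R0Q173.q3576_0) (q_cons (Vale.Agent.P032.Lt.q R0Q173.q3576_1) (q_cons (Vale.Agent.P032.Lt.q R0Q173.q3576_2) q_nil))))

theorem p3577 : Pat 73 73 TBm TCm (CB.map Fm) R0Q173.P3577 R0Q173.I3577 := Vale.Agent.P032.Lt.pat_eq (E' := R0Q173.E) eB (pat_step (by decide +kernel) (q_cons (Vale.Agent.P032.Lt.q R0Q173.q3577_0) (q_cons (Vale.Agent.P032.Lt.q R0Q173.q3577_1) (q_cons (Vale.Agent.P032.Lt.q R0Q173.q3577_2) (q_cons (Vale.Agent.P032.Lt.q R0Q173.q3577_3) (q_cons (Vale.Agent.P032.Lt.q R0Q173.q3577_4) (q_cons (Vale.Agent.P032.Lt.q R0Q173.q3577_5) q_nil)))))))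

theorem p3578 : Pat 73 73 TBm TCm (CB.map Fm) R0Q173.P3578 R0Q173.I3578 := Vale.Agent.P032.Lt.pat_eq (E' := R0Q173.E) eB (pat_step (by decide +kernel) (q_cons (Vale.Agent.P032.Lt.q R0Q173.q3578_0) (q_cons (Vale.Agent.P032.Lt.q R0Q173.q3578_1) q_nil)))

theorem p3579 : Pat 73 73 TBm TCm (CB.map Fm) R0Q173.P3579 R0Q173.I3579 := Vale.Agent.P032.Lt.pat_eq (E' := R0Q173.E) eB (pat_step (by decide +kernel) (q_cons (Vale.Agent.P032.Lt.q R0Q173.q3579_0) (q_cons (Vale.Agent.P032.Lt.q R0Q173.q3579_1) (q_cons (Vale.Agent.P032.Lt.q R0Q173.q3579_2) (q_cons (Vale.Agent.P032.Lt.q R0Q173.q3579_3) (q_cons (Vale.Agent.P032.Lt.q R0Q173.q3579_4) (q_cons (Vale.Agent.P032.Lt.q R0Q173.q3579_5) q_nil)))))))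

def C3580 : List ℕ := [0, 4, 8, 12, 16, 20, 24, 212993, 475137, 737281]
theorem p3580 : Pat 73 73 TBm TCm (C3580.map Fm) R0Q173.P3580 R0Q173.I3580 := Vale.Agent.P032.Lt.pat_eq (E' := R0Q173.E3580) (by decide +kernel) (pat_step (by decide +kernel) (q_cons (Vale.Agent.P032.Lt.q R0Q173.q3580_0) (q_cons (Vale.Agent.P032.Lt.q R0Q173.q3580_1) (q_cons (Vale.Agent.P032.Lt.q R0Q173.q3580_2) (q_cons (Vale.Agent.P032.Lt.q R0Q173.q3580_3) q_nil)))))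

theorem p3581 : Pat 73 73 TBm TCm (CB.map Fm) R0Q173.P3581 R0Q173.I3581 := Vale.Agent.P032.Lt.pat_eq (E' := R0Q173.E) eB (pat_step (by decide +kernel) (q_cons (Vale.Agent.P032.Lt.q R0Q173.q3581_0) (q_cons (Vale.Agent.P032.Lt.q R0Q173.q3581_1) (q_cons (Vale.Agent.P032.Lt.q R0Q173.q3581_2) q_nil))))

theorem p3582 : Pat 73 73 TBm TCm (CB.map Fm) R0Q173.P3582 R0Q173.I3582 := Vale.Agent.P032.Lt.pat_eq (E' := R0Q173.E) eB (pat_step (by decide +kernel) (q_cons (Vale.Agent.P032.Lt.q R0Q173.q3582_0) (q_cons (Vale.Agent.P032.Lt.q R0Q173.q3582_1) q_nil)))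

theorem p3583 : Pat 73 73 TBm TCm (CB.map Fm) R0Q173.P3583 R0Q173.I3583 := Vale.Agent.P032.Lt.pat_eq (E' := R0Q173.E) eB (pat_step (by decide +kernel) (q_cons (Vale.Agent.P032.Lt.q R0Q173.q3583_0) (q_cons (Vale.Agent.P032.Lt.q R0Q173.q3583_1) (q_cons (Vale.Agent.P032.Lt.q R0Q173.q3583_2) (q_cons (Vale.Agent.P032.Lt.q R0Q173.q3583_3) q_nil)))))

def L : List (List ℕ) := [R0Q168.P3456, R0Q168.P3457, R0Q168.P3458, R0Q168.P3459, R0Q168.P3460, R0Q168.P3461, R0Q168.P3462, R0Q168.P3463, R0Q168.P3464, R0Q168.P3465, R0Q168.P3466, R0Q168.P3467, R0Q168.P3468, R0Q168.P3469, R0Q168.P3470, R0Q168.P3471, R0Q168.P3472, R0Q168.P3473, R0Q168.P3474, R0Q168.P3475, R0Q168.P3476, R0Q168.P3477, R0Q168.P3478, R0Q168.P3479, R0Q168.P3480, R0Q168.P3481, R0Q168.P3482, R0Q168.P3483, R0Q168.P3484, R0Q169.P3485, R0Q169.P3486, R0Q169.P3487, R0Q169.P3488, R0Q169.P3489, R0Q169.P3490,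 R0Q169.P3491, R0Q169.P3492, R0Q169.P3493, R0Q169.P3494, R0Q169.P3495, R0Q169.P3496, R0Q169.P3497, R0Q169.P3498, R0Q169.P3499, R0Q169.P3500, R0Q169.P3501, R0Q169.P3502, R0Q169.P3503, R0Q169.P3504, R0Q169.P3505, R0Q169.P3506, R0Q169.P3507, R0Q169.P3508, R0Q170.P3509, R0Q170.P3510, R0Q170.P3511, R0Q170.P3512, R0Q170.P3513, R0Q170.P3514, R0Q170.P3515, R0Q170.P3516, R0Q170.P3517, R0Q170.P3518, R0Q170.P3519, R0Q170.P3520, R0Q170.P3521, R0Q170.P3522, R0Q170.P3523, R0Q170.P3524, R0Q170.P3525, R0Q170.P3526, R0Q170.P3527, R0Q170.P3528, R0Q171.P3529, R0Q171.P3530, R0Q171.P3531, R0Q171.P3532, R0Q171.P3533, R0Q171.P3534, R0Q171.P3535, R0Q171.P3536, R0Q171.P3537, R0Q171.P3538, R0Q171.P3539, R0Q171.P3540, R0Q171.P3541, R0Q171.P3542, R0Q171.P3543, R0Q171.P3544, R0Q171.P3545, R0Q171.P3546, R0Q171.P3547, R0Q171.P3548, R0Q171.P3549, R0Q171.P3550, R0Q171.P3551, R0Q171.P3552,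 R0Q172.P3553, R0Q172.P3554, R0Q172.P3555, R0Q172.P3556, R0Q172.P3557, R0Q172.P3558, R0Q172.P3559, R0Q172.P3560, R0Q172.P3561, R0Q172.P3562, R0Q172.P3563, R0Q172.P3564, R0Q172.P3565, R0Q172.P3566, R0Q172.P3567, R0Q172.P3568, R0Q172.P3569, R0Q172.P3570, R0Q172.P3571, R0Q172.P3572, R0Q172.P3573, R0Q173.P3574, R0Q173.P3575, R0Q173.P3576, R0Q173.P3577, R0Q173.P3578, R0Q173.P3579, R0Q173.P3580, R0Q173.P3581, R0Q173.P3582, R0Q173.P3583]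

theorem all : ∀ P ∈ L, CrtF 73 73 TBm TCm (Vale.Agent.P032.Fam.fam2 (Vale.Agent.P032.Fam.im0)) P := crtF_cons p3456 (crtF_cons p3457 (crtF_cons p3458 (crtF_cons p3459 (crtF_cons p3460 (crtF_cons p3461 (crtF_cons p3462 (crtF_cons p3463 (crtF_cons p3464 (crtF_cons p3465 (crtF_cons p3466 (crtF_cons p3467 (crtF_cons p3468 (crtF_cons p3469 (crtF_cons p3470 (crtF_cons p3471 (crtF_cons p3472 (crtF_cons p3473 (crtF_cons p3474 (crtF_cons p3475 (crtF_cons p3476 (crtF_cons p3477 (crtF_cons p3478 (crtF_cons p3479 (crtF_cons p3480 (crtF_cons p3481 (crtF_cons p3482 (crtF_cons p3483 (crtF_cons p3484 (crtF_cons p3485 (crtF_cons p3486 (crtF_cons p3487 (crtF_cons p3488 (crtF_cons p3489 (crtF_cons p3490 (crtF_cons p3491 (crtF_cons p3492 (crtF_cons p3493 (crtF_cons p3494 (crtF_cons p3495 (crtF_cons p3496 (crtF_cons p3497 (crtF_cons p3498 (crtF_cons p3499 (crtF_cons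 p3500 (crtF_cons p3501 (crtF_cons p3502 (crtF_cons p3503 (crtF_cons p3504 (crtF_cons p3505 (crtF_cons p3506 (crtF_cons p3507 (crtF_cons p3508 (crtF_cons p3509 (crtF_cons p3510 (crtF_cons p3511 (crtF_cons p3512 (crtF_cons p3513 (crtF_cons p3514 (crtF_cons p3515 (crtF_cons p3516 (crtF_cons p3517 (crtF_cons p3518 (crtF_cons p3519 (crtF_cons p3520 (crtF_cons p3521 (crtF_cons p3522 (crtF_cons p3523 (crtF_cons p3524 (crtF_cons p3525 (crtF_cons p3526 (crtF_cons p3527 (crtF_cons p3528 (crtF_cons p3529 (crtF_cons p3530 (crtF_cons p3531 (crtF_cons p3532 (crtF_cons p3533 (crtF_cons p3534 (crtF_cons p3535 (crtF_cons p3536 (crtF_cons p3537 (crtF_cons p3538 (crtF_cons p3539 (crtF_cons p3540 (crtF_cons p3541 (crtF_cons p3542 (crtF_cons p3543 (crtF_cons p3544 (crtF_cons p3545 (crtF_cons p3546 (crtF_cons p3547 (crtF_cons p3548 (crtF_cons p3549 (crtF_cons p3550 (crtF_cons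 p3551 (crtF_cons p3552 (crtF_cons p3553 (crtF_cons p3554 (crtF_cons p3555 (crtF_cons p3556 (crtF_cons p3557 (crtF_cons p3558 (crtF_cons p3559 (crtF_cons p3560 (crtF_cons p3561 (crtF_cons p3562 (crtF_cons p3563 (crtF_cons p3564 (crtF_cons p3565 (crtF_cons p3566 (crtF_cons p3567 (crtF_cons p3568 (crtF_cons p3569 (crtF_cons p3570 (crtF_cons p3571 (crtF_cons p3572 (crtF_cons p3573 (crtF_cons p3574 (crtF_cons p3575 (crtF_cons p3576 (crtF_cons p3577 (crtF_cons p3578 (crtF_cons p3579 (crtF_cons p3580 (crtF_cons p3581 (crtF_cons p3582 (crtF_cons p3583 crtF_nil)))))))))))))))))))))))))))))))))))))))))))))))))))))))))))))))))))))))))))))))))))))))))))))))))))))))))))))))))))))))))))))))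

theorem ch : chT 73 73 TCm s0_027 L = true := by decide +kernel

end Vale.Agent.P032X.Cert.XP.B1.R0H027
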