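import Vale.Agent.P032X.H892.LtH
import Vale.Agent.P032X.H286.W73
import Vale.Agent.P032X.Cert.XP.B1.R0T
import Vale.Agent.P032X.Cert.XP.B1.R0Q182
import Vale.Agent.P032X.Cert.XP.B1.R0Q183
import Vale.Agent.P032X.Cert.XP.B1.R0Q184
import Vale.Agent.P032X.Cert.XP.B1.R0Q185
import Vale.Agent.P032X.Cert.XP.B1.R0Q186
import Vale.Agent.P032X.Cert.XP.B1.R0Q187

set_option maxRecDepth 1000000

namespace Vale.Agent.P032X.Cert.XP.B1.R0H029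

open Vale.Agent.P032.H820.K Vale.Agent.P032.H357.MK Vale.Agent.P032.H286.E Vale.Agent.P032.H61 Vale.Agent.P032X.Cert.XP.B1

noncomputable abbrev Fm : ℕ → List ℕ := Vale.Agent.P032.Fam.fam2 (Vale.Agent.P032.Fam.im0)

def CB : List ℕ := [0, 4, 8, 12, 16, 20, 24]

theorem eB : Vale.Agent.P032.Lt.eqLL (CB.map Fm) R0Q182.E = true := by decide +kernel

theorem p3712 : Pat 73 73 TBm TCm (CB.map Fm) R0Q182.P3712 R0Q182.I3712 := Vale.Agent.P032.Lt.pat_eq (E' := R0Q182.E) eB (pat_step (by decide +kernel) (q_cons (Vale.Agent.P032.Lt.q R0Q182.q3712_0) (q_cons (Vale.Agent.P032.Lt.q R0Q182.q3712_1) (q_cons (Vale.Agent.P032.Lt.q R0Q182.q3712_2) q_nil))))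

theorem p3713 : Pat 73 73 TBm TCm (CB.map Fm) R0Q182.P3713 R0Q182.I3713 := Vale.Agent.P032.Lt.pat_eq (E' := R0Q182.E) eB (pat_step (by decide +kernel) (q_cons (Vale.Agent.P032.Lt.q R0Q182.q3713_0) (q_cons (Vale.Agent.P032.Lt.q R0Q182.q3713_1) (q_cons (Vale.Agent.P032.Lt.q R0Q182.q3713_2) (q_cons (Vale.Agent.P032.Lt.q R0Q182.q3713_3) q_nil)))))

theorem p3714 : Pat 73 73 TBm TCm (CB.map Fm) R0Q182.P3714 R0Q182.I3714 := Vale.Agent.P032.Lt.pat_eq (E' := R0Q182.E) eB (pat_step (by decide +kernel) (q_cons (Vale.Agent.P032.Lt.q R0Q182.q3714_0) (q_cons (Vale.Agent.P032.Lt.q R0Q182.q3714_1) (q_cons (Vale.Agent.P032.Lt.q R0Q182.q3714_2) (q_cons (Vale.Agent.P032.Lt.q R0Q182.q3714_3) (q_cons (Vale.Agent.P032.Lt.q R0Q182.q3714_4) (q_cons (Vale.Agent.P032.Lt.q R0Q182.q3714_5) q_nil)))))))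

theorem p3715 : Pat 73 73 TBm TCm (CB.map Fm) R0Q182.P3715 R0Q182.I3715 := Vale.Agent.P032.Lt.pat_eq (E' := R0Q182.E) eB (pat_step (by decide +kernel) (q_cons (Vale.Agent.P032.Lt.q R0Q182.q3715_0) (q_cons (Vale.Agent.P032.Lt.q R0Q182.q3715_1) (q_cons (Vale.Agent.P032.Lt.q R0Q182.q3715_2) (q_cons (Vale.Agent.P032.Lt.q R0Q182.q3715_3) (q_cons (Vale.Agent.P032.Lt.q R0Q182.q3715_4) (q_cons (Vale.Agent.P032.Lt.q R0Q182.q3715_5) (q_cons (Vale.Agent.P032.Lt.q R0Q182.q3715_6) q_nil))))))))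

theorem p3716 : Pat 73 73 TBm TCm (CB.map Fm) R0Q182.P3716 R0Q182.I3716 := Vale.Agent.P032.Lt.pat_eq (E' := R0Q182.E) eB (pat_step (by decide +kernel) (q_cons (Vale.Agent.P032.Lt.q R0Q182.q3716_0) (q_cons (Vale.Agent.P032.Lt.q R0Q182.q3716_1) (q_cons (Vale.Agent.P032.Lt.q R0Q182.q3716_2) (q_cons (Vale.Agent.P032.Lt.q R0Q182.q3716_3) q_nil)))))

theorem p3717 : Pat 73 73 TBm TCm (CB.map Fm) R0Q182.P3717 R0Q182.I3717 := Vale.Agent.P032.Lt.pat_eq (E' := R0Q182.E) eB (pat_step (by decide +kernel) (q_cons (Vale.Agent.P032.Lt.q R0Q182.q3717_0) (q_cons (Vale.Agent.P032.Lt.q R0Q182.q3717_1) (q_cons (Vale.Agent.P032.Lt.q R0Q182.q3717_2) (q_cons (Vale.Agent.P032.Lt.q R0Q182.q3717_3) (q_cons (Vale.Agent.P032.Lt.q R0Q182.q3717_4) (q_cons (Vale.Agent.P032.Lt.q R0Q182.q3717_5) (q_cons (Vale.Agent.P032.Lt.q R0Q182.q3717_6) (q_cons (Vale.Agent.P032.Lt.q R0Q182.q3717_7)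 (q_cons (Vale.Agent.P032.Lt.q R0Q182.q3717_8) (q_cons (Vale.Agent.P032.Lt.q R0Q182.q3717_9) q_nil)))))))))))

theorem p3718 : Pat 73 73 TBm TCm (CB.map Fm) R0Q182.P3718 R0Q182.I3718 := Vale.Agent.P032.Lt.pat_eq (E' := R0Q182.E) eB (pat_step (by decide +kernel) (q_cons (Vale.Agent.P032.Lt.q R0Q182.q3718_0) (q_cons (Vale.Agent.P032.Lt.q R0Q182.q3718_1) (q_cons (Vale.Agent.P032.Lt.q R0Q182.q3718_2) (q_cons (Vale.Agent.P032.Lt.q R0Q182.q3718_3) (q_cons (Vale.Agent.P032.Lt.q R0Q182.q3718_4) (q_cons (Vale.Agent.P032.Lt.q R0Q182.q3718_5) (q_cons (Vale.Agent.P032.Lt.q R0Q182.q3718_6) (q_cons (Vale.Agent.P032.Lt.q R0Q182.q3718_7) (q_cons (Vale.Agent.P032.Lt.q R0Q182.q3718_8) (q_cons (Vale.Agent.P032.Lt.q R0Q182.q3718_9) q_nil)))))))))))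

theorem p3719 : Pat 73 73 TBm TCm (CB.map Fm) R0Q182.P3719 R0Q182.I3719 := Vale.Agent.P032.Lt.pat_eq (E' := R0Q182.E) eB (pat_step (by decide +kernel) (q_cons (Vale.Agent.P032.Lt.q R0Q182.q3719_0) (q_cons (Vale.Agent.P032.Lt.q R0Q182.q3719_1) (q_cons (Vale.Agent.P032.Lt.q R0Q182.q3719_2) (q_cons (Vale.Agent.P032.Lt.q R0Q182.q3719_3) (q_cons (Vale.Agent.P032.Lt.q R0Q182.q3719_4) (q_cons (Vale.Agent.P032.Lt.q R0Q182.q3719_5) (q_cons (Vale.Agent.P032.Lt.q R0Q182.q3719_6) (q_cons (Vale.Agent.P032.Lt.q R0Q182.q3719_7) (q_cons (Vale.Agent.P032.Lt.q R0Q182.q3719_8) q_nil))))))))))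

theorem p3720 : Pat 73 73 TBm TCm (CB.map Fm) R0Q182.P3720 R0Q182.I3720 := Vale.Agent.P032.Lt.pat_eq (E' := R0Q182.E) eB (pat_step (by decide +kernel) (q_cons (Vale.Agent.P032.Lt.q R0Q182.q3720_0) (q_cons (Vale.Agent.P032.Lt.q R0Q182.q3720_1) (q_cons (Vale.Agent.P032.Lt.q R0Q182.q3720_2) (q_cons (Vale.Agent.P032.Lt.q R0Q182.q3720_3) (q_cons (Vale.Agent.P032.Lt.q R0Q182.q3720_4) q_nil))))))

theorem p3721 : Pat 73 73 TBm TCm (CB.map Fm) R0Q182.P3721 R0Q182.I3721 := Vale.Agent.P032.Lt.pat_eq (E' := R0Q182.E) eB (pat_step (by decide +kernel) (q_cons (Vale.Agent.P032.Lt.q R0Q182.q3721_0) (q_cons (Vale.Agent.P032.Lt.q R0Q182.q3721_1) (q_cons (Vale.Agent.P032.Lt.q R0Q182.q3721_2) (q_cons (Vale.Agent.P032.Lt.q R0Q182.q3721_3) q_nil)))))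

def C3722 : List ℕ := [0, 4, 8, 12, 16, 20, 24, 737281]
theorem p3722 : Pat 73 73 TBm TCm (C3722.map Fm) R0Q182.P3722 R0Q182.I3722 := Vale.Agent.P032.Lt.pat_eq (E' := R0Q182.E3722) (by decide +kernel) (pat_step (by decide +kernel) (q_cons (Vale.Agent.P032.Lt.q R0Q182.q3722_0) (q_cons (Vale.Agent.P032.Lt.q R0Q182.q3722_1) (q_cons (Vale.Agent.P032.Lt.q R0Q182.q3722_2) (q_cons (Vale.Agent.P032.Lt.q R0Q182.q3722_3) (q_cons (Vale.Agent.P032.Lt.q R0Q182.q3722_4) (q_cons (Vale.Agent.P032.Lt.q R0Q182.q3722_5) (q_cons (Vale.Agent.P032.Lt.q R0Q182.q3722_6) (q_cons (Vale.Agent.P032.Lt.q R0Q182.q3722_7) (q_cons (Vale.Agent.P032.Lt.q R0Q182.q3722_8) (q_cons (Vale.Agent.P032.Lt.q R0Q182.q3722_9) (q_cons (Vale.Agent.P032.Lt.q R0Q182.q3722_10) (q_cons (Vale.Agent.P032.Lt.q R0Q182.q3722_11) (q_cons (Vale.Agent.P032.Lt.q R0Q182.q3722_12) (q_cons (Vale.Agent.P032.Lt.q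 R0Q182.q3722_13) (q_cons (Vale.Agent.P032.Lt.q R0Q182.q3722_14) (q_cons (Vale.Agent.P032.Lt.q R0Q182.q3722_15) (q_cons (Vale.Agent.P032.Lt.q R0Q182.q3722_16) (q_cons (Vale.Agent.P032.Lt.q R0Q182.q3722_17) (q_cons (Vale.Agent.P032.Lt.q R0Q182.q3722_18) (q_cons (Vale.Agent.P032.Lt.q R0Q182.q3722_19) (q_cons (Vale.Agent.P032.Lt.q R0Q182.q3722_20) (q_cons (Vale.Agent.P032.Lt.q R0Q182.q3722_21) (q_cons (Vale.Agent.P032.Lt.q R0Q182.q3722_22) (q_cons (Vale.Agent.P032.Lt.q R0Q182.q3722_23) (q_cons (Vale.Agent.P032.Lt.q R0Q182.q3722_24) (q_cons (Vale.Agent.P032.Lt.q R0Q182.q3722_25) q_nil)))))))))))))))))))))))))))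

theorem p3723 : Pat 73 73 TBm TCm (CB.map Fm) R0Q182.P3723 R0Q182.I3723 := Vale.Agent.P032.Lt.pat_eq (E' := R0Q182.E) eB (pat_step (by decide +kernel) (q_cons (Vale.Agent.P032.Lt.q R0Q182.q3723_0) (q_cons (Vale.Agent.P032.Lt.q R0Q182.q3723_1) (q_cons (Vale.Agent.P032.Lt.q R0Q182.q3723_2) (q_cons (Vale.Agent.P032.Lt.q R0Q182.q3723_3) (q_cons (Vale.Agent.P032.Lt.q R0Q182.q3723_4) (q_cons (Vale.Agent.P032.Lt.q R0Q182.q3723_5) (q_cons (Vale.Agent.P032.Lt.q R0Q182.q3723_6) (q_cons (Vale.Agent.P032.Lt.q R0Q182.q3723_7) (q_cons (Vale.Agent.P032.Lt.q R0Q182.q3723_8) (q_cons (Vale.Agent.P032.Lt.q R0Q182.q3723_9) (q_cons (Vale.Agent.P032.Lt.q R0Q182.q3723_10) (q_cons (Vale.Agent.P032.Lt.q R0Q182.q3723_11) (q_cons (Vale.Agent.P032.Lt.q R0Q182.q3723_12) (q_cons (Vale.Agent.P032.Lt.q R0Q182.q3723_13) (q_cons (Vale.Agent.P032.Lt.q R0Q182.q3723_14) (q_cons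 (Vale.Agent.P032.Lt.q R0Q182.q3723_15) (q_cons (Vale.Agent.P032.Lt.q R0Q182.q3723_16) (q_cons (Vale.Agent.P032.Lt.q R0Q182.q3723_17) (q_cons (Vale.Agent.P032.Lt.q R0Q182.q3723_18) (q_cons (Vale.Agent.P032.Lt.q R0Q182.q3723_19) (q_cons (Vale.Agent.P032.Lt.q R0Q182.q3723_20) q_nil))))))))))))))))))))))

theorem p3724 : Pat 73 73 TBm TCm (CB.map Fm) R0Q182.P3724 R0Q182.I3724 := Vale.Agent.P032.Lt.pat_eq (E' := R0Q182.E) eB (pat_step (by decide +kernel) (q_cons (Vale.Agent.P032.Lt.q R0Q182.q3724_0) (q_cons (Vale.Agent.P032.Lt.q R0Q182.q3724_1) (q_cons (Vale.Agent.P032.Lt.q R0Q182.q3724_2) q_nil))))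

theorem p3725 : Pat 73 73 TBm TCm (CB.map Fm) R0Q182.P3725 R0Q182.I3725 := Vale.Agent.P032.Lt.pat_eq (E' := R0Q182.E) eB (pat_step (by decide +kernel) (q_cons (Vale.Agent.P032.Lt.q R0Q182.q3725_0) (q_cons (Vale.Agent.P032.Lt.q R0Q182.q3725_1) (q_cons (Vale.Agent.P032.Lt.q R0Q182.q3725_2) (q_cons (Vale.Agent.P032.Lt.q R0Q182.q3725_3) (q_cons (Vale.Agent.P032.Lt.q R0Q182.q3725_4) q_nil))))))

theorem p3726 : Pat 73 73 TBm TCm (CB.map Fm) R0Q182.P3726 R0Q182.I3726 := Vale.Agent.P032.Lt.pat_eq (E' := R0Q182.E) eB (pat_step (by decide +kernel) (q_cons (Vale.Agent.P032.Lt.q R0Q182.q3726_0) q_nil))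

def C3727 : List ℕ := [0, 4, 8, 12, 16, 20, 24, 82945, 214017, 606209, 737281]
theorem p3727 : Pat 73 73 TBm TCm (C3727.map Fm) R0Q182.P3727 R0Q182.I3727 := Vale.Agent.P032.Lt.pat_eq (E' := R0Q182.E3727) (by decide +kernel) (pat_step (by decide +kernel) (q_cons (Vale.Agent.P032.Lt.q R0Q182.q3727_0) (q_cons (Vale.Agent.P032.Lt.q R0Q182.q3727_1) (q_cons (Vale.Agent.P032.Lt.q R0Q182.q3727_2) (q_cons (Vale.Agent.P032.Lt.q R0Q182.q3727_3) (q_cons (Vale.Agent.P032.Lt.q R0Q182.q3727_4) (q_cons (Vale.Agent.P032.Lt.q R0Q182.q3727_5) q_nil)))))))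

theorem p3728 : Pat 73 73 TBm TCm (CB.map Fm) R0Q182.P3728 R0Q182.I3728 := Vale.Agent.P032.Lt.pat_eq (E' := R0Q182.E) eB (pat_step (by decide +kernel) (q_cons (Vale.Agent.P032.Lt.q R0Q182.q3728_0) (q_cons (Vale.Agent.P032.Lt.q R0Q182.q3728_1) (q_cons (Vale.Agent.P032.Lt.q R0Q182.q3728_2) q_nil))))

theorem p3729 : Pat 73 73 TBm TCm (CB.map Fm) R0Q182.P3729 R0Q182.I3729 := Vale.Agent.P032.Lt.pat_eq (E' := R0Q182.E) eB (pat_step (by decide +kernel) (q_cons (Vale.Agent.P032.Lt.q R0Q182.q3729_0) (q_cons (Vale.Agent.P032.Lt.q R0Q182.q3729_1) (q_cons (Vale.Agent.P032.Lt.q R0Q182.q3729_2) (q_cons (Vale.Agent.P032.Lt.q R0Q182.q3729_3) (q_cons (Vale.Agent.P032.Lt.q R0Q182.q3729_4) q_nil))))))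

theorem p3730 : Pat 73 73 TBm TCm (CB.map Fm) R0Q182.P3730 R0Q182.I3730 := Vale.Agent.P032.Lt.pat_eq (E' := R0Q182.E) eB (pat_step (by decide +kernel) (q_cons (Vale.Agent.P032.Lt.q R0Q182.q3730_0) (q_cons (Vale.Agent.P032.Lt.q R0Q182.q3730_1) (q_cons (Vale.Agent.P032.Lt.q R0Q182.q3730_2) (q_cons (Vale.Agent.P032.Lt.q R0Q182.q3730_3) (q_cons (Vale.Agent.P032.Lt.q R0Q182.q3730_4) (q_cons (Vale.Agent.P032.Lt.q R0Q182.q3730_5) (q_cons (Vale.Agent.P032.Lt.q R0Q182.q3730_6) (q_cons (Vale.Agent.P032.Lt.q R0Q182.q3730_7) (q_cons (Vale.Agent.P032.Lt.q R0Q182.q3730_8) (q_cons (Vale.Agent.P032.Lt.q R0Q182.q3730_9) (q_cons (Vale.Agent.P032.Lt.q R0Q182.q3730_10) (q_cons (Vale.Agent.P032.Lt.q R0Q182.q3730_11) (q_cons (Vale.Agent.P032.Lt.q R0Q182.q3730_12) q_nil))))))))))))))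

theorem p3731 : Pat 73 73 TBm TCm (CB.map Fm) R0Q182.P3731 R0Q182.I3731 := Vale.Agent.P032.Lt.pat_eq (E' := R0Q182.E) eB (pat_step (by decide +kernel) (q_cons (Vale.Agent.P032.Lt.q R0Q182.q3731_0) q_nil))

theorem p3732 : Pat 73 73 TBm TCm (CB.map Fm) R0Q182.P3732 R0Q182.I3732 := Vale.Agent.P032.Lt.pat_eq (E' := R0Q182.E) eB (pat_step (by decide +kernel) (q_cons (Vale.Agent.P032.Lt.q R0Q182.q3732_0) (q_cons (Vale.Agent.P032.Lt.q R0Q182.q3732_1) (q_cons (Vale.Agent.P032.Lt.q R0Q182.q3732_2) (q_cons (Vale.Agent.P032.Lt.q R0Q182.q3732_3) (q_cons (Vale.Agent.P032.Lt.q R0Q182.q3732_4) q_nil))))))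

theorem p3733 : Pat 73 73 TBm TCm (CB.map Fm) R0Q183.P3733 R0Q183.I3733 := Vale.Agent.P032.Lt.pat_eq (E' := R0Q183.E) eB (pat_step (by decide +kernel) (q_cons (Vale.Agent.P032.Lt.q R0Q183.q3733_0) q_nil))

theorem p3734 : Pat 73 73 TBm TCm (CB.map Fm) R0Q183.P3734 R0Q183.I3734 := Vale.Agent.P032.Lt.pat_eq (E' := R0Q183.E) eB (pat_step (by decide +kernel) (q_cons (Vale.Agent.P032.Lt.q R0Q183.q3734_0) (q_cons (Vale.Agent.P032.Lt.q R0Q183.q3734_1) (q_cons (Vale.Agent.P032.Lt.q R0Q183.q3734_2) q_nil))))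

def C3735 : List ℕ := [0, 4, 8, 12, 16, 20, 24, 485377, 616449, 737281]
theorem p3735 : Pat 73 73 TBm TCm (C3735.map Fm) R0Q183.P3735 R0Q183.I3735 := Vale.Agent.P032.Lt.pat_eq (E' := R0Q183.E3735) (by decide +kernel) (pat_step (by decide +kernel) (q_cons (Vale.Agent.P032.Lt.q R0Q183.q3735_0) (q_cons (Vale.Agent.P032.Lt.q R0Q183.q3735_1) (q_cons (Vale.Agent.P032.Lt.q R0Q183.q3735_2) q_nil))))

theorem p3736 : Pat 73 73 TBm TCm (CB.map Fm) R0Q183.P3736 R0Q183.I3736 := Vale.Agent.P032.Lt.pat_eq (E' := R0Q183.E) eB (pat_step (by decide +kernel) (q_cons (Vale.Agent.P032.Lt.q R0Q183.q3736_0) (q_cons (Vale.Agent.P032.Lt.q R0Q183.q3736_1) (q_cons (Vale.Agent.P032.Lt.q R0Q183.q3736_2) (q_cons (Vale.Agent.P032.Lt.q R0Q183.q3736_3) (q_cons (Vale.Agent.P032.Lt.q R0Q183.q3736_4) (q_cons (Vale.Agent.P032.Lt.q R0Q183.q3736_5) (q_cons (Vale.Agent.P032.Lt.q R0Q183.q3736_6)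 (q_cons (Vale.Agent.P032.Lt.q R0Q183.q3736_7) (q_cons (Vale.Agent.P032.Lt.q R0Q183.q3736_8) (q_cons (Vale.Agent.P032.Lt.q R0Q183.q3736_9) q_nil)))))))))))

theorem p3737 : Pat 73 73 TBm TCm (CB.map Fm) R0Q183.P3737 R0Q183.I3737 := Vale.Agent.P032.Lt.pat_eq (E' := R0Q183.E) eB (pat_step (by decide +kernel) (q_cons (Vale.Agent.P032.Lt.q R0Q183.q3737_0) (q_cons (Vale.Agent.P032.Lt.q R0Q183.q3737_1) q_nil)))

theorem p3738 : Pat 73 73 TBm TCm (CB.map Fm) R0Q183.P3738 R0Q183.I3738 := Vale.Agent.P032.Lt.pat_eq (E' := R0Q183.E) eB (pat_step (by decide +kernel) (q_cons (Vale.Agent.P032.Lt.q R0Q183.q3738_0) (q_cons (Vale.Agent.P032.Lt.q R0Q183.q3738_1) (q_cons (Vale.Agent.P032.Lt.q R0Q183.q3738_2) (q_cons (Vale.Agent.P032.Lt.q R0Q183.q3738_3) (q_cons (Vale.Agent.P032.Lt.q R0Q183.q3738_4) (q_cons (Vale.Agent.P032.Lt.q R0Q183.q3738_5) (q_cons (Vale.Agent.P032.Lt.q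 R0Q183.q3738_6) (q_cons (Vale.Agent.P032.Lt.q R0Q183.q3738_7) q_nil)))))))))

theorem p3739 : Pat 73 73 TBm TCm (CB.map Fm) R0Q183.P3739 R0Q183.I3739 := Vale.Agent.P032.Lt.pat_eq (E' := R0Q183.E) eB (pat_step (by decide +kernel) (q_cons (Vale.Agent.P032.Lt.q R0Q183.q3739_0) (q_cons (Vale.Agent.P032.Lt.q R0Q183.q3739_1) (q_cons (Vale.Agent.P032.Lt.q R0Q183.q3739_2) (q_cons (Vale.Agent.P032.Lt.q R0Q183.q3739_3) (q_cons (Vale.Agent.P032.Lt.q R0Q183.q3739_4) (q_cons (Vale.Agent.P032.Lt.q R0Q183.q3739_5) q_nil)))))))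

theorem p3740 : Pat 73 73 TBm TCm (CB.map Fm) R0Q183.P3740 R0Q183.I3740 := Vale.Agent.P032.Lt.pat_eq (E' := R0Q183.E) eB (pat_step (by decide +kernel) (q_cons (Vale.Agent.P032.Lt.q R0Q183.q3740_0) (q_cons (Vale.Agent.P032.Lt.q R0Q183.q3740_1) (q_cons (Vale.Agent.P032.Lt.q R0Q183.q3740_2) q_nil))))

def C3741 : List ℕ := [0, 4, 8, 12, 16, 20, 24, 347137, 606209, 611329, 737281]
theorem p3741 : Pat 73 73 TBm TCm (C3741.map Fm) R0Q183.P3741 R0Q183.I3741 := Vale.Agent.P032.Lt.pat_eq (E' := R0Q183.E3741) (by decide +kernel) (pat_step (by decide +kernel) (q_cons (Vale.Agent.P032.Lt.q R0Q183.q3741_0) (q_cons (Vale.Agent.P032.Lt.q R0Q183.q3741_1) (q_cons (Vale.Agent.P032.Lt.q R0Q183.q3741_2) (q_cons (Vale.Agent.P032.Lt.q R0Q183.q3741_3) (q_cons (Vale.Agent.P032.Lt.q R0Q183.q3741_4) (q_cons (Vale.Agent.P032.Lt.q R0Q183.q3741_5) (q_cons (Vale.Agent.P032.Lt.q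 R0Q183.q3741_6) q_nil))))))))

theorem p3742 : Pat 73 73 TBm TCm (CB.map Fm) R0Q183.P3742 R0Q183.I3742 := Vale.Agent.P032.Lt.pat_eq (E' := R0Q183.E) eB (pat_step (by decide +kernel) (q_cons (Vale.Agent.P032.Lt.q R0Q183.q3742_0) (q_cons (Vale.Agent.P032.Lt.q R0Q183.q3742_1) (q_cons (Vale.Agent.P032.Lt.q R0Q183.q3742_2) (q_cons (Vale.Agent.P032.Lt.q R0Q183.q3742_3) q_nil)))))

theorem p3743 : Pat 73 73 TBm TCm (CB.map Fm) R0Q183.P3743 R0Q183.I3743 := Vale.Agent.P032.Lt.pat_eq (E' := R0Q183.E) eB (pat_step (by decide +kernel) (q_cons (Vale.Agent.P032.Lt.q R0Q183.q3743_0) (q_cons (Vale.Agent.P032.Lt.q R0Q183.q3743_1) q_nil)))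

theorem p3744 : Pat 73 73 TBm TCm (CB.map Fm) R0Q183.P3744 R0Q183.I3744 := Vale.Agent.P032.Lt.pat_eq (E' := R0Q183.E) eB (pat_step (by decide +kernel) (q_cons (Vale.Agent.P032.Lt.q R0Q183.q3744_0) q_nil))

theorem p3745 : Pat 73 73 TBm TCm (CB.map Fm) R0Q183.P3745 R0Q183.I3745 := Vale.Agent.P032.Lt.pat_eq (E' := R0Q183.E) eB (pat_step (by decide +kernel) (q_cons (Vale.Agent.P032.Lt.q R0Q183.q3745_0) q_nil))

theorem p3746 : Pat 73 73 TBm TCm (CB.map Fm) R0Q183.P3746 R0Q183.I3746 := Vale.Agent.P032.Lt.pat_eq (E' := R0Q183.E) eB (pat_step (by decide +kernel) (q_cons (Vale.Agent.P032.Lt.q R0Q183.q3746_0) (q_cons (Vale.Agent.P032.Lt.q R0Q183.q3746_1) (q_cons (Vale.Agent.P032.Lt.q R0Q183.q3746_2) (q_cons (Vale.Agent.P032.Lt.q R0Q183.q3746_3) (q_cons (Vale.Agent.P032.Lt.q R0Q183.q3746_4) (q_cons (Vale.Agent.P032.Lt.q R0Q183.q3746_5) (q_cons (Vale.Agent.P032.Lt.q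 R0Q183.q3746_6) (q_cons (Vale.Agent.P032.Lt.q R0Q183.q3746_7) q_nil)))))))))

theorem p3747 : Pat 73 73 TBm TCm (CB.map Fm) R0Q183.P3747 R0Q183.I3747 := Vale.Agent.P032.Lt.pat_eq (E' := R0Q183.E) eB (pat_step (by decide +kernel) (q_cons (Vale.Agent.P032.Lt.q R0Q183.q3747_0) (q_cons (Vale.Agent.P032.Lt.q R0Q183.q3747_1) (q_cons (Vale.Agent.P032.Lt.q R0Q183.q3747_2) (q_cons (Vale.Agent.P032.Lt.q R0Q183.q3747_3) (q_cons (Vale.Agent.P032.Lt.q R0Q183.q3747_4) (q_cons (Vale.Agent.P032.Lt.q R0Q183.q3747_5) (q_cons (Vale.Agent.P032.Lt.q R0Q183.q3747_6) q_nil))))))))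

theorem p3748 : Pat 73 73 TBm TCm (CB.map Fm) R0Q183.P3748 R0Q183.I3748 := Vale.Agent.P032.Lt.pat_eq (E' := R0Q183.E) eB (pat_step (by decide +kernel) (q_cons (Vale.Agent.P032.Lt.q R0Q183.q3748_0) (q_cons (Vale.Agent.P032.Lt.q R0Q183.q3748_1) (q_cons (Vale.Agent.P032.Lt.q R0Q183.q3748_2) q_nil))))

theorem p3749 : Pat 73 73 TBm TCm (CB.map Fm) R0Q183.P3749 R0Q183.I3749 := Vale.Agent.P032.Lt.pat_eq (E' := R0Q183.E) eB (pat_step (by decide +kernel) (q_cons (Vale.Agent.P032.Lt.q R0Q183.q3749_0) (q_cons (Vale.Agent.P032.Lt.q R0Q183.q3749_1) (q_cons (Vale.Agent.P032.Lt.q R0Q183.q3749_2) (q_cons (Vale.Agent.P032.Lt.q R0Q183.q3749_3) (q_cons (Vale.Agent.P032.Lt.q R0Q183.q3749_4) (q_cons (Vale.Agent.P032.Lt.q R0Q183.q3749_5) q_nil)))))))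

def C3750 : List ℕ := [0, 4, 8, 12, 16, 20, 24, 475137, 737281]
theorem p3750 : Pat 73 73 TBm TCm (C3750.map Fm) R0Q183.P3750 R0Q183.I3750 := Vale.Agent.P032.Lt.pat_eq (E' := R0Q183.E3750) (by decide +kernel) (pat_step (by decide +kernel) (q_cons (Vale.Agent.P032.Lt.q R0Q183.q3750_0) (q_cons (Vale.Agent.P032.Lt.q R0Q183.q3750_1) (q_cons (Vale.Agent.P032.Lt.q R0Q183.q3750_2) (q_cons (Vale.Agent.P032.Lt.q R0Q183.q3750_3) (q_cons (Vale.Agent.P032.Lt.q R0Q183.q3750_4) (q_cons (Vale.Agent.P032.Lt.q R0Q183.q3750_5) (q_cons (Vale.Agent.P032.Lt.q R0Q183.q3750_6) q_nil))))))))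

theorem p3751 : Pat 73 73 TBm TCm (CB.map Fm) R0Q183.P3751 R0Q183.I3751 := Vale.Agent.P032.Lt.pat_eq (E' := R0Q183.E) eB (pat_step (by decide +kernel) (q_cons (Vale.Agent.P032.Lt.q R0Q183.q3751_0) (q_cons (Vale.Agent.P032.Lt.q R0Q183.q3751_1) (q_cons (Vale.Agent.P032.Lt.q R0Q183.q3751_2) q_nil))))

theorem p3752 : Pat 73 73 TBm TCm (CB.map Fm) R0Q183.P3752 R0Q183.I3752 := Vale.Agent.P032.Lt.pat_eq (E' := R0Q183.E) eB (pat_step (by decide +kernel) (q_cons (Vale.Agent.P032.Lt.q R0Q183.q3752_0) (q_cons (Vale.Agent.P032.Lt.q R0Q183.q3752_1) (q_cons (Vale.Agent.P032.Lt.q R0Q183.q3752_2) (q_cons (Vale.Agent.P032.Lt.q R0Q183.q3752_3) (q_cons (Vale.Agent.P032.Lt.q R0Q183.q3752_4) q_nil))))))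

theorem p3753 : Pat 73 73 TBm TCm (CB.map Fm) R0Q183.P3753 R0Q183.I3753 := Vale.Agent.P032.Lt.pat_eq (E' := R0Q183.E) eB (pat_step (by decide +kernel) (q_cons (Vale.Agent.P032.Lt.q R0Q183.q3753_0) (q_cons (Vale.Agent.P032.Lt.q R0Q183.q3753_1) (q_cons (Vale.Agent.P032.Lt.q R0Q183.q3753_2) (q_cons (Vale.Agent.P032.Lt.q R0Q183.q3753_3) (q_cons (Vale.Agent.P032.Lt.q R0Q183.q3753_4) (q_cons (Vale.Agent.P032.Lt.q R0Q183.q3753_5) (q_cons (Vale.Agent.P032.Lt.q R0Q183.q3753_6) (q_cons (Vale.Agent.P032.Lt.q R0Q183.q3753_7) (q_cons (Vale.Agent.P032.Lt.q R0Q183.q3753_8) (q_cons (Vale.Agent.P032.Lt.q R0Q183.q3753_9) (q_cons (Vale.Agent.P032.Lt.q R0Q183.q3753_10) (q_cons (Vale.Agent.P032.Lt.q R0Q183.q3753_11) q_nil)))))))))))))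

theorem p3754 : Pat 73 73 TBm TCm (CB.map Fm) R0Q183.P3754 R0Q183.I3754 := Vale.Agent.P032.Lt.pat_eq (E' := R0Q183.E) eB (pat_step (by decide +kernel) (q_cons (Vale.Agent.P032.Lt.q R0Q183.q3754_0) (q_cons (Vale.Agent.P032.Lt.q R0Q183.q3754_1) (q_cons (Vale.Agent.P032.Lt.q R0Q183.q3754_2) (q_cons (Vale.Agent.P032.Lt.q R0Q183.q3754_3) q_nil)))))

theorem p3755 : Pat 73 73 TBm TCm (CB.map Fm) R0Q183.P3755 R0Q183.I3755 := Vale.Agent.P032.Lt.pat_eq (E' := R0Q183.E) eB (pat_step (by decide +kernel) (q_cons (Vale.Agent.P032.Lt.q R0Q183.q3755_0) (q_cons (Vale.Agent.P032.Lt.q R0Q183.q3755_1) (q_cons (Vale.Agent.P032.Lt.q R0Q183.q3755_2) q_nil))))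

def C3756 : List ℕ := [0, 4, 8, 12, 16, 20, 24, 82945, 475137, 737281]
theorem p3756 : Pat 73 73 TBm TCm (C3756.map Fm) R0Q183.P3756 R0Q183.I3756 := Vale.Agent.P032.Lt.pat_eq (E' := R0Q183.E3756) (by decide +kernel) (pat_step (by decide +kernel) (q_cons (Vale.Agent.P032.Lt.q R0Q183.q3756_0) q_nil))

theorem p3757 : Pat 73 73 TBm TCm (CB.map Fm) R0Q183.P3757 R0Q183.I3757 := Vale.Agent.P032.Lt.pat_eq (E' := R0Q183.E) eB (pat_step (by decide +kernel) (q_cons (Vale.Agent.P032.Lt.q R0Q183.q3757_0) (q_cons (Vale.Agent.P032.Lt.q R0Q183.q3757_1) (q_cons (Vale.Agent.P032.Lt.q R0Q183.q3757_2) (q_cons (Vale.Agent.P032.Lt.q R0Q183.q3757_3) (q_cons (Vale.Agent.P032.Lt.q R0Q183.q3757_4) (q_cons (Vale.Agent.P032.Lt.q R0Q183.q3757_5) (q_cons (Vale.Agent.P032.Lt.q R0Q183.q3757_6) (q_cons (Vale.Agent.P032.Lt.q R0Q183.q3757_7) (q_cons (Vale.Agent.P032.Lt.q R0Q183.q3757_8)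 (q_cons (Vale.Agent.P032.Lt.q R0Q183.q3757_9) (q_cons (Vale.Agent.P032.Lt.q R0Q183.q3757_10) (q_cons (Vale.Agent.P032.Lt.q R0Q183.q3757_11) (q_cons (Vale.Agent.P032.Lt.q R0Q183.q3757_12) (q_cons (Vale.Agent.P032.Lt.q R0Q183.q3757_13) (q_cons (Vale.Agent.P032.Lt.q R0Q183.q3757_14) q_nil))))))))))))))))

theorem p3758 : Pat 73 73 TBm TCm (CB.map Fm) R0Q183.P3758 R0Q183.I3758 := Vale.Agent.P032.Lt.pat_eq (E' := R0Q183.E) eB (pat_step (by decide +kernel) (q_cons (Vale.Agent.P032.Lt.q R0Q183.q3758_0) (q_cons (Vale.Agent.P032.Lt.q R0Q183.q3758_1) (q_cons (Vale.Agent.P032.Lt.q R0Q183.q3758_2) (q_cons (Vale.Agent.P032.Lt.q R0Q183.q3758_3) (q_cons (Vale.Agent.P032.Lt.q R0Q183.q3758_4) (q_cons (Vale.Agent.P032.Lt.q R0Q183.q3758_5) (q_cons (Vale.Agent.P032.Lt.q R0Q183.q3758_6) (q_cons (Vale.Agent.P032.Lt.q R0Q183.q3758_7) q_nil)))))))))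

theorem p3759 : Pat 73 73 TBm TCm (CB.map Fm) R0Q184.P3759 R0Q184.I3759 := Vale.Agent.P032.Lt.pat_eq (E' := R0Q184.E) eB (pat_step (by decide +kernel) (q_cons (Vale.Agent.P032.Lt.q R0Q184.q3759_0) (q_cons (Vale.Agent.P032.Lt.q R0Q184.q3759_1) (q_cons (Vale.Agent.P032.Lt.q R0Q184.q3759_2) (q_cons (Vale.Agent.P032.Lt.q R0Q184.q3759_3) (q_cons (Vale.Agent.P032.Lt.q R0Q184.q3759_4) (q_cons (Vale.Agent.P032.Lt.q R0Q184.q3759_5) (q_cons (Vale.Agent.P032.Lt.q R0Q184.q3759_6) (q_cons (Vale.Agent.P032.Lt.q R0Q184.q3759_7) (q_cons (Vale.Agent.P032.Lt.q R0Q184.q3759_8) q_nil))))))))))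

theorem p3760 : Pat 73 73 TBm TCm (CB.map Fm) R0Q184.P3760 R0Q184.I3760 := Vale.Agent.P032.Lt.pat_eq (E' := R0Q184.E) eB (pat_step (by decide +kernel) (q_cons (Vale.Agent.P032.Lt.q R0Q184.q3760_0) (q_cons (Vale.Agent.P032.Lt.q R0Q184.q3760_1) (q_cons (Vale.Agent.P032.Lt.q R0Q184.q3760_2) q_nil))))

theorem p3761 : Pat 73 73 TBm TCm (CB.map Fm) R0Q184.P3761 R0Q184.I3761 := Vale.Agent.P032.Lt.pat_eq (E' := R0Q184.E) eB (pat_step (by decide +kernel) (q_cons (Vale.Agent.P032.Lt.q R0Q184.q3761_0) (q_cons (Vale.Agent.P032.Lt.q R0Q184.q3761_1) (q_cons (Vale.Agent.P032.Lt.q R0Q184.q3761_2) (q_cons (Vale.Agent.P032.Lt.q R0Q184.q3761_3) (q_cons (Vale.Agent.P032.Lt.q R0Q184.q3761_4) (q_cons (Vale.Agent.P032.Lt.q R0Q184.q3761_5) q_nil)))))))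

theorem p3762 : Pat 73 73 TBm TCm (CB.map Fm) R0Q184.P3762 R0Q184.I3762 := Vale.Agent.P032.Lt.pat_eq (E' := R0Q184.E) eB (pat_step (by decide +kernel) (q_cons (Vale.Agent.P032.Lt.q R0Q184.q3762_0) (q_cons (Vale.Agent.P032.Lt.q R0Q184.q3762_1) (q_cons (Vale.Agent.P032.Lt.q R0Q184.q3762_2) (q_cons (Vale.Agent.P032.Lt.q R0Q184.q3762_3) (q_cons (Vale.Agent.P032.Lt.q R0Q184.q3762_4) (q_cons (Vale.Agent.P032.Lt.q R0Q184.q3762_5) q_nil)))))))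

theorem p3763 : Pat 73 73 TBm TCm (CB.map Fm) R0Q184.P3763 R0Q184.I3763 := Vale.Agent.P032.Lt.pat_eq (E' := R0Q184.E) eB (pat_step (by decide +kernel) (q_cons (Vale.Agent.P032.Lt.q R0Q184.q3763_0) (q_cons (Vale.Agent.P032.Lt.q R0Q184.q3763_1) (q_cons (Vale.Agent.P032.Lt.q R0Q184.q3763_2) (q_cons (Vale.Agent.P032.Lt.q R0Q184.q3763_3) (q_cons (Vale.Agent.P032.Lt.q R0Q184.q3763_4) q_nil))))))

theorem p3764 : Pat 73 73 TBm TCm (CB.map Fm) R0Q184.P3764 R0Q184.I3764 := Vale.Agent.P032.Lt.pat_eq (E' := R0Q184.E) eB (pat_step (by decide +kernel) (q_cons (Vale.Agent.P032.Lt.q R0Q184.q3764_0) (q_cons (Vale.Agent.P032.Lt.q R0Q184.q3764_1) (q_cons (Vale.Agent.P032.Lt.q R0Q184.q3764_2) (q_cons (Vale.Agent.P032.Lt.q R0Q184.q3764_3) (q_cons (Vale.Agent.P032.Lt.q R0Q184.q3764_4) (q_cons (Vale.Agent.P032.Lt.q R0Q184.q3764_5) (q_cons (Vale.Agent.P032.Lt.q R0Q184.q3764_6)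 q_nil))))))))

theorem p3765 : Pat 73 73 TBm TCm (CB.map Fm) R0Q184.P3765 R0Q184.I3765 := Vale.Agent.P032.Lt.pat_eq (E' := R0Q184.E) eB (pat_step (by decide +kernel) (q_cons (Vale.Agent.P032.Lt.q R0Q184.q3765_0) (q_cons (Vale.Agent.P032.Lt.q R0Q184.q3765_1) (q_cons (Vale.Agent.P032.Lt.q R0Q184.q3765_2) (q_cons (Vale.Agent.P032.Lt.q R0Q184.q3765_3) (q_cons (Vale.Agent.P032.Lt.q R0Q184.q3765_4) (q_cons (Vale.Agent.P032.Lt.q R0Q184.q3765_5) (q_cons (Vale.Agent.P032.Lt.q R0Q184.q3765_6) (q_cons (Vale.Agent.P032.Lt.q R0Q184.q3765_7) (q_cons (Vale.Agent.P032.Lt.q R0Q184.q3765_8) q_nil))))))))))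

theorem p3766 : Pat 73 73 TBm TCm (CB.map Fm) R0Q184.P3766 R0Q184.I3766 := Vale.Agent.P032.Lt.pat_eq (E' := R0Q184.E) eB (pat_step (by decide +kernel) (q_cons (Vale.Agent.P032.Lt.q R0Q184.q3766_0) (q_cons (Vale.Agent.P032.Lt.q R0Q184.q3766_1) (q_cons (Vale.Agent.P032.Lt.q R0Q184.q3766_2) (q_cons (Vale.Agent.P032.Lt.q R0Q184.q3766_3) (q_cons (Vale.Agent.P032.Lt.q R0Q184.q3766_4) (q_cons (Vale.Agent.P032.Lt.q R0Q184.q3766_5) (q_cons (Vale.Agent.P032.Lt.q R0Q184.q3766_6) (q_cons (Vale.Agent.P032.Lt.q R0Q184.q3766_7) (q_cons (Vale.Agent.P032.Lt.q R0Q184.q3766_8) (q_cons (Vale.Agent.P032.Lt.q R0Q184.q3766_9) (q_cons (Vale.Agent.P032.Lt.q R0Q184.q3766_10) (q_cons (Vale.Agent.P032.Lt.q R0Q184.q3766_11) (q_cons (Vale.Agent.P032.Lt.q R0Q184.q3766_12) (q_cons (Vale.Agent.P032.Lt.q R0Q184.q3766_13) (q_cons (Vale.Agent.P032.Lt.q R0Q184.q3766_14) q_nil))))))))))))))))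

theorem p3767 : Pat 73 73 TBm TCm (CB.map Fm) R0Q184.P3767 R0Q184.I3767 := Vale.Agent.P032.Lt.pat_eq (E' := R0Q184.E) eB (pat_step (by decide +kernel) (q_cons (Vale.Agent.P032.Lt.q R0Q184.q3767_0) q_nil))

theorem p3768 : Pat 73 73 TBm TCm (CB.map Fm) R0Q184.P3768 R0Q184.I3768 := Vale.Agent.P032.Lt.pat_eq (E' := R0Q184.E) eB (pat_step (by decide +kernel) (q_cons (Vale.Agent.P032.Lt.q R0Q184.q3768_0) (q_cons (Vale.Agent.P032.Lt.q R0Q184.q3768_1) (q_cons (Vale.Agent.P032.Lt.q R0Q184.q3768_2) (q_cons (Vale.Agent.P032.Lt.q R0Q184.q3768_3) (q_cons (Vale.Agent.P032.Lt.q R0Q184.q3768_4) (q_cons (Vale.Agent.P032.Lt.q R0Q184.q3768_5) (q_cons (Vale.Agent.P032.Lt.q R0Q184.q3768_6) (q_cons (Vale.Agent.P032.Lt.q R0Q184.q3768_7) q_nil)))))))))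

theorem p3769 : Pat 73 73 TBm TCm (CB.map Fm) R0Q184.P3769 R0Q184.I3769 := Vale.Agent.P032.Lt.pat_eq (E' := R0Q184.E) eB (pat_step (by decide +kernel) (q_cons (Vale.Agent.P032.Lt.q R0Q184.q3769_0) (q_cons (Vale.Agent.P032.Lt.q R0Q184.q3769_1) (q_cons (Vale.Agent.P032.Lt.q R0Q184.q3769_2) q_nil))))

def C3770 : List ℕ := [0, 4, 8, 12, 16, 20, 24, 214017, 347137, 475137, 609281, 737281]
theorem p3770 : Pat 73 73 TBm TCm (C3770.map Fm) R0Q184.P3770 R0Q184.I3770 := Vale.Agent.P032.Lt.pat_eq (E' := R0Q184.E3770) (by decide +kernel) (pat_step (by decide +kernel) (q_cons (Vale.Agent.P032.Lt.q R0Q184.q3770_0) (q_cons (Vale.Agent.P032.Lt.q R0Q184.q3770_1) (q_cons (Vale.Agent.P032.Lt.q R0Q184.q3770_2) (q_cons (Vale.Agent.P032.Lt.q R0Q184.q3770_3) (q_cons (Vale.Agent.P032.Lt.q R0Q184.q3770_4) q_nil))))))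

theorem p3771 : Pat 73 73 TBm TCm (CB.map Fm) R0Q184.P3771 R0Q184.I3771 := Vale.Agent.P032.Lt.pat_eq (E' := R0Q184.E) eB (pat_step (by decide +kernel) (q_cons (Vale.Agent.P032.Lt.q R0Q184.q3771_0) (q_cons (Vale.Agent.P032.Lt.q R0Q184.q3771_1) (q_cons (Vale.Agent.P032.Lt.q R0Q184.q3771_2) (q_cons (Vale.Agent.P032.Lt.q R0Q184.q3771_3) (q_cons (Vale.Agent.P032.Lt.q R0Q184.q3771_4) q_nil))))))

theorem p3772 : Pat 73 73 TBm TCm (CB.map Fm) R0Q184.P3772 R0Q184.I3772 := Vale.Agent.P032.Lt.pat_eq (E' := R0Q184.E) eB (pat_step (by decide +kernel) (q_cons (Vale.Agent.P032.Lt.q R0Q184.q3772_0) (q_cons (Vale.Agent.P032.Lt.q R0Q184.q3772_1) (q_cons (Vale.Agent.P032.Lt.q R0Q184.q3772_2) (q_cons (Vale.Agent.P032.Lt.q R0Q184.q3772_3) (q_cons (Vale.Agent.P032.Lt.q R0Q184.q3772_4) (q_cons (Vale.Agent.P032.Lt.q R0Q184.q3772_5) q_nil)))))))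

theorem p3773 : Pat 73 73 TBm TCm (CB.map Fm) R0Q184.P3773 R0Q184.I3773 := Vale.Agent.P032.Lt.pat_eq (E' := R0Q184.E) eB (pat_step (by decide +kernel) (q_cons (Vale.Agent.P032.Lt.q R0Q184.q3773_0) (q_cons (Vale.Agent.P032.Lt.q R0Q184.q3773_1) (q_cons (Vale.Agent.P032.Lt.q R0Q184.q3773_2) q_nil))))

theorem p3774 : Pat 73 73 TBm TCm (CB.map Fm) R0Q184.P3774 R0Q184.I3774 := Vale.Agent.P032.Lt.pat_eq (E' := R0Q184.E) eB (pat_step (by decide +kernel) (q_cons (Vale.Agent.P032.Lt.q R0Q184.q3774_0) (q_cons (Vale.Agent.P032.Lt.q R0Q184.q3774_1) q_nil)))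

theorem p3775 : Pat 73 73 TBm TCm (CB.map Fm) R0Q184.P3775 R0Q184.I3775 := Vale.Agent.P032.Lt.pat_eq (E' := R0Q184.E) eB (pat_step (by decide +kernel) (q_cons (Vale.Agent.P032.Lt.q R0Q184.q3775_0) (q_cons (Vale.Agent.P032.Lt.q R0Q184.q3775_1) (q_cons (Vale.Agent.P032.Lt.q R0Q184.q3775_2) q_nil))))

theorem p3776 : Pat 73 73 TBm TCm (CB.map Fm) R0Q184.P3776 R0Q184.I3776 := Vale.Agent.P032.Lt.pat_eq (E' := R0Q184.E) eB (pat_step (by decide +kernel) (q_cons (Vale.Agent.P032.Lt.q R0Q184.q3776_0) (q_cons (Vale.Agent.P032.Lt.q R0Q184.q3776_1) (q_cons (Vale.Agent.P032.Lt.q R0Q184.q3776_2) (q_cons (Vale.Agent.P032.Lt.q R0Q184.q3776_3) q_nil)))))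

def C3777 : List ℕ := [0, 4, 8, 12, 16, 20, 24, 222209, 475137, 615425, 737281]
theorem p3777 : Pat 73 73 TBm TCm (C3777.map Fm) R0Q184.P3777 R0Q184.I3777 := Vale.Agent.P032.Lt.pat_eq (E' := R0Q184.E3777) (by decide +kernel) (pat_step (by decide +kernel) (q_cons (Vale.Agent.P032.Lt.q R0Q184.q3777_0) (q_cons (Vale.Agent.P032.Lt.q R0Q184.q3777_1) (q_cons (Vale.Agent.P032.Lt.q R0Q184.q3777_2) (q_cons (Vale.Agent.P032.Lt.q R0Q184.q3777_3) (q_cons (Vale.Agent.P032.Lt.q R0Q184.q3777_4) (q_cons (Vale.Agent.P032.Lt.q R0Q184.q3777_5) (q_cons (Vale.Agent.P032.Lt.q R0Q184.q3777_6) q_nil))))))))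

theorem p3778 : Pat 73 73 TBm TCm (CB.map Fm) R0Q184.P3778 R0Q184.I3778 := Vale.Agent.P032.Lt.pat_eq (E' := R0Q184.E) eB (pat_step (by decide +kernel) (q_cons (Vale.Agent.P032.Lt.q R0Q184.q3778_0) (q_cons (Vale.Agent.P032.Lt.q R0Q184.q3778_1) (q_cons (Vale.Agent.P032.Lt.q R0Q184.q3778_2) q_nil))))

theorem p3779 : Pat 73 73 TBm TCm (CB.map Fm) R0Q184.P3779 R0Q184.I3779 := Vale.Agent.P032.Lt.pat_eq (E' := R0Q184.E) eB (pat_step (by decide +kernel) (q_cons (Vale.Agent.P032.Lt.q R0Q184.q3779_0) (q_cons (Vale.Agent.P032.Lt.q R0Q184.q3779_1) (q_cons (Vale.Agent.P032.Lt.q R0Q184.q3779_2) (q_cons (Vale.Agent.P032.Lt.q R0Q184.q3779_3) (q_cons (Vale.Agent.P032.Lt.q R0Q184.q3779_4) (q_cons (Vale.Agent.P032.Lt.q R0Q184.q3779_5) (q_cons (Vale.Agent.P032.Lt.q R0Q184.q3779_6) q_nil))))))))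

theorem p3780 : Pat 73 73 TBm TCm (CB.map Fm) R0Q184.P3780 R0Q184.I3780 := Vale.Agent.P032.Lt.pat_eq (E' := R0Q184.E) eB (pat_step (by decide +kernel) (q_cons (Vale.Agent.P032.Lt.q R0Q184.q3780_0) (q_cons (Vale.Agent.P032.Lt.q R0Q184.q3780_1) q_nil)))

theorem p3781 : Pat 73 73 TBm TCm (CB.map Fm) R0Q184.P3781 R0Q184.I3781 := Vale.Agent.P032.Lt.pat_eq (E' := R0Q184.E) eB (pat_step (by decide +kernel) (q_cons (Vale.Agent.P032.Lt.q R0Q184.q3781_0) (q_cons (Vale.Agent.P032.Lt.q R0Q184.q3781_1) (q_cons (Vale.Agent.P032.Lt.q R0Q184.q3781_2) (q_cons (Vale.Agent.P032.Lt.q R0Q184.q3781_3) (q_cons (Vale.Agent.P032.Lt.q R0Q184.q3781_4) q_nil))))))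

theorem p3782 : Pat 73 73 TBm TCm (CB.map Fm) R0Q184.P3782 R0Q184.I3782 := Vale.Agent.P032.Lt.pat_eq (E' := R0Q184.E) eB (pat_step (by decide +kernel) (q_cons (Vale.Agent.P032.Lt.q R0Q184.q3782_0) (q_cons (Vale.Agent.P032.Lt.q R0Q184.q3782_1) (q_cons (Vale.Agent.P032.Lt.q R0Q184.q3782_2) q_nil))))

theorem p3783 : Pat 73 73 TBm TCm (CB.map Fm) R0Q185.P3783 R0Q185.I3783 := Vale.Agent.P032.Lt.pat_eq (E' := R0Q185.E) eB (pat_step (by decide +kernel) (q_cons (Vale.Agent.P032.Lt.q R0Q185.q3783_0) (q_cons (Vale.Agent.P032.Lt.q R0Q185.q3783_1) (q_cons (Vale.Agent.P032.Lt.q R0Q185.q3783_2) (q_cons (Vale.Agent.P032.Lt.q R0Q185.q3783_3) (q_cons (Vale.Agent.P032.Lt.q R0Q185.q3783_4) (q_cons (Vale.Agent.P032.Lt.q R0Q185.q3783_5) (q_cons (Vale.Agent.P032.Lt.q R0Q185.q3783_6) (q_cons (Vale.Agent.P032.Lt.q R0Q185.q3783_7) (q_cons (Vale.Agent.P032.Lt.q R0Q185.q3783_8)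 (q_cons (Vale.Agent.P032.Lt.q R0Q185.q3783_9) q_nil)))))))))))

theorem p3784 : Pat 73 73 TBm TCm (CB.map Fm) R0Q185.P3784 R0Q185.I3784 := Vale.Agent.P032.Lt.pat_eq (E' := R0Q185.E) eB (pat_step (by decide +kernel) (q_cons (Vale.Agent.P032.Lt.q R0Q185.q3784_0) (q_cons (Vale.Agent.P032.Lt.q R0Q185.q3784_1) (q_cons (Vale.Agent.P032.Lt.q R0Q185.q3784_2) (q_cons (Vale.Agent.P032.Lt.q R0Q185.q3784_3) (q_cons (Vale.Agent.P032.Lt.q R0Q185.q3784_4) q_nil))))))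

theorem p3785 : Pat 73 73 TBm TCm (CB.map Fm) R0Q185.P3785 R0Q185.I3785 := Vale.Agent.P032.Lt.pat_eq (E' := R0Q185.E) eB (pat_step (by decide +kernel) (q_cons (Vale.Agent.P032.Lt.q R0Q185.q3785_0) (q_cons (Vale.Agent.P032.Lt.q R0Q185.q3785_1) (q_cons (Vale.Agent.P032.Lt.q R0Q185.q3785_2) (q_cons (Vale.Agent.P032.Lt.q R0Q185.q3785_3) q_nil)))))

theorem p3786 : Pat 73 73 TBm TCm (CB.map Fm) R0Q185.P3786 R0Q185.I3786 := Vale.Agent.P032.Lt.pat_eq (E' := R0Q185.E) eB (pat_step (by decide +kernel) (q_cons (Vale.Agent.P032.Lt.q R0Q185.q3786_0) (q_cons (Vale.Agent.P032.Lt.q R0Q185.q3786_1) (q_cons (Vale.Agent.P032.Lt.q R0Q185.q3786_2) (q_cons (Vale.Agent.P032.Lt.q R0Q185.q3786_3) q_nil)))))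

theorem p3787 : Pat 73 73 TBm TCm (CB.map Fm) R0Q185.P3787 R0Q185.I3787 := Vale.Agent.P032.Lt.pat_eq (E' := R0Q185.E) eB (pat_step (by decide +kernel) (q_cons (Vale.Agent.P032.Lt.q R0Q185.q3787_0) (q_cons (Vale.Agent.P032.Lt.q R0Q185.q3787_1) (q_cons (Vale.Agent.P032.Lt.q R0Q185.q3787_2) q_nil))))

theorem p3788 : Pat 73 73 TBm TCm (CB.map Fm) R0Q185.P3788 R0Q185.I3788 := Vale.Agent.P032.Lt.pat_eq (E' := R0Q185.E) eB (pat_step (by decide +kernel) (q_cons (Vale.Agent.P032.Lt.q R0Q185.q3788_0) (q_cons (Vale.Agent.P032.Lt.q R0Q185.q3788_1) q_nil)))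

theorem p3789 : Pat 73 73 TBm TCm (CB.map Fm) R0Q185.P3789 R0Q185.I3789 := Vale.Agent.P032.Lt.pat_eq (E' := R0Q185.E) eB (pat_step (by decide +kernel) (q_cons (Vale.Agent.P032.Lt.q R0Q185.q3789_0) (q_cons (Vale.Agent.P032.Lt.q R0Q185.q3789_1) (q_cons (Vale.Agent.P032.Lt.q R0Q185.q3789_2) (q_cons (Vale.Agent.P032.Lt.q R0Q185.q3789_3) (q_cons (Vale.Agent.P032.Lt.q R0Q185.q3789_4) (q_cons (Vale.Agent.P032.Lt.q R0Q185.q3789_5) (q_cons (Vale.Agent.P032.Lt.q R0Q185.q3789_6) (q_cons (Vale.Agent.P032.Lt.q R0Q185.q3789_7) (q_cons (Vale.Agent.P032.Lt.q R0Q185.q3789_8) (q_cons (Vale.Agent.P032.Lt.q R0Q185.q3789_9) (q_cons (Vale.Agent.P032.Lt.q R0Q185.q3789_10) (q_cons (Vale.Agent.P032.Lt.q R0Q185.q3789_11) (q_cons (Vale.Agent.P032.Lt.q R0Q185.q3789_12) (q_cons (Vale.Agent.P032.Lt.q R0Q185.q3789_13) q_nil)))))))))))))))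

theorem p3790 : Pat 73 73 TBm TCm (CB.map Fm) R0Q185.P3790 R0Q185.I3790 := Vale.Agent.P032.Lt.pat_eq (E' := R0Q185.E) eB (pat_step (by decide +kernel) (q_cons (Vale.Agent.P032.Lt.q R0Q185.q3790_0) q_nil))

theorem p3791 : Pat 73 73 TBm TCm (CB.map Fm) R0Q185.P3791 R0Q185.I3791 := Vale.Agent.P032.Lt.pat_eq (E' := R0Q185.E) eB (pat_step (by decide +kernel) (q_cons (Vale.Agent.P032.Lt.q R0Q185.q3791_0) (q_cons (Vale.Agent.P032.Lt.q R0Q185.q3791_1) (q_cons (Vale.Agent.P032.Lt.q R0Q185.q3791_2) (q_cons (Vale.Agent.P032.Lt.q R0Q185.q3791_3) (q_cons (Vale.Agent.P032.Lt.q R0Q185.q3791_4) (q_cons (Vale.Agent.P032.Lt.q R0Q185.q3791_5) (q_cons (Vale.Agent.P032.Lt.q R0Q185.q3791_6) q_nil))))))))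

theorem p3792 : Pat 73 73 TBm TCm (CB.map Fm) R0Q185.P3792 R0Q185.I3792 := Vale.Agent.P032.Lt.pat_eq (E' := R0Q185.E) eB (pat_step (by decide +kernel) (q_cons (Vale.Agent.P032.Lt.q R0Q185.q3792_0) (q_cons (Vale.Agent.P032.Lt.q R0Q185.q3792_1) (q_cons (Vale.Agent.P032.Lt.q R0Q185.q3792_2) q_nil))))

theorem p3793 : Pat 73 73 TBm TCm (CB.map Fm) R0Q185.P3793 R0Q185.I3793 := Vale.Agent.P032.Lt.pat_eq (E' := R0Q185.E) eB (pat_step (by decide +kernel) (q_cons (Vale.Agent.P032.Lt.q R0Q185.q3793_0) (q_cons (Vale.Agent.P032.Lt.q R0Q185.q3793_1) (q_cons (Vale.Agent.P032.Lt.q R0Q185.q3793_2) q_nil))))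

def C3794 : List ℕ := [0, 4, 8, 12, 16, 20, 24, 82945, 606209]
theorem p3794 : Pat 73 73 TBm TCm (C3794.map Fm) R0Q185.P3794 R0Q185.I3794 := Vale.Agent.P032.Lt.pat_eq (E' := R0Q185.E3794) (by decide +kernel) (pat_step (by decide +kernel) (q_cons (Vale.Agent.P032.Lt.q R0Q185.q3794_0) q_nil))

theorem p3795 : Pat 73 73 TBm TCm (CB.map Fm) R0Q185.P3795 R0Q185.I3795 := Vale.Agent.P032.Lt.pat_eq (E' := R0Q185.E) eB (pat_step (by decide +kernel) (q_cons (Vale.Agent.P032.Lt.q R0Q185.q3795_0) (q_cons (Vale.Agent.P032.Lt.q R0Q185.q3795_1) (q_cons (Vale.Agent.P032.Lt.q R0Q185.q3795_2) (q_cons (Vale.Agent.P032.Lt.q R0Q185.q3795_3) (q_cons (Vale.Agent.P032.Lt.q R0Q185.q3795_4) (q_cons (Vale.Agent.P032.Lt.q R0Q185.q3795_5) (q_cons (Vale.Agent.P032.Lt.q R0Q185.q3795_6) q_nil))))))))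

theorem p3796 : Pat 73 73 TBm TCm (CB.map Fm) R0Q185.P3796 R0Q185.I3796 := Vale.Agent.P032.Lt.pat_eq (E' := R0Q185.E) eB (pat_step (by decide +kernel) (q_cons (Vale.Agent.P032.Lt.q R0Q185.q3796_0) (q_cons (Vale.Agent.P032.Lt.q R0Q185.q3796_1) (q_cons (Vale.Agent.P032.Lt.q R0Q185.q3796_2) (q_cons (Vale.Agent.P032.Lt.q R0Q185.q3796_3) (q_cons (Vale.Agent.P032.Lt.q R0Q185.q3796_4) (q_cons (Vale.Agent.P032.Lt.q R0Q185.q3796_5) (q_cons (Vale.Agent.P032.Lt.q R0Q185.q3796_6) (q_cons (Vale.Agent.P032.Lt.q R0Q185.q3796_7) (q_cons (Vale.Agent.P032.Lt.q R0Q185.q3796_8) (q_cons (Vale.Agent.P032.Lt.q R0Q185.q3796_9) q_nil)))))))))))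

theorem p3797 : Pat 73 73 TBm TCm (CB.map Fm) R0Q185.P3797 R0Q185.I3797 := Vale.Agent.P032.Lt.pat_eq (E' := R0Q185.E) eB (pat_step (by decide +kernel) (q_cons (Vale.Agent.P032.Lt.q R0Q185.q3797_0) (q_cons (Vale.Agent.P032.Lt.q R0Q185.q3797_1) (q_cons (Vale.Agent.P032.Lt.q R0Q185.q3797_2) (q_cons (Vale.Agent.P032.Lt.q R0Q185.q3797_3) (q_cons (Vale.Agent.P032.Lt.q R0Q185.q3797_4) (q_cons (Vale.Agent.P032.Lt.q R0Q185.q3797_5) (q_cons (Vale.Agent.P032.Lt.q R0Q185.q3797_6) (q_cons (Vale.Agent.P032.Lt.q R0Q185.q3797_7) (q_cons (Vale.Agent.P032.Lt.q R0Q185.q3797_8) (q_cons (Vale.Agent.P032.Lt.q R0Q185.q3797_9) (q_cons (Vale.Agent.P032.Lt.q R0Q185.q3797_10) (q_cons (Vale.Agent.P032.Lt.q R0Q185.q3797_11) q_nil)))))))))))))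

theorem p3798 : Pat 73 73 TBm TCm (CB.map Fm) R0Q185.P3798 R0Q185.I3798 := Vale.Agent.P032.Lt.pat_eq (E' := R0Q185.E) eB (pat_step (by decide +kernel) (q_cons (Vale.Agent.P032.Lt.q R0Q185.q3798_0) (q_cons (Vale.Agent.P032.Lt.q R0Q185.q3798_1) (q_cons (Vale.Agent.P032.Lt.q R0Q185.q3798_2) (q_cons (Vale.Agent.P032.Lt.q R0Q185.q3798_3) q_nil)))))

theorem p3799 : Pat 73 73 TBm TCm (CB.map Fm) R0Q185.P3799 R0Q185.I3799 := Vale.Agent.P032.Lt.pat_eq (E' := R0Q185.E) eB (pat_step (by decide +kernel) (q_cons (Vale.Agent.P032.Lt.q R0Q185.q3799_0) (q_cons (Vale.Agent.P032.Lt.q R0Q185.q3799_1) (q_cons (Vale.Agent.P032.Lt.q R0Q185.q3799_2) q_nil))))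

theorem p3800 : Pat 73 73 TBm TCm (CB.map Fm) R0Q185.P3800 R0Q185.I3800 := Vale.Agent.P032.Lt.pat_eq (E' := R0Q185.E) eB (pat_step (by decide +kernel) (q_cons (Vale.Agent.P032.Lt.q R0Q185.q3800_0) (q_cons (Vale.Agent.P032.Lt.q R0Q185.q3800_1) q_nil)))

theorem p3801 : Pat 73 73 TBm TCm (CB.map Fm) R0Q185.P3801 R0Q185.I3801 := Vale.Agent.P032.Lt.pat_eq (E' := R0Q185.E) eB (pat_step (by decide +kernel) (q_cons (Vale.Agent.P032.Lt.q R0Q185.q3801_0) (q_cons (Vale.Agent.P032.Lt.q R0Q185.q3801_1) (q_cons (Vale.Agent.P032.Lt.q R0Q185.q3801_2) (q_cons (Vale.Agent.P032.Lt.q R0Q185.q3801_3) (q_cons (Vale.Agent.P032.Lt.q R0Q185.q3801_4) (q_cons (Vale.Agent.P032.Lt.q R0Q185.q3801_5) (q_cons (Vale.Agent.P032.Lt.q R0Q185.q3801_6) (q_cons (Vale.Agent.P032.Lt.q R0Q185.q3801_7) (q_cons (Vale.Agent.P032.Lt.q R0Q185.q3801_8) q_nil))))))))))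

theorem p3802 : Pat 73 73 TBm TCm (CB.map Fm) R0Q185.P3802 R0Q185.I3802 := Vale.Agent.P032.Lt.pat_eq (E' := R0Q185.E) eB (pat_step (by decide +kernel) (q_cons (Vale.Agent.P032.Lt.q R0Q185.q3802_0) (q_cons (Vale.Agent.P032.Lt.q R0Q185.q3802_1) (q_cons (Vale.Agent.P032.Lt.q R0Q185.q3802_2) (q_cons (Vale.Agent.P032.Lt.q R0Q185.q3802_3) (q_cons (Vale.Agent.P032.Lt.q R0Q185.q3802_4) q_nil))))))

theorem p3803 : Pat 73 73 TBm TCm (CB.map Fm) R0Q185.P3803 R0Q185.I3803 := Vale.Agent.P032.Lt.pat_eq (E' := R0Q185.E) eB (pat_step (by decide +kernel) (q_cons (Vale.Agent.P032.Lt.q R0Q185.q3803_0) (q_cons (Vale.Agent.P032.Lt.q R0Q185.q3803_1) q_nil)))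

theorem p3804 : Pat 73 73 TBm TCm (CB.map Fm) R0Q185.P3804 R0Q185.I3804 := Vale.Agent.P032.Lt.pat_eq (E' := R0Q185.E) eB (pat_step (by decide +kernel) (q_cons (Vale.Agent.P032.Lt.q R0Q185.q3804_0) (q_cons (Vale.Agent.P032.Lt.q R0Q185.q3804_1) (q_cons (Vale.Agent.P032.Lt.q R0Q185.q3804_2) (q_cons (Vale.Agent.P032.Lt.q R0Q185.q3804_3) (q_cons (Vale.Agent.P032.Lt.q R0Q185.q3804_4) (q_cons (Vale.Agent.P032.Lt.q R0Q185.q3804_5) (q_cons (Vale.Agent.P032.Lt.q R0Q185.q3804_6) (q_cons (Vale.Agent.P032.Lt.q R0Q185.q3804_7) q_nil)))))))))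

def C3805 : List ℕ := [0, 4, 8, 12, 16, 20, 24, 222209, 355329, 484353, 606209]
theorem p3805 : Pat 73 73 TBm TCm (C3805.map Fm) R0Q185.P3805 R0Q185.I3805 := Vale.Agent.P032.Lt.pat_eq (E' := R0Q185.E3805) (by decide +kernel) (pat_step (by decide +kernel) (q_cons (Vale.Agent.P032.Lt.q R0Q185.q3805_0) (q_cons (Vale.Agent.P032.Lt.q R0Q185.q3805_1) (q_cons (Vale.Agent.P032.Lt.q R0Q185.q3805_2) (q_cons (Vale.Agent.P032.Lt.q R0Q185.q3805_3) (q_cons (Vale.Agent.P032.Lt.q R0Q185.q3805_4) q_nil))))))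

theorem p3806 : Pat 73 73 TBm TCm (CB.map Fm) R0Q185.P3806 R0Q185.I3806 := Vale.Agent.P032.Lt.pat_eq (E' := R0Q185.E) eB (pat_step (by decide +kernel) (q_cons (Vale.Agent.P032.Lt.q R0Q185.q3806_0) (q_cons (Vale.Agent.P032.Lt.q R0Q185.q3806_1) (q_cons (Vale.Agent.P032.Lt.q R0Q185.q3806_2) q_nil))))

theorem p3807 : Pat 73 73 TBm TCm (CB.map Fm) R0Q185.P3807 R0Q185.I3807 := Vale.Agent.P032.Lt.pat_eq (E' := R0Q185.E) eB (pat_step (by decide +kernel) (q_cons (Vale.Agent.P032.Lt.q R0Q185.q3807_0) (q_cons (Vale.Agent.P032.Lt.q R0Q185.q3807_1) q_nil)))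

theorem p3808 : Pat 73 73 TBm TCm (CB.map Fm) R0Q185.P3808 R0Q185.I3808 := Vale.Agent.P032.Lt.pat_eq (E' := R0Q185.E) eB (pat_step (by decide +kernel) (q_cons (Vale.Agent.P032.Lt.q R0Q185.q3808_0) q_nil))

theorem p3809 : Pat 73 73 TBm TCm (CB.map Fm) R0Q185.P3809 R0Q185.I3809 := Vale.Agent.P032.Lt.pat_eq (E' := R0Q185.E) eB (pat_step (by decide +kernel) (q_cons (Vale.Agent.P032.Lt.q R0Q185.q3809_0) q_nil))

theorem p3810 : Pat 73 73 TBm TCm (CB.map Fm) R0Q186.P3810 R0Q186.I3810 := Vale.Agent.P032.Lt.pat_eq (E' := R0Q186.E) eB (pat_step (by decide +kernel) (q_cons (Vale.Agent.P032.Lt.q R0Q186.q3810_0) (q_cons (Vale.Agent.P032.Lt.q R0Q186.q3810_1) (q_cons (Vale.Agent.P032.Lt.q R0Q186.q3810_2) (q_cons (Vale.Agent.P032.Lt.q R0Q186.q3810_3) (q_cons (Vale.Agent.P032.Lt.q R0Q186.q3810_4) (q_cons (Vale.Agent.P032.Lt.q R0Q186.q3810_5) (q_cons (Vale.Agent.P032.Lt.q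 R0Q186.q3810_6) (q_cons (Vale.Agent.P032.Lt.q R0Q186.q3810_7) (q_cons (Vale.Agent.P032.Lt.q R0Q186.q3810_8) (q_cons (Vale.Agent.P032.Lt.q R0Q186.q3810_9) (q_cons (Vale.Agent.P032.Lt.q R0Q186.q3810_10) (q_cons (Vale.Agent.P032.Lt.q R0Q186.q3810_11) (q_cons (Vale.Agent.P032.Lt.q R0Q186.q3810_12) (q_cons (Vale.Agent.P032.Lt.q R0Q186.q3810_13) (q_cons (Vale.Agent.P032.Lt.q R0Q186.q3810_14) (q_cons (Vale.Agent.P032.Lt.q R0Q186.q3810_15) (q_cons (Vale.Agent.P032.Lt.q R0Q186.q3810_16) (q_cons (Vale.Agent.P032.Lt.q R0Q186.q3810_17) q_nil)))))))))))))))))))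

theorem p3811 : Pat 73 73 TBm TCm (CB.map Fm) R0Q186.P3811 R0Q186.I3811 := Vale.Agent.P032.Lt.pat_eq (E' := R0Q186.E) eB (pat_step (by decide +kernel) (q_cons (Vale.Agent.P032.Lt.q R0Q186.q3811_0) (q_cons (Vale.Agent.P032.Lt.q R0Q186.q3811_1) (q_cons (Vale.Agent.P032.Lt.q R0Q186.q3811_2) (q_cons (Vale.Agent.P032.Lt.q R0Q186.q3811_3) (q_cons (Vale.Agent.P032.Lt.q R0Q186.q3811_4) (q_cons (Vale.Agent.P032.Lt.q R0Q186.q3811_5) (q_cons (Vale.Agent.P032.Lt.q R0Q186.q3811_6) (q_cons (Vale.Agent.P032.Lt.q R0Q186.q3811_7) (q_cons (Vale.Agent.P032.Lt.q R0Q186.q3811_8) (q_cons (Vale.Agent.P032.Lt.q R0Q186.q3811_9) (q_cons (Vale.Agent.P032.Lt.q R0Q186.q3811_10) (q_cons (Vale.Agent.P032.Lt.q R0Q186.q3811_11) q_nil)))))))))))))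

theorem p3812 : Pat 73 73 TBm TCm (CB.map Fm) R0Q186.P3812 R0Q186.I3812 := Vale.Agent.P032.Lt.pat_eq (E' := R0Q186.E) eB (pat_step (by decide +kernel) (q_cons (Vale.Agent.P032.Lt.q R0Q186.q3812_0) q_nil))

theorem p3813 : Pat 73 73 TBm TCm (CB.map Fm) R0Q186.P3813 R0Q186.I3813 := Vale.Agent.P032.Lt.pat_eq (E' := R0Q186.E) eB (pat_step (by decide +kernel) (q_cons (Vale.Agent.P032.Lt.q R0Q186.q3813_0) q_nil))

theorem p3814 : Pat 73 73 TBm TCm (CB.map Fm) R0Q186.P3814 R0Q186.I3814 := Vale.Agent.P032.Lt.pat_eq (E' := R0Q186.E) eB (pat_step (by decide +kernel) (q_cons (Vale.Agent.P032.Lt.q R0Q186.q3814_0) (q_cons (Vale.Agent.P032.Lt.q R0Q186.q3814_1) (q_cons (Vale.Agent.P032.Lt.q R0Q186.q3814_2) (q_cons (Vale.Agent.P032.Lt.q R0Q186.q3814_3) (q_cons (Vale.Agent.P032.Lt.q R0Q186.q3814_4) (q_cons (Vale.Agent.P032.Lt.q R0Q186.q3814_5) (q_cons (Vale.Agent.P032.Lt.q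 R0Q186.q3814_6) (q_cons (Vale.Agent.P032.Lt.q R0Q186.q3814_7) (q_cons (Vale.Agent.P032.Lt.q R0Q186.q3814_8) (q_cons (Vale.Agent.P032.Lt.q R0Q186.q3814_9) (q_cons (Vale.Agent.P032.Lt.q R0Q186.q3814_10) (q_cons (Vale.Agent.P032.Lt.q R0Q186.q3814_11) (q_cons (Vale.Agent.P032.Lt.q R0Q186.q3814_12) (q_cons (Vale.Agent.P032.Lt.q R0Q186.q3814_13) (q_cons (Vale.Agent.P032.Lt.q R0Q186.q3814_14) (q_cons (Vale.Agent.P032.Lt.q R0Q186.q3814_15) (q_cons (Vale.Agent.P032.Lt.q R0Q186.q3814_16) (q_cons (Vale.Agent.P032.Lt.q R0Q186.q3814_17) (q_cons (Vale.Agent.P032.Lt.q R0Q186.q3814_18) (q_cons (Vale.Agent.P032.Lt.q R0Q186.q3814_19) (q_cons (Vale.Agent.P032.Lt.q R0Q186.q3814_20) (q_cons (Vale.Agent.P032.Lt.q R0Q186.q3814_21) (q_cons (Vale.Agent.P032.Lt.q R0Q186.q3814_22) (q_cons (Vale.Agent.P032.Lt.q R0Q186.q3814_23) (q_cons (Vale.Agent.P032.Lt.q R0Q186.q3814_24)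 (q_cons (Vale.Agent.P032.Lt.q R0Q186.q3814_25) (q_cons (Vale.Agent.P032.Lt.q R0Q186.q3814_26) (q_cons (Vale.Agent.P032.Lt.q R0Q186.q3814_27) (q_cons (Vale.Agent.P032.Lt.q R0Q186.q3814_28) (q_cons (Vale.Agent.P032.Lt.q R0Q186.q3814_29) (q_cons (Vale.Agent.P032.Lt.q R0Q186.q3814_30) (q_cons (Vale.Agent.P032.Lt.q R0Q186.q3814_31) (q_cons (Vale.Agent.P032.Lt.q R0Q186.q3814_32) (q_cons (Vale.Agent.P032.Lt.q R0Q186.q3814_33) (q_cons (Vale.Agent.P032.Lt.q R0Q186.q3814_34) (q_cons (Vale.Agent.P032.Lt.q R0Q186.q3814_35) (q_cons (Vale.Agent.P032.Lt.q R0Q186.q3814_36) (q_cons (Vale.Agent.P032.Lt.q R0Q186.q3814_37) (q_cons (Vale.Agent.P032.Lt.q R0Q186.q3814_38) (q_cons (Vale.Agent.P032.Lt.q R0Q186.q3814_39) (q_cons (Vale.Agent.P032.Lt.q R0Q186.q3814_40) (q_cons (Vale.Agent.P032.Lt.q R0Q186.q3814_41) (q_cons (Vale.Agent.P032.Lt.q R0Q186.q3814_42) (q_cons (Vale.Agent.P032.Lt.q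 R0Q186.q3814_43) (q_cons (Vale.Agent.P032.Lt.q R0Q186.q3814_44) (q_cons (Vale.Agent.P032.Lt.q R0Q186.q3814_45) q_nil)))))))))))))))))))))))))))))))))))))))))))))))

theorem p3815 : Pat 73 73 TBm TCm (CB.map Fm) R0Q186.P3815 R0Q186.I3815 := Vale.Agent.P032.Lt.pat_eq (E' := R0Q186.E) eB (pat_step (by decide +kernel) (q_cons (Vale.Agent.P032.Lt.q R0Q186.q3815_0) (q_cons (Vale.Agent.P032.Lt.q R0Q186.q3815_1) (q_cons (Vale.Agent.P032.Lt.q R0Q186.q3815_2) q_nil))))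

theorem p3816 : Pat 73 73 TBm TCm (CB.map Fm) R0Q186.P3816 R0Q186.I3816 := Vale.Agent.P032.Lt.pat_eq (E' := R0Q186.E) eB (pat_step (by decide +kernel) (q_cons (Vale.Agent.P032.Lt.q R0Q186.q3816_0) (q_cons (Vale.Agent.P032.Lt.q R0Q186.q3816_1) q_nil)))

theorem p3817 : Pat 73 73 TBm TCm (CB.map Fm) R0Q186.P3817 R0Q186.I3817 := Vale.Agent.P032.Lt.pat_eq (E' := R0Q186.E) eB (pat_step (by decide +kernel) (q_cons (Vale.Agent.P032.Lt.q R0Q186.q3817_0) (q_cons (Vale.Agent.P032.Lt.q R0Q186.q3817_1) (q_cons (Vale.Agent.P032.Lt.q R0Q186.q3817_2) (q_cons (Vale.Agent.P032.Lt.q R0Q186.q3817_3) (q_cons (Vale.Agent.P032.Lt.q R0Q186.q3817_4) (q_cons (Vale.Agent.P032.Lt.q R0Q186.q3817_5) (q_cons (Vale.Agent.P032.Lt.q R0Q186.q3817_6) (q_cons (Vale.Agent.P032.Lt.q R0Q186.q3817_7) q_nil)))))))))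

def C3818 : List ℕ := [0, 4, 8, 12, 16, 20, 24, 475137, 737281]
theorem p3818 : Pat 73 73 TBm TCm (C3818.map Fm) R0Q186.P3818 R0Q186.I3818 := Vale.Agent.P032.Lt.pat_eq (E' := R0Q186.E3818) (by decide +kernel) (pat_step (by decide +kernel) (q_cons (Vale.Agent.P032.Lt.q R0Q186.q3818_0) (q_cons (Vale.Agent.P032.Lt.q R0Q186.q3818_1) (q_cons (Vale.Agent.P032.Lt.q R0Q186.q3818_2) (q_cons (Vale.Agent.P032.Lt.q R0Q186.q3818_3) (q_cons (Vale.Agent.P032.Lt.q R0Q186.q3818_4) (q_cons (Vale.Agent.P032.Lt.q R0Q186.q3818_5) (q_cons (Vale.Agent.P032.Lt.q R0Q186.q3818_6) (q_cons (Vale.Agent.P032.Lt.q R0Q186.q3818_7) (q_cons (Vale.Agent.P032.Lt.q R0Q186.q3818_8) (q_cons (Vale.Agent.P032.Lt.q R0Q186.q3818_9) (q_cons (Vale.Agent.P032.Lt.q R0Q186.q3818_10) (q_cons (Vale.Agent.P032.Lt.q R0Q186.q3818_11) (q_cons (Vale.Agent.P032.Lt.q R0Q186.q3818_12) (q_cons (Vale.Agent.P032.Lt.q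 R0Q186.q3818_13) q_nil)))))))))))))))

theorem p3819 : Pat 73 73 TBm TCm (CB.map Fm) R0Q186.P3819 R0Q186.I3819 := Vale.Agent.P032.Lt.pat_eq (E' := R0Q186.E) eB (pat_step (by decide +kernel) (q_cons (Vale.Agent.P032.Lt.q R0Q186.q3819_0) (q_cons (Vale.Agent.P032.Lt.q R0Q186.q3819_1) (q_cons (Vale.Agent.P032.Lt.q R0Q186.q3819_2) (q_cons (Vale.Agent.P032.Lt.q R0Q186.q3819_3) (q_cons (Vale.Agent.P032.Lt.q R0Q186.q3819_4) (q_cons (Vale.Agent.P032.Lt.q R0Q186.q3819_5) (q_cons (Vale.Agent.P032.Lt.q R0Q186.q3819_6) (q_cons (Vale.Agent.P032.Lt.q R0Q186.q3819_7) (q_cons (Vale.Agent.P032.Lt.q R0Q186.q3819_8) (q_cons (Vale.Agent.P032.Lt.q R0Q186.q3819_9) (q_cons (Vale.Agent.P032.Lt.q R0Q186.q3819_10) (q_cons (Vale.Agent.P032.Lt.q R0Q186.q3819_11) (q_cons (Vale.Agent.P032.Lt.q R0Q186.q3819_12) (q_cons (Vale.Agent.P032.Lt.q R0Q186.q3819_13) (q_cons (Vale.Agent.P032.Lt.q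 R0Q186.q3819_14) (q_cons (Vale.Agent.P032.Lt.q R0Q186.q3819_15) (q_cons (Vale.Agent.P032.Lt.q R0Q186.q3819_16) q_nil))))))))))))))))))

theorem p3820 : Pat 73 73 TBm TCm (CB.map Fm) R0Q186.P3820 R0Q186.I3820 := Vale.Agent.P032.Lt.pat_eq (E' := R0Q186.E) eB (pat_step (by decide +kernel) (q_cons (Vale.Agent.P032.Lt.q R0Q186.q3820_0) q_nil))

theorem p3821 : Pat 73 73 TBm TCm (CB.map Fm) R0Q186.P3821 R0Q186.I3821 := Vale.Agent.P032.Lt.pat_eq (E' := R0Q186.E) eB (pat_step (by decide +kernel) (q_cons (Vale.Agent.P032.Lt.q R0Q186.q3821_0) (q_cons (Vale.Agent.P032.Lt.q R0Q186.q3821_1) (q_cons (Vale.Agent.P032.Lt.q R0Q186.q3821_2) (q_cons (Vale.Agent.P032.Lt.q R0Q186.q3821_3) (q_cons (Vale.Agent.P032.Lt.q R0Q186.q3821_4) q_nil))))))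

theorem p3822 : Pat 73 73 TBm TCm (CB.map Fm) R0Q186.P3822 R0Q186.I3822 := Vale.Agent.P032.Lt.pat_eq (E' := R0Q186.E) eB (pat_step (by decide +kernel) (q_cons (Vale.Agent.P032.Lt.q R0Q186.q3822_0) (q_cons (Vale.Agent.P032.Lt.q R0Q186.q3822_1) (q_cons (Vale.Agent.P032.Lt.q R0Q186.q3822_2) q_nil))))

theorem p3823 : Pat 73 73 TBm TCm (CB.map Fm) R0Q186.P3823 R0Q186.I3823 := Vale.Agent.P032.Lt.pat_eq (E' := R0Q186.E) eB (pat_step (by decide +kernel) (q_cons (Vale.Agent.P032.Lt.q R0Q186.q3823_0) (q_cons (Vale.Agent.P032.Lt.q R0Q186.q3823_1) q_nil)))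

theorem p3824 : Pat 73 73 TBm TCm (CB.map Fm) R0Q186.P3824 R0Q186.I3824 := Vale.Agent.P032.Lt.pat_eq (E' := R0Q186.E) eB (pat_step (by decide +kernel) (q_cons (Vale.Agent.P032.Lt.q R0Q186.q3824_0) (q_cons (Vale.Agent.P032.Lt.q R0Q186.q3824_1) (q_cons (Vale.Agent.P032.Lt.q R0Q186.q3824_2) (q_cons (Vale.Agent.P032.Lt.q R0Q186.q3824_3) (q_cons (Vale.Agent.P032.Lt.q R0Q186.q3824_4) (q_cons (Vale.Agent.P032.Lt.q R0Q186.q3824_5) (q_cons (Vale.Agent.P032.Lt.q R0Q186.q3824_6) q_nil))))))))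

def C3825 : List ℕ := [0, 4, 8, 12, 16, 20, 24, 81921, 475137, 737281]
theorem p3825 : Pat 73 73 TBm TCm (C3825.map Fm) R0Q186.P3825 R0Q186.I3825 := Vale.Agent.P032.Lt.pat_eq (E' := R0Q186.E3825) (by decide +kernel) (pat_step (by decide +kernel) (q_cons (Vale.Agent.P032.Lt.q R0Q186.q3825_0) (q_cons (Vale.Agent.P032.Lt.q R0Q186.q3825_1) (q_cons (Vale.Agent.P032.Lt.q R0Q186.q3825_2) q_nil))))

theorem p3826 : Pat 73 73 TBm TCm (CB.map Fm) R0Q186.P3826 R0Q186.I3826 := Vale.Agent.P032.Lt.pat_eq (E' := R0Q186.E) eB (pat_step (by decide +kernel) (q_cons (Vale.Agent.P032.Lt.q R0Q186.q3826_0) q_nil))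

theorem p3827 : Pat 73 73 TBm TCm (CB.map Fm) R0Q186.P3827 R0Q186.I3827 := Vale.Agent.P032.Lt.pat_eq (E' := R0Q186.E) eB (pat_step (by decide +kernel) (q_cons (Vale.Agent.P032.Lt.q R0Q186.q3827_0) (q_cons (Vale.Agent.P032.Lt.q R0Q186.q3827_1) (q_cons (Vale.Agent.P032.Lt.q R0Q186.q3827_2) (q_cons (Vale.Agent.P032.Lt.q R0Q186.q3827_3) q_nil)))))

theorem p3828 : Pat 73 73 TBm TCm (CB.map Fm) R0Q186.P3828 R0Q186.I3828 := Vale.Agent.P032.Lt.pat_eq (E' := R0Q186.E) eB (pat_step (by decide +kernel) (q_cons (Vale.Agent.P032.Lt.q R0Q186.q3828_0) (q_cons (Vale.Agent.P032.Lt.q R0Q186.q3828_1) (q_cons (Vale.Agent.P032.Lt.q R0Q186.q3828_2) (q_cons (Vale.Agent.P032.Lt.q R0Q186.q3828_3) q_nil)))))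

theorem p3829 : Pat 73 73 TBm TCm (CB.map Fm) R0Q186.P3829 R0Q186.I3829 := Vale.Agent.P032.Lt.pat_eq (E' := R0Q186.E) eB (pat_step (by decide +kernel) (q_cons (Vale.Agent.P032.Lt.q R0Q186.q3829_0) (q_cons (Vale.Agent.P032.Lt.q R0Q186.q3829_1) (q_cons (Vale.Agent.P032.Lt.q R0Q186.q3829_2) (q_cons (Vale.Agent.P032.Lt.q R0Q186.q3829_3) (q_cons (Vale.Agent.P032.Lt.q R0Q186.q3829_4) (q_cons (Vale.Agent.P032.Lt.q R0Q186.q3829_5) q_nil)))))))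

theorem p3830 : Pat 73 73 TBm TCm (CB.map Fm) R0Q187.P3830 R0Q187.I3830 := Vale.Agent.P032.Lt.pat_eq (E' := R0Q187.E) eB (pat_step (by decide +kernel) (q_cons (Vale.Agent.P032.Lt.q R0Q187.q3830_0) (q_cons (Vale.Agent.P032.Lt.q R0Q187.q3830_1) (q_cons (Vale.Agent.P032.Lt.q R0Q187.q3830_2) (q_cons (Vale.Agent.P032.Lt.q R0Q187.q3830_3) (q_cons (Vale.Agent.P032.Lt.q R0Q187.q3830_4) (q_cons (Vale.Agent.P032.Lt.q R0Q187.q3830_5) (q_cons (Vale.Agent.P032.Lt.q R0Q187.q3830_6) (q_cons (Vale.Agent.P032.Lt.q R0Q187.q3830_7) (q_cons (Vale.Agent.P032.Lt.q R0Q187.q3830_8) (q_cons (Vale.Agent.P032.Lt.q R0Q187.q3830_9) (q_cons (Vale.Agent.P032.Lt.q R0Q187.q3830_10) (q_cons (Vale.Agent.P032.Lt.q R0Q187.q3830_11) (q_cons (Vale.Agent.P032.Lt.q R0Q187.q3830_12) (q_cons (Vale.Agent.P032.Lt.q R0Q187.q3830_13) (q_cons (Vale.Agent.P032.Lt.q R0Q187.q3830_14) (q_cons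 (Vale.Agent.P032.Lt.q R0Q187.q3830_15) (q_cons (Vale.Agent.P032.Lt.q R0Q187.q3830_16) q_nil))))))))))))))))))

theorem p3831 : Pat 73 73 TBm TCm (CB.map Fm) R0Q187.P3831 R0Q187.I3831 := Vale.Agent.P032.Lt.pat_eq (E' := R0Q187.E) eB (pat_step (by decide +kernel) (q_cons (Vale.Agent.P032.Lt.q R0Q187.q3831_0) (q_cons (Vale.Agent.P032.Lt.q R0Q187.q3831_1) (q_cons (Vale.Agent.P032.Lt.q R0Q187.q3831_2) (q_cons (Vale.Agent.P032.Lt.q R0Q187.q3831_3) (q_cons (Vale.Agent.P032.Lt.q R0Q187.q3831_4) (q_cons (Vale.Agent.P032.Lt.q R0Q187.q3831_5) (q_cons (Vale.Agent.P032.Lt.q R0Q187.q3831_6) (q_cons (Vale.Agent.P032.Lt.q R0Q187.q3831_7) (q_cons (Vale.Agent.P032.Lt.q R0Q187.q3831_8) (q_cons (Vale.Agent.P032.Lt.q R0Q187.q3831_9) (q_cons (Vale.Agent.P032.Lt.q R0Q187.q3831_10) (q_cons (Vale.Agent.P032.Lt.q R0Q187.q3831_11) (q_cons (Vale.Agent.P032.Lt.q R0Q187.q3831_12)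 (q_cons (Vale.Agent.P032.Lt.q R0Q187.q3831_13) q_nil)))))))))))))))

theorem p3832 : Pat 73 73 TBm TCm (CB.map Fm) R0Q187.P3832 R0Q187.I3832 := Vale.Agent.P032.Lt.pat_eq (E' := R0Q187.E) eB (pat_step (by decide +kernel) (q_cons (Vale.Agent.P032.Lt.q R0Q187.q3832_0) (q_cons (Vale.Agent.P032.Lt.q R0Q187.q3832_1) (q_cons (Vale.Agent.P032.Lt.q R0Q187.q3832_2) (q_cons (Vale.Agent.P032.Lt.q R0Q187.q3832_3) (q_cons (Vale.Agent.P032.Lt.q R0Q187.q3832_4) (q_cons (Vale.Agent.P032.Lt.q R0Q187.q3832_5) (q_cons (Vale.Agent.P032.Lt.q R0Q187.q3832_6) (q_cons (Vale.Agent.P032.Lt.q R0Q187.q3832_7) (q_cons (Vale.Agent.P032.Lt.q R0Q187.q3832_8) (q_cons (Vale.Agent.P032.Lt.q R0Q187.q3832_9) (q_cons (Vale.Agent.P032.Lt.q R0Q187.q3832_10) (q_cons (Vale.Agent.P032.Lt.q R0Q187.q3832_11) (q_cons (Vale.Agent.P032.Lt.q R0Q187.q3832_12) (q_cons (Vale.Agent.P032.Lt.q R0Q187.q3832_13)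 (q_cons (Vale.Agent.P032.Lt.q R0Q187.q3832_14) (q_cons (Vale.Agent.P032.Lt.q R0Q187.q3832_15) (q_cons (Vale.Agent.P032.Lt.q R0Q187.q3832_16) (q_cons (Vale.Agent.P032.Lt.q R0Q187.q3832_17) (q_cons (Vale.Agent.P032.Lt.q R0Q187.q3832_18) q_nil))))))))))))))))))))

theorem p3833 : Pat 73 73 TBm TCm (CB.map Fm) R0Q187.P3833 R0Q187.I3833 := Vale.Agent.P032.Lt.pat_eq (E' := R0Q187.E) eB (pat_step (by decide +kernel) (q_cons (Vale.Agent.P032.Lt.q R0Q187.q3833_0) (q_cons (Vale.Agent.P032.Lt.q R0Q187.q3833_1) q_nil)))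

theorem p3834 : Pat 73 73 TBm TCm (CB.map Fm) R0Q187.P3834 R0Q187.I3834 := Vale.Agent.P032.Lt.pat_eq (E' := R0Q187.E) eB (pat_step (by decide +kernel) (q_cons (Vale.Agent.P032.Lt.q R0Q187.q3834_0) (q_cons (Vale.Agent.P032.Lt.q R0Q187.q3834_1) q_nil)))

theorem p3835 : Pat 73 73 TBm TCm (CB.map Fm) R0Q187.P3835 R0Q187.I3835 := Vale.Agent.P032.Lt.pat_eq (E' := R0Q187.E) eB (pat_step (by decide +kernel) (q_cons (Vale.Agent.P032.Lt.q R0Q187.q3835_0) (q_cons (Vale.Agent.P032.Lt.q R0Q187.q3835_1) q_nil)))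

def C3836 : List ℕ := [0, 4, 8, 12, 16, 20, 24, 737281]
theorem p3836 : Pat 73 73 TBm TCm (C3836.map Fm) R0Q187.P3836 R0Q187.I3836 := Vale.Agent.P032.Lt.pat_eq (E' := R0Q187.E3836) (by decide +kernel) (pat_step (by decide +kernel) (q_cons (Vale.Agent.P032.Lt.q R0Q187.q3836_0) (q_cons (Vale.Agent.P032.Lt.q R0Q187.q3836_1) (q_cons (Vale.Agent.P032.Lt.q R0Q187.q3836_2) (q_cons (Vale.Agent.P032.Lt.q R0Q187.q3836_3) (q_cons (Vale.Agent.P032.Lt.q R0Q187.q3836_4) (q_cons (Vale.Agent.P032.Lt.q R0Q187.q3836_5) (q_cons (Vale.Agent.P032.Lt.q R0Q187.q3836_6) (q_cons (Vale.Agent.P032.Lt.q R0Q187.q3836_7) (q_cons (Vale.Agent.P032.Lt.q R0Q187.q3836_8) (q_cons (Vale.Agent.P032.Lt.q R0Q187.q3836_9) (q_cons (Vale.Agent.P032.Lt.q R0Q187.q3836_10) (q_cons (Vale.Agent.P032.Lt.q R0Q187.q3836_11) (q_cons (Vale.Agent.P032.Lt.q R0Q187.q3836_12) (q_cons (Vale.Agent.P032.Lt.q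 R0Q187.q3836_13) q_nil)))))))))))))))

def C3837 : List ℕ := [0, 4, 8, 12, 16, 20, 24, 737281]
theorem p3837 : Pat 73 73 TBm TCm (C3837.map Fm) R0Q187.P3837 R0Q187.I3837 := Vale.Agent.P032.Lt.pat_eq (E' := R0Q187.E3837) (by decide +kernel) (pat_step (by decide +kernel) (q_cons (Vale.Agent.P032.Lt.q R0Q187.q3837_0) (q_cons (Vale.Agent.P032.Lt.q R0Q187.q3837_1) (q_cons (Vale.Agent.P032.Lt.q R0Q187.q3837_2) (q_cons (Vale.Agent.P032.Lt.q R0Q187.q3837_3) (q_cons (Vale.Agent.P032.Lt.q R0Q187.q3837_4) (q_cons (Vale.Agent.P032.Lt.q R0Q187.q3837_5) (q_cons (Vale.Agent.P032.Lt.q R0Q187.q3837_6) (q_cons (Vale.Agent.P032.Lt.q R0Q187.q3837_7) (q_cons (Vale.Agent.P032.Lt.q R0Q187.q3837_8) q_nil))))))))))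

theorem p3838 : Pat 73 73 TBm TCm (CB.map Fm) R0Q187.P3838 R0Q187.I3838 := Vale.Agent.P032.Lt.pat_eq (E' := R0Q187.E) eB (pat_step (by decide +kernel) (q_cons (Vale.Agent.P032.Lt.q R0Q187.q3838_0) (q_cons (Vale.Agent.P032.Lt.q R0Q187.q3838_1) (q_cons (Vale.Agent.P032.Lt.q R0Q187.q3838_2) (q_cons (Vale.Agent.P032.Lt.q R0Q187.q3838_3) (q_cons (Vale.Agent.P032.Lt.q R0Q187.q3838_4) q_nil))))))

def C3839 : List ℕ := [0, 4, 8, 12, 16, 20, 24, 482305]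
theorem p3839 : Pat 73 73 TBm TCm (C3839.map Fm) R0Q187.P3839 R0Q187.I3839 := Vale.Agent.P032.Lt.pat_eq (E' := R0Q187.E3839) (by decide +kernel) (pat_step (by decide +kernel) (q_cons (Vale.Agent.P032.Lt.q R0Q187.q3839_0) q_nil))

def L : List (List ℕ) := [R0Q182.P3712, R0Q182.P3713, R0Q182.P3714, R0Q182.P3715, R0Q182.P3716, R0Q182.P3717, R0Q182.P3718, R0Q182.P3719, R0Q182.P3720, R0Q182.P3721, R0Q182.P3722, R0Q182.P3723, R0Q182.P3724, R0Q182.P3725, R0Q182.P3726, R0Q182.P3727, R0Q182.P3728, R0Q182.P3729, R0Q182.P3730, R0Q182.P3731, R0Q182.P3732, R0Q183.P3733, R0Q183.P3734, R0Q183.P3735, R0Q183.P3736, R0Q183.P3737, R0Q183.P3738, R0Q183.P3739, R0Q183.P3740, R0Q183.P3741, R0Q183.P3742, R0Q183.P3743, R0Q183.P3744, R0Q183.P3745, R0Q183.P3746, R0Q183.P3747, R0Q183.P3748, R0Q183.P3749, R0Q183.P3750, R0Q183.P3751, R0Q183.P3752, R0Q183.P3753, R0Q183.P3754,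 R0Q183.P3755, R0Q183.P3756, R0Q183.P3757, R0Q183.P3758, R0Q184.P3759, R0Q184.P3760, R0Q184.P3761, R0Q184.P3762, R0Q184.P3763, R0Q184.P3764, R0Q184.P3765, R0Q184.P3766, R0Q184.P3767, R0Q184.P3768, R0Q184.P3769, R0Q184.P3770, R0Q184.P3771, R0Q184.P3772, R0Q184.P3773, R0Q184.P3774, R0Q184.P3775, R0Q184.P3776, R0Q184.P3777, R0Q184.P3778, R0Q184.P3779, R0Q184.P3780, R0Q184.P3781, R0Q184.P3782, R0Q185.P3783, R0Q185.P3784, R0Q185.P3785, R0Q185.P3786, R0Q185.P3787, R0Q185.P3788, R0Q185.P3789, R0Q185.P3790, R0Q185.P3791, R0Q185.P3792, R0Q185.P3793, R0Q185.P3794, R0Q185.P3795, R0Q185.P3796, R0Q185.P3797, R0Q185.P3798, R0Q185.P3799, R0Q185.P3800, R0Q185.P3801, R0Q185.P3802, R0Q185.P3803, R0Q185.P3804, R0Q185.P3805, R0Q185.P3806, R0Q185.P3807, R0Q185.P3808, R0Q185.P3809, R0Q186.P3810, R0Q186.P3811, R0Q186.P3812, R0Q186.P3813, R0Q186.P3814, R0Q186.P3815, R0Q186.P3816,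 R0Q186.P3817, R0Q186.P3818, R0Q186.P3819, R0Q186.P3820, R0Q186.P3821, R0Q186.P3822, R0Q186.P3823, R0Q186.P3824, R0Q186.P3825, R0Q186.P3826, R0Q186.P3827, R0Q186.P3828, R0Q186.P3829, R0Q187.P3830, R0Q187.P3831, R0Q187.P3832, R0Q187.P3833, R0Q187.P3834, R0Q187.P3835, R0Q187.P3836, R0Q187.P3837, R0Q187.P3838, R0Q187.P3839]

theorem all : ∀ P ∈ L, CrtF 73 73 TBm TCm (Vale.Agent.P032.Fam.fam2 (Vale.Agent.P032.Fam.im0)) P := crtF_cons p3712 (crtF_cons p3713 (crtF_cons p3714 (crtF_cons p3715 (crtF_cons p3716 (crtF_cons p3717 (crtF_cons p3718 (crtF_cons p3719 (crtF_cons p3720 (crtF_cons p3721 (crtF_cons p3722 (crtF_cons p3723 (crtF_cons p3724 (crtF_cons p3725 (crtF_cons p3726 (crtF_cons p3727 (crtF_cons p3728 (crtF_cons p3729 (crtF_cons p3730 (crtF_cons p3731 (crtF_cons p3732 (crtF_cons p3733 (crtF_cons p3734 (crtF_cons p3735 (crtF_cons p3736 (crtF_cons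 p3737 (crtF_cons p3738 (crtF_cons p3739 (crtF_cons p3740 (crtF_cons p3741 (crtF_cons p3742 (crtF_cons p3743 (crtF_cons p3744 (crtF_cons p3745 (crtF_cons p3746 (crtF_cons p3747 (crtF_cons p3748 (crtF_cons p3749 (crtF_cons p3750 (crtF_cons p3751 (crtF_cons p3752 (crtF_cons p3753 (crtF_cons p3754 (crtF_cons p3755 (crtF_cons p3756 (crtF_cons p3757 (crtF_cons p3758 (crtF_cons p3759 (crtF_cons p3760 (crtF_cons p3761 (crtF_cons p3762 (crtF_cons p3763 (crtF_cons p3764 (crtF_cons p3765 (crtF_cons p3766 (crtF_cons p3767 (crtF_cons p3768 (crtF_cons p3769 (crtF_cons p3770 (crtF_cons p3771 (crtF_cons p3772 (crtF_cons p3773 (crtF_cons p3774 (crtF_cons p3775 (crtF_cons p3776 (crtF_cons p3777 (crtF_cons p3778 (crtF_cons p3779 (crtF_cons p3780 (crtF_cons p3781 (crtF_cons p3782 (crtF_cons p3783 (crtF_cons p3784 (crtF_cons p3785 (crtF_cons p3786 (crtF_cons p3787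 (crtF_cons p3788 (crtF_cons p3789 (crtF_cons p3790 (crtF_cons p3791 (crtF_cons p3792 (crtF_cons p3793 (crtF_cons p3794 (crtF_cons p3795 (crtF_cons p3796 (crtF_cons p3797 (crtF_cons p3798 (crtF_cons p3799 (crtF_cons p3800 (crtF_cons p3801 (crtF_cons p3802 (crtF_cons p3803 (crtF_cons p3804 (crtF_cons p3805 (crtF_cons p3806 (crtF_cons p3807 (crtF_cons p3808 (crtF_cons p3809 (crtF_cons p3810 (crtF_cons p3811 (crtF_cons p3812 (crtF_cons p3813 (crtF_cons p3814 (crtF_cons p3815 (crtF_cons p3816 (crtF_cons p3817 (crtF_cons p3818 (crtF_cons p3819 (crtF_cons p3820 (crtF_cons p3821 (crtF_cons p3822 (crtF_cons p3823 (crtF_cons p3824 (crtF_cons p3825 (crtF_cons p3826 (crtF_cons p3827 (crtF_cons p3828 (crtF_cons p3829 (crtF_cons p3830 (crtF_cons p3831 (crtF_cons p3832 (crtF_cons p3833 (crtF_cons p3834 (crtF_cons p3835 (crtF_cons p3836 (crtF_cons p3837 (crtF_cons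 p3838 (crtF_cons p3839 crtF_nil)))))))))))))))))))))))))))))))))))))))))))))))))))))))))))))))))))))))))))))))))))))))))))))))))))))))))))))))))))))))))))))))

theorem ch : chT 73 73 TCm s0_029 L = true := by decide +kernel

end Vale.Agent.P032X.Cert.XP.B1.R0H029
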