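import Vale.Agent.P032X.H892.LtH
import Vale.Agent.P032X.H286.W73
import Vale.Agent.P032X.Cert.XP.B1.R0T
import Vale.Agent.P032X.Cert.XP.B1.R0Q188
import Vale.Agent.P032X.Cert.XP.B1.R0Q189
import Vale.Agent.P032X.Cert.XP.B1.R0Q190
import Vale.Agent.P032X.Cert.XP.B1.R0Q191
import Vale.Agent.P032X.Cert.XP.B1.R0Q192

set_option maxRecDepth 1000000

namespace Vale.Agent.P032X.Cert.XP.B1.R0H030

open Vale.Agent.P032.H820.K Vale.Agent.P032.H357.MK Vale.Agent.P032.H286.E Vale.Agent.P032.H61 Vale.Agent.P032X.Cert.XP.B1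

noncomputable abbrev Fm : ℕ → List ℕ := Vale.Agent.P032.Fam.fam2 (Vale.Agent.P032.Fam.im0)

def CB : List ℕ := [0, 4, 8, 12, 16, 20, 24]

theorem eB : Vale.Agent.P032.Lt.eqLL (CB.map Fm) R0Q188.E = true := by decide +kernel

def C3840 : List ℕ := [0, 4, 8, 12, 16, 20, 24, 349185, 475137, 613377, 737281]
theorem p3840 : Pat 73 73 TBm TCm (C3840.map Fm) R0Q188.P3840 R0Q188.I3840 := Vale.Agent.P032.Lt.pat_eq (E' := R0Q188.E3840) (by decide +kernel) (pat_step (by decide +kernel) (q_cons (Vale.Agent.P032.Lt.q R0Q188.q3840_0) (q_cons (Vale.Agent.P032.Lt.q R0Q188.q3840_1) (q_cons (Vale.Agent.P032.Lt.q R0Q188.q3840_2) (q_cons (Vale.Agent.P032.Lt.q R0Q188.q3840_3) (q_cons (Vale.Agent.P032.Lt.q R0Q188.q3840_4) (q_cons (Vale.Agent.P032.Lt.q R0Q188.q3840_5) q_nil)))))))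

theorem p3841 : Pat 73 73 TBm TCm (CB.map Fm) R0Q188.P3841 R0Q188.I3841 := Vale.Agent.P032.Lt.pat_eq (E' := R0Q188.E) eB (pat_step (by decide +kernel) (q_cons (Vale.Agent.P032.Lt.q R0Q188.q3841_0) (q_cons (Vale.Agent.P032.Lt.q R0Q188.q3841_1) (q_cons (Vale.Agent.P032.Lt.q R0Q188.q3841_2) (q_cons (Vale.Agent.P032.Lt.q R0Q188.q3841_3) q_nil)))))

theorem p3842 : Pat 73 73 TBm TCm (CB.map Fm) R0Q188.P3842 R0Q188.I3842 := Vale.Agent.P032.Lt.pat_eq (E' := R0Q188.E) eB (pat_step (by decide +kernel) (q_cons (Vale.Agent.P032.Lt.q R0Q188.q3842_0) (q_cons (Vale.Agent.P032.Lt.q R0Q188.q3842_1) (q_cons (Vale.Agent.P032.Lt.q R0Q188.q3842_2) (q_cons (Vale.Agent.P032.Lt.q R0Q188.q3842_3) (q_cons (Vale.Agent.P032.Lt.q R0Q188.q3842_4) (q_cons (Vale.Agent.P032.Lt.q R0Q188.q3842_5) (q_cons (Vale.Agent.P032.Lt.q R0Q188.q3842_6) (q_cons (Vale.Agent.P032.Lt.q R0Q188.q3842_7)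 (q_cons (Vale.Agent.P032.Lt.q R0Q188.q3842_8) (q_cons (Vale.Agent.P032.Lt.q R0Q188.q3842_9) (q_cons (Vale.Agent.P032.Lt.q R0Q188.q3842_10) (q_cons (Vale.Agent.P032.Lt.q R0Q188.q3842_11) q_nil)))))))))))))

theorem p3843 : Pat 73 73 TBm TCm (CB.map Fm) R0Q188.P3843 R0Q188.I3843 := Vale.Agent.P032.Lt.pat_eq (E' := R0Q188.E) eB (pat_step (by decide +kernel) (q_cons (Vale.Agent.P032.Lt.q R0Q188.q3843_0) (q_cons (Vale.Agent.P032.Lt.q R0Q188.q3843_1) (q_cons (Vale.Agent.P032.Lt.q R0Q188.q3843_2) (q_cons (Vale.Agent.P032.Lt.q R0Q188.q3843_3) q_nil)))))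

theorem p3844 : Pat 73 73 TBm TCm (CB.map Fm) R0Q188.P3844 R0Q188.I3844 := Vale.Agent.P032.Lt.pat_eq (E' := R0Q188.E) eB (pat_step (by decide +kernel) (q_cons (Vale.Agent.P032.Lt.q R0Q188.q3844_0) (q_cons (Vale.Agent.P032.Lt.q R0Q188.q3844_1) (q_cons (Vale.Agent.P032.Lt.q R0Q188.q3844_2) (q_cons (Vale.Agent.P032.Lt.q R0Q188.q3844_3) (q_cons (Vale.Agent.P032.Lt.q R0Q188.q3844_4) q_nil))))))

theorem p3845 : Pat 73 73 TBm TCm (CB.map Fm) R0Q188.P3845 R0Q188.I3845 := Vale.Agent.P032.Lt.pat_eq (E' := R0Q188.E) eB (pat_step (by decide +kernel) (q_cons (Vale.Agent.P032.Lt.q R0Q188.q3845_0) q_nil))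

theorem p3846 : Pat 73 73 TBm TCm (CB.map Fm) R0Q188.P3846 R0Q188.I3846 := Vale.Agent.P032.Lt.pat_eq (E' := R0Q188.E) eB (pat_step (by decide +kernel) (q_cons (Vale.Agent.P032.Lt.q R0Q188.q3846_0) q_nil))

theorem p3847 : Pat 73 73 TBm TCm (CB.map Fm) R0Q188.P3847 R0Q188.I3847 := Vale.Agent.P032.Lt.pat_eq (E' := R0Q188.E) eB (pat_step (by decide +kernel) (q_cons (Vale.Agent.P032.Lt.q R0Q188.q3847_0) (q_cons (Vale.Agent.P032.Lt.q R0Q188.q3847_1) (q_cons (Vale.Agent.P032.Lt.q R0Q188.q3847_2) q_nil))))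

theorem p3848 : Pat 73 73 TBm TCm (CB.map Fm) R0Q188.P3848 R0Q188.I3848 := Vale.Agent.P032.Lt.pat_eq (E' := R0Q188.E) eB (pat_step (by decide +kernel) (q_cons (Vale.Agent.P032.Lt.q R0Q188.q3848_0) q_nil))

theorem p3849 : Pat 73 73 TBm TCm (CB.map Fm) R0Q188.P3849 R0Q188.I3849 := Vale.Agent.P032.Lt.pat_eq (E' := R0Q188.E) eB (pat_step (by decide +kernel) (q_cons (Vale.Agent.P032.Lt.q R0Q188.q3849_0) q_nil))

theorem p3850 : Pat 73 73 TBm TCm (CB.map Fm) R0Q188.P3850 R0Q188.I3850 := Vale.Agent.P032.Lt.pat_eq (E' := R0Q188.E) eB (pat_step (by decide +kernel) (q_cons (Vale.Agent.P032.Lt.q R0Q188.q3850_0) (q_cons (Vale.Agent.P032.Lt.q R0Q188.q3850_1) (q_cons (Vale.Agent.P032.Lt.q R0Q188.q3850_2) q_nil))))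

theorem p3851 : Pat 73 73 TBm TCm (CB.map Fm) R0Q188.P3851 R0Q188.I3851 := Vale.Agent.P032.Lt.pat_eq (E' := R0Q188.E) eB (pat_step (by decide +kernel) (q_cons (Vale.Agent.P032.Lt.q R0Q188.q3851_0) q_nil))

theorem p3852 : Pat 73 73 TBm TCm (CB.map Fm) R0Q188.P3852 R0Q188.I3852 := Vale.Agent.P032.Lt.pat_eq (E' := R0Q188.E) eB (pat_step (by decide +kernel) (q_cons (Vale.Agent.P032.Lt.q R0Q188.q3852_0) q_nil))

theorem p3853 : Pat 73 73 TBm TCm (CB.map Fm) R0Q188.P3853 R0Q188.I3853 := Vale.Agent.P032.Lt.pat_eq (E' := R0Q188.E) eB (pat_step (by decide +kernel) (q_cons (Vale.Agent.P032.Lt.q R0Q188.q3853_0) (q_cons (Vale.Agent.P032.Lt.q R0Q188.q3853_1) q_nil)))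

theorem p3854 : Pat 73 73 TBm TCm (CB.map Fm) R0Q188.P3854 R0Q188.I3854 := Vale.Agent.P032.Lt.pat_eq (E' := R0Q188.E) eB (pat_step (by decide +kernel) (q_cons (Vale.Agent.P032.Lt.q R0Q188.q3854_0) (q_cons (Vale.Agent.P032.Lt.q R0Q188.q3854_1) q_nil)))

theorem p3855 : Pat 73 73 TBm TCm (CB.map Fm) R0Q188.P3855 [[]] := Vale.Agent.P032.Lt.pat_eq (E' := R0Q188.E) eB (pat_start (by decide +kernel) (Vale.Agent.P032.Lt.q R0Q188.q3855))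

theorem p3856 : Pat 73 73 TBm TCm (CB.map Fm) R0Q188.P3856 R0Q188.I3856 := Vale.Agent.P032.Lt.pat_eq (E' := R0Q188.E) eB (pat_step (by decide +kernel) (q_cons (Vale.Agent.P032.Lt.q R0Q188.q3856_0) (q_cons (Vale.Agent.P032.Lt.q R0Q188.q3856_1) (q_cons (Vale.Agent.P032.Lt.q R0Q188.q3856_2) (q_cons (Vale.Agent.P032.Lt.q R0Q188.q3856_3) q_nil)))))

theorem p3857 : Pat 73 73 TBm TCm (CB.map Fm) R0Q188.P3857 R0Q188.I3857 := Vale.Agent.P032.Lt.pat_eq (E' := R0Q188.E) eB (pat_step (by decide +kernel) (q_cons (Vale.Agent.P032.Lt.q R0Q188.q3857_0) (q_cons (Vale.Agent.P032.Lt.q R0Q188.q3857_1) (q_cons (Vale.Agent.P032.Lt.q R0Q188.q3857_2) (q_cons (Vale.Agent.P032.Lt.q R0Q188.q3857_3) q_nil)))))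

theorem p3858 : Pat 73 73 TBm TCm (CB.map Fm) R0Q188.P3858 R0Q188.I3858 := Vale.Agent.P032.Lt.pat_eq (E' := R0Q188.E) eB (pat_step (by decide +kernel) (q_cons (Vale.Agent.P032.Lt.q R0Q188.q3858_0) (q_cons (Vale.Agent.P032.Lt.q R0Q188.q3858_1) (q_cons (Vale.Agent.P032.Lt.q R0Q188.q3858_2) (q_cons (Vale.Agent.P032.Lt.q R0Q188.q3858_3) (q_cons (Vale.Agent.P032.Lt.q R0Q188.q3858_4) (q_cons (Vale.Agent.P032.Lt.q R0Q188.q3858_5) (q_cons (Vale.Agent.P032.Lt.q R0Q188.q3858_6) (q_cons (Vale.Agent.P032.Lt.q R0Q188.q3858_7) (q_cons (Vale.Agent.P032.Lt.q R0Q188.q3858_8) (q_cons (Vale.Agent.P032.Lt.q R0Q188.q3858_9) (q_cons (Vale.Agent.P032.Lt.q R0Q188.q3858_10) (q_cons (Vale.Agent.P032.Lt.q R0Q188.q3858_11) (q_cons (Vale.Agent.P032.Lt.q R0Q188.q3858_12) (q_cons (Vale.Agent.P032.Lt.q R0Q188.q3858_13) (q_cons (Vale.Agent.P032.Lt.q R0Q188.q3858_14) (q_cons (Vale.Agent.P032.Lt.q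 R0Q188.q3858_15) (q_cons (Vale.Agent.P032.Lt.q R0Q188.q3858_16) q_nil))))))))))))))))))

theorem p3859 : Pat 73 73 TBm TCm (CB.map Fm) R0Q188.P3859 R0Q188.I3859 := Vale.Agent.P032.Lt.pat_eq (E' := R0Q188.E) eB (pat_step (by decide +kernel) (q_cons (Vale.Agent.P032.Lt.q R0Q188.q3859_0) (q_cons (Vale.Agent.P032.Lt.q R0Q188.q3859_1) (q_cons (Vale.Agent.P032.Lt.q R0Q188.q3859_2) (q_cons (Vale.Agent.P032.Lt.q R0Q188.q3859_3) (q_cons (Vale.Agent.P032.Lt.q R0Q188.q3859_4) (q_cons (Vale.Agent.P032.Lt.q R0Q188.q3859_5) (q_cons (Vale.Agent.P032.Lt.q R0Q188.q3859_6) q_nil))))))))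

theorem p3860 : Pat 73 73 TBm TCm (CB.map Fm) R0Q188.P3860 R0Q188.I3860 := Vale.Agent.P032.Lt.pat_eq (E' := R0Q188.E) eB (pat_step (by decide +kernel) (q_cons (Vale.Agent.P032.Lt.q R0Q188.q3860_0) (q_cons (Vale.Agent.P032.Lt.q R0Q188.q3860_1) (q_cons (Vale.Agent.P032.Lt.q R0Q188.q3860_2) (q_cons (Vale.Agent.P032.Lt.q R0Q188.q3860_3) (q_cons (Vale.Agent.P032.Lt.q R0Q188.q3860_4) (q_cons (Vale.Agent.P032.Lt.q R0Q188.q3860_5) (q_cons (Vale.Agent.P032.Lt.q R0Q188.q3860_6) (q_cons (Vale.Agent.P032.Lt.q R0Q188.q3860_7) (q_cons (Vale.Agent.P032.Lt.q R0Q188.q3860_8) q_nil))))))))))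

theorem p3861 : Pat 73 73 TBm TCm (CB.map Fm) R0Q188.P3861 R0Q188.I3861 := Vale.Agent.P032.Lt.pat_eq (E' := R0Q188.E) eB (pat_step (by decide +kernel) (q_cons (Vale.Agent.P032.Lt.q R0Q188.q3861_0) (q_cons (Vale.Agent.P032.Lt.q R0Q188.q3861_1) (q_cons (Vale.Agent.P032.Lt.q R0Q188.q3861_2) (q_cons (Vale.Agent.P032.Lt.q R0Q188.q3861_3) (q_cons (Vale.Agent.P032.Lt.q R0Q188.q3861_4) (q_cons (Vale.Agent.P032.Lt.q R0Q188.q3861_5) (q_cons (Vale.Agent.P032.Lt.q R0Q188.q3861_6) (q_cons (Vale.Agent.P032.Lt.q R0Q188.q3861_7) (q_cons (Vale.Agent.P032.Lt.q R0Q188.q3861_8) (q_cons (Vale.Agent.P032.Lt.q R0Q188.q3861_9) q_nil)))))))))))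

theorem p3862 : Pat 73 73 TBm TCm (CB.map Fm) R0Q188.P3862 R0Q188.I3862 := Vale.Agent.P032.Lt.pat_eq (E' := R0Q188.E) eB (pat_step (by decide +kernel) (q_cons (Vale.Agent.P032.Lt.q R0Q188.q3862_0) (q_cons (Vale.Agent.P032.Lt.q R0Q188.q3862_1) (q_cons (Vale.Agent.P032.Lt.q R0Q188.q3862_2) q_nil))))

theorem p3863 : Pat 73 73 TBm TCm (CB.map Fm) R0Q189.P3863 R0Q189.I3863 := Vale.Agent.P032.Lt.pat_eq (E' := R0Q189.E) eB (pat_step (by decide +kernel) (q_cons (Vale.Agent.P032.Lt.q R0Q189.q3863_0) (q_cons (Vale.Agent.P032.Lt.q R0Q189.q3863_1) (q_cons (Vale.Agent.P032.Lt.q R0Q189.q3863_2) (q_cons (Vale.Agent.P032.Lt.q R0Q189.q3863_3) (q_cons (Vale.Agent.P032.Lt.q R0Q189.q3863_4) (q_cons (Vale.Agent.P032.Lt.q R0Q189.q3863_5) (q_cons (Vale.Agent.P032.Lt.q R0Q189.q3863_6) (q_cons (Vale.Agent.P032.Lt.q R0Q189.q3863_7) (q_cons (Vale.Agent.P032.Lt.q R0Q189.q3863_8)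 q_nil))))))))))

theorem p3864 : Pat 73 73 TBm TCm (CB.map Fm) R0Q189.P3864 R0Q189.I3864 := Vale.Agent.P032.Lt.pat_eq (E' := R0Q189.E) eB (pat_step (by decide +kernel) (q_cons (Vale.Agent.P032.Lt.q R0Q189.q3864_0) (q_cons (Vale.Agent.P032.Lt.q R0Q189.q3864_1) (q_cons (Vale.Agent.P032.Lt.q R0Q189.q3864_2) q_nil))))

theorem p3865 : Pat 73 73 TBm TCm (CB.map Fm) R0Q189.P3865 R0Q189.I3865 := Vale.Agent.P032.Lt.pat_eq (E' := R0Q189.E) eB (pat_step (by decide +kernel) (q_cons (Vale.Agent.P032.Lt.q R0Q189.q3865_0) (q_cons (Vale.Agent.P032.Lt.q R0Q189.q3865_1) q_nil)))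

def C3866 : List ℕ := [0, 4, 8, 12, 16, 20, 24, 212993, 475137, 737281]
theorem p3866 : Pat 73 73 TBm TCm (C3866.map Fm) R0Q189.P3866 R0Q189.I3866 := Vale.Agent.P032.Lt.pat_eq (E' := R0Q189.E3866) (by decide +kernel) (pat_step (by decide +kernel) (q_cons (Vale.Agent.P032.Lt.q R0Q189.q3866_0) (q_cons (Vale.Agent.P032.Lt.q R0Q189.q3866_1) (q_cons (Vale.Agent.P032.Lt.q R0Q189.q3866_2) q_nil))))

theorem p3867 : Pat 73 73 TBm TCm (CB.map Fm) R0Q189.P3867 R0Q189.I3867 := Vale.Agent.P032.Lt.pat_eq (E' := R0Q189.E) eB (pat_step (by decide +kernel) (q_cons (Vale.Agent.P032.Lt.q R0Q189.q3867_0) (q_cons (Vale.Agent.P032.Lt.q R0Q189.q3867_1) q_nil)))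

theorem p3868 : Pat 73 73 TBm TCm (CB.map Fm) R0Q189.P3868 R0Q189.I3868 := Vale.Agent.P032.Lt.pat_eq (E' := R0Q189.E) eB (pat_step (by decide +kernel) (q_cons (Vale.Agent.P032.Lt.q R0Q189.q3868_0) (q_cons (Vale.Agent.P032.Lt.q R0Q189.q3868_1) (q_cons (Vale.Agent.P032.Lt.q R0Q189.q3868_2) (q_cons (Vale.Agent.P032.Lt.q R0Q189.q3868_3) (q_cons (Vale.Agent.P032.Lt.q R0Q189.q3868_4) (q_cons (Vale.Agent.P032.Lt.q R0Q189.q3868_5) (q_cons (Vale.Agent.P032.Lt.q R0Q189.q3868_6) (q_cons (Vale.Agent.P032.Lt.q R0Q189.q3868_7) (q_cons (Vale.Agent.P032.Lt.q R0Q189.q3868_8) q_nil))))))))))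

theorem p3869 : Pat 73 73 TBm TCm (CB.map Fm) R0Q189.P3869 R0Q189.I3869 := Vale.Agent.P032.Lt.pat_eq (E' := R0Q189.E) eB (pat_step (by decide +kernel) (q_cons (Vale.Agent.P032.Lt.q R0Q189.q3869_0) (q_cons (Vale.Agent.P032.Lt.q R0Q189.q3869_1) (q_cons (Vale.Agent.P032.Lt.q R0Q189.q3869_2) q_nil))))

theorem p3870 : Pat 73 73 TBm TCm (CB.map Fm) R0Q189.P3870 R0Q189.I3870 := Vale.Agent.P032.Lt.pat_eq (E' := R0Q189.E) eB (pat_step (by decide +kernel) (q_cons (Vale.Agent.P032.Lt.q R0Q189.q3870_0) q_nil))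

theorem p3871 : Pat 73 73 TBm TCm (CB.map Fm) R0Q189.P3871 R0Q189.I3871 := Vale.Agent.P032.Lt.pat_eq (E' := R0Q189.E) eB (pat_step (by decide +kernel) (q_cons (Vale.Agent.P032.Lt.q R0Q189.q3871_0) (q_cons (Vale.Agent.P032.Lt.q R0Q189.q3871_1) (q_cons (Vale.Agent.P032.Lt.q R0Q189.q3871_2) (q_cons (Vale.Agent.P032.Lt.q R0Q189.q3871_3) (q_cons (Vale.Agent.P032.Lt.q R0Q189.q3871_4) (q_cons (Vale.Agent.P032.Lt.q R0Q189.q3871_5) q_nil)))))))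

theorem p3872 : Pat 73 73 TBm TCm (CB.map Fm) R0Q189.P3872 R0Q189.I3872 := Vale.Agent.P032.Lt.pat_eq (E' := R0Q189.E) eB (pat_step (by decide +kernel) (q_cons (Vale.Agent.P032.Lt.q R0Q189.q3872_0) (q_cons (Vale.Agent.P032.Lt.q R0Q189.q3872_1) q_nil)))

theorem p3873 : Pat 73 73 TBm TCm (CB.map Fm) R0Q189.P3873 R0Q189.I3873 := Vale.Agent.P032.Lt.pat_eq (E' := R0Q189.E) eB (pat_step (by decide +kernel) (q_cons (Vale.Agent.P032.Lt.q R0Q189.q3873_0) (q_cons (Vale.Agent.P032.Lt.q R0Q189.q3873_1) q_nil)))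

theorem p3874 : Pat 73 73 TBm TCm (CB.map Fm) R0Q189.P3874 R0Q189.I3874 := Vale.Agent.P032.Lt.pat_eq (E' := R0Q189.E) eB (pat_step (by decide +kernel) (q_cons (Vale.Agent.P032.Lt.q R0Q189.q3874_0) (q_cons (Vale.Agent.P032.Lt.q R0Q189.q3874_1) (q_cons (Vale.Agent.P032.Lt.q R0Q189.q3874_2) (q_cons (Vale.Agent.P032.Lt.q R0Q189.q3874_3) (q_cons (Vale.Agent.P032.Lt.q R0Q189.q3874_4) q_nil))))))

theorem p3875 : Pat 73 73 TBm TCm (CB.map Fm) R0Q189.P3875 R0Q189.I3875 := Vale.Agent.P032.Lt.pat_eq (E' := R0Q189.E) eB (pat_step (by decide +kernel) (q_cons (Vale.Agent.P032.Lt.q R0Q189.q3875_0) (q_cons (Vale.Agent.P032.Lt.q R0Q189.q3875_1) q_nil)))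

theorem p3876 : Pat 73 73 TBm TCm (CB.map Fm) R0Q189.P3876 R0Q189.I3876 := Vale.Agent.P032.Lt.pat_eq (E' := R0Q189.E) eB (pat_step (by decide +kernel) (q_cons (Vale.Agent.P032.Lt.q R0Q189.q3876_0) q_nil))

theorem p3877 : Pat 73 73 TBm TCm (CB.map Fm) R0Q189.P3877 [] := Vale.Agent.P032.Lt.pat_eq (E' := R0Q189.E) eB (pat_end (by decide +kernel) (Vale.Agent.P032.Lt.q R0Q189.q3877))

theorem p3878 : Pat 73 73 TBm TCm (CB.map Fm) R0Q189.P3878 R0Q189.I3878 := Vale.Agent.P032.Lt.pat_eq (E' := R0Q189.E) eB (pat_step (by decide +kernel) (q_cons (Vale.Agent.P032.Lt.q R0Q189.q3878_0) (q_cons (Vale.Agent.P032.Lt.q R0Q189.q3878_1) q_nil)))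

theorem p3879 : Pat 73 73 TBm TCm (CB.map Fm) R0Q189.P3879 R0Q189.I3879 := Vale.Agent.P032.Lt.pat_eq (E' := R0Q189.E) eB (pat_step (by decide +kernel) (q_cons (Vale.Agent.P032.Lt.q R0Q189.q3879_0) (q_cons (Vale.Agent.P032.Lt.q R0Q189.q3879_1) (q_cons (Vale.Agent.P032.Lt.q R0Q189.q3879_2) (q_cons (Vale.Agent.P032.Lt.q R0Q189.q3879_3) q_nil)))))

theorem p3880 : Pat 73 73 TBm TCm (CB.map Fm) R0Q189.P3880 R0Q189.I3880 := Vale.Agent.P032.Lt.pat_eq (E' := R0Q189.E) eB (pat_step (by decide +kernel) (q_cons (Vale.Agent.P032.Lt.q R0Q189.q3880_0) (q_cons (Vale.Agent.P032.Lt.q R0Q189.q3880_1) (q_cons (Vale.Agent.P032.Lt.q R0Q189.q3880_2) q_nil))))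

theorem p3881 : Pat 73 73 TBm TCm (CB.map Fm) R0Q189.P3881 R0Q189.I3881 := Vale.Agent.P032.Lt.pat_eq (E' := R0Q189.E) eB (pat_step (by decide +kernel) (q_cons (Vale.Agent.P032.Lt.q R0Q189.q3881_0) (q_cons (Vale.Agent.P032.Lt.q R0Q189.q3881_1) (q_cons (Vale.Agent.P032.Lt.q R0Q189.q3881_2) (q_cons (Vale.Agent.P032.Lt.q R0Q189.q3881_3) (q_cons (Vale.Agent.P032.Lt.q R0Q189.q3881_4) q_nil))))))

theorem p3882 : Pat 73 73 TBm TCm (CB.map Fm) R0Q189.P3882 R0Q189.I3882 := Vale.Agent.P032.Lt.pat_eq (E' := R0Q189.E) eB (pat_step (by decide +kernel) (q_cons (Vale.Agent.P032.Lt.q R0Q189.q3882_0) (q_cons (Vale.Agent.P032.Lt.q R0Q189.q3882_1) (q_cons (Vale.Agent.P032.Lt.q R0Q189.q3882_2) (q_cons (Vale.Agent.P032.Lt.q R0Q189.q3882_3) (q_cons (Vale.Agent.P032.Lt.q R0Q189.q3882_4) (q_cons (Vale.Agent.P032.Lt.q R0Q189.q3882_5) q_nil)))))))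

theorem p3883 : Pat 73 73 TBm TCm (CB.map Fm) R0Q189.P3883 R0Q189.I3883 := Vale.Agent.P032.Lt.pat_eq (E' := R0Q189.E) eB (pat_step (by decide +kernel) (q_cons (Vale.Agent.P032.Lt.q R0Q189.q3883_0) (q_cons (Vale.Agent.P032.Lt.q R0Q189.q3883_1) (q_cons (Vale.Agent.P032.Lt.q R0Q189.q3883_2) (q_cons (Vale.Agent.P032.Lt.q R0Q189.q3883_3) (q_cons (Vale.Agent.P032.Lt.q R0Q189.q3883_4) (q_cons (Vale.Agent.P032.Lt.q R0Q189.q3883_5) (q_cons (Vale.Agent.P032.Lt.q R0Q189.q3883_6) (q_cons (Vale.Agent.P032.Lt.q R0Q189.q3883_7) (q_cons (Vale.Agent.P032.Lt.q R0Q189.q3883_8) (q_cons (Vale.Agent.P032.Lt.q R0Q189.q3883_9) (q_cons (Vale.Agent.P032.Lt.q R0Q189.q3883_10) q_nil))))))))))))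

theorem p3884 : Pat 73 73 TBm TCm (CB.map Fm) R0Q189.P3884 R0Q189.I3884 := Vale.Agent.P032.Lt.pat_eq (E' := R0Q189.E) eB (pat_step (by decide +kernel) (q_cons (Vale.Agent.P032.Lt.q R0Q189.q3884_0) (q_cons (Vale.Agent.P032.Lt.q R0Q189.q3884_1) (q_cons (Vale.Agent.P032.Lt.q R0Q189.q3884_2) q_nil))))

def C3885 : List ℕ := [0, 4, 8, 12, 16, 20, 24, 347137, 480257, 737281]
theorem p3885 : Pat 73 73 TBm TCm (C3885.map Fm) R0Q190.P3885 R0Q190.I3885 := Vale.Agent.P032.Lt.pat_eq (E' := R0Q190.E3885) (by decide +kernel) (pat_step (by decide +kernel) (q_cons (Vale.Agent.P032.Lt.q R0Q190.q3885_0) (q_cons (Vale.Agent.P032.Lt.q R0Q190.q3885_1) (q_cons (Vale.Agent.P032.Lt.q R0Q190.q3885_2) (q_cons (Vale.Agent.P032.Lt.q R0Q190.q3885_3) (q_cons (Vale.Agent.P032.Lt.q R0Q190.q3885_4) (q_cons (Vale.Agent.P032.Lt.q R0Q190.q3885_5) (q_cons (Vale.Agent.P032.Lt.q R0Q190.q3885_6)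 (q_cons (Vale.Agent.P032.Lt.q R0Q190.q3885_7) (q_cons (Vale.Agent.P032.Lt.q R0Q190.q3885_8) (q_cons (Vale.Agent.P032.Lt.q R0Q190.q3885_9) (q_cons (Vale.Agent.P032.Lt.q R0Q190.q3885_10) (q_cons (Vale.Agent.P032.Lt.q R0Q190.q3885_11) (q_cons (Vale.Agent.P032.Lt.q R0Q190.q3885_12) (q_cons (Vale.Agent.P032.Lt.q R0Q190.q3885_13) (q_cons (Vale.Agent.P032.Lt.q R0Q190.q3885_14) (q_cons (Vale.Agent.P032.Lt.q R0Q190.q3885_15) (q_cons (Vale.Agent.P032.Lt.q R0Q190.q3885_16) (q_cons (Vale.Agent.P032.Lt.q R0Q190.q3885_17) (q_cons (Vale.Agent.P032.Lt.q R0Q190.q3885_18) (q_cons (Vale.Agent.P032.Lt.q R0Q190.q3885_19) (q_cons (Vale.Agent.P032.Lt.q R0Q190.q3885_20) (q_cons (Vale.Agent.P032.Lt.q R0Q190.q3885_21) (q_cons (Vale.Agent.P032.Lt.q R0Q190.q3885_22) (q_cons (Vale.Agent.P032.Lt.q R0Q190.q3885_23) (q_cons (Vale.Agent.P032.Lt.q R0Q190.q3885_24) (q_cons (Vale.Agent.P032.Lt.q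 R0Q190.q3885_25) (q_cons (Vale.Agent.P032.Lt.q R0Q190.q3885_26) (q_cons (Vale.Agent.P032.Lt.q R0Q190.q3885_27) (q_cons (Vale.Agent.P032.Lt.q R0Q190.q3885_28) (q_cons (Vale.Agent.P032.Lt.q R0Q190.q3885_29) (q_cons (Vale.Agent.P032.Lt.q R0Q190.q3885_30) (q_cons (Vale.Agent.P032.Lt.q R0Q190.q3885_31) (q_cons (Vale.Agent.P032.Lt.q R0Q190.q3885_32) (q_cons (Vale.Agent.P032.Lt.q R0Q190.q3885_33) (q_cons (Vale.Agent.P032.Lt.q R0Q190.q3885_34) (q_cons (Vale.Agent.P032.Lt.q R0Q190.q3885_35) (q_cons (Vale.Agent.P032.Lt.q R0Q190.q3885_36) (q_cons (Vale.Agent.P032.Lt.q R0Q190.q3885_37) (q_cons (Vale.Agent.P032.Lt.q R0Q190.q3885_38) (q_cons (Vale.Agent.P032.Lt.q R0Q190.q3885_39) (q_cons (Vale.Agent.P032.Lt.q R0Q190.q3885_40) (q_cons (Vale.Agent.P032.Lt.q R0Q190.q3885_41) (q_cons (Vale.Agent.P032.Lt.q R0Q190.q3885_42) q_nil))))))))))))))))))))))))))))))))))))))))))))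

def C3886 : List ℕ := [0, 4, 8, 12, 16, 20, 24, 745473]
theorem p3886 : Pat 73 73 TBm TCm (C3886.map Fm) R0Q190.P3886 R0Q190.I3886 := Vale.Agent.P032.Lt.pat_eq (E' := R0Q190.E3886) (by decide +kernel) (pat_step (by decide +kernel) (q_cons (Vale.Agent.P032.Lt.q R0Q190.q3886_0) (q_cons (Vale.Agent.P032.Lt.q R0Q190.q3886_1) (q_cons (Vale.Agent.P032.Lt.q R0Q190.q3886_2) (q_cons (Vale.Agent.P032.Lt.q R0Q190.q3886_3) (q_cons (Vale.Agent.P032.Lt.q R0Q190.q3886_4) (q_cons (Vale.Agent.P032.Lt.q R0Q190.q3886_5) q_nil)))))))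

theorem p3887 : Pat 73 73 TBm TCm (CB.map Fm) R0Q190.P3887 R0Q190.I3887 := Vale.Agent.P032.Lt.pat_eq (E' := R0Q190.E) eB (pat_step (by decide +kernel) (q_cons (Vale.Agent.P032.Lt.q R0Q190.q3887_0) (q_cons (Vale.Agent.P032.Lt.q R0Q190.q3887_1) (q_cons (Vale.Agent.P032.Lt.q R0Q190.q3887_2) (q_cons (Vale.Agent.P032.Lt.q R0Q190.q3887_3) q_nil)))))

theorem p3888 : Pat 73 73 TBm TCm (CB.map Fm) R0Q190.P3888 R0Q190.I3888 := Vale.Agent.P032.Lt.pat_eq (E' := R0Q190.E) eB (pat_step (by decide +kernel) (q_cons (Vale.Agent.P032.Lt.q R0Q190.q3888_0) (q_cons (Vale.Agent.P032.Lt.q R0Q190.q3888_1) (q_cons (Vale.Agent.P032.Lt.q R0Q190.q3888_2) (q_cons (Vale.Agent.P032.Lt.q R0Q190.q3888_3) (q_cons (Vale.Agent.P032.Lt.q R0Q190.q3888_4) (q_cons (Vale.Agent.P032.Lt.q R0Q190.q3888_5) q_nil)))))))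

def C3889 : List ℕ := [0, 4, 8, 12, 16, 20, 24, 737281]
theorem p3889 : Pat 73 73 TBm TCm (C3889.map Fm) R0Q190.P3889 R0Q190.I3889 := Vale.Agent.P032.Lt.pat_eq (E' := R0Q190.E3889) (by decide +kernel) (pat_step (by decide +kernel) (q_cons (Vale.Agent.P032.Lt.q R0Q190.q3889_0) (q_cons (Vale.Agent.P032.Lt.q R0Q190.q3889_1) (q_cons (Vale.Agent.P032.Lt.q R0Q190.q3889_2) (q_cons (Vale.Agent.P032.Lt.q R0Q190.q3889_3) (q_cons (Vale.Agent.P032.Lt.q R0Q190.q3889_4) (q_cons (Vale.Agent.P032.Lt.q R0Q190.q3889_5) (q_cons (Vale.Agent.P032.Lt.q R0Q190.q3889_6) (q_cons (Vale.Agent.P032.Lt.q R0Q190.q3889_7) (q_cons (Vale.Agent.P032.Lt.q R0Q190.q3889_8) (q_cons (Vale.Agent.P032.Lt.q R0Q190.q3889_9) q_nil)))))))))))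

theorem p3890 : Pat 73 73 TBm TCm (CB.map Fm) R0Q190.P3890 R0Q190.I3890 := Vale.Agent.P032.Lt.pat_eq (E' := R0Q190.E) eB (pat_step (by decide +kernel) (q_cons (Vale.Agent.P032.Lt.q R0Q190.q3890_0) (q_cons (Vale.Agent.P032.Lt.q R0Q190.q3890_1) (q_cons (Vale.Agent.P032.Lt.q R0Q190.q3890_2) (q_cons (Vale.Agent.P032.Lt.q R0Q190.q3890_3) (q_cons (Vale.Agent.P032.Lt.q R0Q190.q3890_4) q_nil))))))

theorem p3891 : Pat 73 73 TBm TCm (CB.map Fm) R0Q190.P3891 R0Q190.I3891 := Vale.Agent.P032.Lt.pat_eq (E' := R0Q190.E) eB (pat_step (by decide +kernel) (q_cons (Vale.Agent.P032.Lt.q R0Q190.q3891_0) (q_cons (Vale.Agent.P032.Lt.q R0Q190.q3891_1) q_nil)))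

theorem p3892 : Pat 73 73 TBm TCm (CB.map Fm) R0Q190.P3892 R0Q190.I3892 := Vale.Agent.P032.Lt.pat_eq (E' := R0Q190.E) eB (pat_step (by decide +kernel) (q_cons (Vale.Agent.P032.Lt.q R0Q190.q3892_0) (q_cons (Vale.Agent.P032.Lt.q R0Q190.q3892_1) (q_cons (Vale.Agent.P032.Lt.q R0Q190.q3892_2) (q_cons (Vale.Agent.P032.Lt.q R0Q190.q3892_3) (q_cons (Vale.Agent.P032.Lt.q R0Q190.q3892_4) (q_cons (Vale.Agent.P032.Lt.q R0Q190.q3892_5) (q_cons (Vale.Agent.P032.Lt.q R0Q190.q3892_6) (q_cons (Vale.Agent.P032.Lt.q R0Q190.q3892_7) (q_cons (Vale.Agent.P032.Lt.q R0Q190.q3892_8) (q_cons (Vale.Agent.P032.Lt.q R0Q190.q3892_9) (q_cons (Vale.Agent.P032.Lt.q R0Q190.q3892_10) (q_cons (Vale.Agent.P032.Lt.q R0Q190.q3892_11) (q_cons (Vale.Agent.P032.Lt.q R0Q190.q3892_12) q_nil))))))))))))))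

theorem p3893 : Pat 73 73 TBm TCm (CB.map Fm) R0Q190.P3893 R0Q190.I3893 := Vale.Agent.P032.Lt.pat_eq (E' := R0Q190.E) eB (pat_step (by decide +kernel) (q_cons (Vale.Agent.P032.Lt.q R0Q190.q3893_0) (q_cons (Vale.Agent.P032.Lt.q R0Q190.q3893_1) (q_cons (Vale.Agent.P032.Lt.q R0Q190.q3893_2) (q_cons (Vale.Agent.P032.Lt.q R0Q190.q3893_3) q_nil)))))

theorem p3894 : Pat 73 73 TBm TCm (CB.map Fm) R0Q190.P3894 R0Q190.I3894 := Vale.Agent.P032.Lt.pat_eq (E' := R0Q190.E) eB (pat_step (by decide +kernel) (q_cons (Vale.Agent.P032.Lt.q R0Q190.q3894_0) (q_cons (Vale.Agent.P032.Lt.q R0Q190.q3894_1) (q_cons (Vale.Agent.P032.Lt.q R0Q190.q3894_2) (q_cons (Vale.Agent.P032.Lt.q R0Q190.q3894_3) (q_cons (Vale.Agent.P032.Lt.q R0Q190.q3894_4) q_nil))))))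

theorem p3895 : Pat 73 73 TBm TCm (CB.map Fm) R0Q190.P3895 R0Q190.I3895 := Vale.Agent.P032.Lt.pat_eq (E' := R0Q190.E) eB (pat_step (by decide +kernel) (q_cons (Vale.Agent.P032.Lt.q R0Q190.q3895_0) (q_cons (Vale.Agent.P032.Lt.q R0Q190.q3895_1) (q_cons (Vale.Agent.P032.Lt.q R0Q190.q3895_2) q_nil))))

theorem p3896 : Pat 73 73 TBm TCm (CB.map Fm) R0Q190.P3896 R0Q190.I3896 := Vale.Agent.P032.Lt.pat_eq (E' := R0Q190.E) eB (pat_step (by decide +kernel) (q_cons (Vale.Agent.P032.Lt.q R0Q190.q3896_0) (q_cons (Vale.Agent.P032.Lt.q R0Q190.q3896_1) (q_cons (Vale.Agent.P032.Lt.q R0Q190.q3896_2) q_nil))))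

theorem p3897 : Pat 73 73 TBm TCm (CB.map Fm) R0Q190.P3897 R0Q190.I3897 := Vale.Agent.P032.Lt.pat_eq (E' := R0Q190.E) eB (pat_step (by decide +kernel) (q_cons (Vale.Agent.P032.Lt.q R0Q190.q3897_0) (q_cons (Vale.Agent.P032.Lt.q R0Q190.q3897_1) (q_cons (Vale.Agent.P032.Lt.q R0Q190.q3897_2) (q_cons (Vale.Agent.P032.Lt.q R0Q190.q3897_3) (q_cons (Vale.Agent.P032.Lt.q R0Q190.q3897_4) (q_cons (Vale.Agent.P032.Lt.q R0Q190.q3897_5) (q_cons (Vale.Agent.P032.Lt.q R0Q190.q3897_6) (q_cons (Vale.Agent.P032.Lt.q R0Q190.q3897_7) (q_cons (Vale.Agent.P032.Lt.q R0Q190.q3897_8) (q_cons (Vale.Agent.P032.Lt.q R0Q190.q3897_9) (q_cons (Vale.Agent.P032.Lt.q R0Q190.q3897_10) (q_cons (Vale.Agent.P032.Lt.q R0Q190.q3897_11) (q_cons (Vale.Agent.P032.Lt.q R0Q190.q3897_12) (q_cons (Vale.Agent.P032.Lt.q R0Q190.q3897_13) (q_cons (Vale.Agent.P032.Lt.q R0Q190.q3897_14) (q_cons (Vale.Agent.P032.Lt.q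 R0Q190.q3897_15) (q_cons (Vale.Agent.P032.Lt.q R0Q190.q3897_16) (q_cons (Vale.Agent.P032.Lt.q R0Q190.q3897_17) (q_cons (Vale.Agent.P032.Lt.q R0Q190.q3897_18) (q_cons (Vale.Agent.P032.Lt.q R0Q190.q3897_19) (q_cons (Vale.Agent.P032.Lt.q R0Q190.q3897_20) (q_cons (Vale.Agent.P032.Lt.q R0Q190.q3897_21) (q_cons (Vale.Agent.P032.Lt.q R0Q190.q3897_22) (q_cons (Vale.Agent.P032.Lt.q R0Q190.q3897_23) q_nil)))))))))))))))))))))))))

theorem p3898 : Pat 73 73 TBm TCm (CB.map Fm) R0Q191.P3898 R0Q191.I3898 := Vale.Agent.P032.Lt.pat_eq (E' := R0Q191.E) eB (pat_step (by decide +kernel) (q_cons (Vale.Agent.P032.Lt.q R0Q191.q3898_0) (q_cons (Vale.Agent.P032.Lt.q R0Q191.q3898_1) (q_cons (Vale.Agent.P032.Lt.q R0Q191.q3898_2) (q_cons (Vale.Agent.P032.Lt.q R0Q191.q3898_3) (q_cons (Vale.Agent.P032.Lt.q R0Q191.q3898_4) (q_cons (Vale.Agent.P032.Lt.q R0Q191.q3898_5) (q_cons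 (Vale.Agent.P032.Lt.q R0Q191.q3898_6) (q_cons (Vale.Agent.P032.Lt.q R0Q191.q3898_7) (q_cons (Vale.Agent.P032.Lt.q R0Q191.q3898_8) (q_cons (Vale.Agent.P032.Lt.q R0Q191.q3898_9) (q_cons (Vale.Agent.P032.Lt.q R0Q191.q3898_10) (q_cons (Vale.Agent.P032.Lt.q R0Q191.q3898_11) (q_cons (Vale.Agent.P032.Lt.q R0Q191.q3898_12) (q_cons (Vale.Agent.P032.Lt.q R0Q191.q3898_13) (q_cons (Vale.Agent.P032.Lt.q R0Q191.q3898_14) (q_cons (Vale.Agent.P032.Lt.q R0Q191.q3898_15) (q_cons (Vale.Agent.P032.Lt.q R0Q191.q3898_16) (q_cons (Vale.Agent.P032.Lt.q R0Q191.q3898_17) (q_cons (Vale.Agent.P032.Lt.q R0Q191.q3898_18) (q_cons (Vale.Agent.P032.Lt.q R0Q191.q3898_19) (q_cons (Vale.Agent.P032.Lt.q R0Q191.q3898_20) (q_cons (Vale.Agent.P032.Lt.q R0Q191.q3898_21) (q_cons (Vale.Agent.P032.Lt.q R0Q191.q3898_22) (q_cons (Vale.Agent.P032.Lt.q R0Q191.q3898_23) (q_cons (Vale.Agent.P032.Lt.q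 R0Q191.q3898_24) (q_cons (Vale.Agent.P032.Lt.q R0Q191.q3898_25) (q_cons (Vale.Agent.P032.Lt.q R0Q191.q3898_26) q_nil))))))))))))))))))))))))))))

theorem p3899 : Pat 73 73 TBm TCm (CB.map Fm) R0Q191.P3899 R0Q191.I3899 := Vale.Agent.P032.Lt.pat_eq (E' := R0Q191.E) eB (pat_step (by decide +kernel) (q_cons (Vale.Agent.P032.Lt.q R0Q191.q3899_0) (q_cons (Vale.Agent.P032.Lt.q R0Q191.q3899_1) (q_cons (Vale.Agent.P032.Lt.q R0Q191.q3899_2) (q_cons (Vale.Agent.P032.Lt.q R0Q191.q3899_3) (q_cons (Vale.Agent.P032.Lt.q R0Q191.q3899_4) (q_cons (Vale.Agent.P032.Lt.q R0Q191.q3899_5) (q_cons (Vale.Agent.P032.Lt.q R0Q191.q3899_6) q_nil))))))))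

theorem p3900 : Pat 73 73 TBm TCm (CB.map Fm) R0Q191.P3900 R0Q191.I3900 := Vale.Agent.P032.Lt.pat_eq (E' := R0Q191.E) eB (pat_step (by decide +kernel) (q_cons (Vale.Agent.P032.Lt.q R0Q191.q3900_0) (q_cons (Vale.Agent.P032.Lt.q R0Q191.q3900_1) (q_cons (Vale.Agent.P032.Lt.q R0Q191.q3900_2) q_nil))))

theorem p3901 : Pat 73 73 TBm TCm (CB.map Fm) R0Q191.P3901 R0Q191.I3901 := Vale.Agent.P032.Lt.pat_eq (E' := R0Q191.E) eB (pat_step (by decide +kernel) (q_cons (Vale.Agent.P032.Lt.q R0Q191.q3901_0) (q_cons (Vale.Agent.P032.Lt.q R0Q191.q3901_1) (q_cons (Vale.Agent.P032.Lt.q R0Q191.q3901_2) (q_cons (Vale.Agent.P032.Lt.q R0Q191.q3901_3) (q_cons (Vale.Agent.P032.Lt.q R0Q191.q3901_4) (q_cons (Vale.Agent.P032.Lt.q R0Q191.q3901_5) (q_cons (Vale.Agent.P032.Lt.q R0Q191.q3901_6) (q_cons (Vale.Agent.P032.Lt.q R0Q191.q3901_7) (q_cons (Vale.Agent.P032.Lt.q R0Q191.q3901_8)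 (q_cons (Vale.Agent.P032.Lt.q R0Q191.q3901_9) (q_cons (Vale.Agent.P032.Lt.q R0Q191.q3901_10) (q_cons (Vale.Agent.P032.Lt.q R0Q191.q3901_11) q_nil)))))))))))))

theorem p3902 : Pat 73 73 TBm TCm (CB.map Fm) R0Q191.P3902 R0Q191.I3902 := Vale.Agent.P032.Lt.pat_eq (E' := R0Q191.E) eB (pat_step (by decide +kernel) (q_cons (Vale.Agent.P032.Lt.q R0Q191.q3902_0) (q_cons (Vale.Agent.P032.Lt.q R0Q191.q3902_1) (q_cons (Vale.Agent.P032.Lt.q R0Q191.q3902_2) (q_cons (Vale.Agent.P032.Lt.q R0Q191.q3902_3) q_nil)))))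

theorem p3903 : Pat 73 73 TBm TCm (CB.map Fm) R0Q191.P3903 R0Q191.I3903 := Vale.Agent.P032.Lt.pat_eq (E' := R0Q191.E) eB (pat_step (by decide +kernel) (q_cons (Vale.Agent.P032.Lt.q R0Q191.q3903_0) (q_cons (Vale.Agent.P032.Lt.q R0Q191.q3903_1) (q_cons (Vale.Agent.P032.Lt.q R0Q191.q3903_2) (q_cons (Vale.Agent.P032.Lt.q R0Q191.q3903_3) (q_cons (Vale.Agent.P032.Lt.q R0Q191.q3903_4) (q_cons (Vale.Agent.P032.Lt.q R0Q191.q3903_5) (q_cons (Vale.Agent.P032.Lt.q R0Q191.q3903_6) (q_cons (Vale.Agent.P032.Lt.q R0Q191.q3903_7) (q_cons (Vale.Agent.P032.Lt.q R0Q191.q3903_8) (q_cons (Vale.Agent.P032.Lt.q R0Q191.q3903_9) (q_cons (Vale.Agent.P032.Lt.q R0Q191.q3903_10) (q_cons (Vale.Agent.P032.Lt.q R0Q191.q3903_11) (q_cons (Vale.Agent.P032.Lt.q R0Q191.q3903_12) (q_cons (Vale.Agent.P032.Lt.q R0Q191.q3903_13) (q_cons (Vale.Agent.P032.Lt.q R0Q191.q3903_14) (q_cons (Vale.Agent.P032.Lt.q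 R0Q191.q3903_15) (q_cons (Vale.Agent.P032.Lt.q R0Q191.q3903_16) q_nil))))))))))))))))))

theorem p3904 : Pat 73 73 TBm TCm (CB.map Fm) R0Q191.P3904 R0Q191.I3904 := Vale.Agent.P032.Lt.pat_eq (E' := R0Q191.E) eB (pat_step (by decide +kernel) (q_cons (Vale.Agent.P032.Lt.q R0Q191.q3904_0) q_nil))

theorem p3905 : Pat 73 73 TBm TCm (CB.map Fm) R0Q191.P3905 R0Q191.I3905 := Vale.Agent.P032.Lt.pat_eq (E' := R0Q191.E) eB (pat_step (by decide +kernel) (q_cons (Vale.Agent.P032.Lt.q R0Q191.q3905_0) q_nil))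

theorem p3906 : Pat 73 73 TBm TCm (CB.map Fm) R0Q191.P3906 R0Q191.I3906 := Vale.Agent.P032.Lt.pat_eq (E' := R0Q191.E) eB (pat_step (by decide +kernel) (q_cons (Vale.Agent.P032.Lt.q R0Q191.q3906_0) q_nil))

def C3907 : List ℕ := [0, 4, 8, 12, 16, 20, 24, 347137, 606209, 737281, 745473]
theorem p3907 : Pat 73 73 TBm TCm (C3907.map Fm) R0Q191.P3907 R0Q191.I3907 := Vale.Agent.P032.Lt.pat_eq (E' := R0Q191.E3907) (by decide +kernel) (pat_step (by decide +kernel) (q_cons (Vale.Agent.P032.Lt.q R0Q191.q3907_0) (q_cons (Vale.Agent.P032.Lt.q R0Q191.q3907_1) (q_cons (Vale.Agent.P032.Lt.q R0Q191.q3907_2) (q_cons (Vale.Agent.P032.Lt.q R0Q191.q3907_3) (q_cons (Vale.Agent.P032.Lt.q R0Q191.q3907_4) q_nil))))))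

theorem p3908 : Pat 73 73 TBm TCm (CB.map Fm) R0Q191.P3908 R0Q191.I3908 := Vale.Agent.P032.Lt.pat_eq (E' := R0Q191.E) eB (pat_step (by decide +kernel) (q_cons (Vale.Agent.P032.Lt.q R0Q191.q3908_0) (q_cons (Vale.Agent.P032.Lt.q R0Q191.q3908_1) (q_cons (Vale.Agent.P032.Lt.q R0Q191.q3908_2) (q_cons (Vale.Agent.P032.Lt.q R0Q191.q3908_3) (q_cons (Vale.Agent.P032.Lt.q R0Q191.q3908_4) q_nil))))))

theorem p3909 : Pat 73 73 TBm TCm (CB.map Fm) R0Q191.P3909 R0Q191.I3909 := Vale.Agent.P032.Lt.pat_eq (E' := R0Q191.E) eB (pat_step (by decide +kernel) (q_cons (Vale.Agent.P032.Lt.q R0Q191.q3909_0) (q_cons (Vale.Agent.P032.Lt.q R0Q191.q3909_1) q_nil)))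

def C3910 : List ℕ := [0, 4, 8, 12, 16, 20, 24, 606209, 737281, 745473]
theorem p3910 : Pat 73 73 TBm TCm (C3910.map Fm) R0Q191.P3910 R0Q191.I3910 := Vale.Agent.P032.Lt.pat_eq (E' := R0Q191.E3910) (by decide +kernel) (pat_step (by decide +kernel) (q_cons (Vale.Agent.P032.Lt.q R0Q191.q3910_0) (q_cons (Vale.Agent.P032.Lt.q R0Q191.q3910_1) (q_cons (Vale.Agent.P032.Lt.q R0Q191.q3910_2) (q_cons (Vale.Agent.P032.Lt.q R0Q191.q3910_3) (q_cons (Vale.Agent.P032.Lt.q R0Q191.q3910_4) (q_cons (Vale.Agent.P032.Lt.q R0Q191.q3910_5) (q_cons (Vale.Agent.P032.Lt.q R0Q191.q3910_6) q_nil))))))))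

def C3911 : List ℕ := [0, 4, 8, 12, 16, 20, 24, 82945, 344065, 748545]
theorem p3911 : Pat 73 73 TBm TCm (C3911.map Fm) R0Q191.P3911 R0Q191.I3911 := Vale.Agent.P032.Lt.pat_eq (E' := R0Q191.E3911) (by decide +kernel) (pat_step (by decide +kernel) (q_cons (Vale.Agent.P032.Lt.q R0Q191.q3911_0) (q_cons (Vale.Agent.P032.Lt.q R0Q191.q3911_1) (q_cons (Vale.Agent.P032.Lt.q R0Q191.q3911_2) (q_cons (Vale.Agent.P032.Lt.q R0Q191.q3911_3) (q_cons (Vale.Agent.P032.Lt.q R0Q191.q3911_4) (q_cons (Vale.Agent.P032.Lt.q R0Q191.q3911_5) (q_cons (Vale.Agent.P032.Lt.q R0Q191.q3911_6) (q_cons (Vale.Agent.P032.Lt.q R0Q191.q3911_7) q_nil)))))))))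

theorem p3912 : Pat 73 73 TBm TCm (CB.map Fm) R0Q191.P3912 R0Q191.I3912 := Vale.Agent.P032.Lt.pat_eq (E' := R0Q191.E) eB (pat_step (by decide +kernel) (q_cons (Vale.Agent.P032.Lt.q R0Q191.q3912_0) q_nil))

theorem p3913 : Pat 73 73 TBm TCm (CB.map Fm) R0Q191.P3913 R0Q191.I3913 := Vale.Agent.P032.Lt.pat_eq (E' := R0Q191.E) eB (pat_step (by decide +kernel) (q_cons (Vale.Agent.P032.Lt.q R0Q191.q3913_0) (q_cons (Vale.Agent.P032.Lt.q R0Q191.q3913_1) q_nil)))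

theorem p3914 : Pat 73 73 TBm TCm (CB.map Fm) R0Q191.P3914 R0Q191.I3914 := Vale.Agent.P032.Lt.pat_eq (E' := R0Q191.E) eB (pat_step (by decide +kernel) (q_cons (Vale.Agent.P032.Lt.q R0Q191.q3914_0) q_nil))

theorem p3915 : Pat 73 73 TBm TCm (CB.map Fm) R0Q191.P3915 R0Q191.I3915 := Vale.Agent.P032.Lt.pat_eq (E' := R0Q191.E) eB (pat_step (by decide +kernel) (q_cons (Vale.Agent.P032.Lt.q R0Q191.q3915_0) (q_cons (Vale.Agent.P032.Lt.q R0Q191.q3915_1) (q_cons (Vale.Agent.P032.Lt.q R0Q191.q3915_2) (q_cons (Vale.Agent.P032.Lt.q R0Q191.q3915_3) (q_cons (Vale.Agent.P032.Lt.q R0Q191.q3915_4) (q_cons (Vale.Agent.P032.Lt.q R0Q191.q3915_5) (q_cons (Vale.Agent.P032.Lt.q R0Q191.q3915_6) (q_cons (Vale.Agent.P032.Lt.q R0Q191.q3915_7) (q_cons (Vale.Agent.P032.Lt.q R0Q191.q3915_8) (q_cons (Vale.Agent.P032.Lt.q R0Q191.q3915_9) (q_cons (Vale.Agent.P032.Lt.q R0Q191.q3915_10)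 (q_cons (Vale.Agent.P032.Lt.q R0Q191.q3915_11) q_nil)))))))))))))

theorem p3916 : Pat 73 73 TBm TCm (CB.map Fm) R0Q191.P3916 R0Q191.I3916 := Vale.Agent.P032.Lt.pat_eq (E' := R0Q191.E) eB (pat_step (by decide +kernel) (q_cons (Vale.Agent.P032.Lt.q R0Q191.q3916_0) (q_cons (Vale.Agent.P032.Lt.q R0Q191.q3916_1) (q_cons (Vale.Agent.P032.Lt.q R0Q191.q3916_2) (q_cons (Vale.Agent.P032.Lt.q R0Q191.q3916_3) (q_cons (Vale.Agent.P032.Lt.q R0Q191.q3916_4) q_nil))))))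

theorem p3917 : Pat 73 73 TBm TCm (CB.map Fm) R0Q191.P3917 R0Q191.I3917 := Vale.Agent.P032.Lt.pat_eq (E' := R0Q191.E) eB (pat_step (by decide +kernel) (q_cons (Vale.Agent.P032.Lt.q R0Q191.q3917_0) (q_cons (Vale.Agent.P032.Lt.q R0Q191.q3917_1) (q_cons (Vale.Agent.P032.Lt.q R0Q191.q3917_2) (q_cons (Vale.Agent.P032.Lt.q R0Q191.q3917_3) (q_cons (Vale.Agent.P032.Lt.q R0Q191.q3917_4) q_nil))))))

theorem p3918 : Pat 73 73 TBm TCm (CB.map Fm) R0Q191.P3918 R0Q191.I3918 := Vale.Agent.P032.Lt.pat_eq (E' := R0Q191.E) eB (pat_step (by decide +kernel) (q_cons (Vale.Agent.P032.Lt.q R0Q191.q3918_0) (q_cons (Vale.Agent.P032.Lt.q R0Q191.q3918_1) (q_cons (Vale.Agent.P032.Lt.q R0Q191.q3918_2) (q_cons (Vale.Agent.P032.Lt.q R0Q191.q3918_3) q_nil)))))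

theorem p3919 : Pat 73 73 TBm TCm (CB.map Fm) R0Q191.P3919 R0Q191.I3919 := Vale.Agent.P032.Lt.pat_eq (E' := R0Q191.E) eB (pat_step (by decide +kernel) (q_cons (Vale.Agent.P032.Lt.q R0Q191.q3919_0) q_nil))

theorem p3920 : Pat 73 73 TBm TCm (CB.map Fm) R0Q191.P3920 R0Q191.I3920 := Vale.Agent.P032.Lt.pat_eq (E' := R0Q191.E) eB (pat_step (by decide +kernel) (q_cons (Vale.Agent.P032.Lt.q R0Q191.q3920_0) (q_cons (Vale.Agent.P032.Lt.q R0Q191.q3920_1) (q_cons (Vale.Agent.P032.Lt.q R0Q191.q3920_2) q_nil))))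

def C3921 : List ℕ := [0, 4, 8, 12, 16, 20, 24, 214017, 216065, 355329, 606209, 737281]
theorem p3921 : Pat 73 73 TBm TCm (C3921.map Fm) R0Q191.P3921 R0Q191.I3921 := Vale.Agent.P032.Lt.pat_eq (E' := R0Q191.E3921) (by decide +kernel) (pat_step (by decide +kernel) (q_cons (Vale.Agent.P032.Lt.q R0Q191.q3921_0) (q_cons (Vale.Agent.P032.Lt.q R0Q191.q3921_1) (q_cons (Vale.Agent.P032.Lt.q R0Q191.q3921_2) (q_cons (Vale.Agent.P032.Lt.q R0Q191.q3921_3) q_nil)))))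

theorem p3922 : Pat 73 73 TBm TCm (CB.map Fm) R0Q191.P3922 R0Q191.I3922 := Vale.Agent.P032.Lt.pat_eq (E' := R0Q191.E) eB (pat_step (by decide +kernel) (q_cons (Vale.Agent.P032.Lt.q R0Q191.q3922_0) (q_cons (Vale.Agent.P032.Lt.q R0Q191.q3922_1) (q_cons (Vale.Agent.P032.Lt.q R0Q191.q3922_2) q_nil))))

def C3923 : List ℕ := [0, 4, 8, 12, 16, 20, 24, 81921, 349185, 480257, 606209, 737281]
theorem p3923 : Pat 73 73 TBm TCm (C3923.map Fm) R0Q191.P3923 R0Q191.I3923 := Vale.Agent.P032.Lt.pat_eq (E' := R0Q191.E3923) (by decide +kernel) (pat_step (by decide +kernel) (q_cons (Vale.Agent.P032.Lt.q R0Q191.q3923_0) (q_cons (Vale.Agent.P032.Lt.q R0Q191.q3923_1) (q_cons (Vale.Agent.P032.Lt.q R0Q191.q3923_2) q_nil))))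

theorem p3924 : Pat 73 73 TBm TCm (CB.map Fm) R0Q192.P3924 R0Q192.I3924 := Vale.Agent.P032.Lt.pat_eq (E' := R0Q192.E) eB (pat_step (by decide +kernel) (q_cons (Vale.Agent.P032.Lt.q R0Q192.q3924_0) (q_cons (Vale.Agent.P032.Lt.q R0Q192.q3924_1) (q_cons (Vale.Agent.P032.Lt.q R0Q192.q3924_2) (q_cons (Vale.Agent.P032.Lt.q R0Q192.q3924_3) q_nil)))))

theorem p3925 : Pat 73 73 TBm TCm (CB.map Fm) R0Q192.P3925 R0Q192.I3925 := Vale.Agent.P032.Lt.pat_eq (E' := R0Q192.E) eB (pat_step (by decide +kernel) (q_cons (Vale.Agent.P032.Lt.q R0Q192.q3925_0) (q_cons (Vale.Agent.P032.Lt.q R0Q192.q3925_1) q_nil)))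

def C3926 : List ℕ := [0, 4, 8, 12, 16, 20, 24, 475137, 606209, 737281]
theorem p3926 : Pat 73 73 TBm TCm (C3926.map Fm) R0Q192.P3926 R0Q192.I3926 := Vale.Agent.P032.Lt.pat_eq (E' := R0Q192.E3926) (by decide +kernel) (pat_step (by decide +kernel) (q_cons (Vale.Agent.P032.Lt.q R0Q192.q3926_0) (q_cons (Vale.Agent.P032.Lt.q R0Q192.q3926_1) (q_cons (Vale.Agent.P032.Lt.q R0Q192.q3926_2) (q_cons (Vale.Agent.P032.Lt.q R0Q192.q3926_3) (q_cons (Vale.Agent.P032.Lt.q R0Q192.q3926_4) q_nil))))))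

def C3927 : List ℕ := [0, 4, 8, 12, 16, 20, 24, 214017, 741377]
theorem p3927 : Pat 73 73 TBm TCm (C3927.map Fm) R0Q192.P3927 R0Q192.I3927 := Vale.Agent.P032.Lt.pat_eq (E' := R0Q192.E3927) (by decide +kernel) (pat_step (by decide +kernel) (q_cons (Vale.Agent.P032.Lt.q R0Q192.q3927_0) (q_cons (Vale.Agent.P032.Lt.q R0Q192.q3927_1) (q_cons (Vale.Agent.P032.Lt.q R0Q192.q3927_2) q_nil))))

theorem p3928 : Pat 73 73 TBm TCm (CB.map Fm) R0Q192.P3928 R0Q192.I3928 := Vale.Agent.P032.Lt.pat_eq (E' := R0Q192.E) eB (pat_step (by decide +kernel) (q_cons (Vale.Agent.P032.Lt.q R0Q192.q3928_0) (q_cons (Vale.Agent.P032.Lt.q R0Q192.q3928_1) (q_cons (Vale.Agent.P032.Lt.q R0Q192.q3928_2) (q_cons (Vale.Agent.P032.Lt.q R0Q192.q3928_3) (q_cons (Vale.Agent.P032.Lt.q R0Q192.q3928_4) (q_cons (Vale.Agent.P032.Lt.q R0Q192.q3928_5) q_nil)))))))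

theorem p3929 : Pat 73 73 TBm TCm (CB.map Fm) R0Q192.P3929 R0Q192.I3929 := Vale.Agent.P032.Lt.pat_eq (E' := R0Q192.E) eB (pat_step (by decide +kernel) (q_cons (Vale.Agent.P032.Lt.q R0Q192.q3929_0) (q_cons (Vale.Agent.P032.Lt.q R0Q192.q3929_1) (q_cons (Vale.Agent.P032.Lt.q R0Q192.q3929_2) (q_cons (Vale.Agent.P032.Lt.q R0Q192.q3929_3) (q_cons (Vale.Agent.P032.Lt.q R0Q192.q3929_4) q_nil))))))

theorem p3930 : Pat 73 73 TBm TCm (CB.map Fm) R0Q192.P3930 R0Q192.I3930 := Vale.Agent.P032.Lt.pat_eq (E' := R0Q192.E) eB (pat_step (by decide +kernel) (q_cons (Vale.Agent.P032.Lt.q R0Q192.q3930_0) (q_cons (Vale.Agent.P032.Lt.q R0Q192.q3930_1) (q_cons (Vale.Agent.P032.Lt.q R0Q192.q3930_2) (q_cons (Vale.Agent.P032.Lt.q R0Q192.q3930_3) (q_cons (Vale.Agent.P032.Lt.q R0Q192.q3930_4) (q_cons (Vale.Agent.P032.Lt.q R0Q192.q3930_5) (q_cons (Vale.Agent.P032.Lt.q R0Q192.q3930_6)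 (q_cons (Vale.Agent.P032.Lt.q R0Q192.q3930_7) (q_cons (Vale.Agent.P032.Lt.q R0Q192.q3930_8) (q_cons (Vale.Agent.P032.Lt.q R0Q192.q3930_9) q_nil)))))))))))

theorem p3931 : Pat 73 73 TBm TCm (CB.map Fm) R0Q192.P3931 R0Q192.I3931 := Vale.Agent.P032.Lt.pat_eq (E' := R0Q192.E) eB (pat_step (by decide +kernel) (q_cons (Vale.Agent.P032.Lt.q R0Q192.q3931_0) (q_cons (Vale.Agent.P032.Lt.q R0Q192.q3931_1) (q_cons (Vale.Agent.P032.Lt.q R0Q192.q3931_2) (q_cons (Vale.Agent.P032.Lt.q R0Q192.q3931_3) (q_cons (Vale.Agent.P032.Lt.q R0Q192.q3931_4) (q_cons (Vale.Agent.P032.Lt.q R0Q192.q3931_5) (q_cons (Vale.Agent.P032.Lt.q R0Q192.q3931_6) (q_cons (Vale.Agent.P032.Lt.q R0Q192.q3931_7) (q_cons (Vale.Agent.P032.Lt.q R0Q192.q3931_8) (q_cons (Vale.Agent.P032.Lt.q R0Q192.q3931_9) (q_cons (Vale.Agent.P032.Lt.q R0Q192.q3931_10) (q_cons (Vale.Agent.P032.Lt.q R0Q192.q3931_11)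 (q_cons (Vale.Agent.P032.Lt.q R0Q192.q3931_12) (q_cons (Vale.Agent.P032.Lt.q R0Q192.q3931_13) q_nil)))))))))))))))

theorem p3932 : Pat 73 73 TBm TCm (CB.map Fm) R0Q192.P3932 R0Q192.I3932 := Vale.Agent.P032.Lt.pat_eq (E' := R0Q192.E) eB (pat_step (by decide +kernel) (q_cons (Vale.Agent.P032.Lt.q R0Q192.q3932_0) (q_cons (Vale.Agent.P032.Lt.q R0Q192.q3932_1) (q_cons (Vale.Agent.P032.Lt.q R0Q192.q3932_2) (q_cons (Vale.Agent.P032.Lt.q R0Q192.q3932_3) (q_cons (Vale.Agent.P032.Lt.q R0Q192.q3932_4) (q_cons (Vale.Agent.P032.Lt.q R0Q192.q3932_5) (q_cons (Vale.Agent.P032.Lt.q R0Q192.q3932_6) q_nil))))))))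

theorem p3933 : Pat 73 73 TBm TCm (CB.map Fm) R0Q192.P3933 R0Q192.I3933 := Vale.Agent.P032.Lt.pat_eq (E' := R0Q192.E) eB (pat_step (by decide +kernel) (q_cons (Vale.Agent.P032.Lt.q R0Q192.q3933_0) (q_cons (Vale.Agent.P032.Lt.q R0Q192.q3933_1) (q_cons (Vale.Agent.P032.Lt.q R0Q192.q3933_2) (q_cons (Vale.Agent.P032.Lt.q R0Q192.q3933_3) (q_cons (Vale.Agent.P032.Lt.q R0Q192.q3933_4) (q_cons (Vale.Agent.P032.Lt.q R0Q192.q3933_5) (q_cons (Vale.Agent.P032.Lt.q R0Q192.q3933_6) (q_cons (Vale.Agent.P032.Lt.q R0Q192.q3933_7) (q_cons (Vale.Agent.P032.Lt.q R0Q192.q3933_8) (q_cons (Vale.Agent.P032.Lt.q R0Q192.q3933_9) (q_cons (Vale.Agent.P032.Lt.q R0Q192.q3933_10) (q_cons (Vale.Agent.P032.Lt.q R0Q192.q3933_11) (q_cons (Vale.Agent.P032.Lt.q R0Q192.q3933_12) (q_cons (Vale.Agent.P032.Lt.q R0Q192.q3933_13) (q_cons (Vale.Agent.P032.Lt.q R0Q192.q3933_14) (q_cons (Vale.Agent.P032.Lt.q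 R0Q192.q3933_15) q_nil)))))))))))))))))

def L : List (List ℕ) := [R0Q188.P3840, R0Q188.P3841, R0Q188.P3842, R0Q188.P3843, R0Q188.P3844, R0Q188.P3845, R0Q188.P3846, R0Q188.P3847, R0Q188.P3848, R0Q188.P3849, R0Q188.P3850, R0Q188.P3851, R0Q188.P3852, R0Q188.P3853, R0Q188.P3854, R0Q188.P3855, R0Q188.P3856, R0Q188.P3857, R0Q188.P3858, R0Q188.P3859, R0Q188.P3860, R0Q188.P3861, R0Q188.P3862, R0Q189.P3863, R0Q189.P3864, R0Q189.P3865, R0Q189.P3866, R0Q189.P3867, R0Q189.P3868, R0Q189.P3869, R0Q189.P3870, R0Q189.P3871, R0Q189.P3872, R0Q189.P3873, R0Q189.P3874, R0Q189.P3875, R0Q189.P3876, R0Q189.P3877, R0Q189.P3878, R0Q189.P3879, R0Q189.P3880, R0Q189.P3881, R0Q189.P3882, R0Q189.P3883, R0Q189.P3884, R0Q190.P3885, R0Q190.P3886, R0Q190.P3887, R0Q190.P3888, R0Q190.P3889, R0Q190.P3890, R0Q190.P3891, R0Q190.P3892, R0Q190.P3893, R0Q190.P3894, R0Q190.P3895, R0Q190.P3896,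 R0Q190.P3897, R0Q191.P3898, R0Q191.P3899, R0Q191.P3900, R0Q191.P3901, R0Q191.P3902, R0Q191.P3903, R0Q191.P3904, R0Q191.P3905, R0Q191.P3906, R0Q191.P3907, R0Q191.P3908, R0Q191.P3909, R0Q191.P3910, R0Q191.P3911, R0Q191.P3912, R0Q191.P3913, R0Q191.P3914, R0Q191.P3915, R0Q191.P3916, R0Q191.P3917, R0Q191.P3918, R0Q191.P3919, R0Q191.P3920, R0Q191.P3921, R0Q191.P3922, R0Q191.P3923, R0Q192.P3924, R0Q192.P3925, R0Q192.P3926, R0Q192.P3927, R0Q192.P3928, R0Q192.P3929, R0Q192.P3930, R0Q192.P3931, R0Q192.P3932, R0Q192.P3933]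

theorem all : ∀ P ∈ L, CrtF 73 73 TBm TCm (Vale.Agent.P032.Fam.fam2 (Vale.Agent.P032.Fam.im0)) P := crtF_cons p3840 (crtF_cons p3841 (crtF_cons p3842 (crtF_cons p3843 (crtF_cons p3844 (crtF_cons p3845 (crtF_cons p3846 (crtF_cons p3847 (crtF_cons p3848 (crtF_cons p3849 (crtF_cons p3850 (crtF_cons p3851 (crtF_cons p3852 (crtF_cons p3853 (crtF_cons p3854 (crtF_cons p3855 (crtF_cons p3856 (crtF_cons p3857 (crtF_cons p3858 (crtF_cons p3859 (crtF_cons p3860 (crtF_cons p3861 (crtF_cons p3862 (crtF_cons p3863 (crtF_cons p3864 (crtF_cons p3865 (crtF_cons p3866 (crtF_cons p3867 (crtF_cons p3868 (crtF_cons p3869 (crtF_cons p3870 (crtF_cons p3871 (crtF_cons p3872 (crtF_cons p3873 (crtF_cons p3874 (crtF_cons p3875 (crtF_cons p3876 (crtF_cons p3877 (crtF_cons p3878 (crtF_cons p3879 (crtF_cons p3880 (crtF_cons p3881 (crtF_cons p3882 (crtF_cons p3883 (crtF_cons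 p3884 (crtF_cons p3885 (crtF_cons p3886 (crtF_cons p3887 (crtF_cons p3888 (crtF_cons p3889 (crtF_cons p3890 (crtF_cons p3891 (crtF_cons p3892 (crtF_cons p3893 (crtF_cons p3894 (crtF_cons p3895 (crtF_cons p3896 (crtF_cons p3897 (crtF_cons p3898 (crtF_cons p3899 (crtF_cons p3900 (crtF_cons p3901 (crtF_cons p3902 (crtF_cons p3903 (crtF_cons p3904 (crtF_cons p3905 (crtF_cons p3906 (crtF_cons p3907 (crtF_cons p3908 (crtF_cons p3909 (crtF_cons p3910 (crtF_cons p3911 (crtF_cons p3912 (crtF_cons p3913 (crtF_cons p3914 (crtF_cons p3915 (crtF_cons p3916 (crtF_cons p3917 (crtF_cons p3918 (crtF_cons p3919 (crtF_cons p3920 (crtF_cons p3921 (crtF_cons p3922 (crtF_cons p3923 (crtF_cons p3924 (crtF_cons p3925 (crtF_cons p3926 (crtF_cons p3927 (crtF_cons p3928 (crtF_cons p3929 (crtF_cons p3930 (crtF_cons p3931 (crtF_cons p3932 (crtF_cons p3933 crtF_nil)))))))))))))))))))))))))))))))))))))))))))))))))))))))))))))))))))))))))))))))))))))))))))))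

theorem ch : chT 73 73 TCm s0_030 L = true := by decide +kernel

end Vale.Agent.P032X.Cert.XP.B1.R0H030
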