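import Vale.Agent.P032X.H286.W73
import Vale.Agent.P032X.Cert.XP.B1.R0T
import Vale.Agent.P032X.Cert.XP.B1.R0H000
import Vale.Agent.P032X.Cert.XP.B1.R0H001
import Vale.Agent.P032X.Cert.XP.B1.R0H002
import Vale.Agent.P032X.Cert.XP.B1.R0H003
import Vale.Agent.P032X.Cert.XP.B1.R0H004
import Vale.Agent.P032X.Cert.XP.B1.R0H005
import Vale.Agent.P032X.Cert.XP.B1.R0H006
import Vale.Agent.P032X.Cert.XP.B1.R0H007
import Vale.Agent.P032X.Cert.XP.B1.R0H008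
import Vale.Agent.P032X.Cert.XP.B1.R0H009
import Vale.Agent.P032X.Cert.XP.B1.R0H010
import Vale.Agent.P032X.Cert.XP.B1.R0H011
import Vale.Agent.P032X.Cert.XP.B1.R0H012
import Vale.Agent.P032X.Cert.XP.B1.R0H013
import Vale.Agent.P032X.Cert.XP.B1.R0H014
import Vale.Agent.P032X.Cert.XP.B1.R0H015
import Vale.Agent.P032X.Cert.XP.B1.R0H016
import Vale.Agent.P032X.Cert.XP.B1.R0H017
import Vale.Agent.P032X.Cert.XP.B1.R0H018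
import Vale.Agent.P032X.Cert.XP.B1.R0H019
import Vale.Agent.P032X.Cert.XP.B1.R0H020
import Vale.Agent.P032X.Cert.XP.B1.R0H021
import Vale.Agent.P032X.Cert.XP.B1.R0H022
import Vale.Agent.P032X.Cert.XP.B1.R0H023
import Vale.Agent.P032X.Cert.XP.B1.R0H024
import Vale.Agent.P032X.Cert.XP.B1.R0H025
import Vale.Agent.P032X.Cert.XP.B1.R0H026
import Vale.Agent.P032X.Cert.XP.B1.R0H027
import Vale.Agent.P032X.Cert.XP.B1.R0H028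
import Vale.Agent.P032X.Cert.XP.B1.R0H029
import Vale.Agent.P032X.Cert.XP.B1.R0H030

namespace Vale.Agent.P032X.Cert.XP.B1

open Vale.Agent.P032.H820.K Vale.Agent.P032.H357.MK Vale.Agent.P032.H286.E Vale.Agent.P032.H61 Vale.Agent.P032.H61.TF Vale.Agent.P032.BlkE Vale.Agent.P032.BlkS Vale.Agent.P032.H357 Vale.Agent.P032

theorem d0 : Fam.DQ N55 tr0 := ⟨⟨⟨⟨⟨dq2_of R0H000.ch R0H000.all, dq2_of R0H001.ch R0H001.all⟩, ⟨dq2_of R0H002.ch R0H002.all, dq2_of R0H003.ch R0H003.all⟩⟩, ⟨⟨dq2_of R0H004.ch R0H004.all, dq2_of R0H005.ch R0H005.all⟩, ⟨dq2_of R0H006.ch R0H006.all, dq2_of R0H007.ch R0H007.all⟩⟩⟩, ⟨⟨⟨dq2_of R0H008.ch R0H008.all, dq2_of R0H009.ch R0H009.all⟩, ⟨dq2_of R0H010.ch R0H010.all, dq2_of R0H011.ch R0H011.all⟩⟩, ⟨⟨dq2_of R0H012.ch R0H012.all, dq2_of R0H013.ch R0H013.all⟩, ⟨dq2_of R0H014.ch R0H014.all, dq2_of R0H015.ch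 R0H015.all⟩⟩⟩⟩, ⟨⟨⟨⟨dq2_of R0H016.ch R0H016.all, dq2_of R0H017.ch R0H017.all⟩, ⟨dq2_of R0H018.ch R0H018.all, dq2_of R0H019.ch R0H019.all⟩⟩, ⟨⟨dq2_of R0H020.ch R0H020.all, dq2_of R0H021.ch R0H021.all⟩, ⟨dq2_of R0H022.ch R0H022.all, dq2_of R0H023.ch R0H023.all⟩⟩⟩, ⟨⟨⟨dq2_of R0H024.ch R0H024.all, dq2_of R0H025.ch R0H025.all⟩, ⟨dq2_of R0H026.ch R0H026.all, dq2_of R0H027.ch R0H027.all⟩⟩, ⟨⟨dq2_of R0H028.ch R0H028.all, dq2_of R0H029.ch R0H029.all⟩, dq2_of R0H030.ch R0H030.all⟩⟩⟩⟩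

end Vale.Agent.P032X.Cert.XP.B1
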