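import Vale.Agent.P032X.H892.LtH
import Vale.Agent.P032X.H286.W73
import Vale.Agent.P032X.Cert.XP.B1.R0T
import Vale.Agent.P032X.Cert.XP.B1.R0Q049
import Vale.Agent.P032X.Cert.XP.B1.R0Q050
import Vale.Agent.P032X.Cert.XP.B1.R0Q051
import Vale.Agent.P032X.Cert.XP.B1.R0Q052
import Vale.Agent.P032X.Cert.XP.B1.R0Q053

set_option maxRecDepth 1000000

namespace Vale.Agent.P032X.Cert.XP.B1.R0H008

open Vale.Agent.P032.H820.K Vale.Agent.P032.H357.MK Vale.Agent.P032.H286.E Vale.Agent.P032.H61 Vale.Agent.P032X.Cert.XP.B1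

noncomputable abbrev Fm : ℕ → List ℕ := Vale.Agent.P032.Fam.fam2 (Vale.Agent.P032.Fam.im0)

def CB : List ℕ := [0, 4, 8, 12, 16, 20, 24]

theorem eB : Vale.Agent.P032.Lt.eqLL (CB.map Fm) R0Q049.E = true := by decide +kernel

theorem p1024 : Pat 73 73 TBm TCm (CB.map Fm) R0Q049.P1024 R0Q049.I1024 := Vale.Agent.P032.Lt.pat_eq (E' := R0Q049.E) eB (pat_step (by decide +kernel) (q_cons (Vale.Agent.P032.Lt.q R0Q049.q1024_0) (q_cons (Vale.Agent.P032.Lt.q R0Q049.q1024_1) (q_cons (Vale.Agent.P032.Lt.q R0Q049.q1024_2) (q_cons (Vale.Agent.P032.Lt.q R0Q049.q1024_3) (q_cons (Vale.Agent.P032.Lt.q R0Q049.q1024_4) q_nil))))))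

theorem p1025 : Pat 73 73 TBm TCm (CB.map Fm) R0Q049.P1025 R0Q049.I1025 := Vale.Agent.P032.Lt.pat_eq (E' := R0Q049.E) eB (pat_step (by decide +kernel) (q_cons (Vale.Agent.P032.Lt.q R0Q049.q1025_0) (q_cons (Vale.Agent.P032.Lt.q R0Q049.q1025_1) (q_cons (Vale.Agent.P032.Lt.q R0Q049.q1025_2) (q_cons (Vale.Agent.P032.Lt.q R0Q049.q1025_3) q_nil)))))

theorem p1026 : Pat 73 73 TBm TCm (CB.map Fm) R0Q049.P1026 R0Q049.I1026 := Vale.Agent.P032.Lt.pat_eq (E' := R0Q049.E) eB (pat_step (by decide +kernel) (q_cons (Vale.Agent.P032.Lt.q R0Q049.q1026_0) (q_cons (Vale.Agent.P032.Lt.q R0Q049.q1026_1) (q_cons (Vale.Agent.P032.Lt.q R0Q049.q1026_2) (q_cons (Vale.Agent.P032.Lt.q R0Q049.q1026_3) (q_cons (Vale.Agent.P032.Lt.q R0Q049.q1026_4) q_nil))))))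

theorem p1027 : Pat 73 73 TBm TCm (CB.map Fm) R0Q049.P1027 R0Q049.I1027 := Vale.Agent.P032.Lt.pat_eq (E' := R0Q049.E) eB (pat_step (by decide +kernel) (q_cons (Vale.Agent.P032.Lt.q R0Q049.q1027_0) (q_cons (Vale.Agent.P032.Lt.q R0Q049.q1027_1) (q_cons (Vale.Agent.P032.Lt.q R0Q049.q1027_2) (q_cons (Vale.Agent.P032.Lt.q R0Q049.q1027_3) (q_cons (Vale.Agent.P032.Lt.q R0Q049.q1027_4) (q_cons (Vale.Agent.P032.Lt.q R0Q049.q1027_5) q_nil)))))))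

def C1028 : List ℕ := [0, 4, 8, 12, 16, 20, 24, 349185, 475137, 737281]
theorem p1028 : Pat 73 73 TBm TCm (C1028.map Fm) R0Q049.P1028 R0Q049.I1028 := Vale.Agent.P032.Lt.pat_eq (E' := R0Q049.E1028) (by decide +kernel) (pat_step (by decide +kernel) (q_cons (Vale.Agent.P032.Lt.q R0Q049.q1028_0) (q_cons (Vale.Agent.P032.Lt.q R0Q049.q1028_1) (q_cons (Vale.Agent.P032.Lt.q R0Q049.q1028_2) (q_cons (Vale.Agent.P032.Lt.q R0Q049.q1028_3) (q_cons (Vale.Agent.P032.Lt.q R0Q049.q1028_4) (q_cons (Vale.Agent.P032.Lt.q R0Q049.q1028_5) (q_cons (Vale.Agent.P032.Lt.q R0Q049.q1028_6) q_nil))))))))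

theorem p1029 : Pat 73 73 TBm TCm (CB.map Fm) R0Q049.P1029 R0Q049.I1029 := Vale.Agent.P032.Lt.pat_eq (E' := R0Q049.E) eB (pat_step (by decide +kernel) (q_cons (Vale.Agent.P032.Lt.q R0Q049.q1029_0) (q_cons (Vale.Agent.P032.Lt.q R0Q049.q1029_1) (q_cons (Vale.Agent.P032.Lt.q R0Q049.q1029_2) (q_cons (Vale.Agent.P032.Lt.q R0Q049.q1029_3) (q_cons (Vale.Agent.P032.Lt.q R0Q049.q1029_4) (q_cons (Vale.Agent.P032.Lt.q R0Q049.q1029_5) (q_cons (Vale.Agent.P032.Lt.q R0Q049.q1029_6) (q_cons (Vale.Agent.P032.Lt.q R0Q049.q1029_7) (q_cons (Vale.Agent.P032.Lt.q R0Q049.q1029_8) (q_cons (Vale.Agent.P032.Lt.q R0Q049.q1029_9) (q_cons (Vale.Agent.P032.Lt.q R0Q049.q1029_10) (q_cons (Vale.Agent.P032.Lt.q R0Q049.q1029_11) (q_cons (Vale.Agent.P032.Lt.q R0Q049.q1029_12) (q_cons (Vale.Agent.P032.Lt.q R0Q049.q1029_13) (q_cons (Vale.Agent.P032.Lt.q R0Q049.q1029_14) (q_cons (Vale.Agent.P032.Lt.q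 R0Q049.q1029_15) (q_cons (Vale.Agent.P032.Lt.q R0Q049.q1029_16) (q_cons (Vale.Agent.P032.Lt.q R0Q049.q1029_17) (q_cons (Vale.Agent.P032.Lt.q R0Q049.q1029_18) (q_cons (Vale.Agent.P032.Lt.q R0Q049.q1029_19) (q_cons (Vale.Agent.P032.Lt.q R0Q049.q1029_20) q_nil))))))))))))))))))))))

theorem p1030 : Pat 73 73 TBm TCm (CB.map Fm) R0Q049.P1030 R0Q049.I1030 := Vale.Agent.P032.Lt.pat_eq (E' := R0Q049.E) eB (pat_step (by decide +kernel) (q_cons (Vale.Agent.P032.Lt.q R0Q049.q1030_0) (q_cons (Vale.Agent.P032.Lt.q R0Q049.q1030_1) (q_cons (Vale.Agent.P032.Lt.q R0Q049.q1030_2) (q_cons (Vale.Agent.P032.Lt.q R0Q049.q1030_3) (q_cons (Vale.Agent.P032.Lt.q R0Q049.q1030_4) (q_cons (Vale.Agent.P032.Lt.q R0Q049.q1030_5) (q_cons (Vale.Agent.P032.Lt.q R0Q049.q1030_6) q_nil))))))))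

def C1031 : List ℕ := [0, 4, 8, 12, 16, 20, 24, 737281]
theorem p1031 : Pat 73 73 TBm TCm (C1031.map Fm) R0Q049.P1031 R0Q049.I1031 := Vale.Agent.P032.Lt.pat_eq (E' := R0Q049.E1031) (by decide +kernel) (pat_step (by decide +kernel) (q_cons (Vale.Agent.P032.Lt.q R0Q049.q1031_0) (q_cons (Vale.Agent.P032.Lt.q R0Q049.q1031_1) (q_cons (Vale.Agent.P032.Lt.q R0Q049.q1031_2) (q_cons (Vale.Agent.P032.Lt.q R0Q049.q1031_3) (q_cons (Vale.Agent.P032.Lt.q R0Q049.q1031_4) (q_cons (Vale.Agent.P032.Lt.q R0Q049.q1031_5) q_nil)))))))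

theorem p1032 : Pat 73 73 TBm TCm (CB.map Fm) R0Q049.P1032 R0Q049.I1032 := Vale.Agent.P032.Lt.pat_eq (E' := R0Q049.E) eB (pat_step (by decide +kernel) (q_cons (Vale.Agent.P032.Lt.q R0Q049.q1032_0) (q_cons (Vale.Agent.P032.Lt.q R0Q049.q1032_1) (q_cons (Vale.Agent.P032.Lt.q R0Q049.q1032_2) (q_cons (Vale.Agent.P032.Lt.q R0Q049.q1032_3) (q_cons (Vale.Agent.P032.Lt.q R0Q049.q1032_4) q_nil))))))

theorem p1033 : Pat 73 73 TBm TCm (CB.map Fm) R0Q049.P1033 R0Q049.I1033 := Vale.Agent.P032.Lt.pat_eq (E' := R0Q049.E) eB (pat_step (by decide +kernel) (q_cons (Vale.Agent.P032.Lt.q R0Q049.q1033_0) q_nil))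

theorem p1034 : Pat 73 73 TBm TCm (CB.map Fm) R0Q049.P1034 R0Q049.I1034 := Vale.Agent.P032.Lt.pat_eq (E' := R0Q049.E) eB (pat_step (by decide +kernel) (q_cons (Vale.Agent.P032.Lt.q R0Q049.q1034_0) (q_cons (Vale.Agent.P032.Lt.q R0Q049.q1034_1) (q_cons (Vale.Agent.P032.Lt.q R0Q049.q1034_2) (q_cons (Vale.Agent.P032.Lt.q R0Q049.q1034_3) q_nil)))))

theorem p1035 : Pat 73 73 TBm TCm (CB.map Fm) R0Q049.P1035 R0Q049.I1035 := Vale.Agent.P032.Lt.pat_eq (E' := R0Q049.E) eB (pat_step (by decide +kernel) (q_cons (Vale.Agent.P032.Lt.q R0Q049.q1035_0) (q_cons (Vale.Agent.P032.Lt.q R0Q049.q1035_1) (q_cons (Vale.Agent.P032.Lt.q R0Q049.q1035_2) (q_cons (Vale.Agent.P032.Lt.q R0Q049.q1035_3) (q_cons (Vale.Agent.P032.Lt.q R0Q049.q1035_4) (q_cons (Vale.Agent.P032.Lt.q R0Q049.q1035_5) (q_cons (Vale.Agent.P032.Lt.q R0Q049.q1035_6) q_nil))))))))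

def C1036 : List ℕ := [0, 4, 8, 12, 16, 20, 24, 220161, 355329, 475137, 484353, 737281]
theorem p1036 : Pat 73 73 TBm TCm (C1036.map Fm) R0Q049.P1036 R0Q049.I1036 := Vale.Agent.P032.Lt.pat_eq (E' := R0Q049.E1036) (by decide +kernel) (pat_step (by decide +kernel) (q_cons (Vale.Agent.P032.Lt.q R0Q049.q1036_0) q_nil))

def C1037 : List ℕ := [0, 4, 8, 12, 16, 20, 24, 83969, 344065, 475137, 737281]
theorem p1037 : Pat 73 73 TBm TCm (C1037.map Fm) R0Q049.P1037 R0Q049.I1037 := Vale.Agent.P032.Lt.pat_eq (E' := R0Q049.E1037) (by decide +kernel) (pat_step (by decide +kernel) (q_cons (Vale.Agent.P032.Lt.q R0Q049.q1037_0) (q_cons (Vale.Agent.P032.Lt.q R0Q049.q1037_1) (q_cons (Vale.Agent.P032.Lt.q R0Q049.q1037_2) (q_cons (Vale.Agent.P032.Lt.q R0Q049.q1037_3) (q_cons (Vale.Agent.P032.Lt.q R0Q049.q1037_4) q_nil))))))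

theorem p1038 : Pat 73 73 TBm TCm (CB.map Fm) R0Q049.P1038 R0Q049.I1038 := Vale.Agent.P032.Lt.pat_eq (E' := R0Q049.E) eB (pat_step (by decide +kernel) (q_cons (Vale.Agent.P032.Lt.q R0Q049.q1038_0) (q_cons (Vale.Agent.P032.Lt.q R0Q049.q1038_1) q_nil)))

theorem p1039 : Pat 73 73 TBm TCm (CB.map Fm) R0Q049.P1039 R0Q049.I1039 := Vale.Agent.P032.Lt.pat_eq (E' := R0Q049.E) eB (pat_step (by decide +kernel) (q_cons (Vale.Agent.P032.Lt.q R0Q049.q1039_0) (q_cons (Vale.Agent.P032.Lt.q R0Q049.q1039_1) q_nil)))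

theorem p1040 : Pat 73 73 TBm TCm (CB.map Fm) R0Q049.P1040 R0Q049.I1040 := Vale.Agent.P032.Lt.pat_eq (E' := R0Q049.E) eB (pat_step (by decide +kernel) (q_cons (Vale.Agent.P032.Lt.q R0Q049.q1040_0) (q_cons (Vale.Agent.P032.Lt.q R0Q049.q1040_1) (q_cons (Vale.Agent.P032.Lt.q R0Q049.q1040_2) q_nil))))

theorem p1041 : Pat 73 73 TBm TCm (CB.map Fm) R0Q049.P1041 R0Q049.I1041 := Vale.Agent.P032.Lt.pat_eq (E' := R0Q049.E) eB (pat_step (by decide +kernel) (q_cons (Vale.Agent.P032.Lt.q R0Q049.q1041_0) (q_cons (Vale.Agent.P032.Lt.q R0Q049.q1041_1) q_nil)))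

theorem p1042 : Pat 73 73 TBm TCm (CB.map Fm) R0Q049.P1042 R0Q049.I1042 := Vale.Agent.P032.Lt.pat_eq (E' := R0Q049.E) eB (pat_step (by decide +kernel) (q_cons (Vale.Agent.P032.Lt.q R0Q049.q1042_0) (q_cons (Vale.Agent.P032.Lt.q R0Q049.q1042_1) (q_cons (Vale.Agent.P032.Lt.q R0Q049.q1042_2) (q_cons (Vale.Agent.P032.Lt.q R0Q049.q1042_3) (q_cons (Vale.Agent.P032.Lt.q R0Q049.q1042_4) q_nil))))))

theorem p1043 : Pat 73 73 TBm TCm (CB.map Fm) R0Q049.P1043 R0Q049.I1043 := Vale.Agent.P032.Lt.pat_eq (E' := R0Q049.E) eB (pat_step (by decide +kernel) (q_cons (Vale.Agent.P032.Lt.q R0Q049.q1043_0) q_nil))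

theorem p1044 : Pat 73 73 TBm TCm (CB.map Fm) R0Q049.P1044 R0Q049.I1044 := Vale.Agent.P032.Lt.pat_eq (E' := R0Q049.E) eB (pat_step (by decide +kernel) (q_cons (Vale.Agent.P032.Lt.q R0Q049.q1044_0) (q_cons (Vale.Agent.P032.Lt.q R0Q049.q1044_1) (q_cons (Vale.Agent.P032.Lt.q R0Q049.q1044_2) (q_cons (Vale.Agent.P032.Lt.q R0Q049.q1044_3) (q_cons (Vale.Agent.P032.Lt.q R0Q049.q1044_4) (q_cons (Vale.Agent.P032.Lt.q R0Q049.q1044_5) (q_cons (Vale.Agent.P032.Lt.q R0Q049.q1044_6) (q_cons (Vale.Agent.P032.Lt.q R0Q049.q1044_7) (q_cons (Vale.Agent.P032.Lt.q R0Q049.q1044_8) (q_cons (Vale.Agent.P032.Lt.q R0Q049.q1044_9) (q_cons (Vale.Agent.P032.Lt.q R0Q049.q1044_10) (q_cons (Vale.Agent.P032.Lt.q R0Q049.q1044_11) (q_cons (Vale.Agent.P032.Lt.q R0Q049.q1044_12) q_nil))))))))))))))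

theorem p1045 : Pat 73 73 TBm TCm (CB.map Fm) R0Q049.P1045 R0Q049.I1045 := Vale.Agent.P032.Lt.pat_eq (E' := R0Q049.E) eB (pat_step (by decide +kernel) (q_cons (Vale.Agent.P032.Lt.q R0Q049.q1045_0) (q_cons (Vale.Agent.P032.Lt.q R0Q049.q1045_1) (q_cons (Vale.Agent.P032.Lt.q R0Q049.q1045_2) (q_cons (Vale.Agent.P032.Lt.q R0Q049.q1045_3) (q_cons (Vale.Agent.P032.Lt.q R0Q049.q1045_4) (q_cons (Vale.Agent.P032.Lt.q R0Q049.q1045_5) (q_cons (Vale.Agent.P032.Lt.q R0Q049.q1045_6) q_nil))))))))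

theorem p1046 : Pat 73 73 TBm TCm (CB.map Fm) R0Q049.P1046 R0Q049.I1046 := Vale.Agent.P032.Lt.pat_eq (E' := R0Q049.E) eB (pat_step (by decide +kernel) (q_cons (Vale.Agent.P032.Lt.q R0Q049.q1046_0) (q_cons (Vale.Agent.P032.Lt.q R0Q049.q1046_1) q_nil)))

theorem p1047 : Pat 73 73 TBm TCm (CB.map Fm) R0Q050.P1047 R0Q050.I1047 := Vale.Agent.P032.Lt.pat_eq (E' := R0Q050.E) eB (pat_step (by decide +kernel) (q_cons (Vale.Agent.P032.Lt.q R0Q050.q1047_0) (q_cons (Vale.Agent.P032.Lt.q R0Q050.q1047_1) (q_cons (Vale.Agent.P032.Lt.q R0Q050.q1047_2) (q_cons (Vale.Agent.P032.Lt.q R0Q050.q1047_3) (q_cons (Vale.Agent.P032.Lt.q R0Q050.q1047_4) q_nil))))))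

theorem p1048 : Pat 73 73 TBm TCm (CB.map Fm) R0Q050.P1048 R0Q050.I1048 := Vale.Agent.P032.Lt.pat_eq (E' := R0Q050.E) eB (pat_step (by decide +kernel) (q_cons (Vale.Agent.P032.Lt.q R0Q050.q1048_0) q_nil))

theorem p1049 : Pat 73 73 TBm TCm (CB.map Fm) R0Q050.P1049 R0Q050.I1049 := Vale.Agent.P032.Lt.pat_eq (E' := R0Q050.E) eB (pat_step (by decide +kernel) (q_cons (Vale.Agent.P032.Lt.q R0Q050.q1049_0) (q_cons (Vale.Agent.P032.Lt.q R0Q050.q1049_1) (q_cons (Vale.Agent.P032.Lt.q R0Q050.q1049_2) (q_cons (Vale.Agent.P032.Lt.q R0Q050.q1049_3) (q_cons (Vale.Agent.P032.Lt.q R0Q050.q1049_4) q_nil))))))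

theorem p1050 : Pat 73 73 TBm TCm (CB.map Fm) R0Q050.P1050 R0Q050.I1050 := Vale.Agent.P032.Lt.pat_eq (E' := R0Q050.E) eB (pat_step (by decide +kernel) (q_cons (Vale.Agent.P032.Lt.q R0Q050.q1050_0) q_nil))

theorem p1051 : Pat 73 73 TBm TCm (CB.map Fm) R0Q050.P1051 R0Q050.I1051 := Vale.Agent.P032.Lt.pat_eq (E' := R0Q050.E) eB (pat_step (by decide +kernel) (q_cons (Vale.Agent.P032.Lt.q R0Q050.q1051_0) (q_cons (Vale.Agent.P032.Lt.q R0Q050.q1051_1) q_nil)))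

theorem p1052 : Pat 73 73 TBm TCm (CB.map Fm) R0Q050.P1052 R0Q050.I1052 := Vale.Agent.P032.Lt.pat_eq (E' := R0Q050.E) eB (pat_step (by decide +kernel) (q_cons (Vale.Agent.P032.Lt.q R0Q050.q1052_0) (q_cons (Vale.Agent.P032.Lt.q R0Q050.q1052_1) q_nil)))

theorem p1053 : Pat 73 73 TBm TCm (CB.map Fm) R0Q050.P1053 R0Q050.I1053 := Vale.Agent.P032.Lt.pat_eq (E' := R0Q050.E) eB (pat_step (by decide +kernel) (q_cons (Vale.Agent.P032.Lt.q R0Q050.q1053_0) q_nil))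

theorem p1054 : Pat 73 73 TBm TCm (CB.map Fm) R0Q050.P1054 R0Q050.I1054 := Vale.Agent.P032.Lt.pat_eq (E' := R0Q050.E) eB (pat_step (by decide +kernel) (q_cons (Vale.Agent.P032.Lt.q R0Q050.q1054_0) (q_cons (Vale.Agent.P032.Lt.q R0Q050.q1054_1) (q_cons (Vale.Agent.P032.Lt.q R0Q050.q1054_2) q_nil))))

theorem p1055 : Pat 73 73 TBm TCm (CB.map Fm) R0Q050.P1055 R0Q050.I1055 := Vale.Agent.P032.Lt.pat_eq (E' := R0Q050.E) eB (pat_step (by decide +kernel) (q_cons (Vale.Agent.P032.Lt.q R0Q050.q1055_0) (q_cons (Vale.Agent.P032.Lt.q R0Q050.q1055_1) q_nil)))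

theorem p1056 : Pat 73 73 TBm TCm (CB.map Fm) R0Q050.P1056 R0Q050.I1056 := Vale.Agent.P032.Lt.pat_eq (E' := R0Q050.E) eB (pat_step (by decide +kernel) (q_cons (Vale.Agent.P032.Lt.q R0Q050.q1056_0) (q_cons (Vale.Agent.P032.Lt.q R0Q050.q1056_1) q_nil)))

theorem p1057 : Pat 73 73 TBm TCm (CB.map Fm) R0Q050.P1057 R0Q050.I1057 := Vale.Agent.P032.Lt.pat_eq (E' := R0Q050.E) eB (pat_step (by decide +kernel) (q_cons (Vale.Agent.P032.Lt.q R0Q050.q1057_0) (q_cons (Vale.Agent.P032.Lt.q R0Q050.q1057_1) (q_cons (Vale.Agent.P032.Lt.q R0Q050.q1057_2) (q_cons (Vale.Agent.P032.Lt.q R0Q050.q1057_3) (q_cons (Vale.Agent.P032.Lt.q R0Q050.q1057_4) (q_cons (Vale.Agent.P032.Lt.q R0Q050.q1057_5) q_nil)))))))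

theorem p1058 : Pat 73 73 TBm TCm (CB.map Fm) R0Q050.P1058 R0Q050.I1058 := Vale.Agent.P032.Lt.pat_eq (E' := R0Q050.E) eB (pat_step (by decide +kernel) (q_cons (Vale.Agent.P032.Lt.q R0Q050.q1058_0) (q_cons (Vale.Agent.P032.Lt.q R0Q050.q1058_1) (q_cons (Vale.Agent.P032.Lt.q R0Q050.q1058_2) (q_cons (Vale.Agent.P032.Lt.q R0Q050.q1058_3) (q_cons (Vale.Agent.P032.Lt.q R0Q050.q1058_4) (q_cons (Vale.Agent.P032.Lt.q R0Q050.q1058_5) (q_cons (Vale.Agent.P032.Lt.q R0Q050.q1058_6) (q_cons (Vale.Agent.P032.Lt.q R0Q050.q1058_7) (q_cons (Vale.Agent.P032.Lt.q R0Q050.q1058_8) (q_cons (Vale.Agent.P032.Lt.q R0Q050.q1058_9) (q_cons (Vale.Agent.P032.Lt.q R0Q050.q1058_10) (q_cons (Vale.Agent.P032.Lt.q R0Q050.q1058_11) (q_cons (Vale.Agent.P032.Lt.q R0Q050.q1058_12) (q_cons (Vale.Agent.P032.Lt.q R0Q050.q1058_13) (q_cons (Vale.Agent.P032.Lt.q R0Q050.q1058_14) (q_cons (Vale.Agent.P032.Lt.q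 R0Q050.q1058_15) (q_cons (Vale.Agent.P032.Lt.q R0Q050.q1058_16) (q_cons (Vale.Agent.P032.Lt.q R0Q050.q1058_17) q_nil)))))))))))))))))))

def C1059 : List ℕ := [0, 4, 8, 12, 16, 20, 24, 737281]
theorem p1059 : Pat 73 73 TBm TCm (C1059.map Fm) R0Q050.P1059 R0Q050.I1059 := Vale.Agent.P032.Lt.pat_eq (E' := R0Q050.E1059) (by decide +kernel) (pat_step (by decide +kernel) (q_cons (Vale.Agent.P032.Lt.q R0Q050.q1059_0) (q_cons (Vale.Agent.P032.Lt.q R0Q050.q1059_1) (q_cons (Vale.Agent.P032.Lt.q R0Q050.q1059_2) (q_cons (Vale.Agent.P032.Lt.q R0Q050.q1059_3) (q_cons (Vale.Agent.P032.Lt.q R0Q050.q1059_4) (q_cons (Vale.Agent.P032.Lt.q R0Q050.q1059_5) (q_cons (Vale.Agent.P032.Lt.q R0Q050.q1059_6) (q_cons (Vale.Agent.P032.Lt.q R0Q050.q1059_7) (q_cons (Vale.Agent.P032.Lt.q R0Q050.q1059_8) (q_cons (Vale.Agent.P032.Lt.q R0Q050.q1059_9) (q_cons (Vale.Agent.P032.Lt.q R0Q050.q1059_10)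 (q_cons (Vale.Agent.P032.Lt.q R0Q050.q1059_11) q_nil)))))))))))))

theorem p1060 : Pat 73 73 TBm TCm (CB.map Fm) R0Q050.P1060 R0Q050.I1060 := Vale.Agent.P032.Lt.pat_eq (E' := R0Q050.E) eB (pat_step (by decide +kernel) (q_cons (Vale.Agent.P032.Lt.q R0Q050.q1060_0) (q_cons (Vale.Agent.P032.Lt.q R0Q050.q1060_1) (q_cons (Vale.Agent.P032.Lt.q R0Q050.q1060_2) (q_cons (Vale.Agent.P032.Lt.q R0Q050.q1060_3) (q_cons (Vale.Agent.P032.Lt.q R0Q050.q1060_4) (q_cons (Vale.Agent.P032.Lt.q R0Q050.q1060_5) (q_cons (Vale.Agent.P032.Lt.q R0Q050.q1060_6) (q_cons (Vale.Agent.P032.Lt.q R0Q050.q1060_7) (q_cons (Vale.Agent.P032.Lt.q R0Q050.q1060_8) (q_cons (Vale.Agent.P032.Lt.q R0Q050.q1060_9) (q_cons (Vale.Agent.P032.Lt.q R0Q050.q1060_10) q_nil))))))))))))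

theorem p1061 : Pat 73 73 TBm TCm (CB.map Fm) R0Q050.P1061 R0Q050.I1061 := Vale.Agent.P032.Lt.pat_eq (E' := R0Q050.E) eB (pat_step (by decide +kernel) (q_cons (Vale.Agent.P032.Lt.q R0Q050.q1061_0) q_nil))

theorem p1062 : Pat 73 73 TBm TCm (CB.map Fm) R0Q050.P1062 R0Q050.I1062 := Vale.Agent.P032.Lt.pat_eq (E' := R0Q050.E) eB (pat_step (by decide +kernel) (q_cons (Vale.Agent.P032.Lt.q R0Q050.q1062_0) (q_cons (Vale.Agent.P032.Lt.q R0Q050.q1062_1) (q_cons (Vale.Agent.P032.Lt.q R0Q050.q1062_2) (q_cons (Vale.Agent.P032.Lt.q R0Q050.q1062_3) (q_cons (Vale.Agent.P032.Lt.q R0Q050.q1062_4) (q_cons (Vale.Agent.P032.Lt.q R0Q050.q1062_5) (q_cons (Vale.Agent.P032.Lt.q R0Q050.q1062_6) (q_cons (Vale.Agent.P032.Lt.q R0Q050.q1062_7) q_nil)))))))))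

theorem p1063 : Pat 73 73 TBm TCm (CB.map Fm) R0Q050.P1063 R0Q050.I1063 := Vale.Agent.P032.Lt.pat_eq (E' := R0Q050.E) eB (pat_step (by decide +kernel) (q_cons (Vale.Agent.P032.Lt.q R0Q050.q1063_0) q_nil))

theorem p1064 : Pat 73 73 TBm TCm (CB.map Fm) R0Q050.P1064 R0Q050.I1064 := Vale.Agent.P032.Lt.pat_eq (E' := R0Q050.E) eB (pat_step (by decide +kernel) (q_cons (Vale.Agent.P032.Lt.q R0Q050.q1064_0) (q_cons (Vale.Agent.P032.Lt.q R0Q050.q1064_1) q_nil)))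

theorem p1065 : Pat 73 73 TBm TCm (CB.map Fm) R0Q050.P1065 R0Q050.I1065 := Vale.Agent.P032.Lt.pat_eq (E' := R0Q050.E) eB (pat_step (by decide +kernel) (q_cons (Vale.Agent.P032.Lt.q R0Q050.q1065_0) (q_cons (Vale.Agent.P032.Lt.q R0Q050.q1065_1) (q_cons (Vale.Agent.P032.Lt.q R0Q050.q1065_2) q_nil))))

theorem p1066 : Pat 73 73 TBm TCm (CB.map Fm) R0Q050.P1066 R0Q050.I1066 := Vale.Agent.P032.Lt.pat_eq (E' := R0Q050.E) eB (pat_step (by decide +kernel) (q_cons (Vale.Agent.P032.Lt.q R0Q050.q1066_0) q_nil))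

def C1067 : List ℕ := [0, 4, 8, 12, 16, 20, 24, 212993, 475137, 737281]
theorem p1067 : Pat 73 73 TBm TCm (C1067.map Fm) R0Q050.P1067 R0Q050.I1067 := Vale.Agent.P032.Lt.pat_eq (E' := R0Q050.E1067) (by decide +kernel) (pat_step (by decide +kernel) (q_cons (Vale.Agent.P032.Lt.q R0Q050.q1067_0) (q_cons (Vale.Agent.P032.Lt.q R0Q050.q1067_1) (q_cons (Vale.Agent.P032.Lt.q R0Q050.q1067_2) (q_cons (Vale.Agent.P032.Lt.q R0Q050.q1067_3) (q_cons (Vale.Agent.P032.Lt.q R0Q050.q1067_4) (q_cons (Vale.Agent.P032.Lt.q R0Q050.q1067_5) (q_cons (Vale.Agent.P032.Lt.q R0Q050.q1067_6) (q_cons (Vale.Agent.P032.Lt.q R0Q050.q1067_7) q_nil)))))))))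

theorem p1068 : Pat 73 73 TBm TCm (CB.map Fm) R0Q050.P1068 R0Q050.I1068 := Vale.Agent.P032.Lt.pat_eq (E' := R0Q050.E) eB (pat_step (by decide +kernel) (q_cons (Vale.Agent.P032.Lt.q R0Q050.q1068_0) (q_cons (Vale.Agent.P032.Lt.q R0Q050.q1068_1) (q_cons (Vale.Agent.P032.Lt.q R0Q050.q1068_2) (q_cons (Vale.Agent.P032.Lt.q R0Q050.q1068_3) q_nil)))))

theorem p1069 : Pat 73 73 TBm TCm (CB.map Fm) R0Q050.P1069 R0Q050.I1069 := Vale.Agent.P032.Lt.pat_eq (E' := R0Q050.E) eB (pat_step (by decide +kernel) (q_cons (Vale.Agent.P032.Lt.q R0Q050.q1069_0) (q_cons (Vale.Agent.P032.Lt.q R0Q050.q1069_1) (q_cons (Vale.Agent.P032.Lt.q R0Q050.q1069_2) (q_cons (Vale.Agent.P032.Lt.q R0Q050.q1069_3) (q_cons (Vale.Agent.P032.Lt.q R0Q050.q1069_4) (q_cons (Vale.Agent.P032.Lt.q R0Q050.q1069_5) (q_cons (Vale.Agent.P032.Lt.q R0Q050.q1069_6) (q_cons (Vale.Agent.P032.Lt.q R0Q050.q1069_7)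 q_nil)))))))))

theorem p1070 : Pat 73 73 TBm TCm (CB.map Fm) R0Q050.P1070 R0Q050.I1070 := Vale.Agent.P032.Lt.pat_eq (E' := R0Q050.E) eB (pat_step (by decide +kernel) (q_cons (Vale.Agent.P032.Lt.q R0Q050.q1070_0) (q_cons (Vale.Agent.P032.Lt.q R0Q050.q1070_1) (q_cons (Vale.Agent.P032.Lt.q R0Q050.q1070_2) (q_cons (Vale.Agent.P032.Lt.q R0Q050.q1070_3) (q_cons (Vale.Agent.P032.Lt.q R0Q050.q1070_4) (q_cons (Vale.Agent.P032.Lt.q R0Q050.q1070_5) q_nil)))))))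

theorem p1071 : Pat 73 73 TBm TCm (CB.map Fm) R0Q050.P1071 R0Q050.I1071 := Vale.Agent.P032.Lt.pat_eq (E' := R0Q050.E) eB (pat_step (by decide +kernel) (q_cons (Vale.Agent.P032.Lt.q R0Q050.q1071_0) (q_cons (Vale.Agent.P032.Lt.q R0Q050.q1071_1) q_nil)))

theorem p1072 : Pat 73 73 TBm TCm (CB.map Fm) R0Q050.P1072 R0Q050.I1072 := Vale.Agent.P032.Lt.pat_eq (E' := R0Q050.E) eB (pat_step (by decide +kernel) (q_cons (Vale.Agent.P032.Lt.q R0Q050.q1072_0) (q_cons (Vale.Agent.P032.Lt.q R0Q050.q1072_1) (q_cons (Vale.Agent.P032.Lt.q R0Q050.q1072_2) q_nil))))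

theorem p1073 : Pat 73 73 TBm TCm (CB.map Fm) R0Q050.P1073 R0Q050.I1073 := Vale.Agent.P032.Lt.pat_eq (E' := R0Q050.E) eB (pat_step (by decide +kernel) (q_cons (Vale.Agent.P032.Lt.q R0Q050.q1073_0) (q_cons (Vale.Agent.P032.Lt.q R0Q050.q1073_1) q_nil)))

theorem p1074 : Pat 73 73 TBm TCm (CB.map Fm) R0Q050.P1074 R0Q050.I1074 := Vale.Agent.P032.Lt.pat_eq (E' := R0Q050.E) eB (pat_step (by decide +kernel) (q_cons (Vale.Agent.P032.Lt.q R0Q050.q1074_0) q_nil))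

theorem p1075 : Pat 73 73 TBm TCm (CB.map Fm) R0Q051.P1075 R0Q051.I1075 := Vale.Agent.P032.Lt.pat_eq (E' := R0Q051.E) eB (pat_step (by decide +kernel) (q_cons (Vale.Agent.P032.Lt.q R0Q051.q1075_0) q_nil))

theorem p1076 : Pat 73 73 TBm TCm (CB.map Fm) R0Q051.P1076 R0Q051.I1076 := Vale.Agent.P032.Lt.pat_eq (E' := R0Q051.E) eB (pat_step (by decide +kernel) (q_cons (Vale.Agent.P032.Lt.q R0Q051.q1076_0) (q_cons (Vale.Agent.P032.Lt.q R0Q051.q1076_1) (q_cons (Vale.Agent.P032.Lt.q R0Q051.q1076_2) (q_cons (Vale.Agent.P032.Lt.q R0Q051.q1076_3) (q_cons (Vale.Agent.P032.Lt.q R0Q051.q1076_4) (q_cons (Vale.Agent.P032.Lt.q R0Q051.q1076_5) (q_cons (Vale.Agent.P032.Lt.q R0Q051.q1076_6) (q_cons (Vale.Agent.P032.Lt.q R0Q051.q1076_7) (q_cons (Vale.Agent.P032.Lt.q R0Q051.q1076_8) (q_cons (Vale.Agent.P032.Lt.q R0Q051.q1076_9) q_nil)))))))))))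

theorem p1077 : Pat 73 73 TBm TCm (CB.map Fm) R0Q051.P1077 R0Q051.I1077 := Vale.Agent.P032.Lt.pat_eq (E' := R0Q051.E) eB (pat_step (by decide +kernel) (q_cons (Vale.Agent.P032.Lt.q R0Q051.q1077_0) q_nil))

theorem p1078 : Pat 73 73 TBm TCm (CB.map Fm) R0Q051.P1078 R0Q051.I1078 := Vale.Agent.P032.Lt.pat_eq (E' := R0Q051.E) eB (pat_step (by decide +kernel) (q_cons (Vale.Agent.P032.Lt.q R0Q051.q1078_0) (q_cons (Vale.Agent.P032.Lt.q R0Q051.q1078_1) (q_cons (Vale.Agent.P032.Lt.q R0Q051.q1078_2) (q_cons (Vale.Agent.P032.Lt.q R0Q051.q1078_3) (q_cons (Vale.Agent.P032.Lt.q R0Q051.q1078_4) (q_cons (Vale.Agent.P032.Lt.q R0Q051.q1078_5) q_nil)))))))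

theorem p1079 : Pat 73 73 TBm TCm (CB.map Fm) R0Q051.P1079 R0Q051.I1079 := Vale.Agent.P032.Lt.pat_eq (E' := R0Q051.E) eB (pat_step (by decide +kernel) (q_cons (Vale.Agent.P032.Lt.q R0Q051.q1079_0) q_nil))

def C1080 : List ℕ := [0, 4, 8, 12, 16, 20, 24, 355329, 475137, 606209]
theorem p1080 : Pat 73 73 TBm TCm (C1080.map Fm) R0Q051.P1080 R0Q051.I1080 := Vale.Agent.P032.Lt.pat_eq (E' := R0Q051.E1080) (by decide +kernel) (pat_step (by decide +kernel) (q_cons (Vale.Agent.P032.Lt.q R0Q051.q1080_0) (q_cons (Vale.Agent.P032.Lt.q R0Q051.q1080_1) q_nil)))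

theorem p1081 : Pat 73 73 TBm TCm (CB.map Fm) R0Q051.P1081 R0Q051.I1081 := Vale.Agent.P032.Lt.pat_eq (E' := R0Q051.E) eB (pat_step (by decide +kernel) (q_cons (Vale.Agent.P032.Lt.q R0Q051.q1081_0) (q_cons (Vale.Agent.P032.Lt.q R0Q051.q1081_1) (q_cons (Vale.Agent.P032.Lt.q R0Q051.q1081_2) (q_cons (Vale.Agent.P032.Lt.q R0Q051.q1081_3) (q_cons (Vale.Agent.P032.Lt.q R0Q051.q1081_4) q_nil))))))

theorem p1082 : Pat 73 73 TBm TCm (CB.map Fm) R0Q051.P1082 R0Q051.I1082 := Vale.Agent.P032.Lt.pat_eq (E' := R0Q051.E) eB (pat_step (by decide +kernel) (q_cons (Vale.Agent.P032.Lt.q R0Q051.q1082_0) q_nil))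

theorem p1083 : Pat 73 73 TBm TCm (CB.map Fm) R0Q051.P1083 R0Q051.I1083 := Vale.Agent.P032.Lt.pat_eq (E' := R0Q051.E) eB (pat_step (by decide +kernel) (q_cons (Vale.Agent.P032.Lt.q R0Q051.q1083_0) q_nil))

theorem p1084 : Pat 73 73 TBm TCm (CB.map Fm) R0Q051.P1084 R0Q051.I1084 := Vale.Agent.P032.Lt.pat_eq (E' := R0Q051.E) eB (pat_step (by decide +kernel) (q_cons (Vale.Agent.P032.Lt.q R0Q051.q1084_0) (q_cons (Vale.Agent.P032.Lt.q R0Q051.q1084_1) (q_cons (Vale.Agent.P032.Lt.q R0Q051.q1084_2) q_nil))))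

theorem p1085 : Pat 73 73 TBm TCm (CB.map Fm) R0Q051.P1085 R0Q051.I1085 := Vale.Agent.P032.Lt.pat_eq (E' := R0Q051.E) eB (pat_step (by decide +kernel) (q_cons (Vale.Agent.P032.Lt.q R0Q051.q1085_0) (q_cons (Vale.Agent.P032.Lt.q R0Q051.q1085_1) (q_cons (Vale.Agent.P032.Lt.q R0Q051.q1085_2) (q_cons (Vale.Agent.P032.Lt.q R0Q051.q1085_3) (q_cons (Vale.Agent.P032.Lt.q R0Q051.q1085_4) (q_cons (Vale.Agent.P032.Lt.q R0Q051.q1085_5) (q_cons (Vale.Agent.P032.Lt.q R0Q051.q1085_6) q_nil))))))))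

theorem p1086 : Pat 73 73 TBm TCm (CB.map Fm) R0Q051.P1086 R0Q051.I1086 := Vale.Agent.P032.Lt.pat_eq (E' := R0Q051.E) eB (pat_step (by decide +kernel) (q_cons (Vale.Agent.P032.Lt.q R0Q051.q1086_0) (q_cons (Vale.Agent.P032.Lt.q R0Q051.q1086_1) (q_cons (Vale.Agent.P032.Lt.q R0Q051.q1086_2) q_nil))))

theorem p1087 : Pat 73 73 TBm TCm (CB.map Fm) R0Q051.P1087 R0Q051.I1087 := Vale.Agent.P032.Lt.pat_eq (E' := R0Q051.E) eB (pat_step (by decide +kernel) (q_cons (Vale.Agent.P032.Lt.q R0Q051.q1087_0) (q_cons (Vale.Agent.P032.Lt.q R0Q051.q1087_1) (q_cons (Vale.Agent.P032.Lt.q R0Q051.q1087_2) (q_cons (Vale.Agent.P032.Lt.q R0Q051.q1087_3) (q_cons (Vale.Agent.P032.Lt.q R0Q051.q1087_4) (q_cons (Vale.Agent.P032.Lt.q R0Q051.q1087_5) (q_cons (Vale.Agent.P032.Lt.q R0Q051.q1087_6) (q_cons (Vale.Agent.P032.Lt.q R0Q051.q1087_7) q_nil)))))))))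

def C1088 : List ℕ := [0, 4, 8, 12, 16, 20, 24, 216065, 344065, 475137, 737281]
theorem p1088 : Pat 73 73 TBm TCm (C1088.map Fm) R0Q051.P1088 R0Q051.I1088 := Vale.Agent.P032.Lt.pat_eq (E' := R0Q051.E1088) (by decide +kernel) (pat_step (by decide +kernel) (q_cons (Vale.Agent.P032.Lt.q R0Q051.q1088_0) (q_cons (Vale.Agent.P032.Lt.q R0Q051.q1088_1) (q_cons (Vale.Agent.P032.Lt.q R0Q051.q1088_2) (q_cons (Vale.Agent.P032.Lt.q R0Q051.q1088_3) (q_cons (Vale.Agent.P032.Lt.q R0Q051.q1088_4) (q_cons (Vale.Agent.P032.Lt.q R0Q051.q1088_5) q_nil)))))))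

theorem p1089 : Pat 73 73 TBm TCm (CB.map Fm) R0Q051.P1089 R0Q051.I1089 := Vale.Agent.P032.Lt.pat_eq (E' := R0Q051.E) eB (pat_step (by decide +kernel) (q_cons (Vale.Agent.P032.Lt.q R0Q051.q1089_0) q_nil))

theorem p1090 : Pat 73 73 TBm TCm (CB.map Fm) R0Q051.P1090 R0Q051.I1090 := Vale.Agent.P032.Lt.pat_eq (E' := R0Q051.E) eB (pat_step (by decide +kernel) (q_cons (Vale.Agent.P032.Lt.q R0Q051.q1090_0) q_nil))

theorem p1091 : Pat 73 73 TBm TCm (CB.map Fm) R0Q051.P1091 R0Q051.I1091 := Vale.Agent.P032.Lt.pat_eq (E' := R0Q051.E) eB (pat_step (by decide +kernel) (q_cons (Vale.Agent.P032.Lt.q R0Q051.q1091_0) q_nil))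

theorem p1092 : Pat 73 73 TBm TCm (CB.map Fm) R0Q051.P1092 R0Q051.I1092 := Vale.Agent.P032.Lt.pat_eq (E' := R0Q051.E) eB (pat_step (by decide +kernel) (q_cons (Vale.Agent.P032.Lt.q R0Q051.q1092_0) (q_cons (Vale.Agent.P032.Lt.q R0Q051.q1092_1) (q_cons (Vale.Agent.P032.Lt.q R0Q051.q1092_2) (q_cons (Vale.Agent.P032.Lt.q R0Q051.q1092_3) (q_cons (Vale.Agent.P032.Lt.q R0Q051.q1092_4) (q_cons (Vale.Agent.P032.Lt.q R0Q051.q1092_5) (q_cons (Vale.Agent.P032.Lt.q R0Q051.q1092_6) (q_cons (Vale.Agent.P032.Lt.q R0Q051.q1092_7) (q_cons (Vale.Agent.P032.Lt.q R0Q051.q1092_8) (q_cons (Vale.Agent.P032.Lt.q R0Q051.q1092_9) (q_cons (Vale.Agent.P032.Lt.q R0Q051.q1092_10) q_nil))))))))))))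

theorem p1093 : Pat 73 73 TBm TCm (CB.map Fm) R0Q051.P1093 R0Q051.I1093 := Vale.Agent.P032.Lt.pat_eq (E' := R0Q051.E) eB (pat_step (by decide +kernel) (q_cons (Vale.Agent.P032.Lt.q R0Q051.q1093_0) q_nil))

theorem p1094 : Pat 73 73 TBm TCm (CB.map Fm) R0Q051.P1094 R0Q051.I1094 := Vale.Agent.P032.Lt.pat_eq (E' := R0Q051.E) eB (pat_step (by decide +kernel) (q_cons (Vale.Agent.P032.Lt.q R0Q051.q1094_0) (q_cons (Vale.Agent.P032.Lt.q R0Q051.q1094_1) q_nil)))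

theorem p1095 : Pat 73 73 TBm TCm (CB.map Fm) R0Q051.P1095 R0Q051.I1095 := Vale.Agent.P032.Lt.pat_eq (E' := R0Q051.E) eB (pat_step (by decide +kernel) (q_cons (Vale.Agent.P032.Lt.q R0Q051.q1095_0) q_nil))

theorem p1096 : Pat 73 73 TBm TCm (CB.map Fm) R0Q051.P1096 R0Q051.I1096 := Vale.Agent.P032.Lt.pat_eq (E' := R0Q051.E) eB (pat_step (by decide +kernel) (q_cons (Vale.Agent.P032.Lt.q R0Q051.q1096_0) q_nil))

theorem p1097 : Pat 73 73 TBm TCm (CB.map Fm) R0Q051.P1097 R0Q051.I1097 := Vale.Agent.P032.Lt.pat_eq (E' := R0Q051.E) eB (pat_step (by decide +kernel) (q_cons (Vale.Agent.P032.Lt.q R0Q051.q1097_0) q_nil))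

theorem p1098 : Pat 73 73 TBm TCm (CB.map Fm) R0Q051.P1098 R0Q051.I1098 := Vale.Agent.P032.Lt.pat_eq (E' := R0Q051.E) eB (pat_step (by decide +kernel) (q_cons (Vale.Agent.P032.Lt.q R0Q051.q1098_0) q_nil))

theorem p1099 : Pat 73 73 TBm TCm (CB.map Fm) R0Q051.P1099 R0Q051.I1099 := Vale.Agent.P032.Lt.pat_eq (E' := R0Q051.E) eB (pat_step (by decide +kernel) (q_cons (Vale.Agent.P032.Lt.q R0Q051.q1099_0) (q_cons (Vale.Agent.P032.Lt.q R0Q051.q1099_1) (q_cons (Vale.Agent.P032.Lt.q R0Q051.q1099_2) (q_cons (Vale.Agent.P032.Lt.q R0Q051.q1099_3) (q_cons (Vale.Agent.P032.Lt.q R0Q051.q1099_4) q_nil))))))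

theorem p1100 : Pat 73 73 TBm TCm (CB.map Fm) R0Q051.P1100 R0Q051.I1100 := Vale.Agent.P032.Lt.pat_eq (E' := R0Q051.E) eB (pat_step (by decide +kernel) (q_cons (Vale.Agent.P032.Lt.q R0Q051.q1100_0) (q_cons (Vale.Agent.P032.Lt.q R0Q051.q1100_1) (q_cons (Vale.Agent.P032.Lt.q R0Q051.q1100_2) q_nil))))

theorem p1101 : Pat 73 73 TBm TCm (CB.map Fm) R0Q051.P1101 R0Q051.I1101 := Vale.Agent.P032.Lt.pat_eq (E' := R0Q051.E) eB (pat_step (by decide +kernel) (q_cons (Vale.Agent.P032.Lt.q R0Q051.q1101_0) q_nil))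

theorem p1102 : Pat 73 73 TBm TCm (CB.map Fm) R0Q051.P1102 R0Q051.I1102 := Vale.Agent.P032.Lt.pat_eq (E' := R0Q051.E) eB (pat_step (by decide +kernel) (q_cons (Vale.Agent.P032.Lt.q R0Q051.q1102_0) (q_cons (Vale.Agent.P032.Lt.q R0Q051.q1102_1) (q_cons (Vale.Agent.P032.Lt.q R0Q051.q1102_2) (q_cons (Vale.Agent.P032.Lt.q R0Q051.q1102_3) (q_cons (Vale.Agent.P032.Lt.q R0Q051.q1102_4) (q_cons (Vale.Agent.P032.Lt.q R0Q051.q1102_5) (q_cons (Vale.Agent.P032.Lt.q R0Q051.q1102_6) (q_cons (Vale.Agent.P032.Lt.q R0Q051.q1102_7) q_nil)))))))))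

theorem p1103 : Pat 73 73 TBm TCm (CB.map Fm) R0Q051.P1103 R0Q051.I1103 := Vale.Agent.P032.Lt.pat_eq (E' := R0Q051.E) eB (pat_step (by decide +kernel) (q_cons (Vale.Agent.P032.Lt.q R0Q051.q1103_0) (q_cons (Vale.Agent.P032.Lt.q R0Q051.q1103_1) q_nil)))

theorem p1104 : Pat 73 73 TBm TCm (CB.map Fm) R0Q051.P1104 R0Q051.I1104 := Vale.Agent.P032.Lt.pat_eq (E' := R0Q051.E) eB (pat_step (by decide +kernel) (q_cons (Vale.Agent.P032.Lt.q R0Q051.q1104_0) (q_cons (Vale.Agent.P032.Lt.q R0Q051.q1104_1) (q_cons (Vale.Agent.P032.Lt.q R0Q051.q1104_2) q_nil))))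

theorem p1105 : Pat 73 73 TBm TCm (CB.map Fm) R0Q051.P1105 R0Q051.I1105 := Vale.Agent.P032.Lt.pat_eq (E' := R0Q051.E) eB (pat_step (by decide +kernel) (q_cons (Vale.Agent.P032.Lt.q R0Q051.q1105_0) (q_cons (Vale.Agent.P032.Lt.q R0Q051.q1105_1) (q_cons (Vale.Agent.P032.Lt.q R0Q051.q1105_2) (q_cons (Vale.Agent.P032.Lt.q R0Q051.q1105_3) (q_cons (Vale.Agent.P032.Lt.q R0Q051.q1105_4) q_nil))))))

theorem p1106 : Pat 73 73 TBm TCm (CB.map Fm) R0Q051.P1106 R0Q051.I1106 := Vale.Agent.P032.Lt.pat_eq (E' := R0Q051.E) eB (pat_step (by decide +kernel) (q_cons (Vale.Agent.P032.Lt.q R0Q051.q1106_0) (q_cons (Vale.Agent.P032.Lt.q R0Q051.q1106_1) q_nil)))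

theorem p1107 : Pat 73 73 TBm TCm (CB.map Fm) R0Q052.P1107 R0Q052.I1107 := Vale.Agent.P032.Lt.pat_eq (E' := R0Q052.E) eB (pat_step (by decide +kernel) (q_cons (Vale.Agent.P032.Lt.q R0Q052.q1107_0) (q_cons (Vale.Agent.P032.Lt.q R0Q052.q1107_1) (q_cons (Vale.Agent.P032.Lt.q R0Q052.q1107_2) (q_cons (Vale.Agent.P032.Lt.q R0Q052.q1107_3) (q_cons (Vale.Agent.P032.Lt.q R0Q052.q1107_4) (q_cons (Vale.Agent.P032.Lt.q R0Q052.q1107_5) (q_cons (Vale.Agent.P032.Lt.q R0Q052.q1107_6) (q_cons (Vale.Agent.P032.Lt.q R0Q052.q1107_7) (q_cons (Vale.Agent.P032.Lt.q R0Q052.q1107_8) (q_cons (Vale.Agent.P032.Lt.q R0Q052.q1107_9) (q_cons (Vale.Agent.P032.Lt.q R0Q052.q1107_10) (q_cons (Vale.Agent.P032.Lt.q R0Q052.q1107_11) (q_cons (Vale.Agent.P032.Lt.q R0Q052.q1107_12) (q_cons (Vale.Agent.P032.Lt.q R0Q052.q1107_13) (q_cons (Vale.Agent.P032.Lt.q R0Q052.q1107_14) (q_cons (Vale.Agent.P032.Lt.q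 R0Q052.q1107_15) (q_cons (Vale.Agent.P032.Lt.q R0Q052.q1107_16) (q_cons (Vale.Agent.P032.Lt.q R0Q052.q1107_17) (q_cons (Vale.Agent.P032.Lt.q R0Q052.q1107_18) (q_cons (Vale.Agent.P032.Lt.q R0Q052.q1107_19) q_nil)))))))))))))))))))))

theorem p1108 : Pat 73 73 TBm TCm (CB.map Fm) R0Q052.P1108 R0Q052.I1108 := Vale.Agent.P032.Lt.pat_eq (E' := R0Q052.E) eB (pat_step (by decide +kernel) (q_cons (Vale.Agent.P032.Lt.q R0Q052.q1108_0) (q_cons (Vale.Agent.P032.Lt.q R0Q052.q1108_1) (q_cons (Vale.Agent.P032.Lt.q R0Q052.q1108_2) q_nil))))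

theorem p1109 : Pat 73 73 TBm TCm (CB.map Fm) R0Q052.P1109 R0Q052.I1109 := Vale.Agent.P032.Lt.pat_eq (E' := R0Q052.E) eB (pat_step (by decide +kernel) (q_cons (Vale.Agent.P032.Lt.q R0Q052.q1109_0) (q_cons (Vale.Agent.P032.Lt.q R0Q052.q1109_1) q_nil)))

theorem p1110 : Pat 73 73 TBm TCm (CB.map Fm) R0Q052.P1110 [[]] := Vale.Agent.P032.Lt.pat_eq (E' := R0Q052.E) eB (pat_start (by decide +kernel) (Vale.Agent.P032.Lt.q R0Q052.q1110))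

theorem p1111 : Pat 73 73 TBm TCm (CB.map Fm) R0Q052.P1111 R0Q052.I1111 := Vale.Agent.P032.Lt.pat_eq (E' := R0Q052.E) eB (pat_step (by decide +kernel) (q_cons (Vale.Agent.P032.Lt.q R0Q052.q1111_0) q_nil))

theorem p1112 : Pat 73 73 TBm TCm (CB.map Fm) R0Q052.P1112 R0Q052.I1112 := Vale.Agent.P032.Lt.pat_eq (E' := R0Q052.E) eB (pat_step (by decide +kernel) (q_cons (Vale.Agent.P032.Lt.q R0Q052.q1112_0) q_nil))

theorem p1113 : Pat 73 73 TBm TCm (CB.map Fm) R0Q052.P1113 R0Q052.I1113 := Vale.Agent.P032.Lt.pat_eq (E' := R0Q052.E) eB (pat_step (by decide +kernel) (q_cons (Vale.Agent.P032.Lt.q R0Q052.q1113_0) q_nil))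

theorem p1114 : Pat 73 73 TBm TCm (CB.map Fm) R0Q052.P1114 R0Q052.I1114 := Vale.Agent.P032.Lt.pat_eq (E' := R0Q052.E) eB (pat_step (by decide +kernel) (q_cons (Vale.Agent.P032.Lt.q R0Q052.q1114_0) (q_cons (Vale.Agent.P032.Lt.q R0Q052.q1114_1) (q_cons (Vale.Agent.P032.Lt.q R0Q052.q1114_2) (q_cons (Vale.Agent.P032.Lt.q R0Q052.q1114_3) (q_cons (Vale.Agent.P032.Lt.q R0Q052.q1114_4) (q_cons (Vale.Agent.P032.Lt.q R0Q052.q1114_5) (q_cons (Vale.Agent.P032.Lt.q R0Q052.q1114_6) (q_cons (Vale.Agent.P032.Lt.q R0Q052.q1114_7) (q_cons (Vale.Agent.P032.Lt.q R0Q052.q1114_8) (q_cons (Vale.Agent.P032.Lt.q R0Q052.q1114_9) (q_cons (Vale.Agent.P032.Lt.q R0Q052.q1114_10) (q_cons (Vale.Agent.P032.Lt.q R0Q052.q1114_11) (q_cons (Vale.Agent.P032.Lt.q R0Q052.q1114_12) q_nil))))))))))))))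

theorem p1115 : Pat 73 73 TBm TCm (CB.map Fm) R0Q052.P1115 R0Q052.I1115 := Vale.Agent.P032.Lt.pat_eq (E' := R0Q052.E) eB (pat_step (by decide +kernel) (q_cons (Vale.Agent.P032.Lt.q R0Q052.q1115_0) (q_cons (Vale.Agent.P032.Lt.q R0Q052.q1115_1) q_nil)))

theorem p1116 : Pat 73 73 TBm TCm (CB.map Fm) R0Q052.P1116 R0Q052.I1116 := Vale.Agent.P032.Lt.pat_eq (E' := R0Q052.E) eB (pat_step (by decide +kernel) (q_cons (Vale.Agent.P032.Lt.q R0Q052.q1116_0) q_nil))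

theorem p1117 : Pat 73 73 TBm TCm (CB.map Fm) R0Q052.P1117 R0Q052.I1117 := Vale.Agent.P032.Lt.pat_eq (E' := R0Q052.E) eB (pat_step (by decide +kernel) (q_cons (Vale.Agent.P032.Lt.q R0Q052.q1117_0) (q_cons (Vale.Agent.P032.Lt.q R0Q052.q1117_1) (q_cons (Vale.Agent.P032.Lt.q R0Q052.q1117_2) (q_cons (Vale.Agent.P032.Lt.q R0Q052.q1117_3) (q_cons (Vale.Agent.P032.Lt.q R0Q052.q1117_4) (q_cons (Vale.Agent.P032.Lt.q R0Q052.q1117_5) q_nil)))))))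

theorem p1118 : Pat 73 73 TBm TCm (CB.map Fm) R0Q052.P1118 R0Q052.I1118 := Vale.Agent.P032.Lt.pat_eq (E' := R0Q052.E) eB (pat_step (by decide +kernel) (q_cons (Vale.Agent.P032.Lt.q R0Q052.q1118_0) (q_cons (Vale.Agent.P032.Lt.q R0Q052.q1118_1) (q_cons (Vale.Agent.P032.Lt.q R0Q052.q1118_2) (q_cons (Vale.Agent.P032.Lt.q R0Q052.q1118_3) (q_cons (Vale.Agent.P032.Lt.q R0Q052.q1118_4) (q_cons (Vale.Agent.P032.Lt.q R0Q052.q1118_5) (q_cons (Vale.Agent.P032.Lt.q R0Q052.q1118_6) (q_cons (Vale.Agent.P032.Lt.q R0Q052.q1118_7) (q_cons (Vale.Agent.P032.Lt.q R0Q052.q1118_8) (q_cons (Vale.Agent.P032.Lt.q R0Q052.q1118_9) (q_cons (Vale.Agent.P032.Lt.q R0Q052.q1118_10) (q_cons (Vale.Agent.P032.Lt.q R0Q052.q1118_11) (q_cons (Vale.Agent.P032.Lt.q R0Q052.q1118_12) (q_cons (Vale.Agent.P032.Lt.q R0Q052.q1118_13) (q_cons (Vale.Agent.P032.Lt.q R0Q052.q1118_14) (q_cons (Vale.Agent.P032.Lt.q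 R0Q052.q1118_15) (q_cons (Vale.Agent.P032.Lt.q R0Q052.q1118_16) (q_cons (Vale.Agent.P032.Lt.q R0Q052.q1118_17) (q_cons (Vale.Agent.P032.Lt.q R0Q052.q1118_18) (q_cons (Vale.Agent.P032.Lt.q R0Q052.q1118_19) (q_cons (Vale.Agent.P032.Lt.q R0Q052.q1118_20) (q_cons (Vale.Agent.P032.Lt.q R0Q052.q1118_21) (q_cons (Vale.Agent.P032.Lt.q R0Q052.q1118_22) (q_cons (Vale.Agent.P032.Lt.q R0Q052.q1118_23) q_nil)))))))))))))))))))))))))

theorem p1119 : Pat 73 73 TBm TCm (CB.map Fm) R0Q052.P1119 R0Q052.I1119 := Vale.Agent.P032.Lt.pat_eq (E' := R0Q052.E) eB (pat_step (by decide +kernel) (q_cons (Vale.Agent.P032.Lt.q R0Q052.q1119_0) (q_cons (Vale.Agent.P032.Lt.q R0Q052.q1119_1) (q_cons (Vale.Agent.P032.Lt.q R0Q052.q1119_2) (q_cons (Vale.Agent.P032.Lt.q R0Q052.q1119_3) (q_cons (Vale.Agent.P032.Lt.q R0Q052.q1119_4) (q_cons (Vale.Agent.P032.Lt.q R0Q052.q1119_5) (q_cons (Vale.Agent.P032.Lt.q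 R0Q052.q1119_6) (q_cons (Vale.Agent.P032.Lt.q R0Q052.q1119_7) (q_cons (Vale.Agent.P032.Lt.q R0Q052.q1119_8) (q_cons (Vale.Agent.P032.Lt.q R0Q052.q1119_9) (q_cons (Vale.Agent.P032.Lt.q R0Q052.q1119_10) (q_cons (Vale.Agent.P032.Lt.q R0Q052.q1119_11) (q_cons (Vale.Agent.P032.Lt.q R0Q052.q1119_12) q_nil))))))))))))))

theorem p1120 : Pat 73 73 TBm TCm (CB.map Fm) R0Q052.P1120 R0Q052.I1120 := Vale.Agent.P032.Lt.pat_eq (E' := R0Q052.E) eB (pat_step (by decide +kernel) (q_cons (Vale.Agent.P032.Lt.q R0Q052.q1120_0) (q_cons (Vale.Agent.P032.Lt.q R0Q052.q1120_1) (q_cons (Vale.Agent.P032.Lt.q R0Q052.q1120_2) q_nil))))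

theorem p1121 : Pat 73 73 TBm TCm (CB.map Fm) R0Q052.P1121 R0Q052.I1121 := Vale.Agent.P032.Lt.pat_eq (E' := R0Q052.E) eB (pat_step (by decide +kernel) (q_cons (Vale.Agent.P032.Lt.q R0Q052.q1121_0) (q_cons (Vale.Agent.P032.Lt.q R0Q052.q1121_1) q_nil)))

def C1122 : List ℕ := [0, 4, 8, 12, 16, 20, 24, 212993, 475137, 737281]
theorem p1122 : Pat 73 73 TBm TCm (C1122.map Fm) R0Q052.P1122 R0Q052.I1122 := Vale.Agent.P032.Lt.pat_eq (E' := R0Q052.E1122) (by decide +kernel) (pat_step (by decide +kernel) (q_cons (Vale.Agent.P032.Lt.q R0Q052.q1122_0) (q_cons (Vale.Agent.P032.Lt.q R0Q052.q1122_1) (q_cons (Vale.Agent.P032.Lt.q R0Q052.q1122_2) (q_cons (Vale.Agent.P032.Lt.q R0Q052.q1122_3) q_nil)))))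

def C1123 : List ℕ := [0, 4, 8, 12, 16, 20, 24, 475137, 737281]
theorem p1123 : Pat 73 73 TBm TCm (C1123.map Fm) R0Q052.P1123 R0Q052.I1123 := Vale.Agent.P032.Lt.pat_eq (E' := R0Q052.E1123) (by decide +kernel) (pat_step (by decide +kernel) (q_cons (Vale.Agent.P032.Lt.q R0Q052.q1123_0) (q_cons (Vale.Agent.P032.Lt.q R0Q052.q1123_1) (q_cons (Vale.Agent.P032.Lt.q R0Q052.q1123_2) (q_cons (Vale.Agent.P032.Lt.q R0Q052.q1123_3) (q_cons (Vale.Agent.P032.Lt.q R0Q052.q1123_4) (q_cons (Vale.Agent.P032.Lt.q R0Q052.q1123_5) (q_cons (Vale.Agent.P032.Lt.q R0Q052.q1123_6) (q_cons (Vale.Agent.P032.Lt.q R0Q052.q1123_7) (q_cons (Vale.Agent.P032.Lt.q R0Q052.q1123_8) (q_cons (Vale.Agent.P032.Lt.q R0Q052.q1123_9) (q_cons (Vale.Agent.P032.Lt.q R0Q052.q1123_10) (q_cons (Vale.Agent.P032.Lt.q R0Q052.q1123_11) (q_cons (Vale.Agent.P032.Lt.q R0Q052.q1123_12) (q_cons (Vale.Agent.P032.Lt.q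 R0Q052.q1123_13) (q_cons (Vale.Agent.P032.Lt.q R0Q052.q1123_14) (q_cons (Vale.Agent.P032.Lt.q R0Q052.q1123_15) (q_cons (Vale.Agent.P032.Lt.q R0Q052.q1123_16) (q_cons (Vale.Agent.P032.Lt.q R0Q052.q1123_17) (q_cons (Vale.Agent.P032.Lt.q R0Q052.q1123_18) (q_cons (Vale.Agent.P032.Lt.q R0Q052.q1123_19) q_nil)))))))))))))))))))))

def C1124 : List ℕ := [0, 4, 8, 12, 16, 20, 24, 84993, 212993, 344065, 475137, 737281]
theorem p1124 : Pat 73 73 TBm TCm (C1124.map Fm) R0Q052.P1124 R0Q052.I1124 := Vale.Agent.P032.Lt.pat_eq (E' := R0Q052.E1124) (by decide +kernel) (pat_step (by decide +kernel) (q_cons (Vale.Agent.P032.Lt.q R0Q052.q1124_0) (q_cons (Vale.Agent.P032.Lt.q R0Q052.q1124_1) (q_cons (Vale.Agent.P032.Lt.q R0Q052.q1124_2) (q_cons (Vale.Agent.P032.Lt.q R0Q052.q1124_3) q_nil)))))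

theorem p1125 : Pat 73 73 TBm TCm (CB.map Fm) R0Q052.P1125 R0Q052.I1125 := Vale.Agent.P032.Lt.pat_eq (E' := R0Q052.E) eB (pat_step (by decide +kernel) (q_cons (Vale.Agent.P032.Lt.q R0Q052.q1125_0) q_nil))

theorem p1126 : Pat 73 73 TBm TCm (CB.map Fm) R0Q052.P1126 R0Q052.I1126 := Vale.Agent.P032.Lt.pat_eq (E' := R0Q052.E) eB (pat_step (by decide +kernel) (q_cons (Vale.Agent.P032.Lt.q R0Q052.q1126_0) (q_cons (Vale.Agent.P032.Lt.q R0Q052.q1126_1) (q_cons (Vale.Agent.P032.Lt.q R0Q052.q1126_2) (q_cons (Vale.Agent.P032.Lt.q R0Q052.q1126_3) (q_cons (Vale.Agent.P032.Lt.q R0Q052.q1126_4) (q_cons (Vale.Agent.P032.Lt.q R0Q052.q1126_5) (q_cons (Vale.Agent.P032.Lt.q R0Q052.q1126_6) (q_cons (Vale.Agent.P032.Lt.q R0Q052.q1126_7) (q_cons (Vale.Agent.P032.Lt.q R0Q052.q1126_8) (q_cons (Vale.Agent.P032.Lt.q R0Q052.q1126_9) (q_cons (Vale.Agent.P032.Lt.q R0Q052.q1126_10)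 (q_cons (Vale.Agent.P032.Lt.q R0Q052.q1126_11) (q_cons (Vale.Agent.P032.Lt.q R0Q052.q1126_12) (q_cons (Vale.Agent.P032.Lt.q R0Q052.q1126_13) (q_cons (Vale.Agent.P032.Lt.q R0Q052.q1126_14) (q_cons (Vale.Agent.P032.Lt.q R0Q052.q1126_15) q_nil)))))))))))))))))

theorem p1127 : Pat 73 73 TBm TCm (CB.map Fm) R0Q052.P1127 R0Q052.I1127 := Vale.Agent.P032.Lt.pat_eq (E' := R0Q052.E) eB (pat_step (by decide +kernel) (q_cons (Vale.Agent.P032.Lt.q R0Q052.q1127_0) q_nil))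

def C1128 : List ℕ := [0, 4, 8, 12, 16, 20, 24, 81921, 84993, 212993, 475137, 607233, 737281]
theorem p1128 : Pat 73 73 TBm TCm (C1128.map Fm) R0Q053.P1128 R0Q053.I1128 := Vale.Agent.P032.Lt.pat_eq (E' := R0Q053.E1128) (by decide +kernel) (pat_step (by decide +kernel) (q_cons (Vale.Agent.P032.Lt.q R0Q053.q1128_0) (q_cons (Vale.Agent.P032.Lt.q R0Q053.q1128_1) (q_cons (Vale.Agent.P032.Lt.q R0Q053.q1128_2) (q_cons (Vale.Agent.P032.Lt.q R0Q053.q1128_3) (q_cons (Vale.Agent.P032.Lt.q R0Q053.q1128_4) q_nil))))))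

def C1129 : List ℕ := [0, 4, 8, 12, 16, 20, 24, 475137, 737281]
theorem p1129 : Pat 73 73 TBm TCm (C1129.map Fm) R0Q053.P1129 R0Q053.I1129 := Vale.Agent.P032.Lt.pat_eq (E' := R0Q053.E1129) (by decide +kernel) (pat_step (by decide +kernel) (q_cons (Vale.Agent.P032.Lt.q R0Q053.q1129_0) (q_cons (Vale.Agent.P032.Lt.q R0Q053.q1129_1) (q_cons (Vale.Agent.P032.Lt.q R0Q053.q1129_2) (q_cons (Vale.Agent.P032.Lt.q R0Q053.q1129_3) (q_cons (Vale.Agent.P032.Lt.q R0Q053.q1129_4) (q_cons (Vale.Agent.P032.Lt.q R0Q053.q1129_5) (q_cons (Vale.Agent.P032.Lt.q R0Q053.q1129_6) (q_cons (Vale.Agent.P032.Lt.q R0Q053.q1129_7) (q_cons (Vale.Agent.P032.Lt.q R0Q053.q1129_8) (q_cons (Vale.Agent.P032.Lt.q R0Q053.q1129_9) (q_cons (Vale.Agent.P032.Lt.q R0Q053.q1129_10) (q_cons (Vale.Agent.P032.Lt.q R0Q053.q1129_11) (q_cons (Vale.Agent.P032.Lt.q R0Q053.q1129_12) q_nil))))))))))))))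

theorem p1130 : Pat 73 73 TBm TCm (CB.map Fm) R0Q053.P1130 R0Q053.I1130 := Vale.Agent.P032.Lt.pat_eq (E' := R0Q053.E) eB (pat_step (by decide +kernel) (q_cons (Vale.Agent.P032.Lt.q R0Q053.q1130_0) (q_cons (Vale.Agent.P032.Lt.q R0Q053.q1130_1) (q_cons (Vale.Agent.P032.Lt.q R0Q053.q1130_2) (q_cons (Vale.Agent.P032.Lt.q R0Q053.q1130_3) (q_cons (Vale.Agent.P032.Lt.q R0Q053.q1130_4) (q_cons (Vale.Agent.P032.Lt.q R0Q053.q1130_5) (q_cons (Vale.Agent.P032.Lt.q R0Q053.q1130_6) (q_cons (Vale.Agent.P032.Lt.q R0Q053.q1130_7) (q_cons (Vale.Agent.P032.Lt.q R0Q053.q1130_8) q_nil))))))))))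

theorem p1131 : Pat 73 73 TBm TCm (CB.map Fm) R0Q053.P1131 R0Q053.I1131 := Vale.Agent.P032.Lt.pat_eq (E' := R0Q053.E) eB (pat_step (by decide +kernel) (q_cons (Vale.Agent.P032.Lt.q R0Q053.q1131_0) (q_cons (Vale.Agent.P032.Lt.q R0Q053.q1131_1) (q_cons (Vale.Agent.P032.Lt.q R0Q053.q1131_2) q_nil))))

theorem p1132 : Pat 73 73 TBm TCm (CB.map Fm) R0Q053.P1132 R0Q053.I1132 := Vale.Agent.P032.Lt.pat_eq (E' := R0Q053.E) eB (pat_step (by decide +kernel) (q_cons (Vale.Agent.P032.Lt.q R0Q053.q1132_0) (q_cons (Vale.Agent.P032.Lt.q R0Q053.q1132_1) q_nil)))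

theorem p1133 : Pat 73 73 TBm TCm (CB.map Fm) R0Q053.P1133 R0Q053.I1133 := Vale.Agent.P032.Lt.pat_eq (E' := R0Q053.E) eB (pat_step (by decide +kernel) (q_cons (Vale.Agent.P032.Lt.q R0Q053.q1133_0) (q_cons (Vale.Agent.P032.Lt.q R0Q053.q1133_1) (q_cons (Vale.Agent.P032.Lt.q R0Q053.q1133_2) (q_cons (Vale.Agent.P032.Lt.q R0Q053.q1133_3) (q_cons (Vale.Agent.P032.Lt.q R0Q053.q1133_4) (q_cons (Vale.Agent.P032.Lt.q R0Q053.q1133_5) (q_cons (Vale.Agent.P032.Lt.q R0Q053.q1133_6) (q_cons (Vale.Agent.P032.Lt.q R0Q053.q1133_7) (q_cons (Vale.Agent.P032.Lt.q R0Q053.q1133_8) (q_cons (Vale.Agent.P032.Lt.q R0Q053.q1133_9) (q_cons (Vale.Agent.P032.Lt.q R0Q053.q1133_10) (q_cons (Vale.Agent.P032.Lt.q R0Q053.q1133_11) (q_cons (Vale.Agent.P032.Lt.q R0Q053.q1133_12) (q_cons (Vale.Agent.P032.Lt.q R0Q053.q1133_13) (q_cons (Vale.Agent.P032.Lt.q R0Q053.q1133_14) (q_cons (Vale.Agent.P032.Lt.q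 R0Q053.q1133_15) (q_cons (Vale.Agent.P032.Lt.q R0Q053.q1133_16) (q_cons (Vale.Agent.P032.Lt.q R0Q053.q1133_17) (q_cons (Vale.Agent.P032.Lt.q R0Q053.q1133_18) (q_cons (Vale.Agent.P032.Lt.q R0Q053.q1133_19) (q_cons (Vale.Agent.P032.Lt.q R0Q053.q1133_20) q_nil))))))))))))))))))))))

theorem p1134 : Pat 73 73 TBm TCm (CB.map Fm) R0Q053.P1134 R0Q053.I1134 := Vale.Agent.P032.Lt.pat_eq (E' := R0Q053.E) eB (pat_step (by decide +kernel) (q_cons (Vale.Agent.P032.Lt.q R0Q053.q1134_0) (q_cons (Vale.Agent.P032.Lt.q R0Q053.q1134_1) (q_cons (Vale.Agent.P032.Lt.q R0Q053.q1134_2) (q_cons (Vale.Agent.P032.Lt.q R0Q053.q1134_3) (q_cons (Vale.Agent.P032.Lt.q R0Q053.q1134_4) (q_cons (Vale.Agent.P032.Lt.q R0Q053.q1134_5) (q_cons (Vale.Agent.P032.Lt.q R0Q053.q1134_6) (q_cons (Vale.Agent.P032.Lt.q R0Q053.q1134_7) (q_cons (Vale.Agent.P032.Lt.q R0Q053.q1134_8) (q_cons (Vale.Agent.P032.Lt.q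 R0Q053.q1134_9) (q_cons (Vale.Agent.P032.Lt.q R0Q053.q1134_10) (q_cons (Vale.Agent.P032.Lt.q R0Q053.q1134_11) (q_cons (Vale.Agent.P032.Lt.q R0Q053.q1134_12) (q_cons (Vale.Agent.P032.Lt.q R0Q053.q1134_13) (q_cons (Vale.Agent.P032.Lt.q R0Q053.q1134_14) (q_cons (Vale.Agent.P032.Lt.q R0Q053.q1134_15) (q_cons (Vale.Agent.P032.Lt.q R0Q053.q1134_16) (q_cons (Vale.Agent.P032.Lt.q R0Q053.q1134_17) (q_cons (Vale.Agent.P032.Lt.q R0Q053.q1134_18) (q_cons (Vale.Agent.P032.Lt.q R0Q053.q1134_19) (q_cons (Vale.Agent.P032.Lt.q R0Q053.q1134_20) q_nil))))))))))))))))))))))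

theorem p1135 : Pat 73 73 TBm TCm (CB.map Fm) R0Q053.P1135 R0Q053.I1135 := Vale.Agent.P032.Lt.pat_eq (E' := R0Q053.E) eB (pat_step (by decide +kernel) (q_cons (Vale.Agent.P032.Lt.q R0Q053.q1135_0) (q_cons (Vale.Agent.P032.Lt.q R0Q053.q1135_1) q_nil)))

theorem p1136 : Pat 73 73 TBm TCm (CB.map Fm) R0Q053.P1136 R0Q053.I1136 := Vale.Agent.P032.Lt.pat_eq (E' := R0Q053.E) eB (pat_step (by decide +kernel) (q_cons (Vale.Agent.P032.Lt.q R0Q053.q1136_0) (q_cons (Vale.Agent.P032.Lt.q R0Q053.q1136_1) q_nil)))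

theorem p1137 : Pat 73 73 TBm TCm (CB.map Fm) R0Q053.P1137 R0Q053.I1137 := Vale.Agent.P032.Lt.pat_eq (E' := R0Q053.E) eB (pat_step (by decide +kernel) (q_cons (Vale.Agent.P032.Lt.q R0Q053.q1137_0) (q_cons (Vale.Agent.P032.Lt.q R0Q053.q1137_1) (q_cons (Vale.Agent.P032.Lt.q R0Q053.q1137_2) q_nil))))

theorem p1138 : Pat 73 73 TBm TCm (CB.map Fm) R0Q053.P1138 R0Q053.I1138 := Vale.Agent.P032.Lt.pat_eq (E' := R0Q053.E) eB (pat_step (by decide +kernel) (q_cons (Vale.Agent.P032.Lt.q R0Q053.q1138_0) q_nil))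

theorem p1139 : Pat 73 73 TBm TCm (CB.map Fm) R0Q053.P1139 R0Q053.I1139 := Vale.Agent.P032.Lt.pat_eq (E' := R0Q053.E) eB (pat_step (by decide +kernel) (q_cons (Vale.Agent.P032.Lt.q R0Q053.q1139_0) (q_cons (Vale.Agent.P032.Lt.q R0Q053.q1139_1) (q_cons (Vale.Agent.P032.Lt.q R0Q053.q1139_2) (q_cons (Vale.Agent.P032.Lt.q R0Q053.q1139_3) (q_cons (Vale.Agent.P032.Lt.q R0Q053.q1139_4) (q_cons (Vale.Agent.P032.Lt.q R0Q053.q1139_5) (q_cons (Vale.Agent.P032.Lt.q R0Q053.q1139_6) q_nil))))))))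

theorem p1140 : Pat 73 73 TBm TCm (CB.map Fm) R0Q053.P1140 R0Q053.I1140 := Vale.Agent.P032.Lt.pat_eq (E' := R0Q053.E) eB (pat_step (by decide +kernel) (q_cons (Vale.Agent.P032.Lt.q R0Q053.q1140_0) q_nil))

def C1141 : List ℕ := [0, 4, 8, 12, 16, 20, 24, 84993, 216065, 347137, 349185, 475137, 609281, 737281]
theorem p1141 : Pat 73 73 TBm TCm (C1141.map Fm) R0Q053.P1141 R0Q053.I1141 := Vale.Agent.P032.Lt.pat_eq (E' := R0Q053.E1141) (by decide +kernel) (pat_step (by decide +kernel) (q_cons (Vale.Agent.P032.Lt.q R0Q053.q1141_0) q_nil))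

theorem p1142 : Pat 73 73 TBm TCm (CB.map Fm) R0Q053.P1142 R0Q053.I1142 := Vale.Agent.P032.Lt.pat_eq (E' := R0Q053.E) eB (pat_step (by decide +kernel) (q_cons (Vale.Agent.P032.Lt.q R0Q053.q1142_0) (q_cons (Vale.Agent.P032.Lt.q R0Q053.q1142_1) (q_cons (Vale.Agent.P032.Lt.q R0Q053.q1142_2) (q_cons (Vale.Agent.P032.Lt.q R0Q053.q1142_3) (q_cons (Vale.Agent.P032.Lt.q R0Q053.q1142_4) (q_cons (Vale.Agent.P032.Lt.q R0Q053.q1142_5) q_nil)))))))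

theorem p1143 : Pat 73 73 TBm TCm (CB.map Fm) R0Q053.P1143 R0Q053.I1143 := Vale.Agent.P032.Lt.pat_eq (E' := R0Q053.E) eB (pat_step (by decide +kernel) (q_cons (Vale.Agent.P032.Lt.q R0Q053.q1143_0) (q_cons (Vale.Agent.P032.Lt.q R0Q053.q1143_1) q_nil)))

theorem p1144 : Pat 73 73 TBm TCm (CB.map Fm) R0Q053.P1144 R0Q053.I1144 := Vale.Agent.P032.Lt.pat_eq (E' := R0Q053.E) eB (pat_step (by decide +kernel) (q_cons (Vale.Agent.P032.Lt.q R0Q053.q1144_0) q_nil))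

theorem p1145 : Pat 73 73 TBm TCm (CB.map Fm) R0Q053.P1145 R0Q053.I1145 := Vale.Agent.P032.Lt.pat_eq (E' := R0Q053.E) eB (pat_step (by decide +kernel) (q_cons (Vale.Agent.P032.Lt.q R0Q053.q1145_0) (q_cons (Vale.Agent.P032.Lt.q R0Q053.q1145_1) q_nil)))

theorem p1146 : Pat 73 73 TBm TCm (CB.map Fm) R0Q053.P1146 R0Q053.I1146 := Vale.Agent.P032.Lt.pat_eq (E' := R0Q053.E) eB (pat_step (by decide +kernel) (q_cons (Vale.Agent.P032.Lt.q R0Q053.q1146_0) q_nil))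

theorem p1147 : Pat 73 73 TBm TCm (CB.map Fm) R0Q053.P1147 R0Q053.I1147 := Vale.Agent.P032.Lt.pat_eq (E' := R0Q053.E) eB (pat_step (by decide +kernel) (q_cons (Vale.Agent.P032.Lt.q R0Q053.q1147_0) q_nil))

theorem p1148 : Pat 73 73 TBm TCm (CB.map Fm) R0Q053.P1148 R0Q053.I1148 := Vale.Agent.P032.Lt.pat_eq (E' := R0Q053.E) eB (pat_step (by decide +kernel) (q_cons (Vale.Agent.P032.Lt.q R0Q053.q1148_0) (q_cons (Vale.Agent.P032.Lt.q R0Q053.q1148_1) q_nil)))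

theorem p1149 : Pat 73 73 TBm TCm (CB.map Fm) R0Q053.P1149 R0Q053.I1149 := Vale.Agent.P032.Lt.pat_eq (E' := R0Q053.E) eB (pat_step (by decide +kernel) (q_cons (Vale.Agent.P032.Lt.q R0Q053.q1149_0) q_nil))

theorem p1150 : Pat 73 73 TBm TCm (CB.map Fm) R0Q053.P1150 R0Q053.I1150 := Vale.Agent.P032.Lt.pat_eq (E' := R0Q053.E) eB (pat_step (by decide +kernel) (q_cons (Vale.Agent.P032.Lt.q R0Q053.q1150_0) (q_cons (Vale.Agent.P032.Lt.q R0Q053.q1150_1) (q_cons (Vale.Agent.P032.Lt.q R0Q053.q1150_2) (q_cons (Vale.Agent.P032.Lt.q R0Q053.q1150_3) (q_cons (Vale.Agent.P032.Lt.q R0Q053.q1150_4) (q_cons (Vale.Agent.P032.Lt.q R0Q053.q1150_5) (q_cons (Vale.Agent.P032.Lt.q R0Q053.q1150_6) (q_cons (Vale.Agent.P032.Lt.q R0Q053.q1150_7) q_nil)))))))))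

theorem p1151 : Pat 73 73 TBm TCm (CB.map Fm) R0Q053.P1151 R0Q053.I1151 := Vale.Agent.P032.Lt.pat_eq (E' := R0Q053.E) eB (pat_step (by decide +kernel) (q_cons (Vale.Agent.P032.Lt.q R0Q053.q1151_0) (q_cons (Vale.Agent.P032.Lt.q R0Q053.q1151_1) (q_cons (Vale.Agent.P032.Lt.q R0Q053.q1151_2) (q_cons (Vale.Agent.P032.Lt.q R0Q053.q1151_3) (q_cons (Vale.Agent.P032.Lt.q R0Q053.q1151_4) (q_cons (Vale.Agent.P032.Lt.q R0Q053.q1151_5) (q_cons (Vale.Agent.P032.Lt.q R0Q053.q1151_6) q_nil))))))))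

def L : List (List ℕ) := [R0Q049.P1024, R0Q049.P1025, R0Q049.P1026, R0Q049.P1027, R0Q049.P1028, R0Q049.P1029, R0Q049.P1030, R0Q049.P1031, R0Q049.P1032, R0Q049.P1033, R0Q049.P1034, R0Q049.P1035, R0Q049.P1036, R0Q049.P1037, R0Q049.P1038, R0Q049.P1039, R0Q049.P1040, R0Q049.P1041, R0Q049.P1042, R0Q049.P1043, R0Q049.P1044, R0Q049.P1045, R0Q049.P1046, R0Q050.P1047, R0Q050.P1048, R0Q050.P1049, R0Q050.P1050, R0Q050.P1051, R0Q050.P1052, R0Q050.P1053, R0Q050.P1054, R0Q050.P1055, R0Q050.P1056, R0Q050.P1057, R0Q050.P1058, R0Q050.P1059, R0Q050.P1060, R0Q050.P1061, R0Q050.P1062, R0Q050.P1063, R0Q050.P1064, R0Q050.P1065, R0Q050.P1066, R0Q050.P1067, R0Q050.P1068, R0Q050.P1069, R0Q050.P1070, R0Q050.P1071, R0Q050.P1072, R0Q050.P1073, R0Q050.P1074, R0Q051.P1075, R0Q051.P1076, R0Q051.P1077, R0Q051.P1078, R0Q051.P1079, R0Q051.P1080, R0Q051.P1081, R0Q051.P1082, R0Q051.P1083,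 R0Q051.P1084, R0Q051.P1085, R0Q051.P1086, R0Q051.P1087, R0Q051.P1088, R0Q051.P1089, R0Q051.P1090, R0Q051.P1091, R0Q051.P1092, R0Q051.P1093, R0Q051.P1094, R0Q051.P1095, R0Q051.P1096, R0Q051.P1097, R0Q051.P1098, R0Q051.P1099, R0Q051.P1100, R0Q051.P1101, R0Q051.P1102, R0Q051.P1103, R0Q051.P1104, R0Q051.P1105, R0Q051.P1106, R0Q052.P1107, R0Q052.P1108, R0Q052.P1109, R0Q052.P1110, R0Q052.P1111, R0Q052.P1112, R0Q052.P1113, R0Q052.P1114, R0Q052.P1115, R0Q052.P1116, R0Q052.P1117, R0Q052.P1118, R0Q052.P1119, R0Q052.P1120, R0Q052.P1121, R0Q052.P1122, R0Q052.P1123, R0Q052.P1124, R0Q052.P1125, R0Q052.P1126, R0Q052.P1127, R0Q053.P1128, R0Q053.P1129, R0Q053.P1130, R0Q053.P1131, R0Q053.P1132, R0Q053.P1133, R0Q053.P1134, R0Q053.P1135, R0Q053.P1136, R0Q053.P1137, R0Q053.P1138, R0Q053.P1139, R0Q053.P1140, R0Q053.P1141, R0Q053.P1142, R0Q053.P1143, R0Q053.P1144, R0Q053.P1145,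 R0Q053.P1146, R0Q053.P1147, R0Q053.P1148, R0Q053.P1149, R0Q053.P1150, R0Q053.P1151]

theorem all : ∀ P ∈ L, CrtF 73 73 TBm TCm (Vale.Agent.P032.Fam.fam2 (Vale.Agent.P032.Fam.im0)) P := crtF_cons p1024 (crtF_cons p1025 (crtF_cons p1026 (crtF_cons p1027 (crtF_cons p1028 (crtF_cons p1029 (crtF_cons p1030 (crtF_cons p1031 (crtF_cons p1032 (crtF_cons p1033 (crtF_cons p1034 (crtF_cons p1035 (crtF_cons p1036 (crtF_cons p1037 (crtF_cons p1038 (crtF_cons p1039 (crtF_cons p1040 (crtF_cons p1041 (crtF_cons p1042 (crtF_cons p1043 (crtF_cons p1044 (crtF_cons p1045 (crtF_cons p1046 (crtF_cons p1047 (crtF_cons p1048 (crtF_cons p1049 (crtF_cons p1050 (crtF_cons p1051 (crtF_cons p1052 (crtF_cons p1053 (crtF_cons p1054 (crtF_cons p1055 (crtF_cons p1056 (crtF_cons p1057 (crtF_cons p1058 (crtF_cons p1059 (crtF_cons p1060 (crtF_cons p1061 (crtF_cons p1062 (crtF_cons p1063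 (crtF_cons p1064 (crtF_cons p1065 (crtF_cons p1066 (crtF_cons p1067 (crtF_cons p1068 (crtF_cons p1069 (crtF_cons p1070 (crtF_cons p1071 (crtF_cons p1072 (crtF_cons p1073 (crtF_cons p1074 (crtF_cons p1075 (crtF_cons p1076 (crtF_cons p1077 (crtF_cons p1078 (crtF_cons p1079 (crtF_cons p1080 (crtF_cons p1081 (crtF_cons p1082 (crtF_cons p1083 (crtF_cons p1084 (crtF_cons p1085 (crtF_cons p1086 (crtF_cons p1087 (crtF_cons p1088 (crtF_cons p1089 (crtF_cons p1090 (crtF_cons p1091 (crtF_cons p1092 (crtF_cons p1093 (crtF_cons p1094 (crtF_cons p1095 (crtF_cons p1096 (crtF_cons p1097 (crtF_cons p1098 (crtF_cons p1099 (crtF_cons p1100 (crtF_cons p1101 (crtF_cons p1102 (crtF_cons p1103 (crtF_cons p1104 (crtF_cons p1105 (crtF_cons p1106 (crtF_cons p1107 (crtF_cons p1108 (crtF_cons p1109 (crtF_cons p1110 (crtF_cons p1111 (crtF_cons p1112 (crtF_cons p1113 (crtF_cons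 p1114 (crtF_cons p1115 (crtF_cons p1116 (crtF_cons p1117 (crtF_cons p1118 (crtF_cons p1119 (crtF_cons p1120 (crtF_cons p1121 (crtF_cons p1122 (crtF_cons p1123 (crtF_cons p1124 (crtF_cons p1125 (crtF_cons p1126 (crtF_cons p1127 (crtF_cons p1128 (crtF_cons p1129 (crtF_cons p1130 (crtF_cons p1131 (crtF_cons p1132 (crtF_cons p1133 (crtF_cons p1134 (crtF_cons p1135 (crtF_cons p1136 (crtF_cons p1137 (crtF_cons p1138 (crtF_cons p1139 (crtF_cons p1140 (crtF_cons p1141 (crtF_cons p1142 (crtF_cons p1143 (crtF_cons p1144 (crtF_cons p1145 (crtF_cons p1146 (crtF_cons p1147 (crtF_cons p1148 (crtF_cons p1149 (crtF_cons p1150 (crtF_cons p1151 crtF_nil)))))))))))))))))))))))))))))))))))))))))))))))))))))))))))))))))))))))))))))))))))))))))))))))))))))))))))))))))))))))))))))))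

theorem ch : chT 73 73 TCm s0_008 L = true := by decide +kernel

end Vale.Agent.P032X.Cert.XP.B1.R0H008
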