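import Vale.Agent.P032X.H892.LtH
import Vale.Agent.P032X.H286.W73
import Vale.Agent.P032X.Cert.XP.B1.R0T
import Vale.Agent.P032X.Cert.XP.B1.R0Q108
import Vale.Agent.P032X.Cert.XP.B1.R0Q109
import Vale.Agent.P032X.Cert.XP.B1.R0Q110
import Vale.Agent.P032X.Cert.XP.B1.R0Q111
import Vale.Agent.P032X.Cert.XP.B1.R0Q112
import Vale.Agent.P032X.Cert.XP.B1.R0Q113

set_option maxRecDepth 1000000

namespace Vale.Agent.P032X.Cert.XP.B1.R0H018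

open Vale.Agent.P032.H820.K Vale.Agent.P032.H357.MK Vale.Agent.P032.H286.E Vale.Agent.P032.H61 Vale.Agent.P032X.Cert.XP.B1

noncomputable abbrev Fm : ℕ → List ℕ := Vale.Agent.P032.Fam.fam2 (Vale.Agent.P032.Fam.im0)

def CB : List ℕ := [0, 4, 8, 12, 16, 20, 24]

theorem eB : Vale.Agent.P032.Lt.eqLL (CB.map Fm) R0Q108.E = true := by decide +kernel

theorem p2304 : Pat 73 73 TBm TCm (CB.map Fm) R0Q108.P2304 R0Q108.I2304 := Vale.Agent.P032.Lt.pat_eq (E' := R0Q108.E) eB (pat_step (by decide +kernel) (q_cons (Vale.Agent.P032.Lt.q R0Q108.q2304_0) (q_cons (Vale.Agent.P032.Lt.q R0Q108.q2304_1) (q_cons (Vale.Agent.P032.Lt.q R0Q108.q2304_2) (q_cons (Vale.Agent.P032.Lt.q R0Q108.q2304_3) (q_cons (Vale.Agent.P032.Lt.q R0Q108.q2304_4) (q_cons (Vale.Agent.P032.Lt.q R0Q108.q2304_5) (q_cons (Vale.Agent.P032.Lt.q R0Q108.q2304_6) (q_cons (Vale.Agent.P032.Lt.q R0Q108.q2304_7)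 (q_cons (Vale.Agent.P032.Lt.q R0Q108.q2304_8) (q_cons (Vale.Agent.P032.Lt.q R0Q108.q2304_9) (q_cons (Vale.Agent.P032.Lt.q R0Q108.q2304_10) (q_cons (Vale.Agent.P032.Lt.q R0Q108.q2304_11) (q_cons (Vale.Agent.P032.Lt.q R0Q108.q2304_12) (q_cons (Vale.Agent.P032.Lt.q R0Q108.q2304_13) q_nil)))))))))))))))

theorem p2305 : Pat 73 73 TBm TCm (CB.map Fm) R0Q108.P2305 R0Q108.I2305 := Vale.Agent.P032.Lt.pat_eq (E' := R0Q108.E) eB (pat_step (by decide +kernel) (q_cons (Vale.Agent.P032.Lt.q R0Q108.q2305_0) q_nil))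

theorem p2306 : Pat 73 73 TBm TCm (CB.map Fm) R0Q108.P2306 R0Q108.I2306 := Vale.Agent.P032.Lt.pat_eq (E' := R0Q108.E) eB (pat_step (by decide +kernel) (q_cons (Vale.Agent.P032.Lt.q R0Q108.q2306_0) q_nil))

theorem p2307 : Pat 73 73 TBm TCm (CB.map Fm) R0Q108.P2307 R0Q108.I2307 := Vale.Agent.P032.Lt.pat_eq (E' := R0Q108.E) eB (pat_step (by decide +kernel) (q_cons (Vale.Agent.P032.Lt.q R0Q108.q2307_0) q_nil))

theorem p2308 : Pat 73 73 TBm TCm (CB.map Fm) R0Q108.P2308 R0Q108.I2308 := Vale.Agent.P032.Lt.pat_eq (E' := R0Q108.E) eB (pat_step (by decide +kernel) (q_cons (Vale.Agent.P032.Lt.q R0Q108.q2308_0) (q_cons (Vale.Agent.P032.Lt.q R0Q108.q2308_1) (q_cons (Vale.Agent.P032.Lt.q R0Q108.q2308_2) (q_cons (Vale.Agent.P032.Lt.q R0Q108.q2308_3) (q_cons (Vale.Agent.P032.Lt.q R0Q108.q2308_4) (q_cons (Vale.Agent.P032.Lt.q R0Q108.q2308_5) (q_cons (Vale.Agent.P032.Lt.q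 R0Q108.q2308_6) (q_cons (Vale.Agent.P032.Lt.q R0Q108.q2308_7) (q_cons (Vale.Agent.P032.Lt.q R0Q108.q2308_8) (q_cons (Vale.Agent.P032.Lt.q R0Q108.q2308_9) (q_cons (Vale.Agent.P032.Lt.q R0Q108.q2308_10) (q_cons (Vale.Agent.P032.Lt.q R0Q108.q2308_11) (q_cons (Vale.Agent.P032.Lt.q R0Q108.q2308_12) (q_cons (Vale.Agent.P032.Lt.q R0Q108.q2308_13) (q_cons (Vale.Agent.P032.Lt.q R0Q108.q2308_14) (q_cons (Vale.Agent.P032.Lt.q R0Q108.q2308_15) (q_cons (Vale.Agent.P032.Lt.q R0Q108.q2308_16) (q_cons (Vale.Agent.P032.Lt.q R0Q108.q2308_17) (q_cons (Vale.Agent.P032.Lt.q R0Q108.q2308_18) (q_cons (Vale.Agent.P032.Lt.q R0Q108.q2308_19) (q_cons (Vale.Agent.P032.Lt.q R0Q108.q2308_20) (q_cons (Vale.Agent.P032.Lt.q R0Q108.q2308_21) (q_cons (Vale.Agent.P032.Lt.q R0Q108.q2308_22) (q_cons (Vale.Agent.P032.Lt.q R0Q108.q2308_23) (q_cons (Vale.Agent.P032.Lt.q R0Q108.q2308_24) (q_cons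 (Vale.Agent.P032.Lt.q R0Q108.q2308_25) (q_cons (Vale.Agent.P032.Lt.q R0Q108.q2308_26) (q_cons (Vale.Agent.P032.Lt.q R0Q108.q2308_27) (q_cons (Vale.Agent.P032.Lt.q R0Q108.q2308_28) (q_cons (Vale.Agent.P032.Lt.q R0Q108.q2308_29) (q_cons (Vale.Agent.P032.Lt.q R0Q108.q2308_30) (q_cons (Vale.Agent.P032.Lt.q R0Q108.q2308_31) q_nil)))))))))))))))))))))))))))))))))

theorem p2309 : Pat 73 73 TBm TCm (CB.map Fm) R0Q108.P2309 R0Q108.I2309 := Vale.Agent.P032.Lt.pat_eq (E' := R0Q108.E) eB (pat_step (by decide +kernel) (q_cons (Vale.Agent.P032.Lt.q R0Q108.q2309_0) (q_cons (Vale.Agent.P032.Lt.q R0Q108.q2309_1) (q_cons (Vale.Agent.P032.Lt.q R0Q108.q2309_2) (q_cons (Vale.Agent.P032.Lt.q R0Q108.q2309_3) (q_cons (Vale.Agent.P032.Lt.q R0Q108.q2309_4) (q_cons (Vale.Agent.P032.Lt.q R0Q108.q2309_5) (q_cons (Vale.Agent.P032.Lt.q R0Q108.q2309_6) (q_cons (Vale.Agent.P032.Lt.q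 R0Q108.q2309_7) (q_cons (Vale.Agent.P032.Lt.q R0Q108.q2309_8) (q_cons (Vale.Agent.P032.Lt.q R0Q108.q2309_9) (q_cons (Vale.Agent.P032.Lt.q R0Q108.q2309_10) (q_cons (Vale.Agent.P032.Lt.q R0Q108.q2309_11) (q_cons (Vale.Agent.P032.Lt.q R0Q108.q2309_12) (q_cons (Vale.Agent.P032.Lt.q R0Q108.q2309_13) (q_cons (Vale.Agent.P032.Lt.q R0Q108.q2309_14) (q_cons (Vale.Agent.P032.Lt.q R0Q108.q2309_15) q_nil)))))))))))))))))

theorem p2310 : Pat 73 73 TBm TCm (CB.map Fm) R0Q108.P2310 R0Q108.I2310 := Vale.Agent.P032.Lt.pat_eq (E' := R0Q108.E) eB (pat_step (by decide +kernel) (q_cons (Vale.Agent.P032.Lt.q R0Q108.q2310_0) (q_cons (Vale.Agent.P032.Lt.q R0Q108.q2310_1) (q_cons (Vale.Agent.P032.Lt.q R0Q108.q2310_2) (q_cons (Vale.Agent.P032.Lt.q R0Q108.q2310_3) (q_cons (Vale.Agent.P032.Lt.q R0Q108.q2310_4) (q_cons (Vale.Agent.P032.Lt.q R0Q108.q2310_5) (q_cons (Vale.Agent.P032.Lt.q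 R0Q108.q2310_6) (q_cons (Vale.Agent.P032.Lt.q R0Q108.q2310_7) (q_cons (Vale.Agent.P032.Lt.q R0Q108.q2310_8) (q_cons (Vale.Agent.P032.Lt.q R0Q108.q2310_9) (q_cons (Vale.Agent.P032.Lt.q R0Q108.q2310_10) (q_cons (Vale.Agent.P032.Lt.q R0Q108.q2310_11) (q_cons (Vale.Agent.P032.Lt.q R0Q108.q2310_12) (q_cons (Vale.Agent.P032.Lt.q R0Q108.q2310_13) (q_cons (Vale.Agent.P032.Lt.q R0Q108.q2310_14) (q_cons (Vale.Agent.P032.Lt.q R0Q108.q2310_15) (q_cons (Vale.Agent.P032.Lt.q R0Q108.q2310_16) (q_cons (Vale.Agent.P032.Lt.q R0Q108.q2310_17) q_nil)))))))))))))))))))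

theorem p2311 : Pat 73 73 TBm TCm (CB.map Fm) R0Q108.P2311 R0Q108.I2311 := Vale.Agent.P032.Lt.pat_eq (E' := R0Q108.E) eB (pat_step (by decide +kernel) (q_cons (Vale.Agent.P032.Lt.q R0Q108.q2311_0) q_nil))

theorem p2312 : Pat 73 73 TBm TCm (CB.map Fm) R0Q108.P2312 R0Q108.I2312 := Vale.Agent.P032.Lt.pat_eq (E' := R0Q108.E) eB (pat_step (by decide +kernel) (q_cons (Vale.Agent.P032.Lt.q R0Q108.q2312_0) (q_cons (Vale.Agent.P032.Lt.q R0Q108.q2312_1) (q_cons (Vale.Agent.P032.Lt.q R0Q108.q2312_2) (q_cons (Vale.Agent.P032.Lt.q R0Q108.q2312_3) q_nil)))))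

def C2313 : List ℕ := [0, 4, 8, 12, 16, 20, 24, 607233]
theorem p2313 : Pat 73 73 TBm TCm (C2313.map Fm) R0Q108.P2313 R0Q108.I2313 := Vale.Agent.P032.Lt.pat_eq (E' := R0Q108.E2313) (by decide +kernel) (pat_step (by decide +kernel) (q_cons (Vale.Agent.P032.Lt.q R0Q108.q2313_0) (q_cons (Vale.Agent.P032.Lt.q R0Q108.q2313_1) q_nil)))

theorem p2314 : Pat 73 73 TBm TCm (CB.map Fm) R0Q108.P2314 R0Q108.I2314 := Vale.Agent.P032.Lt.pat_eq (E' := R0Q108.E) eB (pat_step (by decide +kernel) (q_cons (Vale.Agent.P032.Lt.q R0Q108.q2314_0) (q_cons (Vale.Agent.P032.Lt.q R0Q108.q2314_1) (q_cons (Vale.Agent.P032.Lt.q R0Q108.q2314_2) (q_cons (Vale.Agent.P032.Lt.q R0Q108.q2314_3) (q_cons (Vale.Agent.P032.Lt.q R0Q108.q2314_4) (q_cons (Vale.Agent.P032.Lt.q R0Q108.q2314_5) (q_cons (Vale.Agent.P032.Lt.q R0Q108.q2314_6) (q_cons (Vale.Agent.P032.Lt.q R0Q108.q2314_7) q_nil)))))))))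

theorem p2315 : Pat 73 73 TBm TCm (CB.map Fm) R0Q108.P2315 R0Q108.I2315 := Vale.Agent.P032.Lt.pat_eq (E' := R0Q108.E) eB (pat_step (by decide +kernel) (q_cons (Vale.Agent.P032.Lt.q R0Q108.q2315_0) (q_cons (Vale.Agent.P032.Lt.q R0Q108.q2315_1) (q_cons (Vale.Agent.P032.Lt.q R0Q108.q2315_2) (q_cons (Vale.Agent.P032.Lt.q R0Q108.q2315_3) (q_cons (Vale.Agent.P032.Lt.q R0Q108.q2315_4) (q_cons (Vale.Agent.P032.Lt.q R0Q108.q2315_5) (q_cons (Vale.Agent.P032.Lt.q R0Q108.q2315_6) (q_cons (Vale.Agent.P032.Lt.q R0Q108.q2315_7) q_nil)))))))))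

def C2316 : List ℕ := [0, 4, 8, 12, 16, 20, 24, 83969, 475137, 739329]
theorem p2316 : Pat 73 73 TBm TCm (C2316.map Fm) R0Q108.P2316 R0Q108.I2316 := Vale.Agent.P032.Lt.pat_eq (E' := R0Q108.E2316) (by decide +kernel) (pat_step (by decide +kernel) (q_cons (Vale.Agent.P032.Lt.q R0Q108.q2316_0) q_nil))

theorem p2317 : Pat 73 73 TBm TCm (CB.map Fm) R0Q108.P2317 R0Q108.I2317 := Vale.Agent.P032.Lt.pat_eq (E' := R0Q108.E) eB (pat_step (by decide +kernel) (q_cons (Vale.Agent.P032.Lt.q R0Q108.q2317_0) (q_cons (Vale.Agent.P032.Lt.q R0Q108.q2317_1) (q_cons (Vale.Agent.P032.Lt.q R0Q108.q2317_2) (q_cons (Vale.Agent.P032.Lt.q R0Q108.q2317_3) q_nil)))))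

theorem p2318 : Pat 73 73 TBm TCm (CB.map Fm) R0Q108.P2318 R0Q108.I2318 := Vale.Agent.P032.Lt.pat_eq (E' := R0Q108.E) eB (pat_step (by decide +kernel) (q_cons (Vale.Agent.P032.Lt.q R0Q108.q2318_0) (q_cons (Vale.Agent.P032.Lt.q R0Q108.q2318_1) (q_cons (Vale.Agent.P032.Lt.q R0Q108.q2318_2) (q_cons (Vale.Agent.P032.Lt.q R0Q108.q2318_3) (q_cons (Vale.Agent.P032.Lt.q R0Q108.q2318_4) (q_cons (Vale.Agent.P032.Lt.q R0Q108.q2318_5) q_nil)))))))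

theorem p2319 : Pat 73 73 TBm TCm (CB.map Fm) R0Q108.P2319 R0Q108.I2319 := Vale.Agent.P032.Lt.pat_eq (E' := R0Q108.E) eB (pat_step (by decide +kernel) (q_cons (Vale.Agent.P032.Lt.q R0Q108.q2319_0) (q_cons (Vale.Agent.P032.Lt.q R0Q108.q2319_1) (q_cons (Vale.Agent.P032.Lt.q R0Q108.q2319_2) (q_cons (Vale.Agent.P032.Lt.q R0Q108.q2319_3) (q_cons (Vale.Agent.P032.Lt.q R0Q108.q2319_4) (q_cons (Vale.Agent.P032.Lt.q R0Q108.q2319_5) (q_cons (Vale.Agent.P032.Lt.q R0Q108.q2319_6) (q_cons (Vale.Agent.P032.Lt.q R0Q108.q2319_7) (q_cons (Vale.Agent.P032.Lt.q R0Q108.q2319_8) (q_cons (Vale.Agent.P032.Lt.q R0Q108.q2319_9) (q_cons (Vale.Agent.P032.Lt.q R0Q108.q2319_10) (q_cons (Vale.Agent.P032.Lt.q R0Q108.q2319_11) q_nil)))))))))))))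

def C2320 : List ℕ := [0, 4, 8, 12, 16, 20, 24, 82945, 83969, 344065, 475137, 476161, 738305, 739329]
theorem p2320 : Pat 73 73 TBm TCm (C2320.map Fm) R0Q108.P2320 R0Q108.I2320 := Vale.Agent.P032.Lt.pat_eq (E' := R0Q108.E2320) (by decide +kernel) (pat_step (by decide +kernel) (q_cons (Vale.Agent.P032.Lt.q R0Q108.q2320_0) (q_cons (Vale.Agent.P032.Lt.q R0Q108.q2320_1) (q_cons (Vale.Agent.P032.Lt.q R0Q108.q2320_2) (q_cons (Vale.Agent.P032.Lt.q R0Q108.q2320_3) (q_cons (Vale.Agent.P032.Lt.q R0Q108.q2320_4) (q_cons (Vale.Agent.P032.Lt.q R0Q108.q2320_5) (q_cons (Vale.Agent.P032.Lt.q R0Q108.q2320_6) (q_cons (Vale.Agent.P032.Lt.q R0Q108.q2320_7) (q_cons (Vale.Agent.P032.Lt.q R0Q108.q2320_8) (q_cons (Vale.Agent.P032.Lt.q R0Q108.q2320_9) (q_cons (Vale.Agent.P032.Lt.q R0Q108.q2320_10) (q_cons (Vale.Agent.P032.Lt.q R0Q108.q2320_11) (q_cons (Vale.Agent.P032.Lt.q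 R0Q108.q2320_12) (q_cons (Vale.Agent.P032.Lt.q R0Q108.q2320_13) (q_cons (Vale.Agent.P032.Lt.q R0Q108.q2320_14) (q_cons (Vale.Agent.P032.Lt.q R0Q108.q2320_15) (q_cons (Vale.Agent.P032.Lt.q R0Q108.q2320_16) (q_cons (Vale.Agent.P032.Lt.q R0Q108.q2320_17) (q_cons (Vale.Agent.P032.Lt.q R0Q108.q2320_18) (q_cons (Vale.Agent.P032.Lt.q R0Q108.q2320_19) (q_cons (Vale.Agent.P032.Lt.q R0Q108.q2320_20) (q_cons (Vale.Agent.P032.Lt.q R0Q108.q2320_21) (q_cons (Vale.Agent.P032.Lt.q R0Q108.q2320_22) (q_cons (Vale.Agent.P032.Lt.q R0Q108.q2320_23) (q_cons (Vale.Agent.P032.Lt.q R0Q108.q2320_24) q_nil))))))))))))))))))))))))))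

theorem p2321 : Pat 73 73 TBm TCm (CB.map Fm) R0Q108.P2321 R0Q108.I2321 := Vale.Agent.P032.Lt.pat_eq (E' := R0Q108.E) eB (pat_step (by decide +kernel) (q_cons (Vale.Agent.P032.Lt.q R0Q108.q2321_0) q_nil))

theorem p2322 : Pat 73 73 TBm TCm (CB.map Fm) R0Q109.P2322 R0Q109.I2322 := Vale.Agent.P032.Lt.pat_eq (E' := R0Q109.E) eB (pat_step (by decide +kernel) (q_cons (Vale.Agent.P032.Lt.q R0Q109.q2322_0) q_nil))

theorem p2323 : Pat 73 73 TBm TCm (CB.map Fm) R0Q109.P2323 R0Q109.I2323 := Vale.Agent.P032.Lt.pat_eq (E' := R0Q109.E) eB (pat_step (by decide +kernel) (q_cons (Vale.Agent.P032.Lt.q R0Q109.q2323_0) (q_cons (Vale.Agent.P032.Lt.q R0Q109.q2323_1) (q_cons (Vale.Agent.P032.Lt.q R0Q109.q2323_2) (q_cons (Vale.Agent.P032.Lt.q R0Q109.q2323_3) q_nil)))))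

theorem p2324 : Pat 73 73 TBm TCm (CB.map Fm) R0Q109.P2324 R0Q109.I2324 := Vale.Agent.P032.Lt.pat_eq (E' := R0Q109.E) eB (pat_step (by decide +kernel) (q_cons (Vale.Agent.P032.Lt.q R0Q109.q2324_0) (q_cons (Vale.Agent.P032.Lt.q R0Q109.q2324_1) (q_cons (Vale.Agent.P032.Lt.q R0Q109.q2324_2) (q_cons (Vale.Agent.P032.Lt.q R0Q109.q2324_3) (q_cons (Vale.Agent.P032.Lt.q R0Q109.q2324_4) (q_cons (Vale.Agent.P032.Lt.q R0Q109.q2324_5) (q_cons (Vale.Agent.P032.Lt.q R0Q109.q2324_6) q_nil))))))))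

def C2325 : List ℕ := [0, 4, 8, 12, 16, 20, 24, 344065, 475137, 737281]
theorem p2325 : Pat 73 73 TBm TCm (C2325.map Fm) R0Q109.P2325 R0Q109.I2325 := Vale.Agent.P032.Lt.pat_eq (E' := R0Q109.E2325) (by decide +kernel) (pat_step (by decide +kernel) (q_cons (Vale.Agent.P032.Lt.q R0Q109.q2325_0) q_nil))

def C2326 : List ℕ := [0, 4, 8, 12, 16, 20, 24, 81921, 212993, 344065]
theorem p2326 : Pat 73 73 TBm TCm (C2326.map Fm) R0Q109.P2326 R0Q109.I2326 := Vale.Agent.P032.Lt.pat_eq (E' := R0Q109.E2326) (by decide +kernel) (pat_step (by decide +kernel) (q_cons (Vale.Agent.P032.Lt.q R0Q109.q2326_0) q_nil))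

theorem p2327 : Pat 73 73 TBm TCm (CB.map Fm) R0Q109.P2327 R0Q109.I2327 := Vale.Agent.P032.Lt.pat_eq (E' := R0Q109.E) eB (pat_step (by decide +kernel) (q_cons (Vale.Agent.P032.Lt.q R0Q109.q2327_0) (q_cons (Vale.Agent.P032.Lt.q R0Q109.q2327_1) (q_cons (Vale.Agent.P032.Lt.q R0Q109.q2327_2) q_nil))))

theorem p2328 : Pat 73 73 TBm TCm (CB.map Fm) R0Q109.P2328 R0Q109.I2328 := Vale.Agent.P032.Lt.pat_eq (E' := R0Q109.E) eB (pat_step (by decide +kernel) (q_cons (Vale.Agent.P032.Lt.q R0Q109.q2328_0) (q_cons (Vale.Agent.P032.Lt.q R0Q109.q2328_1) (q_cons (Vale.Agent.P032.Lt.q R0Q109.q2328_2) (q_cons (Vale.Agent.P032.Lt.q R0Q109.q2328_3) (q_cons (Vale.Agent.P032.Lt.q R0Q109.q2328_4) q_nil))))))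

theorem p2329 : Pat 73 73 TBm TCm (CB.map Fm) R0Q109.P2329 R0Q109.I2329 := Vale.Agent.P032.Lt.pat_eq (E' := R0Q109.E) eB (pat_step (by decide +kernel) (q_cons (Vale.Agent.P032.Lt.q R0Q109.q2329_0) (q_cons (Vale.Agent.P032.Lt.q R0Q109.q2329_1) (q_cons (Vale.Agent.P032.Lt.q R0Q109.q2329_2) (q_cons (Vale.Agent.P032.Lt.q R0Q109.q2329_3) (q_cons (Vale.Agent.P032.Lt.q R0Q109.q2329_4) (q_cons (Vale.Agent.P032.Lt.q R0Q109.q2329_5) (q_cons (Vale.Agent.P032.Lt.q R0Q109.q2329_6) (q_cons (Vale.Agent.P032.Lt.q R0Q109.q2329_7) (q_cons (Vale.Agent.P032.Lt.q R0Q109.q2329_8) (q_cons (Vale.Agent.P032.Lt.q R0Q109.q2329_9) (q_cons (Vale.Agent.P032.Lt.q R0Q109.q2329_10) (q_cons (Vale.Agent.P032.Lt.q R0Q109.q2329_11) (q_cons (Vale.Agent.P032.Lt.q R0Q109.q2329_12) (q_cons (Vale.Agent.P032.Lt.q R0Q109.q2329_13) (q_cons (Vale.Agent.P032.Lt.q R0Q109.q2329_14) (q_cons (Vale.Agent.P032.Lt.q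 R0Q109.q2329_15) (q_cons (Vale.Agent.P032.Lt.q R0Q109.q2329_16) (q_cons (Vale.Agent.P032.Lt.q R0Q109.q2329_17) (q_cons (Vale.Agent.P032.Lt.q R0Q109.q2329_18) (q_cons (Vale.Agent.P032.Lt.q R0Q109.q2329_19) q_nil)))))))))))))))))))))

theorem p2330 : Pat 73 73 TBm TCm (CB.map Fm) R0Q109.P2330 R0Q109.I2330 := Vale.Agent.P032.Lt.pat_eq (E' := R0Q109.E) eB (pat_step (by decide +kernel) (q_cons (Vale.Agent.P032.Lt.q R0Q109.q2330_0) (q_cons (Vale.Agent.P032.Lt.q R0Q109.q2330_1) (q_cons (Vale.Agent.P032.Lt.q R0Q109.q2330_2) (q_cons (Vale.Agent.P032.Lt.q R0Q109.q2330_3) (q_cons (Vale.Agent.P032.Lt.q R0Q109.q2330_4) (q_cons (Vale.Agent.P032.Lt.q R0Q109.q2330_5) (q_cons (Vale.Agent.P032.Lt.q R0Q109.q2330_6) (q_cons (Vale.Agent.P032.Lt.q R0Q109.q2330_7) (q_cons (Vale.Agent.P032.Lt.q R0Q109.q2330_8) (q_cons (Vale.Agent.P032.Lt.q R0Q109.q2330_9) (q_cons (Vale.Agent.P032.Lt.q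 R0Q109.q2330_10) (q_cons (Vale.Agent.P032.Lt.q R0Q109.q2330_11) (q_cons (Vale.Agent.P032.Lt.q R0Q109.q2330_12) (q_cons (Vale.Agent.P032.Lt.q R0Q109.q2330_13) (q_cons (Vale.Agent.P032.Lt.q R0Q109.q2330_14) (q_cons (Vale.Agent.P032.Lt.q R0Q109.q2330_15) (q_cons (Vale.Agent.P032.Lt.q R0Q109.q2330_16) (q_cons (Vale.Agent.P032.Lt.q R0Q109.q2330_17) (q_cons (Vale.Agent.P032.Lt.q R0Q109.q2330_18) (q_cons (Vale.Agent.P032.Lt.q R0Q109.q2330_19) (q_cons (Vale.Agent.P032.Lt.q R0Q109.q2330_20) (q_cons (Vale.Agent.P032.Lt.q R0Q109.q2330_21) q_nil)))))))))))))))))))))))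

theorem p2331 : Pat 73 73 TBm TCm (CB.map Fm) R0Q109.P2331 R0Q109.I2331 := Vale.Agent.P032.Lt.pat_eq (E' := R0Q109.E) eB (pat_step (by decide +kernel) (q_cons (Vale.Agent.P032.Lt.q R0Q109.q2331_0) (q_cons (Vale.Agent.P032.Lt.q R0Q109.q2331_1) (q_cons (Vale.Agent.P032.Lt.q R0Q109.q2331_2) (q_cons (Vale.Agent.P032.Lt.q R0Q109.q2331_3) (q_cons (Vale.Agent.P032.Lt.q R0Q109.q2331_4) q_nil))))))

theorem p2332 : Pat 73 73 TBm TCm (CB.map Fm) R0Q109.P2332 R0Q109.I2332 := Vale.Agent.P032.Lt.pat_eq (E' := R0Q109.E) eB (pat_step (by decide +kernel) (q_cons (Vale.Agent.P032.Lt.q R0Q109.q2332_0) (q_cons (Vale.Agent.P032.Lt.q R0Q109.q2332_1) (q_cons (Vale.Agent.P032.Lt.q R0Q109.q2332_2) (q_cons (Vale.Agent.P032.Lt.q R0Q109.q2332_3) (q_cons (Vale.Agent.P032.Lt.q R0Q109.q2332_4) q_nil))))))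

theorem p2333 : Pat 73 73 TBm TCm (CB.map Fm) R0Q109.P2333 R0Q109.I2333 := Vale.Agent.P032.Lt.pat_eq (E' := R0Q109.E) eB (pat_step (by decide +kernel) (q_cons (Vale.Agent.P032.Lt.q R0Q109.q2333_0) q_nil))

theorem p2334 : Pat 73 73 TBm TCm (CB.map Fm) R0Q109.P2334 R0Q109.I2334 := Vale.Agent.P032.Lt.pat_eq (E' := R0Q109.E) eB (pat_step (by decide +kernel) (q_cons (Vale.Agent.P032.Lt.q R0Q109.q2334_0) (q_cons (Vale.Agent.P032.Lt.q R0Q109.q2334_1) q_nil)))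

theorem p2335 : Pat 73 73 TBm TCm (CB.map Fm) R0Q109.P2335 R0Q109.I2335 := Vale.Agent.P032.Lt.pat_eq (E' := R0Q109.E) eB (pat_step (by decide +kernel) (q_cons (Vale.Agent.P032.Lt.q R0Q109.q2335_0) (q_cons (Vale.Agent.P032.Lt.q R0Q109.q2335_1) q_nil)))

theorem p2336 : Pat 73 73 TBm TCm (CB.map Fm) R0Q109.P2336 R0Q109.I2336 := Vale.Agent.P032.Lt.pat_eq (E' := R0Q109.E) eB (pat_step (by decide +kernel) (q_cons (Vale.Agent.P032.Lt.q R0Q109.q2336_0) (q_cons (Vale.Agent.P032.Lt.q R0Q109.q2336_1) (q_cons (Vale.Agent.P032.Lt.q R0Q109.q2336_2) (q_cons (Vale.Agent.P032.Lt.q R0Q109.q2336_3) q_nil)))))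

theorem p2337 : Pat 73 73 TBm TCm (CB.map Fm) R0Q109.P2337 R0Q109.I2337 := Vale.Agent.P032.Lt.pat_eq (E' := R0Q109.E) eB (pat_step (by decide +kernel) (q_cons (Vale.Agent.P032.Lt.q R0Q109.q2337_0) (q_cons (Vale.Agent.P032.Lt.q R0Q109.q2337_1) (q_cons (Vale.Agent.P032.Lt.q R0Q109.q2337_2) q_nil))))

theorem p2338 : Pat 73 73 TBm TCm (CB.map Fm) R0Q109.P2338 R0Q109.I2338 := Vale.Agent.P032.Lt.pat_eq (E' := R0Q109.E) eB (pat_step (by decide +kernel) (q_cons (Vale.Agent.P032.Lt.q R0Q109.q2338_0) (q_cons (Vale.Agent.P032.Lt.q R0Q109.q2338_1) (q_cons (Vale.Agent.P032.Lt.q R0Q109.q2338_2) (q_cons (Vale.Agent.P032.Lt.q R0Q109.q2338_3) q_nil)))))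

theorem p2339 : Pat 73 73 TBm TCm (CB.map Fm) R0Q109.P2339 R0Q109.I2339 := Vale.Agent.P032.Lt.pat_eq (E' := R0Q109.E) eB (pat_step (by decide +kernel) (q_cons (Vale.Agent.P032.Lt.q R0Q109.q2339_0) (q_cons (Vale.Agent.P032.Lt.q R0Q109.q2339_1) q_nil)))

theorem p2340 : Pat 73 73 TBm TCm (CB.map Fm) R0Q109.P2340 R0Q109.I2340 := Vale.Agent.P032.Lt.pat_eq (E' := R0Q109.E) eB (pat_step (by decide +kernel) (q_cons (Vale.Agent.P032.Lt.q R0Q109.q2340_0) q_nil))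

theorem p2341 : Pat 73 73 TBm TCm (CB.map Fm) R0Q109.P2341 R0Q109.I2341 := Vale.Agent.P032.Lt.pat_eq (E' := R0Q109.E) eB (pat_step (by decide +kernel) (q_cons (Vale.Agent.P032.Lt.q R0Q109.q2341_0) (q_cons (Vale.Agent.P032.Lt.q R0Q109.q2341_1) (q_cons (Vale.Agent.P032.Lt.q R0Q109.q2341_2) (q_cons (Vale.Agent.P032.Lt.q R0Q109.q2341_3) (q_cons (Vale.Agent.P032.Lt.q R0Q109.q2341_4) (q_cons (Vale.Agent.P032.Lt.q R0Q109.q2341_5) (q_cons (Vale.Agent.P032.Lt.q R0Q109.q2341_6) (q_cons (Vale.Agent.P032.Lt.q R0Q109.q2341_7) (q_cons (Vale.Agent.P032.Lt.q R0Q109.q2341_8) q_nil))))))))))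

theorem p2342 : Pat 73 73 TBm TCm (CB.map Fm) R0Q109.P2342 R0Q109.I2342 := Vale.Agent.P032.Lt.pat_eq (E' := R0Q109.E) eB (pat_step (by decide +kernel) (q_cons (Vale.Agent.P032.Lt.q R0Q109.q2342_0) (q_cons (Vale.Agent.P032.Lt.q R0Q109.q2342_1) (q_cons (Vale.Agent.P032.Lt.q R0Q109.q2342_2) q_nil))))

theorem p2343 : Pat 73 73 TBm TCm (CB.map Fm) R0Q109.P2343 R0Q109.I2343 := Vale.Agent.P032.Lt.pat_eq (E' := R0Q109.E) eB (pat_step (by decide +kernel) (q_cons (Vale.Agent.P032.Lt.q R0Q109.q2343_0) (q_cons (Vale.Agent.P032.Lt.q R0Q109.q2343_1) q_nil)))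

theorem p2344 : Pat 73 73 TBm TCm (CB.map Fm) R0Q109.P2344 R0Q109.I2344 := Vale.Agent.P032.Lt.pat_eq (E' := R0Q109.E) eB (pat_step (by decide +kernel) (q_cons (Vale.Agent.P032.Lt.q R0Q109.q2344_0) q_nil))

theorem p2345 : Pat 73 73 TBm TCm (CB.map Fm) R0Q109.P2345 R0Q109.I2345 := Vale.Agent.P032.Lt.pat_eq (E' := R0Q109.E) eB (pat_step (by decide +kernel) (q_cons (Vale.Agent.P032.Lt.q R0Q109.q2345_0) q_nil))

theorem p2346 : Pat 73 73 TBm TCm (CB.map Fm) R0Q109.P2346 R0Q109.I2346 := Vale.Agent.P032.Lt.pat_eq (E' := R0Q109.E) eB (pat_step (by decide +kernel) (q_cons (Vale.Agent.P032.Lt.q R0Q109.q2346_0) q_nil))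

theorem p2347 : Pat 73 73 TBm TCm (CB.map Fm) R0Q110.P2347 R0Q110.I2347 := Vale.Agent.P032.Lt.pat_eq (E' := R0Q110.E) eB (pat_step (by decide +kernel) (q_cons (Vale.Agent.P032.Lt.q R0Q110.q2347_0) q_nil))

def C2348 : List ℕ := [0, 4, 8, 12, 16, 20, 24, 344065, 478209, 606209]
theorem p2348 : Pat 73 73 TBm TCm (C2348.map Fm) R0Q110.P2348 R0Q110.I2348 := Vale.Agent.P032.Lt.pat_eq (E' := R0Q110.E2348) (by decide +kernel) (pat_step (by decide +kernel) (q_cons (Vale.Agent.P032.Lt.q R0Q110.q2348_0) (q_cons (Vale.Agent.P032.Lt.q R0Q110.q2348_1) (q_cons (Vale.Agent.P032.Lt.q R0Q110.q2348_2) (q_cons (Vale.Agent.P032.Lt.q R0Q110.q2348_3) (q_cons (Vale.Agent.P032.Lt.q R0Q110.q2348_4) q_nil))))))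

theorem p2349 : Pat 73 73 TBm TCm (CB.map Fm) R0Q110.P2349 R0Q110.I2349 := Vale.Agent.P032.Lt.pat_eq (E' := R0Q110.E) eB (pat_step (by decide +kernel) (q_cons (Vale.Agent.P032.Lt.q R0Q110.q2349_0) q_nil))

theorem p2350 : Pat 73 73 TBm TCm (CB.map Fm) R0Q110.P2350 R0Q110.I2350 := Vale.Agent.P032.Lt.pat_eq (E' := R0Q110.E) eB (pat_step (by decide +kernel) (q_cons (Vale.Agent.P032.Lt.q R0Q110.q2350_0) (q_cons (Vale.Agent.P032.Lt.q R0Q110.q2350_1) q_nil)))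

theorem p2351 : Pat 73 73 TBm TCm (CB.map Fm) R0Q110.P2351 R0Q110.I2351 := Vale.Agent.P032.Lt.pat_eq (E' := R0Q110.E) eB (pat_step (by decide +kernel) (q_cons (Vale.Agent.P032.Lt.q R0Q110.q2351_0) (q_cons (Vale.Agent.P032.Lt.q R0Q110.q2351_1) q_nil)))

theorem p2352 : Pat 73 73 TBm TCm (CB.map Fm) R0Q110.P2352 R0Q110.I2352 := Vale.Agent.P032.Lt.pat_eq (E' := R0Q110.E) eB (pat_step (by decide +kernel) (q_cons (Vale.Agent.P032.Lt.q R0Q110.q2352_0) q_nil))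

theorem p2353 : Pat 73 73 TBm TCm (CB.map Fm) R0Q110.P2353 R0Q110.I2353 := Vale.Agent.P032.Lt.pat_eq (E' := R0Q110.E) eB (pat_step (by decide +kernel) (q_cons (Vale.Agent.P032.Lt.q R0Q110.q2353_0) (q_cons (Vale.Agent.P032.Lt.q R0Q110.q2353_1) q_nil)))

theorem p2354 : Pat 73 73 TBm TCm (CB.map Fm) R0Q110.P2354 R0Q110.I2354 := Vale.Agent.P032.Lt.pat_eq (E' := R0Q110.E) eB (pat_step (by decide +kernel) (q_cons (Vale.Agent.P032.Lt.q R0Q110.q2354_0) (q_cons (Vale.Agent.P032.Lt.q R0Q110.q2354_1) (q_cons (Vale.Agent.P032.Lt.q R0Q110.q2354_2) q_nil))))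

theorem p2355 : Pat 73 73 TBm TCm (CB.map Fm) R0Q110.P2355 R0Q110.I2355 := Vale.Agent.P032.Lt.pat_eq (E' := R0Q110.E) eB (pat_step (by decide +kernel) (q_cons (Vale.Agent.P032.Lt.q R0Q110.q2355_0) q_nil))

theorem p2356 : Pat 73 73 TBm TCm (CB.map Fm) R0Q110.P2356 R0Q110.I2356 := Vale.Agent.P032.Lt.pat_eq (E' := R0Q110.E) eB (pat_step (by decide +kernel) (q_cons (Vale.Agent.P032.Lt.q R0Q110.q2356_0) q_nil))

theorem p2357 : Pat 73 73 TBm TCm (CB.map Fm) R0Q110.P2357 R0Q110.I2357 := Vale.Agent.P032.Lt.pat_eq (E' := R0Q110.E) eB (pat_step (by decide +kernel) (q_cons (Vale.Agent.P032.Lt.q R0Q110.q2357_0) q_nil))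

theorem p2358 : Pat 73 73 TBm TCm (CB.map Fm) R0Q110.P2358 R0Q110.I2358 := Vale.Agent.P032.Lt.pat_eq (E' := R0Q110.E) eB (pat_step (by decide +kernel) (q_cons (Vale.Agent.P032.Lt.q R0Q110.q2358_0) (q_cons (Vale.Agent.P032.Lt.q R0Q110.q2358_1) q_nil)))

def C2359 : List ℕ := [0, 4, 8, 12, 16, 20, 24, 84993, 344065, 346113, 606209]
theorem p2359 : Pat 73 73 TBm TCm (C2359.map Fm) R0Q110.P2359 R0Q110.I2359 := Vale.Agent.P032.Lt.pat_eq (E' := R0Q110.E2359) (by decide +kernel) (pat_step (by decide +kernel) (q_cons (Vale.Agent.P032.Lt.q R0Q110.q2359_0) (q_cons (Vale.Agent.P032.Lt.q R0Q110.q2359_1) (q_cons (Vale.Agent.P032.Lt.q R0Q110.q2359_2) (q_cons (Vale.Agent.P032.Lt.q R0Q110.q2359_3) (q_cons (Vale.Agent.P032.Lt.q R0Q110.q2359_4) q_nil))))))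

theorem p2360 : Pat 73 73 TBm TCm (CB.map Fm) R0Q110.P2360 R0Q110.I2360 := Vale.Agent.P032.Lt.pat_eq (E' := R0Q110.E) eB (pat_step (by decide +kernel) (q_cons (Vale.Agent.P032.Lt.q R0Q110.q2360_0) (q_cons (Vale.Agent.P032.Lt.q R0Q110.q2360_1) (q_cons (Vale.Agent.P032.Lt.q R0Q110.q2360_2) (q_cons (Vale.Agent.P032.Lt.q R0Q110.q2360_3) q_nil)))))

theorem p2361 : Pat 73 73 TBm TCm (CB.map Fm) R0Q110.P2361 R0Q110.I2361 := Vale.Agent.P032.Lt.pat_eq (E' := R0Q110.E) eB (pat_step (by decide +kernel) (q_cons (Vale.Agent.P032.Lt.q R0Q110.q2361_0) (q_cons (Vale.Agent.P032.Lt.q R0Q110.q2361_1) (q_cons (Vale.Agent.P032.Lt.q R0Q110.q2361_2) (q_cons (Vale.Agent.P032.Lt.q R0Q110.q2361_3) q_nil)))))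

theorem p2362 : Pat 73 73 TBm TCm (CB.map Fm) R0Q110.P2362 R0Q110.I2362 := Vale.Agent.P032.Lt.pat_eq (E' := R0Q110.E) eB (pat_step (by decide +kernel) (q_cons (Vale.Agent.P032.Lt.q R0Q110.q2362_0) (q_cons (Vale.Agent.P032.Lt.q R0Q110.q2362_1) (q_cons (Vale.Agent.P032.Lt.q R0Q110.q2362_2) q_nil))))

theorem p2363 : Pat 73 73 TBm TCm (CB.map Fm) R0Q110.P2363 R0Q110.I2363 := Vale.Agent.P032.Lt.pat_eq (E' := R0Q110.E) eB (pat_step (by decide +kernel) (q_cons (Vale.Agent.P032.Lt.q R0Q110.q2363_0) q_nil))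

theorem p2364 : Pat 73 73 TBm TCm (CB.map Fm) R0Q110.P2364 R0Q110.I2364 := Vale.Agent.P032.Lt.pat_eq (E' := R0Q110.E) eB (pat_step (by decide +kernel) (q_cons (Vale.Agent.P032.Lt.q R0Q110.q2364_0) (q_cons (Vale.Agent.P032.Lt.q R0Q110.q2364_1) (q_cons (Vale.Agent.P032.Lt.q R0Q110.q2364_2) (q_cons (Vale.Agent.P032.Lt.q R0Q110.q2364_3) q_nil)))))

theorem p2365 : Pat 73 73 TBm TCm (CB.map Fm) R0Q110.P2365 R0Q110.I2365 := Vale.Agent.P032.Lt.pat_eq (E' := R0Q110.E) eB (pat_step (by decide +kernel) (q_cons (Vale.Agent.P032.Lt.q R0Q110.q2365_0) (q_cons (Vale.Agent.P032.Lt.q R0Q110.q2365_1) (q_cons (Vale.Agent.P032.Lt.q R0Q110.q2365_2) q_nil))))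

theorem p2366 : Pat 73 73 TBm TCm (CB.map Fm) R0Q110.P2366 R0Q110.I2366 := Vale.Agent.P032.Lt.pat_eq (E' := R0Q110.E) eB (pat_step (by decide +kernel) (q_cons (Vale.Agent.P032.Lt.q R0Q110.q2366_0) q_nil))

theorem p2367 : Pat 73 73 TBm TCm (CB.map Fm) R0Q110.P2367 R0Q110.I2367 := Vale.Agent.P032.Lt.pat_eq (E' := R0Q110.E) eB (pat_step (by decide +kernel) (q_cons (Vale.Agent.P032.Lt.q R0Q110.q2367_0) q_nil))

theorem p2368 : Pat 73 73 TBm TCm (CB.map Fm) R0Q110.P2368 R0Q110.I2368 := Vale.Agent.P032.Lt.pat_eq (E' := R0Q110.E) eB (pat_step (by decide +kernel) (q_cons (Vale.Agent.P032.Lt.q R0Q110.q2368_0) (q_cons (Vale.Agent.P032.Lt.q R0Q110.q2368_1) q_nil)))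

theorem p2369 : Pat 73 73 TBm TCm (CB.map Fm) R0Q110.P2369 R0Q110.I2369 := Vale.Agent.P032.Lt.pat_eq (E' := R0Q110.E) eB (pat_step (by decide +kernel) (q_cons (Vale.Agent.P032.Lt.q R0Q110.q2369_0) q_nil))

theorem p2370 : Pat 73 73 TBm TCm (CB.map Fm) R0Q110.P2370 R0Q110.I2370 := Vale.Agent.P032.Lt.pat_eq (E' := R0Q110.E) eB (pat_step (by decide +kernel) (q_cons (Vale.Agent.P032.Lt.q R0Q110.q2370_0) (q_cons (Vale.Agent.P032.Lt.q R0Q110.q2370_1) (q_cons (Vale.Agent.P032.Lt.q R0Q110.q2370_2) q_nil))))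

theorem p2371 : Pat 73 73 TBm TCm (CB.map Fm) R0Q110.P2371 R0Q110.I2371 := Vale.Agent.P032.Lt.pat_eq (E' := R0Q110.E) eB (pat_step (by decide +kernel) (q_cons (Vale.Agent.P032.Lt.q R0Q110.q2371_0) (q_cons (Vale.Agent.P032.Lt.q R0Q110.q2371_1) q_nil)))

theorem p2372 : Pat 73 73 TBm TCm (CB.map Fm) R0Q110.P2372 R0Q110.I2372 := Vale.Agent.P032.Lt.pat_eq (E' := R0Q110.E) eB (pat_step (by decide +kernel) (q_cons (Vale.Agent.P032.Lt.q R0Q110.q2372_0) q_nil))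

theorem p2373 : Pat 73 73 TBm TCm (CB.map Fm) R0Q110.P2373 R0Q110.I2373 := Vale.Agent.P032.Lt.pat_eq (E' := R0Q110.E) eB (pat_step (by decide +kernel) (q_cons (Vale.Agent.P032.Lt.q R0Q110.q2373_0) (q_cons (Vale.Agent.P032.Lt.q R0Q110.q2373_1) (q_cons (Vale.Agent.P032.Lt.q R0Q110.q2373_2) q_nil))))

theorem p2374 : Pat 73 73 TBm TCm (CB.map Fm) R0Q110.P2374 R0Q110.I2374 := Vale.Agent.P032.Lt.pat_eq (E' := R0Q110.E) eB (pat_step (by decide +kernel) (q_cons (Vale.Agent.P032.Lt.q R0Q110.q2374_0) (q_cons (Vale.Agent.P032.Lt.q R0Q110.q2374_1) (q_cons (Vale.Agent.P032.Lt.q R0Q110.q2374_2) q_nil))))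

theorem p2375 : Pat 73 73 TBm TCm (CB.map Fm) R0Q110.P2375 R0Q110.I2375 := Vale.Agent.P032.Lt.pat_eq (E' := R0Q110.E) eB (pat_step (by decide +kernel) (q_cons (Vale.Agent.P032.Lt.q R0Q110.q2375_0) q_nil))

theorem p2376 : Pat 73 73 TBm TCm (CB.map Fm) R0Q110.P2376 R0Q110.I2376 := Vale.Agent.P032.Lt.pat_eq (E' := R0Q110.E) eB (pat_step (by decide +kernel) (q_cons (Vale.Agent.P032.Lt.q R0Q110.q2376_0) (q_cons (Vale.Agent.P032.Lt.q R0Q110.q2376_1) (q_cons (Vale.Agent.P032.Lt.q R0Q110.q2376_2) q_nil))))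

theorem p2377 : Pat 73 73 TBm TCm (CB.map Fm) R0Q110.P2377 R0Q110.I2377 := Vale.Agent.P032.Lt.pat_eq (E' := R0Q110.E) eB (pat_step (by decide +kernel) (q_cons (Vale.Agent.P032.Lt.q R0Q110.q2377_0) q_nil))

theorem p2378 : Pat 73 73 TBm TCm (CB.map Fm) R0Q111.P2378 R0Q111.I2378 := Vale.Agent.P032.Lt.pat_eq (E' := R0Q111.E) eB (pat_step (by decide +kernel) (q_cons (Vale.Agent.P032.Lt.q R0Q111.q2378_0) (q_cons (Vale.Agent.P032.Lt.q R0Q111.q2378_1) (q_cons (Vale.Agent.P032.Lt.q R0Q111.q2378_2) (q_cons (Vale.Agent.P032.Lt.q R0Q111.q2378_3) (q_cons (Vale.Agent.P032.Lt.q R0Q111.q2378_4) (q_cons (Vale.Agent.P032.Lt.q R0Q111.q2378_5) q_nil)))))))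

theorem p2379 : Pat 73 73 TBm TCm (CB.map Fm) R0Q111.P2379 R0Q111.I2379 := Vale.Agent.P032.Lt.pat_eq (E' := R0Q111.E) eB (pat_step (by decide +kernel) (q_cons (Vale.Agent.P032.Lt.q R0Q111.q2379_0) (q_cons (Vale.Agent.P032.Lt.q R0Q111.q2379_1) (q_cons (Vale.Agent.P032.Lt.q R0Q111.q2379_2) (q_cons (Vale.Agent.P032.Lt.q R0Q111.q2379_3) (q_cons (Vale.Agent.P032.Lt.q R0Q111.q2379_4) (q_cons (Vale.Agent.P032.Lt.q R0Q111.q2379_5) (q_cons (Vale.Agent.P032.Lt.q R0Q111.q2379_6) (q_cons (Vale.Agent.P032.Lt.q R0Q111.q2379_7) q_nil)))))))))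

def C2380 : List ℕ := [0, 4, 8, 12, 16, 20, 24, 353281, 484353, 486401, 606209, 737281, 745473]
theorem p2380 : Pat 73 73 TBm TCm (C2380.map Fm) R0Q111.P2380 R0Q111.I2380 := Vale.Agent.P032.Lt.pat_eq (E' := R0Q111.E2380) (by decide +kernel) (pat_step (by decide +kernel) (q_cons (Vale.Agent.P032.Lt.q R0Q111.q2380_0) q_nil))

theorem p2381 : Pat 73 73 TBm TCm (CB.map Fm) R0Q111.P2381 R0Q111.I2381 := Vale.Agent.P032.Lt.pat_eq (E' := R0Q111.E) eB (pat_step (by decide +kernel) (q_cons (Vale.Agent.P032.Lt.q R0Q111.q2381_0) q_nil))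

def C2382 : List ℕ := [0, 4, 8, 12, 16, 20, 24, 222209, 745473]
theorem p2382 : Pat 73 73 TBm TCm (C2382.map Fm) R0Q111.P2382 R0Q111.I2382 := Vale.Agent.P032.Lt.pat_eq (E' := R0Q111.E2382) (by decide +kernel) (pat_step (by decide +kernel) (q_cons (Vale.Agent.P032.Lt.q R0Q111.q2382_0) q_nil))

def C2383 : List ℕ := [0, 4, 8, 12, 16, 20, 24, 222209, 745473]
theorem p2383 : Pat 73 73 TBm TCm (C2383.map Fm) R0Q111.P2383 R0Q111.I2383 := Vale.Agent.P032.Lt.pat_eq (E' := R0Q111.E2383) (by decide +kernel) (pat_step (by decide +kernel) (q_cons (Vale.Agent.P032.Lt.q R0Q111.q2383_0) q_nil))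

theorem p2384 : Pat 73 73 TBm TCm (CB.map Fm) R0Q111.P2384 R0Q111.I2384 := Vale.Agent.P032.Lt.pat_eq (E' := R0Q111.E) eB (pat_step (by decide +kernel) (q_cons (Vale.Agent.P032.Lt.q R0Q111.q2384_0) (q_cons (Vale.Agent.P032.Lt.q R0Q111.q2384_1) (q_cons (Vale.Agent.P032.Lt.q R0Q111.q2384_2) q_nil))))

theorem p2385 : Pat 73 73 TBm TCm (CB.map Fm) R0Q111.P2385 R0Q111.I2385 := Vale.Agent.P032.Lt.pat_eq (E' := R0Q111.E) eB (pat_step (by decide +kernel) (q_cons (Vale.Agent.P032.Lt.q R0Q111.q2385_0) (q_cons (Vale.Agent.P032.Lt.q R0Q111.q2385_1) q_nil)))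

def C2386 : List ℕ := [0, 4, 8, 12, 16, 20, 24, 345089, 476161]
theorem p2386 : Pat 73 73 TBm TCm (C2386.map Fm) R0Q111.P2386 R0Q111.I2386 := Vale.Agent.P032.Lt.pat_eq (E' := R0Q111.E2386) (by decide +kernel) (pat_step (by decide +kernel) (q_cons (Vale.Agent.P032.Lt.q R0Q111.q2386_0) (q_cons (Vale.Agent.P032.Lt.q R0Q111.q2386_1) q_nil)))

theorem p2387 : Pat 73 73 TBm TCm (CB.map Fm) R0Q111.P2387 R0Q111.I2387 := Vale.Agent.P032.Lt.pat_eq (E' := R0Q111.E) eB (pat_step (by decide +kernel) (q_cons (Vale.Agent.P032.Lt.q R0Q111.q2387_0) (q_cons (Vale.Agent.P032.Lt.q R0Q111.q2387_1) (q_cons (Vale.Agent.P032.Lt.q R0Q111.q2387_2) (q_cons (Vale.Agent.P032.Lt.q R0Q111.q2387_3) (q_cons (Vale.Agent.P032.Lt.q R0Q111.q2387_4) (q_cons (Vale.Agent.P032.Lt.q R0Q111.q2387_5) (q_cons (Vale.Agent.P032.Lt.q R0Q111.q2387_6) (q_cons (Vale.Agent.P032.Lt.q R0Q111.q2387_7)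 (q_cons (Vale.Agent.P032.Lt.q R0Q111.q2387_8) (q_cons (Vale.Agent.P032.Lt.q R0Q111.q2387_9) (q_cons (Vale.Agent.P032.Lt.q R0Q111.q2387_10) (q_cons (Vale.Agent.P032.Lt.q R0Q111.q2387_11) (q_cons (Vale.Agent.P032.Lt.q R0Q111.q2387_12) (q_cons (Vale.Agent.P032.Lt.q R0Q111.q2387_13) q_nil)))))))))))))))

theorem p2388 : Pat 73 73 TBm TCm (CB.map Fm) R0Q111.P2388 R0Q111.I2388 := Vale.Agent.P032.Lt.pat_eq (E' := R0Q111.E) eB (pat_step (by decide +kernel) (q_cons (Vale.Agent.P032.Lt.q R0Q111.q2388_0) (q_cons (Vale.Agent.P032.Lt.q R0Q111.q2388_1) (q_cons (Vale.Agent.P032.Lt.q R0Q111.q2388_2) (q_cons (Vale.Agent.P032.Lt.q R0Q111.q2388_3) q_nil)))))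

theorem p2389 : Pat 73 73 TBm TCm (CB.map Fm) R0Q111.P2389 R0Q111.I2389 := Vale.Agent.P032.Lt.pat_eq (E' := R0Q111.E) eB (pat_step (by decide +kernel) (q_cons (Vale.Agent.P032.Lt.q R0Q111.q2389_0) q_nil))

def C2390 : List ℕ := [0, 4, 8, 12, 16, 20, 24, 737281]
theorem p2390 : Pat 73 73 TBm TCm (C2390.map Fm) R0Q111.P2390 R0Q111.I2390 := Vale.Agent.P032.Lt.pat_eq (E' := R0Q111.E2390) (by decide +kernel) (pat_step (by decide +kernel) (q_cons (Vale.Agent.P032.Lt.q R0Q111.q2390_0) (q_cons (Vale.Agent.P032.Lt.q R0Q111.q2390_1) (q_cons (Vale.Agent.P032.Lt.q R0Q111.q2390_2) (q_cons (Vale.Agent.P032.Lt.q R0Q111.q2390_3) (q_cons (Vale.Agent.P032.Lt.q R0Q111.q2390_4) (q_cons (Vale.Agent.P032.Lt.q R0Q111.q2390_5) (q_cons (Vale.Agent.P032.Lt.q R0Q111.q2390_6) (q_cons (Vale.Agent.P032.Lt.q R0Q111.q2390_7) (q_cons (Vale.Agent.P032.Lt.q R0Q111.q2390_8) (q_cons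 (Vale.Agent.P032.Lt.q R0Q111.q2390_9) (q_cons (Vale.Agent.P032.Lt.q R0Q111.q2390_10) (q_cons (Vale.Agent.P032.Lt.q R0Q111.q2390_11) q_nil)))))))))))))

def C2391 : List ℕ := [0, 4, 8, 12, 16, 20, 24, 745473]
theorem p2391 : Pat 73 73 TBm TCm (C2391.map Fm) R0Q111.P2391 R0Q111.I2391 := Vale.Agent.P032.Lt.pat_eq (E' := R0Q111.E2391) (by decide +kernel) (pat_step (by decide +kernel) (q_cons (Vale.Agent.P032.Lt.q R0Q111.q2391_0) (q_cons (Vale.Agent.P032.Lt.q R0Q111.q2391_1) (q_cons (Vale.Agent.P032.Lt.q R0Q111.q2391_2) (q_cons (Vale.Agent.P032.Lt.q R0Q111.q2391_3) q_nil)))))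

def C2392 : List ℕ := [0, 4, 8, 12, 16, 20, 24, 478209, 737281]
theorem p2392 : Pat 73 73 TBm TCm (C2392.map Fm) R0Q111.P2392 R0Q111.I2392 := Vale.Agent.P032.Lt.pat_eq (E' := R0Q111.E2392) (by decide +kernel) (pat_step (by decide +kernel) (q_cons (Vale.Agent.P032.Lt.q R0Q111.q2392_0) (q_cons (Vale.Agent.P032.Lt.q R0Q111.q2392_1) (q_cons (Vale.Agent.P032.Lt.q R0Q111.q2392_2) (q_cons (Vale.Agent.P032.Lt.q R0Q111.q2392_3) (q_cons (Vale.Agent.P032.Lt.q R0Q111.q2392_4) q_nil))))))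

theorem p2393 : Pat 73 73 TBm TCm (CB.map Fm) R0Q111.P2393 R0Q111.I2393 := Vale.Agent.P032.Lt.pat_eq (E' := R0Q111.E) eB (pat_step (by decide +kernel) (q_cons (Vale.Agent.P032.Lt.q R0Q111.q2393_0) (q_cons (Vale.Agent.P032.Lt.q R0Q111.q2393_1) (q_cons (Vale.Agent.P032.Lt.q R0Q111.q2393_2) (q_cons (Vale.Agent.P032.Lt.q R0Q111.q2393_3) (q_cons (Vale.Agent.P032.Lt.q R0Q111.q2393_4) (q_cons (Vale.Agent.P032.Lt.q R0Q111.q2393_5) (q_cons (Vale.Agent.P032.Lt.q R0Q111.q2393_6) (q_cons (Vale.Agent.P032.Lt.q R0Q111.q2393_7) (q_cons (Vale.Agent.P032.Lt.q R0Q111.q2393_8) (q_cons (Vale.Agent.P032.Lt.q R0Q111.q2393_9) (q_cons (Vale.Agent.P032.Lt.q R0Q111.q2393_10) q_nil))))))))))))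

def C2394 : List ℕ := [0, 4, 8, 12, 16, 20, 24, 737281]
theorem p2394 : Pat 73 73 TBm TCm (C2394.map Fm) R0Q111.P2394 R0Q111.I2394 := Vale.Agent.P032.Lt.pat_eq (E' := R0Q111.E2394) (by decide +kernel) (pat_step (by decide +kernel) (q_cons (Vale.Agent.P032.Lt.q R0Q111.q2394_0) (q_cons (Vale.Agent.P032.Lt.q R0Q111.q2394_1) (q_cons (Vale.Agent.P032.Lt.q R0Q111.q2394_2) (q_cons (Vale.Agent.P032.Lt.q R0Q111.q2394_3) (q_cons (Vale.Agent.P032.Lt.q R0Q111.q2394_4) (q_cons (Vale.Agent.P032.Lt.q R0Q111.q2394_5) (q_cons (Vale.Agent.P032.Lt.q R0Q111.q2394_6) q_nil))))))))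

theorem p2395 : Pat 73 73 TBm TCm (CB.map Fm) R0Q111.P2395 R0Q111.I2395 := Vale.Agent.P032.Lt.pat_eq (E' := R0Q111.E) eB (pat_step (by decide +kernel) (q_cons (Vale.Agent.P032.Lt.q R0Q111.q2395_0) (q_cons (Vale.Agent.P032.Lt.q R0Q111.q2395_1) (q_cons (Vale.Agent.P032.Lt.q R0Q111.q2395_2) (q_cons (Vale.Agent.P032.Lt.q R0Q111.q2395_3) (q_cons (Vale.Agent.P032.Lt.q R0Q111.q2395_4) (q_cons (Vale.Agent.P032.Lt.q R0Q111.q2395_5) (q_cons (Vale.Agent.P032.Lt.q R0Q111.q2395_6) (q_cons (Vale.Agent.P032.Lt.q R0Q111.q2395_7) (q_cons (Vale.Agent.P032.Lt.q R0Q111.q2395_8) (q_cons (Vale.Agent.P032.Lt.q R0Q111.q2395_9) (q_cons (Vale.Agent.P032.Lt.q R0Q111.q2395_10) (q_cons (Vale.Agent.P032.Lt.q R0Q111.q2395_11) q_nil)))))))))))))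

theorem p2396 : Pat 73 73 TBm TCm (CB.map Fm) R0Q111.P2396 R0Q111.I2396 := Vale.Agent.P032.Lt.pat_eq (E' := R0Q111.E) eB (pat_step (by decide +kernel) (q_cons (Vale.Agent.P032.Lt.q R0Q111.q2396_0) (q_cons (Vale.Agent.P032.Lt.q R0Q111.q2396_1) (q_cons (Vale.Agent.P032.Lt.q R0Q111.q2396_2) q_nil))))

theorem p2397 : Pat 73 73 TBm TCm (CB.map Fm) R0Q111.P2397 R0Q111.I2397 := Vale.Agent.P032.Lt.pat_eq (E' := R0Q111.E) eB (pat_step (by decide +kernel) (q_cons (Vale.Agent.P032.Lt.q R0Q111.q2397_0) (q_cons (Vale.Agent.P032.Lt.q R0Q111.q2397_1) q_nil)))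

theorem p2398 : Pat 73 73 TBm TCm (CB.map Fm) R0Q111.P2398 R0Q111.I2398 := Vale.Agent.P032.Lt.pat_eq (E' := R0Q111.E) eB (pat_step (by decide +kernel) (q_cons (Vale.Agent.P032.Lt.q R0Q111.q2398_0) (q_cons (Vale.Agent.P032.Lt.q R0Q111.q2398_1) (q_cons (Vale.Agent.P032.Lt.q R0Q111.q2398_2) (q_cons (Vale.Agent.P032.Lt.q R0Q111.q2398_3) (q_cons (Vale.Agent.P032.Lt.q R0Q111.q2398_4) (q_cons (Vale.Agent.P032.Lt.q R0Q111.q2398_5) q_nil)))))))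

def C2399 : List ℕ := [0, 4, 8, 12, 16, 20, 24, 737281]
theorem p2399 : Pat 73 73 TBm TCm (C2399.map Fm) R0Q111.P2399 R0Q111.I2399 := Vale.Agent.P032.Lt.pat_eq (E' := R0Q111.E2399) (by decide +kernel) (pat_step (by decide +kernel) (q_cons (Vale.Agent.P032.Lt.q R0Q111.q2399_0) (q_cons (Vale.Agent.P032.Lt.q R0Q111.q2399_1) (q_cons (Vale.Agent.P032.Lt.q R0Q111.q2399_2) q_nil))))

theorem p2400 : Pat 73 73 TBm TCm (CB.map Fm) R0Q111.P2400 R0Q111.I2400 := Vale.Agent.P032.Lt.pat_eq (E' := R0Q111.E) eB (pat_step (by decide +kernel) (q_cons (Vale.Agent.P032.Lt.q R0Q111.q2400_0) (q_cons (Vale.Agent.P032.Lt.q R0Q111.q2400_1) (q_cons (Vale.Agent.P032.Lt.q R0Q111.q2400_2) (q_cons (Vale.Agent.P032.Lt.q R0Q111.q2400_3) (q_cons (Vale.Agent.P032.Lt.q R0Q111.q2400_4) (q_cons (Vale.Agent.P032.Lt.q R0Q111.q2400_5) q_nil)))))))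

def C2401 : List ℕ := [0, 4, 8, 12, 16, 20, 24, 214017, 606209, 737281]
theorem p2401 : Pat 73 73 TBm TCm (C2401.map Fm) R0Q111.P2401 R0Q111.I2401 := Vale.Agent.P032.Lt.pat_eq (E' := R0Q111.E2401) (by decide +kernel) (pat_step (by decide +kernel) (q_cons (Vale.Agent.P032.Lt.q R0Q111.q2401_0) (q_cons (Vale.Agent.P032.Lt.q R0Q111.q2401_1) (q_cons (Vale.Agent.P032.Lt.q R0Q111.q2401_2) (q_cons (Vale.Agent.P032.Lt.q R0Q111.q2401_3) (q_cons (Vale.Agent.P032.Lt.q R0Q111.q2401_4) (q_cons (Vale.Agent.P032.Lt.q R0Q111.q2401_5) q_nil)))))))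

def C2402 : List ℕ := [0, 4, 8, 12, 16, 20, 24, 475137, 478209, 606209, 737281]
theorem p2402 : Pat 73 73 TBm TCm (C2402.map Fm) R0Q111.P2402 R0Q111.I2402 := Vale.Agent.P032.Lt.pat_eq (E' := R0Q111.E2402) (by decide +kernel) (pat_step (by decide +kernel) (q_cons (Vale.Agent.P032.Lt.q R0Q111.q2402_0) (q_cons (Vale.Agent.P032.Lt.q R0Q111.q2402_1) (q_cons (Vale.Agent.P032.Lt.q R0Q111.q2402_2) (q_cons (Vale.Agent.P032.Lt.q R0Q111.q2402_3) q_nil)))))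

theorem p2403 : Pat 73 73 TBm TCm (CB.map Fm) R0Q111.P2403 R0Q111.I2403 := Vale.Agent.P032.Lt.pat_eq (E' := R0Q111.E) eB (pat_step (by decide +kernel) (q_cons (Vale.Agent.P032.Lt.q R0Q111.q2403_0) (q_cons (Vale.Agent.P032.Lt.q R0Q111.q2403_1) (q_cons (Vale.Agent.P032.Lt.q R0Q111.q2403_2) (q_cons (Vale.Agent.P032.Lt.q R0Q111.q2403_3) q_nil)))))

theorem p2404 : Pat 73 73 TBm TCm (CB.map Fm) R0Q112.P2404 R0Q112.I2404 := Vale.Agent.P032.Lt.pat_eq (E' := R0Q112.E) eB (pat_step (by decide +kernel) (q_cons (Vale.Agent.P032.Lt.q R0Q112.q2404_0) (q_cons (Vale.Agent.P032.Lt.q R0Q112.q2404_1) (q_cons (Vale.Agent.P032.Lt.q R0Q112.q2404_2) (q_cons (Vale.Agent.P032.Lt.q R0Q112.q2404_3) (q_cons (Vale.Agent.P032.Lt.q R0Q112.q2404_4) (q_cons (Vale.Agent.P032.Lt.q R0Q112.q2404_5) (q_cons (Vale.Agent.P032.Lt.q R0Q112.q2404_6) (q_cons (Vale.Agent.P032.Lt.q R0Q112.q2404_7)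 (q_cons (Vale.Agent.P032.Lt.q R0Q112.q2404_8) q_nil))))))))))

theorem p2405 : Pat 73 73 TBm TCm (CB.map Fm) R0Q112.P2405 R0Q112.I2405 := Vale.Agent.P032.Lt.pat_eq (E' := R0Q112.E) eB (pat_step (by decide +kernel) (q_cons (Vale.Agent.P032.Lt.q R0Q112.q2405_0) (q_cons (Vale.Agent.P032.Lt.q R0Q112.q2405_1) (q_cons (Vale.Agent.P032.Lt.q R0Q112.q2405_2) (q_cons (Vale.Agent.P032.Lt.q R0Q112.q2405_3) (q_cons (Vale.Agent.P032.Lt.q R0Q112.q2405_4) (q_cons (Vale.Agent.P032.Lt.q R0Q112.q2405_5) q_nil)))))))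

theorem p2406 : Pat 73 73 TBm TCm (CB.map Fm) R0Q112.P2406 R0Q112.I2406 := Vale.Agent.P032.Lt.pat_eq (E' := R0Q112.E) eB (pat_step (by decide +kernel) (q_cons (Vale.Agent.P032.Lt.q R0Q112.q2406_0) (q_cons (Vale.Agent.P032.Lt.q R0Q112.q2406_1) (q_cons (Vale.Agent.P032.Lt.q R0Q112.q2406_2) (q_cons (Vale.Agent.P032.Lt.q R0Q112.q2406_3) (q_cons (Vale.Agent.P032.Lt.q R0Q112.q2406_4) (q_cons (Vale.Agent.P032.Lt.q R0Q112.q2406_5) (q_cons (Vale.Agent.P032.Lt.q R0Q112.q2406_6) (q_cons (Vale.Agent.P032.Lt.q R0Q112.q2406_7) (q_cons (Vale.Agent.P032.Lt.q R0Q112.q2406_8) (q_cons (Vale.Agent.P032.Lt.q R0Q112.q2406_9) (q_cons (Vale.Agent.P032.Lt.q R0Q112.q2406_10) (q_cons (Vale.Agent.P032.Lt.q R0Q112.q2406_11) (q_cons (Vale.Agent.P032.Lt.q R0Q112.q2406_12) (q_cons (Vale.Agent.P032.Lt.q R0Q112.q2406_13) (q_cons (Vale.Agent.P032.Lt.q R0Q112.q2406_14) (q_cons (Vale.Agent.P032.Lt.q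 R0Q112.q2406_15) (q_cons (Vale.Agent.P032.Lt.q R0Q112.q2406_16) (q_cons (Vale.Agent.P032.Lt.q R0Q112.q2406_17) (q_cons (Vale.Agent.P032.Lt.q R0Q112.q2406_18) (q_cons (Vale.Agent.P032.Lt.q R0Q112.q2406_19) (q_cons (Vale.Agent.P032.Lt.q R0Q112.q2406_20) q_nil))))))))))))))))))))))

def C2407 : List ℕ := [0, 4, 8, 12, 16, 20, 24, 81921, 606209, 737281]
theorem p2407 : Pat 73 73 TBm TCm (C2407.map Fm) R0Q112.P2407 R0Q112.I2407 := Vale.Agent.P032.Lt.pat_eq (E' := R0Q112.E2407) (by decide +kernel) (pat_step (by decide +kernel) (q_cons (Vale.Agent.P032.Lt.q R0Q112.q2407_0) (q_cons (Vale.Agent.P032.Lt.q R0Q112.q2407_1) q_nil)))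

theorem p2408 : Pat 73 73 TBm TCm (CB.map Fm) R0Q112.P2408 R0Q112.I2408 := Vale.Agent.P032.Lt.pat_eq (E' := R0Q112.E) eB (pat_step (by decide +kernel) (q_cons (Vale.Agent.P032.Lt.q R0Q112.q2408_0) (q_cons (Vale.Agent.P032.Lt.q R0Q112.q2408_1) (q_cons (Vale.Agent.P032.Lt.q R0Q112.q2408_2) (q_cons (Vale.Agent.P032.Lt.q R0Q112.q2408_3) (q_cons (Vale.Agent.P032.Lt.q R0Q112.q2408_4) (q_cons (Vale.Agent.P032.Lt.q R0Q112.q2408_5) (q_cons (Vale.Agent.P032.Lt.q R0Q112.q2408_6) (q_cons (Vale.Agent.P032.Lt.q R0Q112.q2408_7) (q_cons (Vale.Agent.P032.Lt.q R0Q112.q2408_8) (q_cons (Vale.Agent.P032.Lt.q R0Q112.q2408_9) (q_cons (Vale.Agent.P032.Lt.q R0Q112.q2408_10) (q_cons (Vale.Agent.P032.Lt.q R0Q112.q2408_11) (q_cons (Vale.Agent.P032.Lt.q R0Q112.q2408_12) q_nil))))))))))))))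

theorem p2409 : Pat 73 73 TBm TCm (CB.map Fm) R0Q112.P2409 R0Q112.I2409 := Vale.Agent.P032.Lt.pat_eq (E' := R0Q112.E) eB (pat_step (by decide +kernel) (q_cons (Vale.Agent.P032.Lt.q R0Q112.q2409_0) (q_cons (Vale.Agent.P032.Lt.q R0Q112.q2409_1) (q_cons (Vale.Agent.P032.Lt.q R0Q112.q2409_2) (q_cons (Vale.Agent.P032.Lt.q R0Q112.q2409_3) q_nil)))))

theorem p2410 : Pat 73 73 TBm TCm (CB.map Fm) R0Q112.P2410 R0Q112.I2410 := Vale.Agent.P032.Lt.pat_eq (E' := R0Q112.E) eB (pat_step (by decide +kernel) (q_cons (Vale.Agent.P032.Lt.q R0Q112.q2410_0) (q_cons (Vale.Agent.P032.Lt.q R0Q112.q2410_1) q_nil)))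

theorem p2411 : Pat 73 73 TBm TCm (CB.map Fm) R0Q112.P2411 R0Q112.I2411 := Vale.Agent.P032.Lt.pat_eq (E' := R0Q112.E) eB (pat_step (by decide +kernel) (q_cons (Vale.Agent.P032.Lt.q R0Q112.q2411_0) (q_cons (Vale.Agent.P032.Lt.q R0Q112.q2411_1) (q_cons (Vale.Agent.P032.Lt.q R0Q112.q2411_2) (q_cons (Vale.Agent.P032.Lt.q R0Q112.q2411_3) (q_cons (Vale.Agent.P032.Lt.q R0Q112.q2411_4) (q_cons (Vale.Agent.P032.Lt.q R0Q112.q2411_5) (q_cons (Vale.Agent.P032.Lt.q R0Q112.q2411_6) (q_cons (Vale.Agent.P032.Lt.q R0Q112.q2411_7) q_nil)))))))))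

theorem p2412 : Pat 73 73 TBm TCm (CB.map Fm) R0Q112.P2412 R0Q112.I2412 := Vale.Agent.P032.Lt.pat_eq (E' := R0Q112.E) eB (pat_step (by decide +kernel) (q_cons (Vale.Agent.P032.Lt.q R0Q112.q2412_0) (q_cons (Vale.Agent.P032.Lt.q R0Q112.q2412_1) (q_cons (Vale.Agent.P032.Lt.q R0Q112.q2412_2) (q_cons (Vale.Agent.P032.Lt.q R0Q112.q2412_3) (q_cons (Vale.Agent.P032.Lt.q R0Q112.q2412_4) (q_cons (Vale.Agent.P032.Lt.q R0Q112.q2412_5) q_nil)))))))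

theorem p2413 : Pat 73 73 TBm TCm (CB.map Fm) R0Q112.P2413 R0Q112.I2413 := Vale.Agent.P032.Lt.pat_eq (E' := R0Q112.E) eB (pat_step (by decide +kernel) (q_cons (Vale.Agent.P032.Lt.q R0Q112.q2413_0) (q_cons (Vale.Agent.P032.Lt.q R0Q112.q2413_1) (q_cons (Vale.Agent.P032.Lt.q R0Q112.q2413_2) q_nil))))

theorem p2414 : Pat 73 73 TBm TCm (CB.map Fm) R0Q112.P2414 R0Q112.I2414 := Vale.Agent.P032.Lt.pat_eq (E' := R0Q112.E) eB (pat_step (by decide +kernel) (q_cons (Vale.Agent.P032.Lt.q R0Q112.q2414_0) (q_cons (Vale.Agent.P032.Lt.q R0Q112.q2414_1) (q_cons (Vale.Agent.P032.Lt.q R0Q112.q2414_2) (q_cons (Vale.Agent.P032.Lt.q R0Q112.q2414_3) (q_cons (Vale.Agent.P032.Lt.q R0Q112.q2414_4) (q_cons (Vale.Agent.P032.Lt.q R0Q112.q2414_5) (q_cons (Vale.Agent.P032.Lt.q R0Q112.q2414_6) (q_cons (Vale.Agent.P032.Lt.q R0Q112.q2414_7) (q_cons (Vale.Agent.P032.Lt.q R0Q112.q2414_8)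 (q_cons (Vale.Agent.P032.Lt.q R0Q112.q2414_9) q_nil)))))))))))

theorem p2415 : Pat 73 73 TBm TCm (CB.map Fm) R0Q112.P2415 R0Q112.I2415 := Vale.Agent.P032.Lt.pat_eq (E' := R0Q112.E) eB (pat_step (by decide +kernel) (q_cons (Vale.Agent.P032.Lt.q R0Q112.q2415_0) (q_cons (Vale.Agent.P032.Lt.q R0Q112.q2415_1) (q_cons (Vale.Agent.P032.Lt.q R0Q112.q2415_2) (q_cons (Vale.Agent.P032.Lt.q R0Q112.q2415_3) (q_cons (Vale.Agent.P032.Lt.q R0Q112.q2415_4) (q_cons (Vale.Agent.P032.Lt.q R0Q112.q2415_5) (q_cons (Vale.Agent.P032.Lt.q R0Q112.q2415_6) (q_cons (Vale.Agent.P032.Lt.q R0Q112.q2415_7) (q_cons (Vale.Agent.P032.Lt.q R0Q112.q2415_8) (q_cons (Vale.Agent.P032.Lt.q R0Q112.q2415_9) (q_cons (Vale.Agent.P032.Lt.q R0Q112.q2415_10) (q_cons (Vale.Agent.P032.Lt.q R0Q112.q2415_11) (q_cons (Vale.Agent.P032.Lt.q R0Q112.q2415_12) (q_cons (Vale.Agent.P032.Lt.q R0Q112.q2415_13)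 (q_cons (Vale.Agent.P032.Lt.q R0Q112.q2415_14) q_nil))))))))))))))))

theorem p2416 : Pat 73 73 TBm TCm (CB.map Fm) R0Q112.P2416 R0Q112.I2416 := Vale.Agent.P032.Lt.pat_eq (E' := R0Q112.E) eB (pat_step (by decide +kernel) (q_cons (Vale.Agent.P032.Lt.q R0Q112.q2416_0) (q_cons (Vale.Agent.P032.Lt.q R0Q112.q2416_1) (q_cons (Vale.Agent.P032.Lt.q R0Q112.q2416_2) q_nil))))

theorem p2417 : Pat 73 73 TBm TCm (CB.map Fm) R0Q112.P2417 R0Q112.I2417 := Vale.Agent.P032.Lt.pat_eq (E' := R0Q112.E) eB (pat_step (by decide +kernel) (q_cons (Vale.Agent.P032.Lt.q R0Q112.q2417_0) (q_cons (Vale.Agent.P032.Lt.q R0Q112.q2417_1) (q_cons (Vale.Agent.P032.Lt.q R0Q112.q2417_2) (q_cons (Vale.Agent.P032.Lt.q R0Q112.q2417_3) (q_cons (Vale.Agent.P032.Lt.q R0Q112.q2417_4) (q_cons (Vale.Agent.P032.Lt.q R0Q112.q2417_5) (q_cons (Vale.Agent.P032.Lt.q R0Q112.q2417_6) (q_cons (Vale.Agent.P032.Lt.q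 R0Q112.q2417_7) q_nil)))))))))

theorem p2418 : Pat 73 73 TBm TCm (CB.map Fm) R0Q112.P2418 R0Q112.I2418 := Vale.Agent.P032.Lt.pat_eq (E' := R0Q112.E) eB (pat_step (by decide +kernel) (q_cons (Vale.Agent.P032.Lt.q R0Q112.q2418_0) (q_cons (Vale.Agent.P032.Lt.q R0Q112.q2418_1) (q_cons (Vale.Agent.P032.Lt.q R0Q112.q2418_2) (q_cons (Vale.Agent.P032.Lt.q R0Q112.q2418_3) (q_cons (Vale.Agent.P032.Lt.q R0Q112.q2418_4) (q_cons (Vale.Agent.P032.Lt.q R0Q112.q2418_5) (q_cons (Vale.Agent.P032.Lt.q R0Q112.q2418_6) (q_cons (Vale.Agent.P032.Lt.q R0Q112.q2418_7) (q_cons (Vale.Agent.P032.Lt.q R0Q112.q2418_8) (q_cons (Vale.Agent.P032.Lt.q R0Q112.q2418_9) q_nil)))))))))))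

theorem p2419 : Pat 73 73 TBm TCm (CB.map Fm) R0Q113.P2419 R0Q113.I2419 := Vale.Agent.P032.Lt.pat_eq (E' := R0Q113.E) eB (pat_step (by decide +kernel) (q_cons (Vale.Agent.P032.Lt.q R0Q113.q2419_0) (q_cons (Vale.Agent.P032.Lt.q R0Q113.q2419_1) (q_cons (Vale.Agent.P032.Lt.q R0Q113.q2419_2) (q_cons (Vale.Agent.P032.Lt.q R0Q113.q2419_3) (q_cons (Vale.Agent.P032.Lt.q R0Q113.q2419_4) (q_cons (Vale.Agent.P032.Lt.q R0Q113.q2419_5) (q_cons (Vale.Agent.P032.Lt.q R0Q113.q2419_6) (q_cons (Vale.Agent.P032.Lt.q R0Q113.q2419_7) (q_cons (Vale.Agent.P032.Lt.q R0Q113.q2419_8) (q_cons (Vale.Agent.P032.Lt.q R0Q113.q2419_9) (q_cons (Vale.Agent.P032.Lt.q R0Q113.q2419_10) (q_cons (Vale.Agent.P032.Lt.q R0Q113.q2419_11) (q_cons (Vale.Agent.P032.Lt.q R0Q113.q2419_12) (q_cons (Vale.Agent.P032.Lt.q R0Q113.q2419_13) (q_cons (Vale.Agent.P032.Lt.q R0Q113.q2419_14) (q_cons (Vale.Agent.P032.Lt.q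 R0Q113.q2419_15) (q_cons (Vale.Agent.P032.Lt.q R0Q113.q2419_16) (q_cons (Vale.Agent.P032.Lt.q R0Q113.q2419_17) (q_cons (Vale.Agent.P032.Lt.q R0Q113.q2419_18) q_nil))))))))))))))))))))

def C2420 : List ℕ := [0, 4, 8, 12, 16, 20, 24, 475137, 477185, 739329]
theorem p2420 : Pat 73 73 TBm TCm (C2420.map Fm) R0Q113.P2420 R0Q113.I2420 := Vale.Agent.P032.Lt.pat_eq (E' := R0Q113.E2420) (by decide +kernel) (pat_step (by decide +kernel) (q_cons (Vale.Agent.P032.Lt.q R0Q113.q2420_0) (q_cons (Vale.Agent.P032.Lt.q R0Q113.q2420_1) (q_cons (Vale.Agent.P032.Lt.q R0Q113.q2420_2) (q_cons (Vale.Agent.P032.Lt.q R0Q113.q2420_3) (q_cons (Vale.Agent.P032.Lt.q R0Q113.q2420_4) (q_cons (Vale.Agent.P032.Lt.q R0Q113.q2420_5) (q_cons (Vale.Agent.P032.Lt.q R0Q113.q2420_6) (q_cons (Vale.Agent.P032.Lt.q R0Q113.q2420_7) (q_cons (Vale.Agent.P032.Lt.q R0Q113.q2420_8) (q_cons (Vale.Agent.P032.Lt.q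 R0Q113.q2420_9) (q_cons (Vale.Agent.P032.Lt.q R0Q113.q2420_10) (q_cons (Vale.Agent.P032.Lt.q R0Q113.q2420_11) q_nil)))))))))))))

theorem p2421 : Pat 73 73 TBm TCm (CB.map Fm) R0Q113.P2421 R0Q113.I2421 := Vale.Agent.P032.Lt.pat_eq (E' := R0Q113.E) eB (pat_step (by decide +kernel) (q_cons (Vale.Agent.P032.Lt.q R0Q113.q2421_0) (q_cons (Vale.Agent.P032.Lt.q R0Q113.q2421_1) q_nil)))

def C2422 : List ℕ := [0, 4, 8, 12, 16, 20, 24, 349185, 606209]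
theorem p2422 : Pat 73 73 TBm TCm (C2422.map Fm) R0Q113.P2422 R0Q113.I2422 := Vale.Agent.P032.Lt.pat_eq (E' := R0Q113.E2422) (by decide +kernel) (pat_step (by decide +kernel) (q_cons (Vale.Agent.P032.Lt.q R0Q113.q2422_0) (q_cons (Vale.Agent.P032.Lt.q R0Q113.q2422_1) q_nil)))

theorem p2423 : Pat 73 73 TBm TCm (CB.map Fm) R0Q113.P2423 R0Q113.I2423 := Vale.Agent.P032.Lt.pat_eq (E' := R0Q113.E) eB (pat_step (by decide +kernel) (q_cons (Vale.Agent.P032.Lt.q R0Q113.q2423_0) (q_cons (Vale.Agent.P032.Lt.q R0Q113.q2423_1) q_nil)))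

theorem p2424 : Pat 73 73 TBm TCm (CB.map Fm) R0Q113.P2424 R0Q113.I2424 := Vale.Agent.P032.Lt.pat_eq (E' := R0Q113.E) eB (pat_step (by decide +kernel) (q_cons (Vale.Agent.P032.Lt.q R0Q113.q2424_0) (q_cons (Vale.Agent.P032.Lt.q R0Q113.q2424_1) q_nil)))

theorem p2425 : Pat 73 73 TBm TCm (CB.map Fm) R0Q113.P2425 R0Q113.I2425 := Vale.Agent.P032.Lt.pat_eq (E' := R0Q113.E) eB (pat_step (by decide +kernel) (q_cons (Vale.Agent.P032.Lt.q R0Q113.q2425_0) (q_cons (Vale.Agent.P032.Lt.q R0Q113.q2425_1) q_nil)))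

theorem p2426 : Pat 73 73 TBm TCm (CB.map Fm) R0Q113.P2426 R0Q113.I2426 := Vale.Agent.P032.Lt.pat_eq (E' := R0Q113.E) eB (pat_step (by decide +kernel) (q_cons (Vale.Agent.P032.Lt.q R0Q113.q2426_0) (q_cons (Vale.Agent.P032.Lt.q R0Q113.q2426_1) (q_cons (Vale.Agent.P032.Lt.q R0Q113.q2426_2) (q_cons (Vale.Agent.P032.Lt.q R0Q113.q2426_3) (q_cons (Vale.Agent.P032.Lt.q R0Q113.q2426_4) (q_cons (Vale.Agent.P032.Lt.q R0Q113.q2426_5) (q_cons (Vale.Agent.P032.Lt.q R0Q113.q2426_6) q_nil))))))))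

theorem p2427 : Pat 73 73 TBm TCm (CB.map Fm) R0Q113.P2427 R0Q113.I2427 := Vale.Agent.P032.Lt.pat_eq (E' := R0Q113.E) eB (pat_step (by decide +kernel) (q_cons (Vale.Agent.P032.Lt.q R0Q113.q2427_0) (q_cons (Vale.Agent.P032.Lt.q R0Q113.q2427_1) (q_cons (Vale.Agent.P032.Lt.q R0Q113.q2427_2) (q_cons (Vale.Agent.P032.Lt.q R0Q113.q2427_3) (q_cons (Vale.Agent.P032.Lt.q R0Q113.q2427_4) q_nil))))))

theorem p2428 : Pat 73 73 TBm TCm (CB.map Fm) R0Q113.P2428 R0Q113.I2428 := Vale.Agent.P032.Lt.pat_eq (E' := R0Q113.E) eB (pat_step (by decide +kernel) (q_cons (Vale.Agent.P032.Lt.q R0Q113.q2428_0) q_nil))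

def C2429 : List ℕ := [0, 4, 8, 12, 16, 20, 24, 347137, 353281, 475137, 611329, 617473, 737281]
theorem p2429 : Pat 73 73 TBm TCm (C2429.map Fm) R0Q113.P2429 R0Q113.I2429 := Vale.Agent.P032.Lt.pat_eq (E' := R0Q113.E2429) (by decide +kernel) (pat_step (by decide +kernel) (q_cons (Vale.Agent.P032.Lt.q R0Q113.q2429_0) (q_cons (Vale.Agent.P032.Lt.q R0Q113.q2429_1) (q_cons (Vale.Agent.P032.Lt.q R0Q113.q2429_2) (q_cons (Vale.Agent.P032.Lt.q R0Q113.q2429_3) (q_cons (Vale.Agent.P032.Lt.q R0Q113.q2429_4) (q_cons (Vale.Agent.P032.Lt.q R0Q113.q2429_5) (q_cons (Vale.Agent.P032.Lt.q R0Q113.q2429_6) (q_cons (Vale.Agent.P032.Lt.q R0Q113.q2429_7) (q_cons (Vale.Agent.P032.Lt.q R0Q113.q2429_8) (q_cons (Vale.Agent.P032.Lt.q R0Q113.q2429_9) (q_cons (Vale.Agent.P032.Lt.q R0Q113.q2429_10) (q_cons (Vale.Agent.P032.Lt.q R0Q113.q2429_11) (q_cons (Vale.Agent.P032.Lt.q R0Q113.q2429_12)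 (q_cons (Vale.Agent.P032.Lt.q R0Q113.q2429_13) (q_cons (Vale.Agent.P032.Lt.q R0Q113.q2429_14) (q_cons (Vale.Agent.P032.Lt.q R0Q113.q2429_15) (q_cons (Vale.Agent.P032.Lt.q R0Q113.q2429_16) (q_cons (Vale.Agent.P032.Lt.q R0Q113.q2429_17) (q_cons (Vale.Agent.P032.Lt.q R0Q113.q2429_18) (q_cons (Vale.Agent.P032.Lt.q R0Q113.q2429_19) (q_cons (Vale.Agent.P032.Lt.q R0Q113.q2429_20) (q_cons (Vale.Agent.P032.Lt.q R0Q113.q2429_21) (q_cons (Vale.Agent.P032.Lt.q R0Q113.q2429_22) q_nil))))))))))))))))))))))))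

theorem p2430 : Pat 73 73 TBm TCm (CB.map Fm) R0Q113.P2430 R0Q113.I2430 := Vale.Agent.P032.Lt.pat_eq (E' := R0Q113.E) eB (pat_step (by decide +kernel) (q_cons (Vale.Agent.P032.Lt.q R0Q113.q2430_0) (q_cons (Vale.Agent.P032.Lt.q R0Q113.q2430_1) (q_cons (Vale.Agent.P032.Lt.q R0Q113.q2430_2) (q_cons (Vale.Agent.P032.Lt.q R0Q113.q2430_3) (q_cons (Vale.Agent.P032.Lt.q R0Q113.q2430_4) (q_cons (Vale.Agent.P032.Lt.q R0Q113.q2430_5) (q_cons (Vale.Agent.P032.Lt.q R0Q113.q2430_6) (q_cons (Vale.Agent.P032.Lt.q R0Q113.q2430_7) (q_cons (Vale.Agent.P032.Lt.q R0Q113.q2430_8) (q_cons (Vale.Agent.P032.Lt.q R0Q113.q2430_9) (q_cons (Vale.Agent.P032.Lt.q R0Q113.q2430_10) (q_cons (Vale.Agent.P032.Lt.q R0Q113.q2430_11) q_nil)))))))))))))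

theorem p2431 : Pat 73 73 TBm TCm (CB.map Fm) R0Q113.P2431 R0Q113.I2431 := Vale.Agent.P032.Lt.pat_eq (E' := R0Q113.E) eB (pat_step (by decide +kernel) (q_cons (Vale.Agent.P032.Lt.q R0Q113.q2431_0) q_nil))

def L : List (List ℕ) := [R0Q108.P2304, R0Q108.P2305, R0Q108.P2306, R0Q108.P2307, R0Q108.P2308, R0Q108.P2309, R0Q108.P2310, R0Q108.P2311, R0Q108.P2312, R0Q108.P2313, R0Q108.P2314, R0Q108.P2315, R0Q108.P2316, R0Q108.P2317, R0Q108.P2318, R0Q108.P2319, R0Q108.P2320, R0Q108.P2321, R0Q109.P2322, R0Q109.P2323, R0Q109.P2324, R0Q109.P2325, R0Q109.P2326, R0Q109.P2327, R0Q109.P2328, R0Q109.P2329, R0Q109.P2330, R0Q109.P2331, R0Q109.P2332, R0Q109.P2333, R0Q109.P2334, R0Q109.P2335, R0Q109.P2336, R0Q109.P2337, R0Q109.P2338, R0Q109.P2339, R0Q109.P2340, R0Q109.P2341, R0Q109.P2342, R0Q109.P2343, R0Q109.P2344, R0Q109.P2345, R0Q109.P2346, R0Q110.P2347, R0Q110.P2348,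 R0Q110.P2349, R0Q110.P2350, R0Q110.P2351, R0Q110.P2352, R0Q110.P2353, R0Q110.P2354, R0Q110.P2355, R0Q110.P2356, R0Q110.P2357, R0Q110.P2358, R0Q110.P2359, R0Q110.P2360, R0Q110.P2361, R0Q110.P2362, R0Q110.P2363, R0Q110.P2364, R0Q110.P2365, R0Q110.P2366, R0Q110.P2367, R0Q110.P2368, R0Q110.P2369, R0Q110.P2370, R0Q110.P2371, R0Q110.P2372, R0Q110.P2373, R0Q110.P2374, R0Q110.P2375, R0Q110.P2376, R0Q110.P2377, R0Q111.P2378, R0Q111.P2379, R0Q111.P2380, R0Q111.P2381, R0Q111.P2382, R0Q111.P2383, R0Q111.P2384, R0Q111.P2385, R0Q111.P2386, R0Q111.P2387, R0Q111.P2388, R0Q111.P2389, R0Q111.P2390, R0Q111.P2391, R0Q111.P2392, R0Q111.P2393, R0Q111.P2394, R0Q111.P2395, R0Q111.P2396, R0Q111.P2397, R0Q111.P2398, R0Q111.P2399, R0Q111.P2400, R0Q111.P2401, R0Q111.P2402, R0Q111.P2403, R0Q112.P2404, R0Q112.P2405, R0Q112.P2406, R0Q112.P2407, R0Q112.P2408, R0Q112.P2409, R0Q112.P2410,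 R0Q112.P2411, R0Q112.P2412, R0Q112.P2413, R0Q112.P2414, R0Q112.P2415, R0Q112.P2416, R0Q112.P2417, R0Q112.P2418, R0Q113.P2419, R0Q113.P2420, R0Q113.P2421, R0Q113.P2422, R0Q113.P2423, R0Q113.P2424, R0Q113.P2425, R0Q113.P2426, R0Q113.P2427, R0Q113.P2428, R0Q113.P2429, R0Q113.P2430, R0Q113.P2431]

theorem all : ∀ P ∈ L, CrtF 73 73 TBm TCm (Vale.Agent.P032.Fam.fam2 (Vale.Agent.P032.Fam.im0)) P := crtF_cons p2304 (crtF_cons p2305 (crtF_cons p2306 (crtF_cons p2307 (crtF_cons p2308 (crtF_cons p2309 (crtF_cons p2310 (crtF_cons p2311 (crtF_cons p2312 (crtF_cons p2313 (crtF_cons p2314 (crtF_cons p2315 (crtF_cons p2316 (crtF_cons p2317 (crtF_cons p2318 (crtF_cons p2319 (crtF_cons p2320 (crtF_cons p2321 (crtF_cons p2322 (crtF_cons p2323 (crtF_cons p2324 (crtF_cons p2325 (crtF_cons p2326 (crtF_cons p2327 (crtF_cons p2328 (crtF_cons p2329 (crtF_cons p2330 (crtF_cons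 p2331 (crtF_cons p2332 (crtF_cons p2333 (crtF_cons p2334 (crtF_cons p2335 (crtF_cons p2336 (crtF_cons p2337 (crtF_cons p2338 (crtF_cons p2339 (crtF_cons p2340 (crtF_cons p2341 (crtF_cons p2342 (crtF_cons p2343 (crtF_cons p2344 (crtF_cons p2345 (crtF_cons p2346 (crtF_cons p2347 (crtF_cons p2348 (crtF_cons p2349 (crtF_cons p2350 (crtF_cons p2351 (crtF_cons p2352 (crtF_cons p2353 (crtF_cons p2354 (crtF_cons p2355 (crtF_cons p2356 (crtF_cons p2357 (crtF_cons p2358 (crtF_cons p2359 (crtF_cons p2360 (crtF_cons p2361 (crtF_cons p2362 (crtF_cons p2363 (crtF_cons p2364 (crtF_cons p2365 (crtF_cons p2366 (crtF_cons p2367 (crtF_cons p2368 (crtF_cons p2369 (crtF_cons p2370 (crtF_cons p2371 (crtF_cons p2372 (crtF_cons p2373 (crtF_cons p2374 (crtF_cons p2375 (crtF_cons p2376 (crtF_cons p2377 (crtF_cons p2378 (crtF_cons p2379 (crtF_cons p2380 (crtF_cons p2381 (crtF_cons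 p2382 (crtF_cons p2383 (crtF_cons p2384 (crtF_cons p2385 (crtF_cons p2386 (crtF_cons p2387 (crtF_cons p2388 (crtF_cons p2389 (crtF_cons p2390 (crtF_cons p2391 (crtF_cons p2392 (crtF_cons p2393 (crtF_cons p2394 (crtF_cons p2395 (crtF_cons p2396 (crtF_cons p2397 (crtF_cons p2398 (crtF_cons p2399 (crtF_cons p2400 (crtF_cons p2401 (crtF_cons p2402 (crtF_cons p2403 (crtF_cons p2404 (crtF_cons p2405 (crtF_cons p2406 (crtF_cons p2407 (crtF_cons p2408 (crtF_cons p2409 (crtF_cons p2410 (crtF_cons p2411 (crtF_cons p2412 (crtF_cons p2413 (crtF_cons p2414 (crtF_cons p2415 (crtF_cons p2416 (crtF_cons p2417 (crtF_cons p2418 (crtF_cons p2419 (crtF_cons p2420 (crtF_cons p2421 (crtF_cons p2422 (crtF_cons p2423 (crtF_cons p2424 (crtF_cons p2425 (crtF_cons p2426 (crtF_cons p2427 (crtF_cons p2428 (crtF_cons p2429 (crtF_cons p2430 (crtF_cons p2431 crtF_nil)))))))))))))))))))))))))))))))))))))))))))))))))))))))))))))))))))))))))))))))))))))))))))))))))))))))))))))))))))))))))))))))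

theorem ch : chT 73 73 TCm s0_018 L = true := by decide +kernel

end Vale.Agent.P032X.Cert.XP.B1.R0H018
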