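import Vale.Agent.P032X.H892.LtH
import Vale.Agent.P032X.H286.W73
import Vale.Agent.P032X.Cert.XP.B1.R0T
import Vale.Agent.P032X.Cert.XP.B1.R0Q174
import Vale.Agent.P032X.Cert.XP.B1.R0Q175
import Vale.Agent.P032X.Cert.XP.B1.R0Q176
import Vale.Agent.P032X.Cert.XP.B1.R0Q177
import Vale.Agent.P032X.Cert.XP.B1.R0Q178
import Vale.Agent.P032X.Cert.XP.B1.R0Q179
import Vale.Agent.P032X.Cert.XP.B1.R0Q180
import Vale.Agent.P032X.Cert.XP.B1.R0Q181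

set_option maxRecDepth 1000000

namespace Vale.Agent.P032X.Cert.XP.B1.R0H028

open Vale.Agent.P032.H820.K Vale.Agent.P032.H357.MK Vale.Agent.P032.H286.E Vale.Agent.P032.H61 Vale.Agent.P032X.Cert.XP.B1

noncomputable abbrev Fm : ℕ → List ℕ := Vale.Agent.P032.Fam.fam2 (Vale.Agent.P032.Fam.im0)

def CB : List ℕ := [0, 4, 8, 12, 16, 20, 24]

theorem eB : Vale.Agent.P032.Lt.eqLL (CB.map Fm) R0Q174.E = true := by decide +kernel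

theorem p3584 : Pat 73 73 TBm TCm (CB.map Fm) R0Q174.P3584 R0Q174.I3584 := Vale.Agent.P032.Lt.pat_eq (E' := R0Q174.E) eB (pat_step (by decide +kernel) (q_cons (Vale.Agent.P032.Lt.q R0Q174.q3584_0) (q_cons (Vale.Agent.P032.Lt.q R0Q174.q3584_1) q_nil)))

theorem p3585 : Pat 73 73 TBm TCm (CB.map Fm) R0Q174.P3585 R0Q174.I3585 := Vale.Agent.P032.Lt.pat_eq (E' := R0Q174.E) eB (pat_step (by decide +kernel) (q_cons (Vale.Agent.P032.Lt.q R0Q174.q3585_0) (q_cons (Vale.Agent.P032.Lt.q R0Q174.q3585_1) (q_cons (Vale.Agent.P032.Lt.q R0Q174.q3585_2) (q_cons (Vale.Agent.P032.Lt.q R0Q174.q3585_3) q_nil)))))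

theorem p3586 : Pat 73 73 TBm TCm (CB.map Fm) R0Q174.P3586 R0Q174.I3586 := Vale.Agent.P032.Lt.pat_eq (E' := R0Q174.E) eB (pat_step (by decide +kernel) (q_cons (Vale.Agent.P032.Lt.q R0Q174.q3586_0) (q_cons (Vale.Agent.P032.Lt.q R0Q174.q3586_1) (q_cons (Vale.Agent.P032.Lt.q R0Q174.q3586_2) (q_cons (Vale.Agent.P032.Lt.q R0Q174.q3586_3) (q_cons (Vale.Agent.P032.Lt.q R0Q174.q3586_4) (q_cons (Vale.Agent.P032.Lt.q R0Q174.q3586_5) (q_cons (Vale.Agent.P032.Lt.q R0Q174.q3586_6) (q_cons (Vale.Agent.P032.Lt.q R0Q174.q3586_7) (q_cons (Vale.Agent.P032.Lt.q R0Q174.q3586_8) (q_cons (Vale.Agent.P032.Lt.q R0Q174.q3586_9) (q_cons (Vale.Agent.P032.Lt.q R0Q174.q3586_10) (q_cons (Vale.Agent.P032.Lt.q R0Q174.q3586_11) (q_cons (Vale.Agent.P032.Lt.q R0Q174.q3586_12) (q_cons (Vale.Agent.P032.Lt.q R0Q174.q3586_13) (q_cons (Vale.Agent.P032.Lt.q R0Q174.q3586_14) q_nil))))))))))))))))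

theorem p3587 : Pat 73 73 TBm TCm (CB.map Fm) R0Q174.P3587 R0Q174.I3587 := Vale.Agent.P032.Lt.pat_eq (E' := R0Q174.E) eB (pat_step (by decide +kernel) (q_cons (Vale.Agent.P032.Lt.q R0Q174.q3587_0) (q_cons (Vale.Agent.P032.Lt.q R0Q174.q3587_1) (q_cons (Vale.Agent.P032.Lt.q R0Q174.q3587_2) (q_cons (Vale.Agent.P032.Lt.q R0Q174.q3587_3) (q_cons (Vale.Agent.P032.Lt.q R0Q174.q3587_4) (q_cons (Vale.Agent.P032.Lt.q R0Q174.q3587_5) q_nil)))))))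

def C3588 : List ℕ := [0, 4, 8, 12, 16, 20, 24, 606209, 737281]
theorem p3588 : Pat 73 73 TBm TCm (C3588.map Fm) R0Q174.P3588 R0Q174.I3588 := Vale.Agent.P032.Lt.pat_eq (E' := R0Q174.E3588) (by decide +kernel) (pat_step (by decide +kernel) (q_cons (Vale.Agent.P032.Lt.q R0Q174.q3588_0) (q_cons (Vale.Agent.P032.Lt.q R0Q174.q3588_1) (q_cons (Vale.Agent.P032.Lt.q R0Q174.q3588_2) (q_cons (Vale.Agent.P032.Lt.q R0Q174.q3588_3) q_nil)))))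

theorem p3589 : Pat 73 73 TBm TCm (CB.map Fm) R0Q174.P3589 R0Q174.I3589 := Vale.Agent.P032.Lt.pat_eq (E' := R0Q174.E) eB (pat_step (by decide +kernel) (q_cons (Vale.Agent.P032.Lt.q R0Q174.q3589_0) q_nil))

def C3590 : List ℕ := [0, 4, 8, 12, 16, 20, 24, 218113, 349185, 475137, 607233, 611329]
theorem p3590 : Pat 73 73 TBm TCm (C3590.map Fm) R0Q174.P3590 R0Q174.I3590 := Vale.Agent.P032.Lt.pat_eq (E' := R0Q174.E3590) (by decide +kernel) (pat_step (by decide +kernel) (q_cons (Vale.Agent.P032.Lt.q R0Q174.q3590_0) q_nil))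

theorem p3591 : Pat 73 73 TBm TCm (CB.map Fm) R0Q174.P3591 R0Q174.I3591 := Vale.Agent.P032.Lt.pat_eq (E' := R0Q174.E) eB (pat_step (by decide +kernel) (q_cons (Vale.Agent.P032.Lt.q R0Q174.q3591_0) (q_cons (Vale.Agent.P032.Lt.q R0Q174.q3591_1) (q_cons (Vale.Agent.P032.Lt.q R0Q174.q3591_2) q_nil))))

theorem p3592 : Pat 73 73 TBm TCm (CB.map Fm) R0Q174.P3592 R0Q174.I3592 := Vale.Agent.P032.Lt.pat_eq (E' := R0Q174.E) eB (pat_step (by decide +kernel) (q_cons (Vale.Agent.P032.Lt.q R0Q174.q3592_0) (q_cons (Vale.Agent.P032.Lt.q R0Q174.q3592_1) (q_cons (Vale.Agent.P032.Lt.q R0Q174.q3592_2) (q_cons (Vale.Agent.P032.Lt.q R0Q174.q3592_3) (q_cons (Vale.Agent.P032.Lt.q R0Q174.q3592_4) (q_cons (Vale.Agent.P032.Lt.q R0Q174.q3592_5) q_nil)))))))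

theorem p3593 : Pat 73 73 TBm TCm (CB.map Fm) R0Q174.P3593 R0Q174.I3593 := Vale.Agent.P032.Lt.pat_eq (E' := R0Q174.E) eB (pat_step (by decide +kernel) (q_cons (Vale.Agent.P032.Lt.q R0Q174.q3593_0) (q_cons (Vale.Agent.P032.Lt.q R0Q174.q3593_1) (q_cons (Vale.Agent.P032.Lt.q R0Q174.q3593_2) (q_cons (Vale.Agent.P032.Lt.q R0Q174.q3593_3) q_nil)))))

theorem p3594 : Pat 73 73 TBm TCm (CB.map Fm) R0Q174.P3594 R0Q174.I3594 := Vale.Agent.P032.Lt.pat_eq (E' := R0Q174.E) eB (pat_step (by decide +kernel) (q_cons (Vale.Agent.P032.Lt.q R0Q174.q3594_0) q_nil))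

theorem p3595 : Pat 73 73 TBm TCm (CB.map Fm) R0Q174.P3595 R0Q174.I3595 := Vale.Agent.P032.Lt.pat_eq (E' := R0Q174.E) eB (pat_step (by decide +kernel) (q_cons (Vale.Agent.P032.Lt.q R0Q174.q3595_0) q_nil))

theorem p3596 : Pat 73 73 TBm TCm (CB.map Fm) R0Q174.P3596 R0Q174.I3596 := Vale.Agent.P032.Lt.pat_eq (E' := R0Q174.E) eB (pat_step (by decide +kernel) (q_cons (Vale.Agent.P032.Lt.q R0Q174.q3596_0) q_nil))

theorem p3597 : Pat 73 73 TBm TCm (CB.map Fm) R0Q174.P3597 R0Q174.I3597 := Vale.Agent.P032.Lt.pat_eq (E' := R0Q174.E) eB (pat_step (by decide +kernel) (q_cons (Vale.Agent.P032.Lt.q R0Q174.q3597_0) q_nil))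

theorem p3598 : Pat 73 73 TBm TCm (CB.map Fm) R0Q174.P3598 R0Q174.I3598 := Vale.Agent.P032.Lt.pat_eq (E' := R0Q174.E) eB (pat_step (by decide +kernel) (q_cons (Vale.Agent.P032.Lt.q R0Q174.q3598_0) (q_cons (Vale.Agent.P032.Lt.q R0Q174.q3598_1) (q_cons (Vale.Agent.P032.Lt.q R0Q174.q3598_2) (q_cons (Vale.Agent.P032.Lt.q R0Q174.q3598_3) (q_cons (Vale.Agent.P032.Lt.q R0Q174.q3598_4) (q_cons (Vale.Agent.P032.Lt.q R0Q174.q3598_5) (q_cons (Vale.Agent.P032.Lt.q R0Q174.q3598_6) (q_cons (Vale.Agent.P032.Lt.q R0Q174.q3598_7) (q_cons (Vale.Agent.P032.Lt.q R0Q174.q3598_8) (q_cons (Vale.Agent.P032.Lt.q R0Q174.q3598_9) (q_cons (Vale.Agent.P032.Lt.q R0Q174.q3598_10) (q_cons (Vale.Agent.P032.Lt.q R0Q174.q3598_11) (q_cons (Vale.Agent.P032.Lt.q R0Q174.q3598_12) (q_cons (Vale.Agent.P032.Lt.q R0Q174.q3598_13) (q_cons (Vale.Agent.P032.Lt.q R0Q174.q3598_14) (q_cons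 (Vale.Agent.P032.Lt.q R0Q174.q3598_15) (q_cons (Vale.Agent.P032.Lt.q R0Q174.q3598_16) (q_cons (Vale.Agent.P032.Lt.q R0Q174.q3598_17) (q_cons (Vale.Agent.P032.Lt.q R0Q174.q3598_18) (q_cons (Vale.Agent.P032.Lt.q R0Q174.q3598_19) (q_cons (Vale.Agent.P032.Lt.q R0Q174.q3598_20) (q_cons (Vale.Agent.P032.Lt.q R0Q174.q3598_21) (q_cons (Vale.Agent.P032.Lt.q R0Q174.q3598_22) (q_cons (Vale.Agent.P032.Lt.q R0Q174.q3598_23) (q_cons (Vale.Agent.P032.Lt.q R0Q174.q3598_24) (q_cons (Vale.Agent.P032.Lt.q R0Q174.q3598_25) q_nil)))))))))))))))))))))))))))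

theorem p3599 : Pat 73 73 TBm TCm (CB.map Fm) R0Q174.P3599 R0Q174.I3599 := Vale.Agent.P032.Lt.pat_eq (E' := R0Q174.E) eB (pat_step (by decide +kernel) (q_cons (Vale.Agent.P032.Lt.q R0Q174.q3599_0) (q_cons (Vale.Agent.P032.Lt.q R0Q174.q3599_1) q_nil)))

theorem p3600 : Pat 73 73 TBm TCm (CB.map Fm) R0Q174.P3600 R0Q174.I3600 := Vale.Agent.P032.Lt.pat_eq (E' := R0Q174.E) eB (pat_step (by decide +kernel) (q_cons (Vale.Agent.P032.Lt.q R0Q174.q3600_0) (q_cons (Vale.Agent.P032.Lt.q R0Q174.q3600_1) (q_cons (Vale.Agent.P032.Lt.q R0Q174.q3600_2) (q_cons (Vale.Agent.P032.Lt.q R0Q174.q3600_3) q_nil)))))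

theorem p3601 : Pat 73 73 TBm TCm (CB.map Fm) R0Q174.P3601 R0Q174.I3601 := Vale.Agent.P032.Lt.pat_eq (E' := R0Q174.E) eB (pat_step (by decide +kernel) (q_cons (Vale.Agent.P032.Lt.q R0Q174.q3601_0) (q_cons (Vale.Agent.P032.Lt.q R0Q174.q3601_1) (q_cons (Vale.Agent.P032.Lt.q R0Q174.q3601_2) q_nil))))

theorem p3602 : Pat 73 73 TBm TCm (CB.map Fm) R0Q174.P3602 R0Q174.I3602 := Vale.Agent.P032.Lt.pat_eq (E' := R0Q174.E) eB (pat_step (by decide +kernel) (q_cons (Vale.Agent.P032.Lt.q R0Q174.q3602_0) (q_cons (Vale.Agent.P032.Lt.q R0Q174.q3602_1) (q_cons (Vale.Agent.P032.Lt.q R0Q174.q3602_2) q_nil))))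

theorem p3603 : Pat 73 73 TBm TCm (CB.map Fm) R0Q174.P3603 R0Q174.I3603 := Vale.Agent.P032.Lt.pat_eq (E' := R0Q174.E) eB (pat_step (by decide +kernel) (q_cons (Vale.Agent.P032.Lt.q R0Q174.q3603_0) (q_cons (Vale.Agent.P032.Lt.q R0Q174.q3603_1) (q_cons (Vale.Agent.P032.Lt.q R0Q174.q3603_2) (q_cons (Vale.Agent.P032.Lt.q R0Q174.q3603_3) (q_cons (Vale.Agent.P032.Lt.q R0Q174.q3603_4) (q_cons (Vale.Agent.P032.Lt.q R0Q174.q3603_5) (q_cons (Vale.Agent.P032.Lt.q R0Q174.q3603_6) (q_cons (Vale.Agent.P032.Lt.q R0Q174.q3603_7) (q_cons (Vale.Agent.P032.Lt.q R0Q174.q3603_8) (q_cons (Vale.Agent.P032.Lt.q R0Q174.q3603_9) q_nil)))))))))))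

def C3604 : List ℕ := [0, 4, 8, 12, 16, 20, 24, 737281]
theorem p3604 : Pat 73 73 TBm TCm (C3604.map Fm) R0Q174.P3604 R0Q174.I3604 := Vale.Agent.P032.Lt.pat_eq (E' := R0Q174.E3604) (by decide +kernel) (pat_step (by decide +kernel) (q_cons (Vale.Agent.P032.Lt.q R0Q174.q3604_0) (q_cons (Vale.Agent.P032.Lt.q R0Q174.q3604_1) (q_cons (Vale.Agent.P032.Lt.q R0Q174.q3604_2) (q_cons (Vale.Agent.P032.Lt.q R0Q174.q3604_3) (q_cons (Vale.Agent.P032.Lt.q R0Q174.q3604_4) (q_cons (Vale.Agent.P032.Lt.q R0Q174.q3604_5) (q_cons (Vale.Agent.P032.Lt.q R0Q174.q3604_6) (q_cons (Vale.Agent.P032.Lt.q R0Q174.q3604_7) (q_cons (Vale.Agent.P032.Lt.q R0Q174.q3604_8) q_nil))))))))))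

theorem p3605 : Pat 73 73 TBm TCm (CB.map Fm) R0Q174.P3605 R0Q174.I3605 := Vale.Agent.P032.Lt.pat_eq (E' := R0Q174.E) eB (pat_step (by decide +kernel) (q_cons (Vale.Agent.P032.Lt.q R0Q174.q3605_0) (q_cons (Vale.Agent.P032.Lt.q R0Q174.q3605_1) (q_cons (Vale.Agent.P032.Lt.q R0Q174.q3605_2) (q_cons (Vale.Agent.P032.Lt.q R0Q174.q3605_3) (q_cons (Vale.Agent.P032.Lt.q R0Q174.q3605_4) (q_cons (Vale.Agent.P032.Lt.q R0Q174.q3605_5) (q_cons (Vale.Agent.P032.Lt.q R0Q174.q3605_6) (q_cons (Vale.Agent.P032.Lt.q R0Q174.q3605_7) (q_cons (Vale.Agent.P032.Lt.q R0Q174.q3605_8) (q_cons (Vale.Agent.P032.Lt.q R0Q174.q3605_9) (q_cons (Vale.Agent.P032.Lt.q R0Q174.q3605_10) (q_cons (Vale.Agent.P032.Lt.q R0Q174.q3605_11) (q_cons (Vale.Agent.P032.Lt.q R0Q174.q3605_12) q_nil))))))))))))))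

theorem p3606 : Pat 73 73 TBm TCm (CB.map Fm) R0Q174.P3606 R0Q174.I3606 := Vale.Agent.P032.Lt.pat_eq (E' := R0Q174.E) eB (pat_step (by decide +kernel) (q_cons (Vale.Agent.P032.Lt.q R0Q174.q3606_0) (q_cons (Vale.Agent.P032.Lt.q R0Q174.q3606_1) (q_cons (Vale.Agent.P032.Lt.q R0Q174.q3606_2) (q_cons (Vale.Agent.P032.Lt.q R0Q174.q3606_3) q_nil)))))

theorem p3607 : Pat 73 73 TBm TCm (CB.map Fm) R0Q174.P3607 R0Q174.I3607 := Vale.Agent.P032.Lt.pat_eq (E' := R0Q174.E) eB (pat_step (by decide +kernel) (q_cons (Vale.Agent.P032.Lt.q R0Q174.q3607_0) (q_cons (Vale.Agent.P032.Lt.q R0Q174.q3607_1) (q_cons (Vale.Agent.P032.Lt.q R0Q174.q3607_2) (q_cons (Vale.Agent.P032.Lt.q R0Q174.q3607_3) q_nil)))))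

theorem p3608 : Pat 73 73 TBm TCm (CB.map Fm) R0Q174.P3608 R0Q174.I3608 := Vale.Agent.P032.Lt.pat_eq (E' := R0Q174.E) eB (pat_step (by decide +kernel) (q_cons (Vale.Agent.P032.Lt.q R0Q174.q3608_0) (q_cons (Vale.Agent.P032.Lt.q R0Q174.q3608_1) q_nil)))

theorem p3609 : Pat 73 73 TBm TCm (CB.map Fm) R0Q174.P3609 R0Q174.I3609 := Vale.Agent.P032.Lt.pat_eq (E' := R0Q174.E) eB (pat_step (by decide +kernel) (q_cons (Vale.Agent.P032.Lt.q R0Q174.q3609_0) (q_cons (Vale.Agent.P032.Lt.q R0Q174.q3609_1) (q_cons (Vale.Agent.P032.Lt.q R0Q174.q3609_2) (q_cons (Vale.Agent.P032.Lt.q R0Q174.q3609_3) (q_cons (Vale.Agent.P032.Lt.q R0Q174.q3609_4) (q_cons (Vale.Agent.P032.Lt.q R0Q174.q3609_5) (q_cons (Vale.Agent.P032.Lt.q R0Q174.q3609_6) (q_cons (Vale.Agent.P032.Lt.q R0Q174.q3609_7) (q_cons (Vale.Agent.P032.Lt.q R0Q174.q3609_8) (q_cons (Vale.Agent.P032.Lt.q R0Q174.q3609_9)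 (q_cons (Vale.Agent.P032.Lt.q R0Q174.q3609_10) (q_cons (Vale.Agent.P032.Lt.q R0Q174.q3609_11) (q_cons (Vale.Agent.P032.Lt.q R0Q174.q3609_12) (q_cons (Vale.Agent.P032.Lt.q R0Q174.q3609_13) q_nil)))))))))))))))

theorem p3610 : Pat 73 73 TBm TCm (CB.map Fm) R0Q174.P3610 R0Q174.I3610 := Vale.Agent.P032.Lt.pat_eq (E' := R0Q174.E) eB (pat_step (by decide +kernel) (q_cons (Vale.Agent.P032.Lt.q R0Q174.q3610_0) (q_cons (Vale.Agent.P032.Lt.q R0Q174.q3610_1) (q_cons (Vale.Agent.P032.Lt.q R0Q174.q3610_2) (q_cons (Vale.Agent.P032.Lt.q R0Q174.q3610_3) (q_cons (Vale.Agent.P032.Lt.q R0Q174.q3610_4) (q_cons (Vale.Agent.P032.Lt.q R0Q174.q3610_5) (q_cons (Vale.Agent.P032.Lt.q R0Q174.q3610_6) (q_cons (Vale.Agent.P032.Lt.q R0Q174.q3610_7) q_nil)))))))))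

theorem p3611 : Pat 73 73 TBm TCm (CB.map Fm) R0Q175.P3611 R0Q175.I3611 := Vale.Agent.P032.Lt.pat_eq (E' := R0Q175.E) eB (pat_step (by decide +kernel) (q_cons (Vale.Agent.P032.Lt.q R0Q175.q3611_0) (q_cons (Vale.Agent.P032.Lt.q R0Q175.q3611_1) (q_cons (Vale.Agent.P032.Lt.q R0Q175.q3611_2) (q_cons (Vale.Agent.P032.Lt.q R0Q175.q3611_3) (q_cons (Vale.Agent.P032.Lt.q R0Q175.q3611_4) (q_cons (Vale.Agent.P032.Lt.q R0Q175.q3611_5) (q_cons (Vale.Agent.P032.Lt.q R0Q175.q3611_6) (q_cons (Vale.Agent.P032.Lt.q R0Q175.q3611_7) (q_cons (Vale.Agent.P032.Lt.q R0Q175.q3611_8) (q_cons (Vale.Agent.P032.Lt.q R0Q175.q3611_9) (q_cons (Vale.Agent.P032.Lt.q R0Q175.q3611_10) q_nil))))))))))))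

theorem p3612 : Pat 73 73 TBm TCm (CB.map Fm) R0Q175.P3612 R0Q175.I3612 := Vale.Agent.P032.Lt.pat_eq (E' := R0Q175.E) eB (pat_step (by decide +kernel) (q_cons (Vale.Agent.P032.Lt.q R0Q175.q3612_0) (q_cons (Vale.Agent.P032.Lt.q R0Q175.q3612_1) (q_cons (Vale.Agent.P032.Lt.q R0Q175.q3612_2) (q_cons (Vale.Agent.P032.Lt.q R0Q175.q3612_3) (q_cons (Vale.Agent.P032.Lt.q R0Q175.q3612_4) (q_cons (Vale.Agent.P032.Lt.q R0Q175.q3612_5) (q_cons (Vale.Agent.P032.Lt.q R0Q175.q3612_6) (q_cons (Vale.Agent.P032.Lt.q R0Q175.q3612_7) q_nil)))))))))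

theorem p3613 : Pat 73 73 TBm TCm (CB.map Fm) R0Q175.P3613 R0Q175.I3613 := Vale.Agent.P032.Lt.pat_eq (E' := R0Q175.E) eB (pat_step (by decide +kernel) (q_cons (Vale.Agent.P032.Lt.q R0Q175.q3613_0) (q_cons (Vale.Agent.P032.Lt.q R0Q175.q3613_1) (q_cons (Vale.Agent.P032.Lt.q R0Q175.q3613_2) (q_cons (Vale.Agent.P032.Lt.q R0Q175.q3613_3) (q_cons (Vale.Agent.P032.Lt.q R0Q175.q3613_4) (q_cons (Vale.Agent.P032.Lt.q R0Q175.q3613_5) (q_cons (Vale.Agent.P032.Lt.q R0Q175.q3613_6) (q_cons (Vale.Agent.P032.Lt.q R0Q175.q3613_7) q_nil)))))))))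

def C3614 : List ℕ := [0, 4, 8, 12, 16, 20, 24, 212993, 475137, 737281]
theorem p3614 : Pat 73 73 TBm TCm (C3614.map Fm) R0Q175.P3614 R0Q175.I3614 := Vale.Agent.P032.Lt.pat_eq (E' := R0Q175.E3614) (by decide +kernel) (pat_step (by decide +kernel) (q_cons (Vale.Agent.P032.Lt.q R0Q175.q3614_0) (q_cons (Vale.Agent.P032.Lt.q R0Q175.q3614_1) (q_cons (Vale.Agent.P032.Lt.q R0Q175.q3614_2) (q_cons (Vale.Agent.P032.Lt.q R0Q175.q3614_3) q_nil)))))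

def C3615 : List ℕ := [0, 4, 8, 12, 16, 20, 24, 355329]
theorem p3615 : Pat 73 73 TBm TCm (C3615.map Fm) R0Q175.P3615 R0Q175.I3615 := Vale.Agent.P032.Lt.pat_eq (E' := R0Q175.E3615) (by decide +kernel) (pat_step (by decide +kernel) (q_cons (Vale.Agent.P032.Lt.q R0Q175.q3615_0) (q_cons (Vale.Agent.P032.Lt.q R0Q175.q3615_1) q_nil)))

theorem p3616 : Pat 73 73 TBm TCm (CB.map Fm) R0Q175.P3616 R0Q175.I3616 := Vale.Agent.P032.Lt.pat_eq (E' := R0Q175.E) eB (pat_step (by decide +kernel) (q_cons (Vale.Agent.P032.Lt.q R0Q175.q3616_0) q_nil))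

theorem p3617 : Pat 73 73 TBm TCm (CB.map Fm) R0Q175.P3617 R0Q175.I3617 := Vale.Agent.P032.Lt.pat_eq (E' := R0Q175.E) eB (pat_step (by decide +kernel) (q_cons (Vale.Agent.P032.Lt.q R0Q175.q3617_0) q_nil))

theorem p3618 : Pat 73 73 TBm TCm (CB.map Fm) R0Q175.P3618 R0Q175.I3618 := Vale.Agent.P032.Lt.pat_eq (E' := R0Q175.E) eB (pat_step (by decide +kernel) (q_cons (Vale.Agent.P032.Lt.q R0Q175.q3618_0) q_nil))

theorem p3619 : Pat 73 73 TBm TCm (CB.map Fm) R0Q175.P3619 R0Q175.I3619 := Vale.Agent.P032.Lt.pat_eq (E' := R0Q175.E) eB (pat_step (by decide +kernel) (q_cons (Vale.Agent.P032.Lt.q R0Q175.q3619_0) q_nil))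

theorem p3620 : Pat 73 73 TBm TCm (CB.map Fm) R0Q175.P3620 R0Q175.I3620 := Vale.Agent.P032.Lt.pat_eq (E' := R0Q175.E) eB (pat_step (by decide +kernel) (q_cons (Vale.Agent.P032.Lt.q R0Q175.q3620_0) (q_cons (Vale.Agent.P032.Lt.q R0Q175.q3620_1) (q_cons (Vale.Agent.P032.Lt.q R0Q175.q3620_2) (q_cons (Vale.Agent.P032.Lt.q R0Q175.q3620_3) (q_cons (Vale.Agent.P032.Lt.q R0Q175.q3620_4) (q_cons (Vale.Agent.P032.Lt.q R0Q175.q3620_5) (q_cons (Vale.Agent.P032.Lt.q R0Q175.q3620_6) (q_cons (Vale.Agent.P032.Lt.q R0Q175.q3620_7) (q_cons (Vale.Agent.P032.Lt.q R0Q175.q3620_8) (q_cons (Vale.Agent.P032.Lt.q R0Q175.q3620_9) (q_cons (Vale.Agent.P032.Lt.q R0Q175.q3620_10) (q_cons (Vale.Agent.P032.Lt.q R0Q175.q3620_11) (q_cons (Vale.Agent.P032.Lt.q R0Q175.q3620_12) (q_cons (Vale.Agent.P032.Lt.q R0Q175.q3620_13) (q_cons (Vale.Agent.P032.Lt.q R0Q175.q3620_14) (q_cons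 (Vale.Agent.P032.Lt.q R0Q175.q3620_15) (q_cons (Vale.Agent.P032.Lt.q R0Q175.q3620_16) (q_cons (Vale.Agent.P032.Lt.q R0Q175.q3620_17) (q_cons (Vale.Agent.P032.Lt.q R0Q175.q3620_18) (q_cons (Vale.Agent.P032.Lt.q R0Q175.q3620_19) (q_cons (Vale.Agent.P032.Lt.q R0Q175.q3620_20) (q_cons (Vale.Agent.P032.Lt.q R0Q175.q3620_21) (q_cons (Vale.Agent.P032.Lt.q R0Q175.q3620_22) (q_cons (Vale.Agent.P032.Lt.q R0Q175.q3620_23) (q_cons (Vale.Agent.P032.Lt.q R0Q175.q3620_24) (q_cons (Vale.Agent.P032.Lt.q R0Q175.q3620_25) (q_cons (Vale.Agent.P032.Lt.q R0Q175.q3620_26) (q_cons (Vale.Agent.P032.Lt.q R0Q175.q3620_27) (q_cons (Vale.Agent.P032.Lt.q R0Q175.q3620_28) (q_cons (Vale.Agent.P032.Lt.q R0Q175.q3620_29) (q_cons (Vale.Agent.P032.Lt.q R0Q175.q3620_30) (q_cons (Vale.Agent.P032.Lt.q R0Q175.q3620_31) (q_cons (Vale.Agent.P032.Lt.q R0Q175.q3620_32) (q_cons (Vale.Agent.P032.Lt.q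 R0Q175.q3620_33) (q_cons (Vale.Agent.P032.Lt.q R0Q175.q3620_34) (q_cons (Vale.Agent.P032.Lt.q R0Q175.q3620_35) (q_cons (Vale.Agent.P032.Lt.q R0Q175.q3620_36) (q_cons (Vale.Agent.P032.Lt.q R0Q175.q3620_37) (q_cons (Vale.Agent.P032.Lt.q R0Q175.q3620_38) (q_cons (Vale.Agent.P032.Lt.q R0Q175.q3620_39) (q_cons (Vale.Agent.P032.Lt.q R0Q175.q3620_40) (q_cons (Vale.Agent.P032.Lt.q R0Q175.q3620_41) (q_cons (Vale.Agent.P032.Lt.q R0Q175.q3620_42) (q_cons (Vale.Agent.P032.Lt.q R0Q175.q3620_43) q_nil)))))))))))))))))))))))))))))))))))))))))))))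

theorem p3621 : Pat 73 73 TBm TCm (CB.map Fm) R0Q175.P3621 R0Q175.I3621 := Vale.Agent.P032.Lt.pat_eq (E' := R0Q175.E) eB (pat_step (by decide +kernel) (q_cons (Vale.Agent.P032.Lt.q R0Q175.q3621_0) (q_cons (Vale.Agent.P032.Lt.q R0Q175.q3621_1) (q_cons (Vale.Agent.P032.Lt.q R0Q175.q3621_2) (q_cons (Vale.Agent.P032.Lt.q R0Q175.q3621_3) (q_cons (Vale.Agent.P032.Lt.q R0Q175.q3621_4) (q_cons (Vale.Agent.P032.Lt.q R0Q175.q3621_5) (q_cons (Vale.Agent.P032.Lt.q R0Q175.q3621_6) (q_cons (Vale.Agent.P032.Lt.q R0Q175.q3621_7) (q_cons (Vale.Agent.P032.Lt.q R0Q175.q3621_8) (q_cons (Vale.Agent.P032.Lt.q R0Q175.q3621_9) q_nil)))))))))))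

theorem p3622 : Pat 73 73 TBm TCm (CB.map Fm) R0Q175.P3622 R0Q175.I3622 := Vale.Agent.P032.Lt.pat_eq (E' := R0Q175.E) eB (pat_step (by decide +kernel) (q_cons (Vale.Agent.P032.Lt.q R0Q175.q3622_0) (q_cons (Vale.Agent.P032.Lt.q R0Q175.q3622_1) (q_cons (Vale.Agent.P032.Lt.q R0Q175.q3622_2) (q_cons (Vale.Agent.P032.Lt.q R0Q175.q3622_3) (q_cons (Vale.Agent.P032.Lt.q R0Q175.q3622_4) (q_cons (Vale.Agent.P032.Lt.q R0Q175.q3622_5) (q_cons (Vale.Agent.P032.Lt.q R0Q175.q3622_6) (q_cons (Vale.Agent.P032.Lt.q R0Q175.q3622_7) (q_cons (Vale.Agent.P032.Lt.q R0Q175.q3622_8) q_nil))))))))))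

theorem p3623 : Pat 73 73 TBm TCm (CB.map Fm) R0Q175.P3623 R0Q175.I3623 := Vale.Agent.P032.Lt.pat_eq (E' := R0Q175.E) eB (pat_step (by decide +kernel) (q_cons (Vale.Agent.P032.Lt.q R0Q175.q3623_0) (q_cons (Vale.Agent.P032.Lt.q R0Q175.q3623_1) (q_cons (Vale.Agent.P032.Lt.q R0Q175.q3623_2) (q_cons (Vale.Agent.P032.Lt.q R0Q175.q3623_3) (q_cons (Vale.Agent.P032.Lt.q R0Q175.q3623_4) (q_cons (Vale.Agent.P032.Lt.q R0Q175.q3623_5) (q_cons (Vale.Agent.P032.Lt.q R0Q175.q3623_6) (q_cons (Vale.Agent.P032.Lt.q R0Q175.q3623_7) q_nil)))))))))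

theorem p3624 : Pat 73 73 TBm TCm (CB.map Fm) R0Q175.P3624 R0Q175.I3624 := Vale.Agent.P032.Lt.pat_eq (E' := R0Q175.E) eB (pat_step (by decide +kernel) (q_cons (Vale.Agent.P032.Lt.q R0Q175.q3624_0) q_nil))

theorem p3625 : Pat 73 73 TBm TCm (CB.map Fm) R0Q175.P3625 R0Q175.I3625 := Vale.Agent.P032.Lt.pat_eq (E' := R0Q175.E) eB (pat_step (by decide +kernel) (q_cons (Vale.Agent.P032.Lt.q R0Q175.q3625_0) (q_cons (Vale.Agent.P032.Lt.q R0Q175.q3625_1) q_nil)))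

theorem p3626 : Pat 73 73 TBm TCm (CB.map Fm) R0Q175.P3626 R0Q175.I3626 := Vale.Agent.P032.Lt.pat_eq (E' := R0Q175.E) eB (pat_step (by decide +kernel) (q_cons (Vale.Agent.P032.Lt.q R0Q175.q3626_0) (q_cons (Vale.Agent.P032.Lt.q R0Q175.q3626_1) q_nil)))

theorem p3627 : Pat 73 73 TBm TCm (CB.map Fm) R0Q175.P3627 R0Q175.I3627 := Vale.Agent.P032.Lt.pat_eq (E' := R0Q175.E) eB (pat_step (by decide +kernel) (q_cons (Vale.Agent.P032.Lt.q R0Q175.q3627_0) (q_cons (Vale.Agent.P032.Lt.q R0Q175.q3627_1) (q_cons (Vale.Agent.P032.Lt.q R0Q175.q3627_2) (q_cons (Vale.Agent.P032.Lt.q R0Q175.q3627_3) (q_cons (Vale.Agent.P032.Lt.q R0Q175.q3627_4) q_nil))))))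

theorem p3628 : Pat 73 73 TBm TCm (CB.map Fm) R0Q175.P3628 R0Q175.I3628 := Vale.Agent.P032.Lt.pat_eq (E' := R0Q175.E) eB (pat_step (by decide +kernel) (q_cons (Vale.Agent.P032.Lt.q R0Q175.q3628_0) (q_cons (Vale.Agent.P032.Lt.q R0Q175.q3628_1) (q_cons (Vale.Agent.P032.Lt.q R0Q175.q3628_2) q_nil))))

theorem p3629 : Pat 73 73 TBm TCm (CB.map Fm) R0Q175.P3629 R0Q175.I3629 := Vale.Agent.P032.Lt.pat_eq (E' := R0Q175.E) eB (pat_step (by decide +kernel) (q_cons (Vale.Agent.P032.Lt.q R0Q175.q3629_0) (q_cons (Vale.Agent.P032.Lt.q R0Q175.q3629_1) q_nil)))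

theorem p3630 : Pat 73 73 TBm TCm (CB.map Fm) R0Q175.P3630 R0Q175.I3630 := Vale.Agent.P032.Lt.pat_eq (E' := R0Q175.E) eB (pat_step (by decide +kernel) (q_cons (Vale.Agent.P032.Lt.q R0Q175.q3630_0) (q_cons (Vale.Agent.P032.Lt.q R0Q175.q3630_1) (q_cons (Vale.Agent.P032.Lt.q R0Q175.q3630_2) (q_cons (Vale.Agent.P032.Lt.q R0Q175.q3630_3) (q_cons (Vale.Agent.P032.Lt.q R0Q175.q3630_4) (q_cons (Vale.Agent.P032.Lt.q R0Q175.q3630_5) (q_cons (Vale.Agent.P032.Lt.q R0Q175.q3630_6) (q_cons (Vale.Agent.P032.Lt.q R0Q175.q3630_7) (q_cons (Vale.Agent.P032.Lt.q R0Q175.q3630_8) (q_cons (Vale.Agent.P032.Lt.q R0Q175.q3630_9) (q_cons (Vale.Agent.P032.Lt.q R0Q175.q3630_10) q_nil))))))))))))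

theorem p3631 : Pat 73 73 TBm TCm (CB.map Fm) R0Q176.P3631 R0Q176.I3631 := Vale.Agent.P032.Lt.pat_eq (E' := R0Q176.E) eB (pat_step (by decide +kernel) (q_cons (Vale.Agent.P032.Lt.q R0Q176.q3631_0) q_nil))

theorem p3632 : Pat 73 73 TBm TCm (CB.map Fm) R0Q176.P3632 R0Q176.I3632 := Vale.Agent.P032.Lt.pat_eq (E' := R0Q176.E) eB (pat_step (by decide +kernel) (q_cons (Vale.Agent.P032.Lt.q R0Q176.q3632_0) (q_cons (Vale.Agent.P032.Lt.q R0Q176.q3632_1) (q_cons (Vale.Agent.P032.Lt.q R0Q176.q3632_2) (q_cons (Vale.Agent.P032.Lt.q R0Q176.q3632_3) (q_cons (Vale.Agent.P032.Lt.q R0Q176.q3632_4) (q_cons (Vale.Agent.P032.Lt.q R0Q176.q3632_5) (q_cons (Vale.Agent.P032.Lt.q R0Q176.q3632_6) (q_cons (Vale.Agent.P032.Lt.q R0Q176.q3632_7) (q_cons (Vale.Agent.P032.Lt.q R0Q176.q3632_8) (q_cons (Vale.Agent.P032.Lt.q R0Q176.q3632_9) (q_cons (Vale.Agent.P032.Lt.q R0Q176.q3632_10)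 (q_cons (Vale.Agent.P032.Lt.q R0Q176.q3632_11) q_nil)))))))))))))

theorem p3633 : Pat 73 73 TBm TCm (CB.map Fm) R0Q176.P3633 R0Q176.I3633 := Vale.Agent.P032.Lt.pat_eq (E' := R0Q176.E) eB (pat_step (by decide +kernel) (q_cons (Vale.Agent.P032.Lt.q R0Q176.q3633_0) (q_cons (Vale.Agent.P032.Lt.q R0Q176.q3633_1) (q_cons (Vale.Agent.P032.Lt.q R0Q176.q3633_2) (q_cons (Vale.Agent.P032.Lt.q R0Q176.q3633_3) (q_cons (Vale.Agent.P032.Lt.q R0Q176.q3633_4) (q_cons (Vale.Agent.P032.Lt.q R0Q176.q3633_5) (q_cons (Vale.Agent.P032.Lt.q R0Q176.q3633_6) (q_cons (Vale.Agent.P032.Lt.q R0Q176.q3633_7) (q_cons (Vale.Agent.P032.Lt.q R0Q176.q3633_8) (q_cons (Vale.Agent.P032.Lt.q R0Q176.q3633_9) (q_cons (Vale.Agent.P032.Lt.q R0Q176.q3633_10) (q_cons (Vale.Agent.P032.Lt.q R0Q176.q3633_11) (q_cons (Vale.Agent.P032.Lt.q R0Q176.q3633_12) (q_cons (Vale.Agent.P032.Lt.q R0Q176.q3633_13)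 q_nil)))))))))))))))

theorem p3634 : Pat 73 73 TBm TCm (CB.map Fm) R0Q176.P3634 R0Q176.I3634 := Vale.Agent.P032.Lt.pat_eq (E' := R0Q176.E) eB (pat_step (by decide +kernel) (q_cons (Vale.Agent.P032.Lt.q R0Q176.q3634_0) (q_cons (Vale.Agent.P032.Lt.q R0Q176.q3634_1) (q_cons (Vale.Agent.P032.Lt.q R0Q176.q3634_2) (q_cons (Vale.Agent.P032.Lt.q R0Q176.q3634_3) (q_cons (Vale.Agent.P032.Lt.q R0Q176.q3634_4) (q_cons (Vale.Agent.P032.Lt.q R0Q176.q3634_5) (q_cons (Vale.Agent.P032.Lt.q R0Q176.q3634_6) (q_cons (Vale.Agent.P032.Lt.q R0Q176.q3634_7) (q_cons (Vale.Agent.P032.Lt.q R0Q176.q3634_8) (q_cons (Vale.Agent.P032.Lt.q R0Q176.q3634_9) (q_cons (Vale.Agent.P032.Lt.q R0Q176.q3634_10) q_nil))))))))))))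

theorem p3635 : Pat 73 73 TBm TCm (CB.map Fm) R0Q176.P3635 R0Q176.I3635 := Vale.Agent.P032.Lt.pat_eq (E' := R0Q176.E) eB (pat_step (by decide +kernel) (q_cons (Vale.Agent.P032.Lt.q R0Q176.q3635_0) (q_cons (Vale.Agent.P032.Lt.q R0Q176.q3635_1) (q_cons (Vale.Agent.P032.Lt.q R0Q176.q3635_2) (q_cons (Vale.Agent.P032.Lt.q R0Q176.q3635_3) (q_cons (Vale.Agent.P032.Lt.q R0Q176.q3635_4) (q_cons (Vale.Agent.P032.Lt.q R0Q176.q3635_5) (q_cons (Vale.Agent.P032.Lt.q R0Q176.q3635_6) (q_cons (Vale.Agent.P032.Lt.q R0Q176.q3635_7) (q_cons (Vale.Agent.P032.Lt.q R0Q176.q3635_8) (q_cons (Vale.Agent.P032.Lt.q R0Q176.q3635_9) (q_cons (Vale.Agent.P032.Lt.q R0Q176.q3635_10) (q_cons (Vale.Agent.P032.Lt.q R0Q176.q3635_11) (q_cons (Vale.Agent.P032.Lt.q R0Q176.q3635_12) (q_cons (Vale.Agent.P032.Lt.q R0Q176.q3635_13) (q_cons (Vale.Agent.P032.Lt.q R0Q176.q3635_14) (q_cons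 (Vale.Agent.P032.Lt.q R0Q176.q3635_15) (q_cons (Vale.Agent.P032.Lt.q R0Q176.q3635_16) (q_cons (Vale.Agent.P032.Lt.q R0Q176.q3635_17) (q_cons (Vale.Agent.P032.Lt.q R0Q176.q3635_18) (q_cons (Vale.Agent.P032.Lt.q R0Q176.q3635_19) (q_cons (Vale.Agent.P032.Lt.q R0Q176.q3635_20) (q_cons (Vale.Agent.P032.Lt.q R0Q176.q3635_21) (q_cons (Vale.Agent.P032.Lt.q R0Q176.q3635_22) (q_cons (Vale.Agent.P032.Lt.q R0Q176.q3635_23) q_nil)))))))))))))))))))))))))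

theorem p3636 : Pat 73 73 TBm TCm (CB.map Fm) R0Q176.P3636 R0Q176.I3636 := Vale.Agent.P032.Lt.pat_eq (E' := R0Q176.E) eB (pat_step (by decide +kernel) (q_cons (Vale.Agent.P032.Lt.q R0Q176.q3636_0) (q_cons (Vale.Agent.P032.Lt.q R0Q176.q3636_1) (q_cons (Vale.Agent.P032.Lt.q R0Q176.q3636_2) (q_cons (Vale.Agent.P032.Lt.q R0Q176.q3636_3) (q_cons (Vale.Agent.P032.Lt.q R0Q176.q3636_4) (q_cons (Vale.Agent.P032.Lt.q R0Q176.q3636_5) (q_cons (Vale.Agent.P032.Lt.q R0Q176.q3636_6) (q_cons (Vale.Agent.P032.Lt.q R0Q176.q3636_7) (q_cons (Vale.Agent.P032.Lt.q R0Q176.q3636_8) (q_cons (Vale.Agent.P032.Lt.q R0Q176.q3636_9) (q_cons (Vale.Agent.P032.Lt.q R0Q176.q3636_10) (q_cons (Vale.Agent.P032.Lt.q R0Q176.q3636_11) (q_cons (Vale.Agent.P032.Lt.q R0Q176.q3636_12) (q_cons (Vale.Agent.P032.Lt.q R0Q176.q3636_13) (q_cons (Vale.Agent.P032.Lt.q R0Q176.q3636_14) (q_cons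 (Vale.Agent.P032.Lt.q R0Q176.q3636_15) (q_cons (Vale.Agent.P032.Lt.q R0Q176.q3636_16) (q_cons (Vale.Agent.P032.Lt.q R0Q176.q3636_17) (q_cons (Vale.Agent.P032.Lt.q R0Q176.q3636_18) q_nil))))))))))))))))))))

theorem p3637 : Pat 73 73 TBm TCm (CB.map Fm) R0Q176.P3637 R0Q176.I3637 := Vale.Agent.P032.Lt.pat_eq (E' := R0Q176.E) eB (pat_step (by decide +kernel) (q_cons (Vale.Agent.P032.Lt.q R0Q176.q3637_0) (q_cons (Vale.Agent.P032.Lt.q R0Q176.q3637_1) (q_cons (Vale.Agent.P032.Lt.q R0Q176.q3637_2) (q_cons (Vale.Agent.P032.Lt.q R0Q176.q3637_3) (q_cons (Vale.Agent.P032.Lt.q R0Q176.q3637_4) (q_cons (Vale.Agent.P032.Lt.q R0Q176.q3637_5) (q_cons (Vale.Agent.P032.Lt.q R0Q176.q3637_6) (q_cons (Vale.Agent.P032.Lt.q R0Q176.q3637_7) (q_cons (Vale.Agent.P032.Lt.q R0Q176.q3637_8) (q_cons (Vale.Agent.P032.Lt.q R0Q176.q3637_9) q_nil)))))))))))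

theorem p3638 : Pat 73 73 TBm TCm (CB.map Fm) R0Q176.P3638 R0Q176.I3638 := Vale.Agent.P032.Lt.pat_eq (E' := R0Q176.E) eB (pat_step (by decide +kernel) (q_cons (Vale.Agent.P032.Lt.q R0Q176.q3638_0) (q_cons (Vale.Agent.P032.Lt.q R0Q176.q3638_1) (q_cons (Vale.Agent.P032.Lt.q R0Q176.q3638_2) (q_cons (Vale.Agent.P032.Lt.q R0Q176.q3638_3) (q_cons (Vale.Agent.P032.Lt.q R0Q176.q3638_4) (q_cons (Vale.Agent.P032.Lt.q R0Q176.q3638_5) (q_cons (Vale.Agent.P032.Lt.q R0Q176.q3638_6) (q_cons (Vale.Agent.P032.Lt.q R0Q176.q3638_7) q_nil)))))))))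

theorem p3639 : Pat 73 73 TBm TCm (CB.map Fm) R0Q177.P3639 R0Q177.I3639 := Vale.Agent.P032.Lt.pat_eq (E' := R0Q177.E) eB (pat_step (by decide +kernel) (q_cons (Vale.Agent.P032.Lt.q R0Q177.q3639_0) (q_cons (Vale.Agent.P032.Lt.q R0Q177.q3639_1) (q_cons (Vale.Agent.P032.Lt.q R0Q177.q3639_2) (q_cons (Vale.Agent.P032.Lt.q R0Q177.q3639_3) (q_cons (Vale.Agent.P032.Lt.q R0Q177.q3639_4) (q_cons (Vale.Agent.P032.Lt.q R0Q177.q3639_5) (q_cons (Vale.Agent.P032.Lt.q R0Q177.q3639_6) (q_cons (Vale.Agent.P032.Lt.q R0Q177.q3639_7) (q_cons (Vale.Agent.P032.Lt.q R0Q177.q3639_8) q_nil))))))))))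

theorem p3640 : Pat 73 73 TBm TCm (CB.map Fm) R0Q177.P3640 R0Q177.I3640 := Vale.Agent.P032.Lt.pat_eq (E' := R0Q177.E) eB (pat_step (by decide +kernel) (q_cons (Vale.Agent.P032.Lt.q R0Q177.q3640_0) (q_cons (Vale.Agent.P032.Lt.q R0Q177.q3640_1) (q_cons (Vale.Agent.P032.Lt.q R0Q177.q3640_2) (q_cons (Vale.Agent.P032.Lt.q R0Q177.q3640_3) (q_cons (Vale.Agent.P032.Lt.q R0Q177.q3640_4) (q_cons (Vale.Agent.P032.Lt.q R0Q177.q3640_5) (q_cons (Vale.Agent.P032.Lt.q R0Q177.q3640_6) (q_cons (Vale.Agent.P032.Lt.q R0Q177.q3640_7) (q_cons (Vale.Agent.P032.Lt.q R0Q177.q3640_8) (q_cons (Vale.Agent.P032.Lt.q R0Q177.q3640_9) (q_cons (Vale.Agent.P032.Lt.q R0Q177.q3640_10) (q_cons (Vale.Agent.P032.Lt.q R0Q177.q3640_11) (q_cons (Vale.Agent.P032.Lt.q R0Q177.q3640_12) (q_cons (Vale.Agent.P032.Lt.q R0Q177.q3640_13) (q_cons (Vale.Agent.P032.Lt.q R0Q177.q3640_14) (q_cons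 (Vale.Agent.P032.Lt.q R0Q177.q3640_15) (q_cons (Vale.Agent.P032.Lt.q R0Q177.q3640_16) (q_cons (Vale.Agent.P032.Lt.q R0Q177.q3640_17) (q_cons (Vale.Agent.P032.Lt.q R0Q177.q3640_18) (q_cons (Vale.Agent.P032.Lt.q R0Q177.q3640_19) (q_cons (Vale.Agent.P032.Lt.q R0Q177.q3640_20) q_nil))))))))))))))))))))))

theorem p3641 : Pat 73 73 TBm TCm (CB.map Fm) R0Q177.P3641 R0Q177.I3641 := Vale.Agent.P032.Lt.pat_eq (E' := R0Q177.E) eB (pat_step (by decide +kernel) (q_cons (Vale.Agent.P032.Lt.q R0Q177.q3641_0) (q_cons (Vale.Agent.P032.Lt.q R0Q177.q3641_1) (q_cons (Vale.Agent.P032.Lt.q R0Q177.q3641_2) (q_cons (Vale.Agent.P032.Lt.q R0Q177.q3641_3) (q_cons (Vale.Agent.P032.Lt.q R0Q177.q3641_4) (q_cons (Vale.Agent.P032.Lt.q R0Q177.q3641_5) (q_cons (Vale.Agent.P032.Lt.q R0Q177.q3641_6) (q_cons (Vale.Agent.P032.Lt.q R0Q177.q3641_7) (q_cons (Vale.Agent.P032.Lt.q R0Q177.q3641_8)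 (q_cons (Vale.Agent.P032.Lt.q R0Q177.q3641_9) (q_cons (Vale.Agent.P032.Lt.q R0Q177.q3641_10) q_nil))))))))))))

theorem p3642 : Pat 73 73 TBm TCm (CB.map Fm) R0Q177.P3642 R0Q177.I3642 := Vale.Agent.P032.Lt.pat_eq (E' := R0Q177.E) eB (pat_step (by decide +kernel) (q_cons (Vale.Agent.P032.Lt.q R0Q177.q3642_0) (q_cons (Vale.Agent.P032.Lt.q R0Q177.q3642_1) (q_cons (Vale.Agent.P032.Lt.q R0Q177.q3642_2) (q_cons (Vale.Agent.P032.Lt.q R0Q177.q3642_3) (q_cons (Vale.Agent.P032.Lt.q R0Q177.q3642_4) (q_cons (Vale.Agent.P032.Lt.q R0Q177.q3642_5) (q_cons (Vale.Agent.P032.Lt.q R0Q177.q3642_6) (q_cons (Vale.Agent.P032.Lt.q R0Q177.q3642_7) (q_cons (Vale.Agent.P032.Lt.q R0Q177.q3642_8) q_nil))))))))))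

theorem p3643 : Pat 73 73 TBm TCm (CB.map Fm) R0Q177.P3643 R0Q177.I3643 := Vale.Agent.P032.Lt.pat_eq (E' := R0Q177.E) eB (pat_step (by decide +kernel) (q_cons (Vale.Agent.P032.Lt.q R0Q177.q3643_0) (q_cons (Vale.Agent.P032.Lt.q R0Q177.q3643_1) (q_cons (Vale.Agent.P032.Lt.q R0Q177.q3643_2) (q_cons (Vale.Agent.P032.Lt.q R0Q177.q3643_3) (q_cons (Vale.Agent.P032.Lt.q R0Q177.q3643_4) (q_cons (Vale.Agent.P032.Lt.q R0Q177.q3643_5) (q_cons (Vale.Agent.P032.Lt.q R0Q177.q3643_6) (q_cons (Vale.Agent.P032.Lt.q R0Q177.q3643_7) (q_cons (Vale.Agent.P032.Lt.q R0Q177.q3643_8) (q_cons (Vale.Agent.P032.Lt.q R0Q177.q3643_9) (q_cons (Vale.Agent.P032.Lt.q R0Q177.q3643_10) (q_cons (Vale.Agent.P032.Lt.q R0Q177.q3643_11) (q_cons (Vale.Agent.P032.Lt.q R0Q177.q3643_12) (q_cons (Vale.Agent.P032.Lt.q R0Q177.q3643_13) (q_cons (Vale.Agent.P032.Lt.q R0Q177.q3643_14) (q_cons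 (Vale.Agent.P032.Lt.q R0Q177.q3643_15) (q_cons (Vale.Agent.P032.Lt.q R0Q177.q3643_16) (q_cons (Vale.Agent.P032.Lt.q R0Q177.q3643_17) (q_cons (Vale.Agent.P032.Lt.q R0Q177.q3643_18) (q_cons (Vale.Agent.P032.Lt.q R0Q177.q3643_19) (q_cons (Vale.Agent.P032.Lt.q R0Q177.q3643_20) (q_cons (Vale.Agent.P032.Lt.q R0Q177.q3643_21) (q_cons (Vale.Agent.P032.Lt.q R0Q177.q3643_22) (q_cons (Vale.Agent.P032.Lt.q R0Q177.q3643_23) (q_cons (Vale.Agent.P032.Lt.q R0Q177.q3643_24) (q_cons (Vale.Agent.P032.Lt.q R0Q177.q3643_25) (q_cons (Vale.Agent.P032.Lt.q R0Q177.q3643_26) (q_cons (Vale.Agent.P032.Lt.q R0Q177.q3643_27) (q_cons (Vale.Agent.P032.Lt.q R0Q177.q3643_28) (q_cons (Vale.Agent.P032.Lt.q R0Q177.q3643_29) (q_cons (Vale.Agent.P032.Lt.q R0Q177.q3643_30) (q_cons (Vale.Agent.P032.Lt.q R0Q177.q3643_31) (q_cons (Vale.Agent.P032.Lt.q R0Q177.q3643_32) (q_cons (Vale.Agent.P032.Lt.q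 R0Q177.q3643_33) (q_cons (Vale.Agent.P032.Lt.q R0Q177.q3643_34) (q_cons (Vale.Agent.P032.Lt.q R0Q177.q3643_35) (q_cons (Vale.Agent.P032.Lt.q R0Q177.q3643_36) (q_cons (Vale.Agent.P032.Lt.q R0Q177.q3643_37) (q_cons (Vale.Agent.P032.Lt.q R0Q177.q3643_38) (q_cons (Vale.Agent.P032.Lt.q R0Q177.q3643_39) (q_cons (Vale.Agent.P032.Lt.q R0Q177.q3643_40) (q_cons (Vale.Agent.P032.Lt.q R0Q177.q3643_41) (q_cons (Vale.Agent.P032.Lt.q R0Q177.q3643_42) (q_cons (Vale.Agent.P032.Lt.q R0Q177.q3643_43) (q_cons (Vale.Agent.P032.Lt.q R0Q177.q3643_44) (q_cons (Vale.Agent.P032.Lt.q R0Q177.q3643_45) (q_cons (Vale.Agent.P032.Lt.q R0Q177.q3643_46) (q_cons (Vale.Agent.P032.Lt.q R0Q177.q3643_47) (q_cons (Vale.Agent.P032.Lt.q R0Q177.q3643_48) (q_cons (Vale.Agent.P032.Lt.q R0Q177.q3643_49) (q_cons (Vale.Agent.P032.Lt.q R0Q177.q3643_50) (q_cons (Vale.Agent.P032.Lt.q R0Q177.q3643_51)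 (q_cons (Vale.Agent.P032.Lt.q R0Q177.q3643_52) (q_cons (Vale.Agent.P032.Lt.q R0Q177.q3643_53) (q_cons (Vale.Agent.P032.Lt.q R0Q177.q3643_54) (q_cons (Vale.Agent.P032.Lt.q R0Q177.q3643_55) (q_cons (Vale.Agent.P032.Lt.q R0Q177.q3643_56) (q_cons (Vale.Agent.P032.Lt.q R0Q177.q3643_57) q_nil)))))))))))))))))))))))))))))))))))))))))))))))))))))))))))

theorem p3644 : Pat 73 73 TBm TCm (CB.map Fm) R0Q177.P3644 R0Q177.I3644 := Vale.Agent.P032.Lt.pat_eq (E' := R0Q177.E) eB (pat_step (by decide +kernel) (q_cons (Vale.Agent.P032.Lt.q R0Q177.q3644_0) (q_cons (Vale.Agent.P032.Lt.q R0Q177.q3644_1) (q_cons (Vale.Agent.P032.Lt.q R0Q177.q3644_2) (q_cons (Vale.Agent.P032.Lt.q R0Q177.q3644_3) (q_cons (Vale.Agent.P032.Lt.q R0Q177.q3644_4) (q_cons (Vale.Agent.P032.Lt.q R0Q177.q3644_5) q_nil)))))))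

theorem p3645 : Pat 73 73 TBm TCm (CB.map Fm) R0Q177.P3645 R0Q177.I3645 := Vale.Agent.P032.Lt.pat_eq (E' := R0Q177.E) eB (pat_step (by decide +kernel) (q_cons (Vale.Agent.P032.Lt.q R0Q177.q3645_0) (q_cons (Vale.Agent.P032.Lt.q R0Q177.q3645_1) (q_cons (Vale.Agent.P032.Lt.q R0Q177.q3645_2) q_nil))))

theorem p3646 : Pat 73 73 TBm TCm (CB.map Fm) R0Q178.P3646 R0Q178.I3646 := Vale.Agent.P032.Lt.pat_eq (E' := R0Q178.E) eB (pat_step (by decide +kernel) (q_cons (Vale.Agent.P032.Lt.q R0Q178.q3646_0) (q_cons (Vale.Agent.P032.Lt.q R0Q178.q3646_1) (q_cons (Vale.Agent.P032.Lt.q R0Q178.q3646_2) (q_cons (Vale.Agent.P032.Lt.q R0Q178.q3646_3) (q_cons (Vale.Agent.P032.Lt.q R0Q178.q3646_4) (q_cons (Vale.Agent.P032.Lt.q R0Q178.q3646_5) (q_cons (Vale.Agent.P032.Lt.q R0Q178.q3646_6) (q_cons (Vale.Agent.P032.Lt.q R0Q178.q3646_7) (q_cons (Vale.Agent.P032.Lt.q R0Q178.q3646_8)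 (q_cons (Vale.Agent.P032.Lt.q R0Q178.q3646_9) (q_cons (Vale.Agent.P032.Lt.q R0Q178.q3646_10) (q_cons (Vale.Agent.P032.Lt.q R0Q178.q3646_11) (q_cons (Vale.Agent.P032.Lt.q R0Q178.q3646_12) (q_cons (Vale.Agent.P032.Lt.q R0Q178.q3646_13) (q_cons (Vale.Agent.P032.Lt.q R0Q178.q3646_14) (q_cons (Vale.Agent.P032.Lt.q R0Q178.q3646_15) (q_cons (Vale.Agent.P032.Lt.q R0Q178.q3646_16) q_nil))))))))))))))))))

theorem p3647 : Pat 73 73 TBm TCm (CB.map Fm) R0Q178.P3647 R0Q178.I3647 := Vale.Agent.P032.Lt.pat_eq (E' := R0Q178.E) eB (pat_step (by decide +kernel) (q_cons (Vale.Agent.P032.Lt.q R0Q178.q3647_0) (q_cons (Vale.Agent.P032.Lt.q R0Q178.q3647_1) (q_cons (Vale.Agent.P032.Lt.q R0Q178.q3647_2) (q_cons (Vale.Agent.P032.Lt.q R0Q178.q3647_3) (q_cons (Vale.Agent.P032.Lt.q R0Q178.q3647_4) (q_cons (Vale.Agent.P032.Lt.q R0Q178.q3647_5) q_nil)))))))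

theorem p3648 : Pat 73 73 TBm TCm (CB.map Fm) R0Q178.P3648 R0Q178.I3648 := Vale.Agent.P032.Lt.pat_eq (E' := R0Q178.E) eB (pat_step (by decide +kernel) (q_cons (Vale.Agent.P032.Lt.q R0Q178.q3648_0) (q_cons (Vale.Agent.P032.Lt.q R0Q178.q3648_1) (q_cons (Vale.Agent.P032.Lt.q R0Q178.q3648_2) (q_cons (Vale.Agent.P032.Lt.q R0Q178.q3648_3) (q_cons (Vale.Agent.P032.Lt.q R0Q178.q3648_4) (q_cons (Vale.Agent.P032.Lt.q R0Q178.q3648_5) q_nil)))))))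

theorem p3649 : Pat 73 73 TBm TCm (CB.map Fm) R0Q178.P3649 R0Q178.I3649 := Vale.Agent.P032.Lt.pat_eq (E' := R0Q178.E) eB (pat_step (by decide +kernel) (q_cons (Vale.Agent.P032.Lt.q R0Q178.q3649_0) (q_cons (Vale.Agent.P032.Lt.q R0Q178.q3649_1) (q_cons (Vale.Agent.P032.Lt.q R0Q178.q3649_2) q_nil))))

theorem p3650 : Pat 73 73 TBm TCm (CB.map Fm) R0Q178.P3650 R0Q178.I3650 := Vale.Agent.P032.Lt.pat_eq (E' := R0Q178.E) eB (pat_step (by decide +kernel) (q_cons (Vale.Agent.P032.Lt.q R0Q178.q3650_0) (q_cons (Vale.Agent.P032.Lt.q R0Q178.q3650_1) q_nil)))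

theorem p3651 : Pat 73 73 TBm TCm (CB.map Fm) R0Q178.P3651 R0Q178.I3651 := Vale.Agent.P032.Lt.pat_eq (E' := R0Q178.E) eB (pat_step (by decide +kernel) (q_cons (Vale.Agent.P032.Lt.q R0Q178.q3651_0) (q_cons (Vale.Agent.P032.Lt.q R0Q178.q3651_1) (q_cons (Vale.Agent.P032.Lt.q R0Q178.q3651_2) (q_cons (Vale.Agent.P032.Lt.q R0Q178.q3651_3) q_nil)))))

theorem p3652 : Pat 73 73 TBm TCm (CB.map Fm) R0Q178.P3652 R0Q178.I3652 := Vale.Agent.P032.Lt.pat_eq (E' := R0Q178.E) eB (pat_step (by decide +kernel) (q_cons (Vale.Agent.P032.Lt.q R0Q178.q3652_0) (q_cons (Vale.Agent.P032.Lt.q R0Q178.q3652_1) (q_cons (Vale.Agent.P032.Lt.q R0Q178.q3652_2) (q_cons (Vale.Agent.P032.Lt.q R0Q178.q3652_3) (q_cons (Vale.Agent.P032.Lt.q R0Q178.q3652_4) (q_cons (Vale.Agent.P032.Lt.q R0Q178.q3652_5) (q_cons (Vale.Agent.P032.Lt.q R0Q178.q3652_6) (q_cons (Vale.Agent.P032.Lt.q R0Q178.q3652_7)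 q_nil)))))))))

theorem p3653 : Pat 73 73 TBm TCm (CB.map Fm) R0Q178.P3653 R0Q178.I3653 := Vale.Agent.P032.Lt.pat_eq (E' := R0Q178.E) eB (pat_step (by decide +kernel) (q_cons (Vale.Agent.P032.Lt.q R0Q178.q3653_0) (q_cons (Vale.Agent.P032.Lt.q R0Q178.q3653_1) (q_cons (Vale.Agent.P032.Lt.q R0Q178.q3653_2) q_nil))))

theorem p3654 : Pat 73 73 TBm TCm (CB.map Fm) R0Q178.P3654 R0Q178.I3654 := Vale.Agent.P032.Lt.pat_eq (E' := R0Q178.E) eB (pat_step (by decide +kernel) (q_cons (Vale.Agent.P032.Lt.q R0Q178.q3654_0) (q_cons (Vale.Agent.P032.Lt.q R0Q178.q3654_1) (q_cons (Vale.Agent.P032.Lt.q R0Q178.q3654_2) (q_cons (Vale.Agent.P032.Lt.q R0Q178.q3654_3) q_nil)))))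

theorem p3655 : Pat 73 73 TBm TCm (CB.map Fm) R0Q178.P3655 R0Q178.I3655 := Vale.Agent.P032.Lt.pat_eq (E' := R0Q178.E) eB (pat_step (by decide +kernel) (q_cons (Vale.Agent.P032.Lt.q R0Q178.q3655_0) (q_cons (Vale.Agent.P032.Lt.q R0Q178.q3655_1) (q_cons (Vale.Agent.P032.Lt.q R0Q178.q3655_2) q_nil))))

theorem p3656 : Pat 73 73 TBm TCm (CB.map Fm) R0Q178.P3656 R0Q178.I3656 := Vale.Agent.P032.Lt.pat_eq (E' := R0Q178.E) eB (pat_step (by decide +kernel) (q_cons (Vale.Agent.P032.Lt.q R0Q178.q3656_0) q_nil))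

theorem p3657 : Pat 73 73 TBm TCm (CB.map Fm) R0Q178.P3657 R0Q178.I3657 := Vale.Agent.P032.Lt.pat_eq (E' := R0Q178.E) eB (pat_step (by decide +kernel) (q_cons (Vale.Agent.P032.Lt.q R0Q178.q3657_0) q_nil))

theorem p3658 : Pat 73 73 TBm TCm (CB.map Fm) R0Q178.P3658 R0Q178.I3658 := Vale.Agent.P032.Lt.pat_eq (E' := R0Q178.E) eB (pat_step (by decide +kernel) (q_cons (Vale.Agent.P032.Lt.q R0Q178.q3658_0) (q_cons (Vale.Agent.P032.Lt.q R0Q178.q3658_1) (q_cons (Vale.Agent.P032.Lt.q R0Q178.q3658_2) (q_cons (Vale.Agent.P032.Lt.q R0Q178.q3658_3) q_nil)))))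

theorem p3659 : Pat 73 73 TBm TCm (CB.map Fm) R0Q178.P3659 R0Q178.I3659 := Vale.Agent.P032.Lt.pat_eq (E' := R0Q178.E) eB (pat_step (by decide +kernel) (q_cons (Vale.Agent.P032.Lt.q R0Q178.q3659_0) (q_cons (Vale.Agent.P032.Lt.q R0Q178.q3659_1) (q_cons (Vale.Agent.P032.Lt.q R0Q178.q3659_2) (q_cons (Vale.Agent.P032.Lt.q R0Q178.q3659_3) (q_cons (Vale.Agent.P032.Lt.q R0Q178.q3659_4) (q_cons (Vale.Agent.P032.Lt.q R0Q178.q3659_5) q_nil)))))))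

theorem p3660 : Pat 73 73 TBm TCm (CB.map Fm) R0Q178.P3660 R0Q178.I3660 := Vale.Agent.P032.Lt.pat_eq (E' := R0Q178.E) eB (pat_step (by decide +kernel) (q_cons (Vale.Agent.P032.Lt.q R0Q178.q3660_0) q_nil))

theorem p3661 : Pat 73 73 TBm TCm (CB.map Fm) R0Q178.P3661 R0Q178.I3661 := Vale.Agent.P032.Lt.pat_eq (E' := R0Q178.E) eB (pat_step (by decide +kernel) (q_cons (Vale.Agent.P032.Lt.q R0Q178.q3661_0) (q_cons (Vale.Agent.P032.Lt.q R0Q178.q3661_1) q_nil)))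

theorem p3662 : Pat 73 73 TBm TCm (CB.map Fm) R0Q178.P3662 R0Q178.I3662 := Vale.Agent.P032.Lt.pat_eq (E' := R0Q178.E) eB (pat_step (by decide +kernel) (q_cons (Vale.Agent.P032.Lt.q R0Q178.q3662_0) (q_cons (Vale.Agent.P032.Lt.q R0Q178.q3662_1) q_nil)))

theorem p3663 : Pat 73 73 TBm TCm (CB.map Fm) R0Q178.P3663 R0Q178.I3663 := Vale.Agent.P032.Lt.pat_eq (E' := R0Q178.E) eB (pat_step (by decide +kernel) (q_cons (Vale.Agent.P032.Lt.q R0Q178.q3663_0) (q_cons (Vale.Agent.P032.Lt.q R0Q178.q3663_1) (q_cons (Vale.Agent.P032.Lt.q R0Q178.q3663_2) q_nil))))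

theorem p3664 : Pat 73 73 TBm TCm (CB.map Fm) R0Q178.P3664 R0Q178.I3664 := Vale.Agent.P032.Lt.pat_eq (E' := R0Q178.E) eB (pat_step (by decide +kernel) (q_cons (Vale.Agent.P032.Lt.q R0Q178.q3664_0) (q_cons (Vale.Agent.P032.Lt.q R0Q178.q3664_1) (q_cons (Vale.Agent.P032.Lt.q R0Q178.q3664_2) q_nil))))

theorem p3665 : Pat 73 73 TBm TCm (CB.map Fm) R0Q178.P3665 R0Q178.I3665 := Vale.Agent.P032.Lt.pat_eq (E' := R0Q178.E) eB (pat_step (by decide +kernel) (q_cons (Vale.Agent.P032.Lt.q R0Q178.q3665_0) (q_cons (Vale.Agent.P032.Lt.q R0Q178.q3665_1) (q_cons (Vale.Agent.P032.Lt.q R0Q178.q3665_2) (q_cons (Vale.Agent.P032.Lt.q R0Q178.q3665_3) (q_cons (Vale.Agent.P032.Lt.q R0Q178.q3665_4) (q_cons (Vale.Agent.P032.Lt.q R0Q178.q3665_5) q_nil)))))))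

theorem p3666 : Pat 73 73 TBm TCm (CB.map Fm) R0Q178.P3666 R0Q178.I3666 := Vale.Agent.P032.Lt.pat_eq (E' := R0Q178.E) eB (pat_step (by decide +kernel) (q_cons (Vale.Agent.P032.Lt.q R0Q178.q3666_0) (q_cons (Vale.Agent.P032.Lt.q R0Q178.q3666_1) (q_cons (Vale.Agent.P032.Lt.q R0Q178.q3666_2) (q_cons (Vale.Agent.P032.Lt.q R0Q178.q3666_3) (q_cons (Vale.Agent.P032.Lt.q R0Q178.q3666_4) (q_cons (Vale.Agent.P032.Lt.q R0Q178.q3666_5) (q_cons (Vale.Agent.P032.Lt.q R0Q178.q3666_6) q_nil))))))))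

theorem p3667 : Pat 73 73 TBm TCm (CB.map Fm) R0Q178.P3667 R0Q178.I3667 := Vale.Agent.P032.Lt.pat_eq (E' := R0Q178.E) eB (pat_step (by decide +kernel) (q_cons (Vale.Agent.P032.Lt.q R0Q178.q3667_0) (q_cons (Vale.Agent.P032.Lt.q R0Q178.q3667_1) (q_cons (Vale.Agent.P032.Lt.q R0Q178.q3667_2) (q_cons (Vale.Agent.P032.Lt.q R0Q178.q3667_3) (q_cons (Vale.Agent.P032.Lt.q R0Q178.q3667_4) (q_cons (Vale.Agent.P032.Lt.q R0Q178.q3667_5) (q_cons (Vale.Agent.P032.Lt.q R0Q178.q3667_6) (q_cons (Vale.Agent.P032.Lt.q R0Q178.q3667_7) q_nil)))))))))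

def C3668 : List ℕ := [0, 4, 8, 12, 16, 20, 24, 216065, 222209, 606209, 737281, 740353]
theorem p3668 : Pat 73 73 TBm TCm (C3668.map Fm) R0Q179.P3668 R0Q179.I3668 := Vale.Agent.P032.Lt.pat_eq (E' := R0Q179.E3668) (by decide +kernel) (pat_step (by decide +kernel) (q_cons (Vale.Agent.P032.Lt.q R0Q179.q3668_0) (q_cons (Vale.Agent.P032.Lt.q R0Q179.q3668_1) (q_cons (Vale.Agent.P032.Lt.q R0Q179.q3668_2) (q_cons (Vale.Agent.P032.Lt.q R0Q179.q3668_3) (q_cons (Vale.Agent.P032.Lt.q R0Q179.q3668_4) (q_cons (Vale.Agent.P032.Lt.q R0Q179.q3668_5) (q_cons (Vale.Agent.P032.Lt.q R0Q179.q3668_6) (q_cons (Vale.Agent.P032.Lt.q R0Q179.q3668_7) (q_cons (Vale.Agent.P032.Lt.q R0Q179.q3668_8) (q_cons (Vale.Agent.P032.Lt.q R0Q179.q3668_9) (q_cons (Vale.Agent.P032.Lt.q R0Q179.q3668_10) (q_cons (Vale.Agent.P032.Lt.q R0Q179.q3668_11) (q_cons (Vale.Agent.P032.Lt.q R0Q179.q3668_12)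 q_nil))))))))))))))

def C3669 : List ℕ := [0, 4, 8, 12, 16, 20, 24, 91137, 606209, 737281]
theorem p3669 : Pat 73 73 TBm TCm (C3669.map Fm) R0Q179.P3669 R0Q179.I3669 := Vale.Agent.P032.Lt.pat_eq (E' := R0Q179.E3669) (by decide +kernel) (pat_step (by decide +kernel) (q_cons (Vale.Agent.P032.Lt.q R0Q179.q3669_0) (q_cons (Vale.Agent.P032.Lt.q R0Q179.q3669_1) (q_cons (Vale.Agent.P032.Lt.q R0Q179.q3669_2) (q_cons (Vale.Agent.P032.Lt.q R0Q179.q3669_3) (q_cons (Vale.Agent.P032.Lt.q R0Q179.q3669_4) q_nil))))))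

theorem p3670 : Pat 73 73 TBm TCm (CB.map Fm) R0Q179.P3670 R0Q179.I3670 := Vale.Agent.P032.Lt.pat_eq (E' := R0Q179.E) eB (pat_step (by decide +kernel) (q_cons (Vale.Agent.P032.Lt.q R0Q179.q3670_0) (q_cons (Vale.Agent.P032.Lt.q R0Q179.q3670_1) (q_cons (Vale.Agent.P032.Lt.q R0Q179.q3670_2) (q_cons (Vale.Agent.P032.Lt.q R0Q179.q3670_3) q_nil)))))

theorem p3671 : Pat 73 73 TBm TCm (CB.map Fm) R0Q179.P3671 R0Q179.I3671 := Vale.Agent.P032.Lt.pat_eq (E' := R0Q179.E) eB (pat_step (by decide +kernel) (q_cons (Vale.Agent.P032.Lt.q R0Q179.q3671_0) (q_cons (Vale.Agent.P032.Lt.q R0Q179.q3671_1) (q_cons (Vale.Agent.P032.Lt.q R0Q179.q3671_2) (q_cons (Vale.Agent.P032.Lt.q R0Q179.q3671_3) (q_cons (Vale.Agent.P032.Lt.q R0Q179.q3671_4) (q_cons (Vale.Agent.P032.Lt.q R0Q179.q3671_5) (q_cons (Vale.Agent.P032.Lt.q R0Q179.q3671_6) (q_cons (Vale.Agent.P032.Lt.q R0Q179.q3671_7)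 q_nil)))))))))

theorem p3672 : Pat 73 73 TBm TCm (CB.map Fm) R0Q179.P3672 R0Q179.I3672 := Vale.Agent.P032.Lt.pat_eq (E' := R0Q179.E) eB (pat_step (by decide +kernel) (q_cons (Vale.Agent.P032.Lt.q R0Q179.q3672_0) q_nil))

theorem p3673 : Pat 73 73 TBm TCm (CB.map Fm) R0Q179.P3673 R0Q179.I3673 := Vale.Agent.P032.Lt.pat_eq (E' := R0Q179.E) eB (pat_step (by decide +kernel) (q_cons (Vale.Agent.P032.Lt.q R0Q179.q3673_0) q_nil))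

theorem p3674 : Pat 73 73 TBm TCm (CB.map Fm) R0Q179.P3674 R0Q179.I3674 := Vale.Agent.P032.Lt.pat_eq (E' := R0Q179.E) eB (pat_step (by decide +kernel) (q_cons (Vale.Agent.P032.Lt.q R0Q179.q3674_0) (q_cons (Vale.Agent.P032.Lt.q R0Q179.q3674_1) (q_cons (Vale.Agent.P032.Lt.q R0Q179.q3674_2) q_nil))))

theorem p3675 : Pat 73 73 TBm TCm (CB.map Fm) R0Q179.P3675 R0Q179.I3675 := Vale.Agent.P032.Lt.pat_eq (E' := R0Q179.E) eB (pat_step (by decide +kernel) (q_cons (Vale.Agent.P032.Lt.q R0Q179.q3675_0) (q_cons (Vale.Agent.P032.Lt.q R0Q179.q3675_1) q_nil)))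

theorem p3676 : Pat 73 73 TBm TCm (CB.map Fm) R0Q179.P3676 R0Q179.I3676 := Vale.Agent.P032.Lt.pat_eq (E' := R0Q179.E) eB (pat_step (by decide +kernel) (q_cons (Vale.Agent.P032.Lt.q R0Q179.q3676_0) (q_cons (Vale.Agent.P032.Lt.q R0Q179.q3676_1) (q_cons (Vale.Agent.P032.Lt.q R0Q179.q3676_2) q_nil))))

theorem p3677 : Pat 73 73 TBm TCm (CB.map Fm) R0Q179.P3677 R0Q179.I3677 := Vale.Agent.P032.Lt.pat_eq (E' := R0Q179.E) eB (pat_step (by decide +kernel) (q_cons (Vale.Agent.P032.Lt.q R0Q179.q3677_0) (q_cons (Vale.Agent.P032.Lt.q R0Q179.q3677_1) (q_cons (Vale.Agent.P032.Lt.q R0Q179.q3677_2) q_nil))))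

theorem p3678 : Pat 73 73 TBm TCm (CB.map Fm) R0Q179.P3678 R0Q179.I3678 := Vale.Agent.P032.Lt.pat_eq (E' := R0Q179.E) eB (pat_step (by decide +kernel) (q_cons (Vale.Agent.P032.Lt.q R0Q179.q3678_0) (q_cons (Vale.Agent.P032.Lt.q R0Q179.q3678_1) (q_cons (Vale.Agent.P032.Lt.q R0Q179.q3678_2) q_nil))))

theorem p3679 : Pat 73 73 TBm TCm (CB.map Fm) R0Q179.P3679 R0Q179.I3679 := Vale.Agent.P032.Lt.pat_eq (E' := R0Q179.E) eB (pat_step (by decide +kernel) (q_cons (Vale.Agent.P032.Lt.q R0Q179.q3679_0) (q_cons (Vale.Agent.P032.Lt.q R0Q179.q3679_1) (q_cons (Vale.Agent.P032.Lt.q R0Q179.q3679_2) (q_cons (Vale.Agent.P032.Lt.q R0Q179.q3679_3) (q_cons (Vale.Agent.P032.Lt.q R0Q179.q3679_4) (q_cons (Vale.Agent.P032.Lt.q R0Q179.q3679_5) (q_cons (Vale.Agent.P032.Lt.q R0Q179.q3679_6) q_nil))))))))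

def C3680 : List ℕ := [0, 4, 8, 12, 16, 20, 24, 737281]
theorem p3680 : Pat 73 73 TBm TCm (C3680.map Fm) R0Q179.P3680 R0Q179.I3680 := Vale.Agent.P032.Lt.pat_eq (E' := R0Q179.E3680) (by decide +kernel) (pat_step (by decide +kernel) (q_cons (Vale.Agent.P032.Lt.q R0Q179.q3680_0) q_nil))

theorem p3681 : Pat 73 73 TBm TCm (CB.map Fm) R0Q179.P3681 R0Q179.I3681 := Vale.Agent.P032.Lt.pat_eq (E' := R0Q179.E) eB (pat_step (by decide +kernel) (q_cons (Vale.Agent.P032.Lt.q R0Q179.q3681_0) (q_cons (Vale.Agent.P032.Lt.q R0Q179.q3681_1) (q_cons (Vale.Agent.P032.Lt.q R0Q179.q3681_2) (q_cons (Vale.Agent.P032.Lt.q R0Q179.q3681_3) (q_cons (Vale.Agent.P032.Lt.q R0Q179.q3681_4) (q_cons (Vale.Agent.P032.Lt.q R0Q179.q3681_5) q_nil)))))))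

theorem p3682 : Pat 73 73 TBm TCm (CB.map Fm) R0Q179.P3682 R0Q179.I3682 := Vale.Agent.P032.Lt.pat_eq (E' := R0Q179.E) eB (pat_step (by decide +kernel) (q_cons (Vale.Agent.P032.Lt.q R0Q179.q3682_0) (q_cons (Vale.Agent.P032.Lt.q R0Q179.q3682_1) (q_cons (Vale.Agent.P032.Lt.q R0Q179.q3682_2) q_nil))))

theorem p3683 : Pat 73 73 TBm TCm (CB.map Fm) R0Q179.P3683 R0Q179.I3683 := Vale.Agent.P032.Lt.pat_eq (E' := R0Q179.E) eB (pat_step (by decide +kernel) (q_cons (Vale.Agent.P032.Lt.q R0Q179.q3683_0) q_nil))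

theorem p3684 : Pat 73 73 TBm TCm (CB.map Fm) R0Q179.P3684 R0Q179.I3684 := Vale.Agent.P032.Lt.pat_eq (E' := R0Q179.E) eB (pat_step (by decide +kernel) (q_cons (Vale.Agent.P032.Lt.q R0Q179.q3684_0) q_nil))

def C3685 : List ℕ := [0, 4, 8, 12, 16, 20, 24, 82945, 216065, 347137]
theorem p3685 : Pat 73 73 TBm TCm (C3685.map Fm) R0Q179.P3685 R0Q179.I3685 := Vale.Agent.P032.Lt.pat_eq (E' := R0Q179.E3685) (by decide +kernel) (pat_step (by decide +kernel) (q_cons (Vale.Agent.P032.Lt.q R0Q179.q3685_0) q_nil))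

theorem p3686 : Pat 73 73 TBm TCm (CB.map Fm) R0Q179.P3686 R0Q179.I3686 := Vale.Agent.P032.Lt.pat_eq (E' := R0Q179.E) eB (pat_step (by decide +kernel) (q_cons (Vale.Agent.P032.Lt.q R0Q179.q3686_0) q_nil))

theorem p3687 : Pat 73 73 TBm TCm (CB.map Fm) R0Q179.P3687 R0Q179.I3687 := Vale.Agent.P032.Lt.pat_eq (E' := R0Q179.E) eB (pat_step (by decide +kernel) (q_cons (Vale.Agent.P032.Lt.q R0Q179.q3687_0) (q_cons (Vale.Agent.P032.Lt.q R0Q179.q3687_1) q_nil)))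

theorem p3688 : Pat 73 73 TBm TCm (CB.map Fm) R0Q179.P3688 R0Q179.I3688 := Vale.Agent.P032.Lt.pat_eq (E' := R0Q179.E) eB (pat_step (by decide +kernel) (q_cons (Vale.Agent.P032.Lt.q R0Q179.q3688_0) q_nil))

theorem p3689 : Pat 73 73 TBm TCm (CB.map Fm) R0Q179.P3689 R0Q179.I3689 := Vale.Agent.P032.Lt.pat_eq (E' := R0Q179.E) eB (pat_step (by decide +kernel) (q_cons (Vale.Agent.P032.Lt.q R0Q179.q3689_0) q_nil))

def C3690 : List ℕ := [0, 4, 8, 12, 16, 20, 24, 82945, 216065, 475137, 606209, 737281]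
theorem p3690 : Pat 73 73 TBm TCm (C3690.map Fm) R0Q179.P3690 R0Q179.I3690 := Vale.Agent.P032.Lt.pat_eq (E' := R0Q179.E3690) (by decide +kernel) (pat_step (by decide +kernel) (q_cons (Vale.Agent.P032.Lt.q R0Q179.q3690_0) (q_cons (Vale.Agent.P032.Lt.q R0Q179.q3690_1) q_nil)))

theorem p3691 : Pat 73 73 TBm TCm (CB.map Fm) R0Q179.P3691 R0Q179.I3691 := Vale.Agent.P032.Lt.pat_eq (E' := R0Q179.E) eB (pat_step (by decide +kernel) (q_cons (Vale.Agent.P032.Lt.q R0Q179.q3691_0) (q_cons (Vale.Agent.P032.Lt.q R0Q179.q3691_1) (q_cons (Vale.Agent.P032.Lt.q R0Q179.q3691_2) (q_cons (Vale.Agent.P032.Lt.q R0Q179.q3691_3) (q_cons (Vale.Agent.P032.Lt.q R0Q179.q3691_4) (q_cons (Vale.Agent.P032.Lt.q R0Q179.q3691_5) q_nil)))))))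

theorem p3692 : Pat 73 73 TBm TCm (CB.map Fm) R0Q179.P3692 R0Q179.I3692 := Vale.Agent.P032.Lt.pat_eq (E' := R0Q179.E) eB (pat_step (by decide +kernel) (q_cons (Vale.Agent.P032.Lt.q R0Q179.q3692_0) (q_cons (Vale.Agent.P032.Lt.q R0Q179.q3692_1) (q_cons (Vale.Agent.P032.Lt.q R0Q179.q3692_2) (q_cons (Vale.Agent.P032.Lt.q R0Q179.q3692_3) (q_cons (Vale.Agent.P032.Lt.q R0Q179.q3692_4) (q_cons (Vale.Agent.P032.Lt.q R0Q179.q3692_5) (q_cons (Vale.Agent.P032.Lt.q R0Q179.q3692_6) (q_cons (Vale.Agent.P032.Lt.q R0Q179.q3692_7) (q_cons (Vale.Agent.P032.Lt.q R0Q179.q3692_8) q_nil))))))))))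

theorem p3693 : Pat 73 73 TBm TCm (CB.map Fm) R0Q179.P3693 R0Q179.I3693 := Vale.Agent.P032.Lt.pat_eq (E' := R0Q179.E) eB (pat_step (by decide +kernel) (q_cons (Vale.Agent.P032.Lt.q R0Q179.q3693_0) (q_cons (Vale.Agent.P032.Lt.q R0Q179.q3693_1) (q_cons (Vale.Agent.P032.Lt.q R0Q179.q3693_2) (q_cons (Vale.Agent.P032.Lt.q R0Q179.q3693_3) (q_cons (Vale.Agent.P032.Lt.q R0Q179.q3693_4) (q_cons (Vale.Agent.P032.Lt.q R0Q179.q3693_5) (q_cons (Vale.Agent.P032.Lt.q R0Q179.q3693_6) (q_cons (Vale.Agent.P032.Lt.q R0Q179.q3693_7) q_nil)))))))))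

theorem p3694 : Pat 73 73 TBm TCm (CB.map Fm) R0Q180.P3694 R0Q180.I3694 := Vale.Agent.P032.Lt.pat_eq (E' := R0Q180.E) eB (pat_step (by decide +kernel) (q_cons (Vale.Agent.P032.Lt.q R0Q180.q3694_0) q_nil))

theorem p3695 : Pat 73 73 TBm TCm (CB.map Fm) R0Q180.P3695 R0Q180.I3695 := Vale.Agent.P032.Lt.pat_eq (E' := R0Q180.E) eB (pat_step (by decide +kernel) (q_cons (Vale.Agent.P032.Lt.q R0Q180.q3695_0) (q_cons (Vale.Agent.P032.Lt.q R0Q180.q3695_1) (q_cons (Vale.Agent.P032.Lt.q R0Q180.q3695_2) (q_cons (Vale.Agent.P032.Lt.q R0Q180.q3695_3) (q_cons (Vale.Agent.P032.Lt.q R0Q180.q3695_4) (q_cons (Vale.Agent.P032.Lt.q R0Q180.q3695_5) (q_cons (Vale.Agent.P032.Lt.q R0Q180.q3695_6) q_nil))))))))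

theorem p3696 : Pat 73 73 TBm TCm (CB.map Fm) R0Q180.P3696 R0Q180.I3696 := Vale.Agent.P032.Lt.pat_eq (E' := R0Q180.E) eB (pat_step (by decide +kernel) (q_cons (Vale.Agent.P032.Lt.q R0Q180.q3696_0) (q_cons (Vale.Agent.P032.Lt.q R0Q180.q3696_1) (q_cons (Vale.Agent.P032.Lt.q R0Q180.q3696_2) (q_cons (Vale.Agent.P032.Lt.q R0Q180.q3696_3) (q_cons (Vale.Agent.P032.Lt.q R0Q180.q3696_4) (q_cons (Vale.Agent.P032.Lt.q R0Q180.q3696_5) q_nil)))))))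

theorem p3697 : Pat 73 73 TBm TCm (CB.map Fm) R0Q180.P3697 R0Q180.I3697 := Vale.Agent.P032.Lt.pat_eq (E' := R0Q180.E) eB (pat_step (by decide +kernel) (q_cons (Vale.Agent.P032.Lt.q R0Q180.q3697_0) (q_cons (Vale.Agent.P032.Lt.q R0Q180.q3697_1) (q_cons (Vale.Agent.P032.Lt.q R0Q180.q3697_2) (q_cons (Vale.Agent.P032.Lt.q R0Q180.q3697_3) (q_cons (Vale.Agent.P032.Lt.q R0Q180.q3697_4) (q_cons (Vale.Agent.P032.Lt.q R0Q180.q3697_5) (q_cons (Vale.Agent.P032.Lt.q R0Q180.q3697_6) (q_cons (Vale.Agent.P032.Lt.q R0Q180.q3697_7) (q_cons (Vale.Agent.P032.Lt.q R0Q180.q3697_8) (q_cons (Vale.Agent.P032.Lt.q R0Q180.q3697_9) (q_cons (Vale.Agent.P032.Lt.q R0Q180.q3697_10) (q_cons (Vale.Agent.P032.Lt.q R0Q180.q3697_11) (q_cons (Vale.Agent.P032.Lt.q R0Q180.q3697_12) (q_cons (Vale.Agent.P032.Lt.q R0Q180.q3697_13) (q_cons (Vale.Agent.P032.Lt.q R0Q180.q3697_14) (q_cons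 (Vale.Agent.P032.Lt.q R0Q180.q3697_15) q_nil)))))))))))))))))

theorem p3698 : Pat 73 73 TBm TCm (CB.map Fm) R0Q180.P3698 R0Q180.I3698 := Vale.Agent.P032.Lt.pat_eq (E' := R0Q180.E) eB (pat_step (by decide +kernel) (q_cons (Vale.Agent.P032.Lt.q R0Q180.q3698_0) (q_cons (Vale.Agent.P032.Lt.q R0Q180.q3698_1) (q_cons (Vale.Agent.P032.Lt.q R0Q180.q3698_2) (q_cons (Vale.Agent.P032.Lt.q R0Q180.q3698_3) (q_cons (Vale.Agent.P032.Lt.q R0Q180.q3698_4) (q_cons (Vale.Agent.P032.Lt.q R0Q180.q3698_5) (q_cons (Vale.Agent.P032.Lt.q R0Q180.q3698_6) (q_cons (Vale.Agent.P032.Lt.q R0Q180.q3698_7) (q_cons (Vale.Agent.P032.Lt.q R0Q180.q3698_8) (q_cons (Vale.Agent.P032.Lt.q R0Q180.q3698_9) (q_cons (Vale.Agent.P032.Lt.q R0Q180.q3698_10) (q_cons (Vale.Agent.P032.Lt.q R0Q180.q3698_11) (q_cons (Vale.Agent.P032.Lt.q R0Q180.q3698_12) (q_cons (Vale.Agent.P032.Lt.q R0Q180.q3698_13)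 (q_cons (Vale.Agent.P032.Lt.q R0Q180.q3698_14) (q_cons (Vale.Agent.P032.Lt.q R0Q180.q3698_15) (q_cons (Vale.Agent.P032.Lt.q R0Q180.q3698_16) (q_cons (Vale.Agent.P032.Lt.q R0Q180.q3698_17) (q_cons (Vale.Agent.P032.Lt.q R0Q180.q3698_18) q_nil))))))))))))))))))))

theorem p3699 : Pat 73 73 TBm TCm (CB.map Fm) R0Q180.P3699 R0Q180.I3699 := Vale.Agent.P032.Lt.pat_eq (E' := R0Q180.E) eB (pat_step (by decide +kernel) (q_cons (Vale.Agent.P032.Lt.q R0Q180.q3699_0) (q_cons (Vale.Agent.P032.Lt.q R0Q180.q3699_1) (q_cons (Vale.Agent.P032.Lt.q R0Q180.q3699_2) (q_cons (Vale.Agent.P032.Lt.q R0Q180.q3699_3) (q_cons (Vale.Agent.P032.Lt.q R0Q180.q3699_4) (q_cons (Vale.Agent.P032.Lt.q R0Q180.q3699_5) (q_cons (Vale.Agent.P032.Lt.q R0Q180.q3699_6) (q_cons (Vale.Agent.P032.Lt.q R0Q180.q3699_7) (q_cons (Vale.Agent.P032.Lt.q R0Q180.q3699_8) (q_cons (Vale.Agent.P032.Lt.q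 R0Q180.q3699_9) (q_cons (Vale.Agent.P032.Lt.q R0Q180.q3699_10) (q_cons (Vale.Agent.P032.Lt.q R0Q180.q3699_11) (q_cons (Vale.Agent.P032.Lt.q R0Q180.q3699_12) (q_cons (Vale.Agent.P032.Lt.q R0Q180.q3699_13) q_nil)))))))))))))))

theorem p3700 : Pat 73 73 TBm TCm (CB.map Fm) R0Q180.P3700 R0Q180.I3700 := Vale.Agent.P032.Lt.pat_eq (E' := R0Q180.E) eB (pat_step (by decide +kernel) (q_cons (Vale.Agent.P032.Lt.q R0Q180.q3700_0) (q_cons (Vale.Agent.P032.Lt.q R0Q180.q3700_1) (q_cons (Vale.Agent.P032.Lt.q R0Q180.q3700_2) (q_cons (Vale.Agent.P032.Lt.q R0Q180.q3700_3) (q_cons (Vale.Agent.P032.Lt.q R0Q180.q3700_4) (q_cons (Vale.Agent.P032.Lt.q R0Q180.q3700_5) (q_cons (Vale.Agent.P032.Lt.q R0Q180.q3700_6) (q_cons (Vale.Agent.P032.Lt.q R0Q180.q3700_7) (q_cons (Vale.Agent.P032.Lt.q R0Q180.q3700_8) (q_cons (Vale.Agent.P032.Lt.q R0Q180.q3700_9) (q_cons (Vale.Agent.P032.Lt.q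 R0Q180.q3700_10) (q_cons (Vale.Agent.P032.Lt.q R0Q180.q3700_11) (q_cons (Vale.Agent.P032.Lt.q R0Q180.q3700_12) (q_cons (Vale.Agent.P032.Lt.q R0Q180.q3700_13) (q_cons (Vale.Agent.P032.Lt.q R0Q180.q3700_14) q_nil))))))))))))))))

theorem p3701 : Pat 73 73 TBm TCm (CB.map Fm) R0Q180.P3701 R0Q180.I3701 := Vale.Agent.P032.Lt.pat_eq (E' := R0Q180.E) eB (pat_step (by decide +kernel) (q_cons (Vale.Agent.P032.Lt.q R0Q180.q3701_0) (q_cons (Vale.Agent.P032.Lt.q R0Q180.q3701_1) (q_cons (Vale.Agent.P032.Lt.q R0Q180.q3701_2) (q_cons (Vale.Agent.P032.Lt.q R0Q180.q3701_3) (q_cons (Vale.Agent.P032.Lt.q R0Q180.q3701_4) (q_cons (Vale.Agent.P032.Lt.q R0Q180.q3701_5) (q_cons (Vale.Agent.P032.Lt.q R0Q180.q3701_6) (q_cons (Vale.Agent.P032.Lt.q R0Q180.q3701_7) (q_cons (Vale.Agent.P032.Lt.q R0Q180.q3701_8) (q_cons (Vale.Agent.P032.Lt.q R0Q180.q3701_9) (q_cons (Vale.Agent.P032.Lt.q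 R0Q180.q3701_10) (q_cons (Vale.Agent.P032.Lt.q R0Q180.q3701_11) (q_cons (Vale.Agent.P032.Lt.q R0Q180.q3701_12) q_nil))))))))))))))

theorem p3702 : Pat 73 73 TBm TCm (CB.map Fm) R0Q180.P3702 R0Q180.I3702 := Vale.Agent.P032.Lt.pat_eq (E' := R0Q180.E) eB (pat_step (by decide +kernel) (q_cons (Vale.Agent.P032.Lt.q R0Q180.q3702_0) (q_cons (Vale.Agent.P032.Lt.q R0Q180.q3702_1) (q_cons (Vale.Agent.P032.Lt.q R0Q180.q3702_2) (q_cons (Vale.Agent.P032.Lt.q R0Q180.q3702_3) q_nil)))))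

theorem p3703 : Pat 73 73 TBm TCm (CB.map Fm) R0Q180.P3703 R0Q180.I3703 := Vale.Agent.P032.Lt.pat_eq (E' := R0Q180.E) eB (pat_step (by decide +kernel) (q_cons (Vale.Agent.P032.Lt.q R0Q180.q3703_0) (q_cons (Vale.Agent.P032.Lt.q R0Q180.q3703_1) (q_cons (Vale.Agent.P032.Lt.q R0Q180.q3703_2) (q_cons (Vale.Agent.P032.Lt.q R0Q180.q3703_3) (q_cons (Vale.Agent.P032.Lt.q R0Q180.q3703_4) (q_cons (Vale.Agent.P032.Lt.q R0Q180.q3703_5) (q_cons (Vale.Agent.P032.Lt.q R0Q180.q3703_6) (q_cons (Vale.Agent.P032.Lt.q R0Q180.q3703_7) (q_cons (Vale.Agent.P032.Lt.q R0Q180.q3703_8) (q_cons (Vale.Agent.P032.Lt.q R0Q180.q3703_9) (q_cons (Vale.Agent.P032.Lt.q R0Q180.q3703_10) (q_cons (Vale.Agent.P032.Lt.q R0Q180.q3703_11) (q_cons (Vale.Agent.P032.Lt.q R0Q180.q3703_12) (q_cons (Vale.Agent.P032.Lt.q R0Q180.q3703_13) (q_cons (Vale.Agent.P032.Lt.q R0Q180.q3703_14) (q_cons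 (Vale.Agent.P032.Lt.q R0Q180.q3703_15) q_nil)))))))))))))))))

theorem p3704 : Pat 73 73 TBm TCm (CB.map Fm) R0Q180.P3704 R0Q180.I3704 := Vale.Agent.P032.Lt.pat_eq (E' := R0Q180.E) eB (pat_step (by decide +kernel) (q_cons (Vale.Agent.P032.Lt.q R0Q180.q3704_0) (q_cons (Vale.Agent.P032.Lt.q R0Q180.q3704_1) (q_cons (Vale.Agent.P032.Lt.q R0Q180.q3704_2) (q_cons (Vale.Agent.P032.Lt.q R0Q180.q3704_3) (q_cons (Vale.Agent.P032.Lt.q R0Q180.q3704_4) (q_cons (Vale.Agent.P032.Lt.q R0Q180.q3704_5) (q_cons (Vale.Agent.P032.Lt.q R0Q180.q3704_6) (q_cons (Vale.Agent.P032.Lt.q R0Q180.q3704_7) (q_cons (Vale.Agent.P032.Lt.q R0Q180.q3704_8) (q_cons (Vale.Agent.P032.Lt.q R0Q180.q3704_9) q_nil)))))))))))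

theorem p3705 : Pat 73 73 TBm TCm (CB.map Fm) R0Q180.P3705 R0Q180.I3705 := Vale.Agent.P032.Lt.pat_eq (E' := R0Q180.E) eB (pat_step (by decide +kernel) (q_cons (Vale.Agent.P032.Lt.q R0Q180.q3705_0) (q_cons (Vale.Agent.P032.Lt.q R0Q180.q3705_1) (q_cons (Vale.Agent.P032.Lt.q R0Q180.q3705_2) (q_cons (Vale.Agent.P032.Lt.q R0Q180.q3705_3) (q_cons (Vale.Agent.P032.Lt.q R0Q180.q3705_4) (q_cons (Vale.Agent.P032.Lt.q R0Q180.q3705_5) q_nil)))))))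

theorem p3706 : Pat 73 73 TBm TCm (CB.map Fm) R0Q180.P3706 R0Q180.I3706 := Vale.Agent.P032.Lt.pat_eq (E' := R0Q180.E) eB (pat_step (by decide +kernel) (q_cons (Vale.Agent.P032.Lt.q R0Q180.q3706_0) (q_cons (Vale.Agent.P032.Lt.q R0Q180.q3706_1) (q_cons (Vale.Agent.P032.Lt.q R0Q180.q3706_2) q_nil))))

theorem p3707 : Pat 73 73 TBm TCm (CB.map Fm) R0Q180.P3707 R0Q180.I3707 := Vale.Agent.P032.Lt.pat_eq (E' := R0Q180.E) eB (pat_step (by decide +kernel) (q_cons (Vale.Agent.P032.Lt.q R0Q180.q3707_0) (q_cons (Vale.Agent.P032.Lt.q R0Q180.q3707_1) (q_cons (Vale.Agent.P032.Lt.q R0Q180.q3707_2) q_nil))))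

theorem p3708 : Pat 73 73 TBm TCm (CB.map Fm) R0Q180.P3708 R0Q180.I3708 := Vale.Agent.P032.Lt.pat_eq (E' := R0Q180.E) eB (pat_step (by decide +kernel) (q_cons (Vale.Agent.P032.Lt.q R0Q180.q3708_0) (q_cons (Vale.Agent.P032.Lt.q R0Q180.q3708_1) (q_cons (Vale.Agent.P032.Lt.q R0Q180.q3708_2) (q_cons (Vale.Agent.P032.Lt.q R0Q180.q3708_3) q_nil)))))

theorem p3709 : Pat 73 73 TBm TCm (CB.map Fm) R0Q180.P3709 R0Q180.I3709 := Vale.Agent.P032.Lt.pat_eq (E' := R0Q180.E) eB (pat_step (by decide +kernel) (q_cons (Vale.Agent.P032.Lt.q R0Q180.q3709_0) (q_cons (Vale.Agent.P032.Lt.q R0Q180.q3709_1) (q_cons (Vale.Agent.P032.Lt.q R0Q180.q3709_2) q_nil))))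

theorem p3710 : Pat 73 73 TBm TCm (CB.map Fm) R0Q181.P3710 R0Q181.I3710 := Vale.Agent.P032.Lt.pat_eq (E' := R0Q181.E) eB (pat_step (by decide +kernel) (q_cons (Vale.Agent.P032.Lt.q R0Q181.q3710_0) (q_cons (Vale.Agent.P032.Lt.q R0Q181.q3710_1) (q_cons (Vale.Agent.P032.Lt.q R0Q181.q3710_2) (q_cons (Vale.Agent.P032.Lt.q R0Q181.q3710_3) (q_cons (Vale.Agent.P032.Lt.q R0Q181.q3710_4) q_nil))))))

theorem p3711 : Pat 73 73 TBm TCm (CB.map Fm) R0Q181.P3711 R0Q181.I3711 := Vale.Agent.P032.Lt.pat_eq (E' := R0Q181.E) eB (pat_step (by decide +kernel) (q_cons (Vale.Agent.P032.Lt.q R0Q181.q3711_0) (q_cons (Vale.Agent.P032.Lt.q R0Q181.q3711_1) (q_cons (Vale.Agent.P032.Lt.q R0Q181.q3711_2) (q_cons (Vale.Agent.P032.Lt.q R0Q181.q3711_3) q_nil)))))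

def L : List (List ℕ) := [R0Q174.P3584, R0Q174.P3585, R0Q174.P3586, R0Q174.P3587, R0Q174.P3588, R0Q174.P3589, R0Q174.P3590, R0Q174.P3591, R0Q174.P3592, R0Q174.P3593, R0Q174.P3594, R0Q174.P3595, R0Q174.P3596, R0Q174.P3597, R0Q174.P3598, R0Q174.P3599, R0Q174.P3600, R0Q174.P3601, R0Q174.P3602, R0Q174.P3603, R0Q174.P3604, R0Q174.P3605, R0Q174.P3606, R0Q174.P3607, R0Q174.P3608, R0Q174.P3609, R0Q174.P3610, R0Q175.P3611, R0Q175.P3612, R0Q175.P3613, R0Q175.P3614, R0Q175.P3615, R0Q175.P3616, R0Q175.P3617, R0Q175.P3618, R0Q175.P3619, R0Q175.P3620, R0Q175.P3621, R0Q175.P3622, R0Q175.P3623, R0Q175.P3624, R0Q175.P3625, R0Q175.P3626, R0Q175.P3627, R0Q175.P3628, R0Q175.P3629, R0Q175.P3630, R0Q176.P3631, R0Q176.P3632, R0Q176.P3633, R0Q176.P3634, R0Q176.P3635, R0Q176.P3636, R0Q176.P3637, R0Q176.P3638, R0Q177.P3639, R0Q177.P3640, R0Q177.P3641, R0Q177.P3642,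 R0Q177.P3643, R0Q177.P3644, R0Q177.P3645, R0Q178.P3646, R0Q178.P3647, R0Q178.P3648, R0Q178.P3649, R0Q178.P3650, R0Q178.P3651, R0Q178.P3652, R0Q178.P3653, R0Q178.P3654, R0Q178.P3655, R0Q178.P3656, R0Q178.P3657, R0Q178.P3658, R0Q178.P3659, R0Q178.P3660, R0Q178.P3661, R0Q178.P3662, R0Q178.P3663, R0Q178.P3664, R0Q178.P3665, R0Q178.P3666, R0Q178.P3667, R0Q179.P3668, R0Q179.P3669, R0Q179.P3670, R0Q179.P3671, R0Q179.P3672, R0Q179.P3673, R0Q179.P3674, R0Q179.P3675, R0Q179.P3676, R0Q179.P3677, R0Q179.P3678, R0Q179.P3679, R0Q179.P3680, R0Q179.P3681, R0Q179.P3682, R0Q179.P3683, R0Q179.P3684, R0Q179.P3685, R0Q179.P3686, R0Q179.P3687, R0Q179.P3688, R0Q179.P3689, R0Q179.P3690, R0Q179.P3691, R0Q179.P3692, R0Q179.P3693, R0Q180.P3694, R0Q180.P3695, R0Q180.P3696, R0Q180.P3697, R0Q180.P3698, R0Q180.P3699, R0Q180.P3700, R0Q180.P3701, R0Q180.P3702, R0Q180.P3703,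 R0Q180.P3704, R0Q180.P3705, R0Q180.P3706, R0Q180.P3707, R0Q180.P3708, R0Q180.P3709, R0Q181.P3710, R0Q181.P3711]

theorem all : ∀ P ∈ L, CrtF 73 73 TBm TCm (Vale.Agent.P032.Fam.fam2 (Vale.Agent.P032.Fam.im0)) P := crtF_cons p3584 (crtF_cons p3585 (crtF_cons p3586 (crtF_cons p3587 (crtF_cons p3588 (crtF_cons p3589 (crtF_cons p3590 (crtF_cons p3591 (crtF_cons p3592 (crtF_cons p3593 (crtF_cons p3594 (crtF_cons p3595 (crtF_cons p3596 (crtF_cons p3597 (crtF_cons p3598 (crtF_cons p3599 (crtF_cons p3600 (crtF_cons p3601 (crtF_cons p3602 (crtF_cons p3603 (crtF_cons p3604 (crtF_cons p3605 (crtF_cons p3606 (crtF_cons p3607 (crtF_cons p3608 (crtF_cons p3609 (crtF_cons p3610 (crtF_cons p3611 (crtF_cons p3612 (crtF_cons p3613 (crtF_cons p3614 (crtF_cons p3615 (crtF_cons p3616 (crtF_cons p3617 (crtF_cons p3618 (crtF_cons p3619 (crtF_cons p3620 (crtF_cons p3621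 (crtF_cons p3622 (crtF_cons p3623 (crtF_cons p3624 (crtF_cons p3625 (crtF_cons p3626 (crtF_cons p3627 (crtF_cons p3628 (crtF_cons p3629 (crtF_cons p3630 (crtF_cons p3631 (crtF_cons p3632 (crtF_cons p3633 (crtF_cons p3634 (crtF_cons p3635 (crtF_cons p3636 (crtF_cons p3637 (crtF_cons p3638 (crtF_cons p3639 (crtF_cons p3640 (crtF_cons p3641 (crtF_cons p3642 (crtF_cons p3643 (crtF_cons p3644 (crtF_cons p3645 (crtF_cons p3646 (crtF_cons p3647 (crtF_cons p3648 (crtF_cons p3649 (crtF_cons p3650 (crtF_cons p3651 (crtF_cons p3652 (crtF_cons p3653 (crtF_cons p3654 (crtF_cons p3655 (crtF_cons p3656 (crtF_cons p3657 (crtF_cons p3658 (crtF_cons p3659 (crtF_cons p3660 (crtF_cons p3661 (crtF_cons p3662 (crtF_cons p3663 (crtF_cons p3664 (crtF_cons p3665 (crtF_cons p3666 (crtF_cons p3667 (crtF_cons p3668 (crtF_cons p3669 (crtF_cons p3670 (crtF_cons p3671 (crtF_cons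 p3672 (crtF_cons p3673 (crtF_cons p3674 (crtF_cons p3675 (crtF_cons p3676 (crtF_cons p3677 (crtF_cons p3678 (crtF_cons p3679 (crtF_cons p3680 (crtF_cons p3681 (crtF_cons p3682 (crtF_cons p3683 (crtF_cons p3684 (crtF_cons p3685 (crtF_cons p3686 (crtF_cons p3687 (crtF_cons p3688 (crtF_cons p3689 (crtF_cons p3690 (crtF_cons p3691 (crtF_cons p3692 (crtF_cons p3693 (crtF_cons p3694 (crtF_cons p3695 (crtF_cons p3696 (crtF_cons p3697 (crtF_cons p3698 (crtF_cons p3699 (crtF_cons p3700 (crtF_cons p3701 (crtF_cons p3702 (crtF_cons p3703 (crtF_cons p3704 (crtF_cons p3705 (crtF_cons p3706 (crtF_cons p3707 (crtF_cons p3708 (crtF_cons p3709 (crtF_cons p3710 (crtF_cons p3711 crtF_nil)))))))))))))))))))))))))))))))))))))))))))))))))))))))))))))))))))))))))))))))))))))))))))))))))))))))))))))))))))))))))))))))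

theorem ch : chT 73 73 TCm s0_028 L = true := by decide +kernel

end Vale.Agent.P032X.Cert.XP.B1.R0H028
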